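import Vale.Agent.P239.MathlibUsed

set_option linter.all false

section

/-! Abstract finite trace data on a star ring, Hilbert-Schmidt quadratic form on matrices,
left supports and the rank identity. -/

namespace Vale.Agent.P239

open scoped Matrix
open Matrix

universe u

/-- Abstract data of a faithful finite trace on a star ring, together with the existence of
closure projections for submodules of finite free modules. -/
structure TraceData (N : Type u) [Ring N] [StarRing N] [Algebra ℝ N] [StarModule ℝ N] where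
  t : N →ₗ[ℝ] ℝ
  comm : ∀ x y, t (x * y) = t (y * x)
  star_t : ∀ x, t (star x) = t x
  nonneg : ∀ x, 0 ≤ t (star x * x)
  faithful : ∀ x, t (star x * x) = 0 → x = 0
  one : t 1 = 1
  bdd : ∀ y, ∃ C : ℝ, 0 ≤ C ∧ ∀ x, t (star (y * x) * (y * x)) ≤ C * t (star x * x)
  proj : ∀ (ι : Type) [Fintype ι] [DecidableEq ι] (K : Submodule N (ι → N)),
    ∃ Q : Matrix ι ι N, Q * Q = Q ∧ Qᴴ = Q ∧ (∀ k ∈ K, k ᵥ* Q = k) ∧
      ∀ ε : ℝ, 0 < ε → ∀ i, ∃ k ∈ K, ∑ j, t (star (k j - Q i j) * (k j - Q i j)) < ε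

set_option linter.unusedSectionVars false

namespace TraceData

variable {N : Type u} [Ring N] [StarRing N] [Algebra ℝ N] [StarModule ℝ N] (D : TraceData N)

section matrix

variable {m n l : Type} [Fintype m] [Fintype n] [Fintype l]

/-- trace of a square matrix -/
def Tr (A : Matrix m m N) : ℝ := ∑ i, D.t (A i i)

/-- squared Hilbert-Schmidt norm -/
def hs (A : Matrix m n N) : ℝ := ∑ i, ∑ j, D.t (star (A i j) * A i j)

lemma Tr_add (A B : Matrix m m N) : D.Tr (A + B) = D.Tr A + D.Tr B := by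
  simp only [Tr, Matrix.add_apply, map_add, Finset.sum_add_distrib]

lemma Tr_sub (A B : Matrix m m N) : D.Tr (A - B) = D.Tr A - D.Tr B := by
  simp only [Tr, Matrix.sub_apply, map_sub, Finset.sum_sub_distrib]

lemma Tr_zero : D.Tr (0 : Matrix m m N) = 0 := by simp only [Tr, Matrix.zero_apply, map_zero, Finset.sum_const_zero]

lemma Tr_smul (c : ℝ) (A : Matrix m m N) : D.Tr (c • A) = c * D.Tr A := by
  simp only [Tr, Matrix.smul_apply, map_smul, smul_eq_mul, Finset.mul_sum]

lemma Tr_comm (A : Matrix m n N) (B : Matrix n m N) : D.Tr (A * B) = D.Tr (B * A) := by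
  simp only [Tr, Matrix.mul_apply, map_sum]
  rw [Finset.sum_comm]
  exact Finset.sum_congr rfl fun i _ => Finset.sum_congr rfl fun j _ => D.comm _ _

lemma Tr_conjTranspose (A : Matrix m m N) : D.Tr Aᴴ = D.Tr A := by
  simp only [Tr, conjTranspose_apply, D.star_t]

lemma hs_eq (A : Matrix m n N) : D.hs A = D.Tr (Aᴴ * A) := by
  simp only [hs, Tr, Matrix.mul_apply, map_sum, Matrix.conjTranspose_apply]
  rw [Finset.sum_comm]

lemma hs_eq' (A : Matrix m n N) : D.hs A = D.Tr (A * Aᴴ) := by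
  rw [hs_eq, Tr_comm]

lemma hs_conjTranspose (A : Matrix m n N) : D.hs Aᴴ = D.hs A := by
  rw [hs_eq, hs_eq', Matrix.conjTranspose_conjTranspose]

lemma hs_nonneg (A : Matrix m n N) : 0 ≤ D.hs A :=
  Finset.sum_nonneg fun _ _ => Finset.sum_nonneg fun _ _ => D.nonneg _

lemma eq_zero_of_hs {A : Matrix m n N} (h : D.hs A = 0) : A = 0 := by
  ext i j
  have h1 := (Finset.sum_eq_zero_iff_of_nonneg
    (fun i _ => Finset.sum_nonneg fun j _ => D.nonneg (A i j))).1 h i (Finset.mem_univ i)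
  have h2 := (Finset.sum_eq_zero_iff_of_nonneg
    (fun j _ => D.nonneg (A i j))).1 h1 j (Finset.mem_univ j)
  exact D.faithful _ h2

lemma hs_smul (c : ℝ) (A : Matrix m n N) : D.hs (c • A) = c ^ 2 * D.hs A := by
  simp only [hs, Matrix.smul_apply, star_smul, star_trivial, smul_mul_smul_comm, map_smul,
    smul_eq_mul, Finset.mul_sum, pow_two]

lemma hs_neg (A : Matrix m n N) : D.hs (-A) = D.hs A := by
  simp only [hs, Matrix.neg_apply, star_neg, mul_neg, neg_mul, neg_neg]

lemma hs_add_expand (A B : Matrix m n N) :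
    D.hs (A + B) = D.hs A + D.hs B + 2 * D.Tr (Aᴴ * B) := by
  have h : D.Tr (Bᴴ * A) = D.Tr (Aᴴ * B) := by
    rw [← D.Tr_conjTranspose (Bᴴ * A)]; simp
  rw [hs_eq, Matrix.conjTranspose_add, Matrix.add_mul, Matrix.mul_add, Matrix.mul_add,
    Tr_add, Tr_add, Tr_add, hs_eq, hs_eq, h]
  ring

lemma hs_sub_expand (A B : Matrix m n N) :
    D.hs (A - B) = D.hs A + D.hs B - 2 * D.Tr (Aᴴ * B) := by
  have := D.hs_add_expand A (-B)
  rw [← sub_eq_add_neg, hs_neg] at this
  rw [this]
  have h2 : D.Tr (Aᴴ * -B) = - D.Tr (Aᴴ * B) := by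
    rw [Matrix.mul_neg, ← zero_sub, Tr_sub, Tr_zero, zero_sub]
  rw [h2]; ring

lemma hs_add_le (A B : Matrix m n N) : D.hs (A + B) ≤ 2 * D.hs A + 2 * D.hs B := by
  have h1 := D.hs_add_expand A B
  have h2 := D.hs_sub_expand A B
  have h3 := D.hs_nonneg (A - B)
  linarith

/-- projection matrices -/
def IsProj (A : Matrix m m N) : Prop := A * A = A ∧ Aᴴ = A

lemma IsProj.one_sub [DecidableEq m] {A : Matrix m m N} (h : IsProj A) : IsProj (1 - A) := by
  refine ⟨?_, ?_⟩
  · rw [sub_mul, mul_sub, mul_sub, h.1]; simp only [mul_one, one_mul, sub_self, sub_zero]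
  · rw [Matrix.conjTranspose_sub, h.2]; simp

lemma Tr_proj {A : Matrix m m N} (h : IsProj A) : D.Tr A = D.hs A := by
  rw [hs_eq, h.2, h.1]

lemma Tr_proj_nonneg {A : Matrix m m N} (h : IsProj A) : 0 ≤ D.Tr A := by
  rw [D.Tr_proj h]; exact D.hs_nonneg _

/-- for projections `A, B` with `A B = B`, the trace of `B` is at most that of `A`. -/
lemma IsProj.sub {A B : Matrix m m N} (hA : IsProj A) (hB : IsProj B) (h : A * B = B) :
    IsProj (A - B) := by
  have h' : B * A = B := by
    have := congrArg Matrix.conjTranspose h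
    rwa [Matrix.conjTranspose_mul, hA.2, hB.2] at this
  refine ⟨?_, ?_⟩
  · rw [sub_mul, mul_sub, mul_sub, hA.1, hB.1, h, h']; simp
  · rw [Matrix.conjTranspose_sub, hA.2, hB.2]

lemma Tr_le_of_mul {A B : Matrix m m N} (hA : IsProj A) (hB : IsProj B) (h : A * B = B) :
    D.Tr B ≤ D.Tr A := by
  have := D.Tr_proj_nonneg (hA.sub hB h)
  rw [Tr_sub] at this
  linarith

/-- left multiplication by a projection decreases `hs`. -/
lemma hs_proj_mul_le {A : Matrix m m N} (hA : IsProj A) (X : Matrix m n N) :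
    D.hs (A * X) ≤ D.hs X := by
  classical
  have h := D.hs_nonneg ((1 - A) * X)
  have e1 : D.hs (A * X) = D.Tr (Xᴴ * A * X) := by
    rw [hs_eq, Matrix.conjTranspose_mul, hA.2]
    rw [show Xᴴ * A * (A * X) = Xᴴ * (A * A) * X by simp only [Matrix.mul_assoc], hA.1]
  have hA' := hA.one_sub
  have e2 : D.hs ((1 - A) * X) = D.Tr (Xᴴ * (1 - A) * X) := by
    rw [hs_eq, Matrix.conjTranspose_mul, hA'.2]
    rw [show Xᴴ * (1 - A) * ((1 - A) * X) = Xᴴ * ((1 - A) * (1 - A)) * X by
      simp only [Matrix.mul_assoc], hA'.1]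
  rw [e2, Matrix.mul_sub, Matrix.mul_one, Matrix.sub_mul, Tr_sub, ← hs_eq, ← e1] at h
  (clear hA e1 hA' e2; linarith)

lemma exists_bound_row (s : Finset m) (y : m → N) :
    ∃ C : ℝ, 0 ≤ C ∧ ∀ x : m → N,
      D.t (star (∑ j ∈ s, y j * x j) * (∑ j ∈ s, y j * x j)) ≤
        C * ∑ j ∈ s, D.t (star (x j) * x j) := by
  classical
  induction s using Finset.induction_on with
  | empty => exact ⟨0, le_rfl, fun x => by simp only [Finset.sum_empty, star_zero, mul_zero, map_zero, Std.le_refl]⟩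
  | insert a s ha ih =>
    obtain ⟨C, hC, h⟩ := ih
    obtain ⟨C', hC', h'⟩ := D.bdd (y a)
    refine ⟨2 * C + 2 * C', by (clear * - hC hC'; positivity), fun x => ?_⟩
    rw [Finset.sum_insert ha, Finset.sum_insert ha]
    have e : ∀ p q : N, D.t (star (p + q) * (p + q)) ≤
        2 * D.t (star p * p) + 2 * D.t (star q * q) := by
      intro p q
      have := D.nonneg (p - q)
      simp only [star_sub, sub_mul, mul_sub, map_sub, star_add, add_mul, mul_add, map_add] at *
      linarith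
    refine (e _ _).trans ?_
    have h1 := h x
    have h2 := h' (x a)
    have h3 : 0 ≤ D.t (star (x a) * x a) := D.nonneg _
    have h4 : 0 ≤ ∑ j ∈ s, D.t (star (x j) * x j) := Finset.sum_nonneg fun _ _ => D.nonneg _
    linarith only [mul_nonneg hC' h4, mul_nonneg hC h3, h2, h1]

/-- left multiplication by a fixed matrix is bounded for the Hilbert-Schmidt norm -/
lemma exists_bound_mul (y : Matrix m n N) :
    ∃ C : ℝ, 0 < C ∧ ∀ (l : Type) [Fintype l] (x : Matrix n l N), D.hs (y * x) ≤ C * D.hs x := by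
  classical
  choose C hC h using fun i => D.exists_bound_row (Finset.univ : Finset n) (y i)
  refine ⟨∑ i, C i + 1, by have := Finset.sum_nonneg fun i (_ : i ∈ Finset.univ) => hC i; linarith,
    fun l _ x => ?_⟩
  have h1 : D.hs (y * x) ≤ ∑ i, C i * D.hs x := by
    unfold hs
    refine Finset.sum_le_sum fun i _ => ?_
    have : ∀ j, D.t (star ((y * x) i j) * (y * x) i j) ≤
        C i * ∑ k, D.t (star (x k j) * x k j) := fun j => by
      simpa only [Matrix.mul_apply, star_sum, star_mul] using h i (fun k => x k j)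
    refine (Finset.sum_le_sum fun j _ => this j).trans ?_
    rw [← Finset.mul_sum, Finset.sum_comm]
  refine h1.trans ?_
  rw [← Finset.sum_mul]
  have := D.hs_nonneg x
  (clear y hC h h1; linarith only [this])

/-- If `X` is a Hilbert-Schmidt limit of matrices annihilated by left multiplication by `y`,
then so is `X`. -/
lemma mul_eq_zero_of_approx (y : Matrix l m N) (X : Matrix m n N)
    (h : ∀ ε : ℝ, 0 < ε → ∃ Z : Matrix m n N, y * Z = 0 ∧ D.hs (X - Z) < ε) : y * X = 0 := by
  obtain ⟨C, hC, hb⟩ := D.exists_bound_mul y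
  apply D.eq_zero_of_hs
  by_contra hne
  have hpos : 0 < D.hs (y * X) := lt_of_le_of_ne (D.hs_nonneg _) (Ne.symm hne)
  obtain ⟨Z, hZ, hlt⟩ := h (D.hs (y * X) / C) (by (clear h hb; positivity))
  have h1 : y * X = y * (X - Z) := by rw [Matrix.mul_sub, hZ, sub_zero]
  have h2 := hb n (X - Z)
  rw [← h1] at h2
  have h3 : C * D.hs (X - Z) < C * (D.hs (y * X) / C) := by (clear h hb hne hpos hZ h1 h2; gcongr)
  rw [mul_div_cancel₀ _ hC.ne'] at h3
  (clear h hC hb hne hpos hZ hlt h1; linarith)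

end matrix

section support

variable {m n l : Type} [Fintype m] [Fintype n] [Fintype l]

/-- Left support of a rectangular matrix. -/
lemma exists_lsupp [DecidableEq m] (B : Matrix m n N) :
    ∃ S : Matrix m m N, IsProj S ∧ S * B = B ∧
      ∀ ε : ℝ, 0 < ε → ∃ X : Matrix m m N, D.hs (S - B * Bᴴ * X) < ε := by
  obtain ⟨Q, hQ1, hQ2, hK, happ⟩ :=
    D.proj m (LinearMap.range (Matrix.vecMulLinear (B * Bᴴ)))
  have hQ : IsProj Q := ⟨hQ1, hQ2⟩
  have hBB : B * Bᴴ * Q = B * Bᴴ := by
    have : ∀ i, (B * Bᴴ) i ᵥ* Q = (B * Bᴴ) i := fun i => hK _ ⟨Pi.single i 1, by simp only [LinearMap.flip_apply, vecMulBilin_apply, single_vecMul, one_smul]; rfl⟩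
    ext i j
    have := congrFun (this i) j
    simpa only [Matrix.mul_apply, conjTranspose_apply, vecMul, dotProduct] using this
  have hQB : Q * B = B := by
    have h0 : (1 - Q) * B = 0 := by
      apply D.eq_zero_of_hs
      rw [hs_eq', Matrix.conjTranspose_mul, hQ.one_sub.2]
      rw [show (1 - Q) * B * (Bᴴ * (1 - Q)) = (1 - Q) * (B * Bᴴ * (1 - Q)) by
        simp only [Matrix.mul_assoc]]
      rw [Matrix.mul_sub (B * Bᴴ), hBB, Matrix.mul_one, sub_self, Matrix.mul_zero, Tr_zero]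
    rw [Matrix.sub_mul, Matrix.one_mul, sub_eq_zero] at h0
    exact h0.symm
  refine ⟨Q, hQ, hQB, fun ε hε => ?_⟩
  have hcard : (0 : ℝ) < Fintype.card m + 1 := by (clear * -; positivity)
  choose k hk hlt using fun i => happ (ε / (Fintype.card m + 1)) (by positivity) i
  choose d hd using hk
  refine ⟨(Matrix.of d)ᴴ, ?_⟩
  have e1 : (Matrix.of d * (B * Bᴴ)) = Matrix.of k := by
    ext i j
    have := congrFun (hd i) j
    simpa only [Matrix.mul_apply, of_apply, conjTranspose_apply, LinearMap.flip_apply, vecMulBilin_apply, vecMul,     dotProduct] using this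
  have e2 : Q - B * Bᴴ * (Matrix.of d)ᴴ = (Q - Matrix.of k)ᴴ := by
    rw [Matrix.conjTranspose_sub, hQ2, ← e1]; simp
  rw [e2, hs_conjTranspose, ← hs_neg, neg_sub]
  have : D.hs (Matrix.of k - Q) ≤ ∑ _i : m, ε / (Fintype.card m + 1) := by
    unfold hs
    exact Finset.sum_le_sum fun i _ => (hlt i).le
  refine this.trans_lt ?_
  rw [Finset.sum_const, Finset.card_univ, nsmul_eq_mul, mul_div_assoc']
  rw [div_lt_iff₀ hcard]
  linarith

lemma lsupp_mul {m n l : Type} [Fintype m] [Fintype n] [Fintype l]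
    {B : Matrix m n N} {S : Matrix m m N}
    (h : ∀ ε : ℝ, 0 < ε → ∃ X : Matrix m m N, D.hs (S - B * Bᴴ * X) < ε)
    {y : Matrix l m N} (hy : y * B = 0) : y * S = 0 := by
  refine D.mul_eq_zero_of_approx y S fun ε hε => ?_
  obtain ⟨X, hX⟩ := h ε hε
  exact ⟨B * Bᴴ * X, by rw [← Matrix.mul_assoc, ← Matrix.mul_assoc, hy]; simp only [Matrix.zero_mul], hX⟩

/-- Core estimate: the contraction `E = 1 - c⁻¹ B Bᴴ`. -/
lemma core_estimate [DecidableEq m] (B : Matrix m n N) {c : ℝ} (hc : 0 < c)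
    (hB : ∀ (l : Type) [Fintype l] (x : Matrix n l N), D.hs (B * x) ≤ c * D.hs x)
    (W : Matrix m l N) :
    D.hs ((1 - c⁻¹ • (B * Bᴴ)) * W) + c⁻¹ * D.hs (Bᴴ * W) ≤ D.hs W := by
  have e1 : (1 - c⁻¹ • (B * Bᴴ)) * W = W - c⁻¹ • (B * (Bᴴ * W)) := by
    rw [Matrix.sub_mul, Matrix.one_mul, Matrix.smul_mul, Matrix.mul_assoc]
  have e2 : D.Tr (Wᴴ * (c⁻¹ • (B * (Bᴴ * W)))) = c⁻¹ * D.hs (Bᴴ * W) := by
    rw [Matrix.mul_smul, Tr_smul, hs_eq]
    congr 2
    simp [Matrix.mul_assoc]
  rw [e1, hs_sub_expand, e2, hs_smul]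
  have h1 := hB l (Bᴴ * W)
  have h2 : (c⁻¹) ^ 2 * D.hs (B * (Bᴴ * W)) ≤ c⁻¹ * D.hs (Bᴴ * W) := by
    calc (c⁻¹) ^ 2 * D.hs (B * (Bᴴ * W)) ≤ (c⁻¹) ^ 2 * (c * D.hs (Bᴴ * W)) := by gcongr
      _ = c⁻¹ * D.hs (Bᴴ * W) := by field_simp
  (clear e1 e2; linarith)

lemma iter_tendsto [DecidableEq m] (B : Matrix m n N) {c : ℝ} (hc : 0 < c)
    (hB : ∀ (l : Type) [Fintype l] (x : Matrix n l N), D.hs (B * x) ≤ c * D.hs x)
    (W : Matrix m l N) :
    Filter.Tendsto (fun j : ℕ => D.hs (Bᴴ * ((1 - c⁻¹ • (B * Bᴴ)) ^ j * W)))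
      Filter.atTop (nhds 0) := by
  set E := 1 - c⁻¹ • (B * Bᴴ) with hE
  have hstep : ∀ j : ℕ, D.hs (E ^ (j + 1) * W) + c⁻¹ * D.hs (Bᴴ * (E ^ j * W)) ≤
      D.hs (E ^ j * W) := fun j => by
    rw [pow_succ', Matrix.mul_assoc]
    exact D.core_estimate B hc hB _
  have hsum : ∀ k : ℕ, D.hs (E ^ k * W) +
      ∑ j ∈ Finset.range k, c⁻¹ * D.hs (Bᴴ * (E ^ j * W)) ≤ D.hs W := by
    intro k
    induction k with
    | zero => simp only [pow_zero, Matrix.one_mul, Finset.range_zero, Finset.sum_empty, add_zero, Std.le_refl]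
    | succ k ih =>
      rw [Finset.sum_range_succ]
      have := hstep k
      linarith only [this, ih]
  have hsm : Summable fun j : ℕ => c⁻¹ * D.hs (Bᴴ * (E ^ j * W)) := by
    refine summable_of_sum_range_le (c := D.hs W) (fun j => ?_) fun k => ?_
    · exact mul_nonneg (inv_nonneg.2 hc.le) (D.hs_nonneg _)
    · have := hsum k
      have := D.hs_nonneg (E ^ k * W)
      linarith
  have h2 := hsm.tendsto_atTop_zero.const_mul c
  simpa only [mul_inv_cancel_left₀ hc.ne', mul_zero] using h2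

lemma hs_pow_le [DecidableEq m] (B : Matrix m n N) {c : ℝ} (hc : 0 < c)
    (hB : ∀ (l : Type) [Fintype l] (x : Matrix n l N), D.hs (B * x) ≤ c * D.hs x)
    (W : Matrix m l N) (j : ℕ) :
    D.hs ((1 - c⁻¹ • (B * Bᴴ)) ^ j * W) ≤ D.hs W := by
  induction j with
  | zero => simp
  | succ j ih =>
    rw [pow_succ', Matrix.mul_assoc]
    have := D.core_estimate B hc hB ((1 - c⁻¹ • (B * Bᴴ)) ^ j * W)
    have h2 := D.hs_nonneg (Bᴴ * ((1 - c⁻¹ • (B * Bᴴ)) ^ j * W))
    have h3 : 0 ≤ c⁻¹ * D.hs (Bᴴ * ((1 - c⁻¹ • (B * Bᴴ)) ^ j * W)) := by (clear hB ih this; positivity)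
    linarith only [h3, this, ih]

lemma tr_limit [DecidableEq m] (B : Matrix m n N) {c : ℝ} (hc : 0 < c)
    (hB : ∀ (l : Type) [Fintype l] (x : Matrix n l N), D.hs (B * x) ≤ c * D.hs x)
    {S : Matrix m m N} (hS : IsProj S) (hSB : S * B = B)
    (happ : ∀ ε : ℝ, 0 < ε → ∃ X : Matrix m m N, D.hs (S - B * Bᴴ * X) < ε) :
    Filter.Tendsto (fun j : ℕ => D.Tr (1 - (1 - c⁻¹ • (B * Bᴴ)) ^ (2 * j)))
      Filter.atTop (nhds (D.Tr S)) := by
  set E := 1 - c⁻¹ • (B * Bᴴ) with hE
  have hEH : Eᴴ = E := by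
    rw [hE]; simp
  have hBS : Bᴴ * S = Bᴴ := by
    have := congrArg Matrix.conjTranspose hSB
    rwa [Matrix.conjTranspose_mul, hS.2] at this
  -- `E (1 - S) = 1 - S`
  have hES : E * (1 - S) = 1 - S := by
    rw [hE, Matrix.sub_mul, Matrix.one_mul, Matrix.smul_mul, Matrix.mul_assoc,
      Matrix.mul_sub Bᴴ, hBS]
    simp
  have hESj : ∀ j : ℕ, E ^ j * (1 - S) = 1 - S := by
    intro j
    induction j with
    | zero => simp
    | succ j ih => rw [pow_succ', Matrix.mul_assoc, ih, hES]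
  -- `hs (E^j S) → 0`
  have hcomm : ∀ j : ℕ, E ^ j * (B * Bᴴ) = B * Bᴴ * E ^ j := by
    intro j
    have : Commute E (B * Bᴴ) := by
      rw [hE]
      exact (Commute.one_left _).sub_left ((Commute.refl _).smul_left _)
    exact (this.pow_left j).eq
  have hlim : Filter.Tendsto (fun j : ℕ => D.hs (E ^ j * S)) Filter.atTop (nhds 0) := by
    rw [Metric.tendsto_atTop]
    intro ε hε
    obtain ⟨X, hX⟩ := happ (ε / 4) (by (clear * - hε; positivity))
    have h1 := D.iter_tendsto B hc hB X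
    rw [← hE] at h1
    have h1' := h1.const_mul c
    rw [mul_zero, Metric.tendsto_atTop] at h1'
    obtain ⟨j0, hj0⟩ := h1' (ε / 4) (by positivity)
    refine ⟨j0, fun j hj => ?_⟩
    have h2 := hj0 j hj
    rw [Real.dist_eq, sub_zero, abs_of_nonneg (mul_nonneg hc.le (D.hs_nonneg _))] at h2
    rw [Real.dist_eq, sub_zero, abs_of_nonneg (D.hs_nonneg _)]
    have e : E ^ j * S = E ^ j * (S - B * Bᴴ * X) + B * (Bᴴ * (E ^ j * X)) := by
      have e1 : E ^ j * (B * Bᴴ * X) = B * (Bᴴ * (E ^ j * X)) := by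
        rw [← Matrix.mul_assoc, hcomm]; simp only [Matrix.mul_assoc]
      rw [Matrix.mul_sub, e1]; abel
    have h3 := D.hs_add_le (E ^ j * (S - B * Bᴴ * X)) (B * (Bᴴ * (E ^ j * X)))
    rw [← e] at h3
    have h4 : D.hs (E ^ j * (S - B * Bᴴ * X)) ≤ D.hs (S - B * Bᴴ * X) :=
      D.hs_pow_le B hc hB _ j
    have h5 := hB m (Bᴴ * (E ^ j * X))
    (clear hS hSB happ hE hEH hBS hES hESj hcomm hε h1 h1' j0 hj0 hj e; linarith only [h5, h4, h3, h2, hX])
  have key : ∀ j : ℕ, D.Tr (1 - E ^ (2 * j)) = D.Tr S - D.hs (E ^ j * S) := by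
    intro j
    have hEjH : (E ^ j)ᴴ = E ^ j := by rw [Matrix.conjTranspose_pow, hEH]
    have e1 : D.hs (E ^ j * S) = D.Tr (E ^ (2 * j) * S) := by
      rw [hs_eq', Matrix.conjTranspose_mul, hS.2, hEjH]
      rw [show E ^ j * S * (S * E ^ j) = E ^ j * (S * S) * E ^ j by simp only [Matrix.mul_assoc],
        hS.1, Tr_comm, ← Matrix.mul_assoc, ← pow_add, ← two_mul]
    have e2 : (1 : Matrix m m N) - E ^ (2 * j) = S - E ^ (2 * j) * S := by
      have := hESj (2 * j)
      rw [Matrix.mul_sub, Matrix.mul_one] at this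
      have h' : E ^ (2 * j) = 1 - S + E ^ (2 * j) * S := by
        rw [← this]; abel
      calc (1 : Matrix m m N) - E ^ (2 * j) = 1 - (1 - S + E ^ (2 * j) * S) := by rw [← h']
        _ = S - E ^ (2 * j) * S := by abel
    rw [e2, Tr_sub, e1]
  have := (tendsto_const_nhds (x := D.Tr S)).sub hlim
  simpa only [key, sub_zero] using this

lemma tr_pow_eq [DecidableEq m] [DecidableEq n] (B : Matrix m n N) (c : ℝ) (k : ℕ) :
    D.Tr (1 - (1 - c⁻¹ • (B * Bᴴ)) ^ k) = D.Tr (1 - (1 - c⁻¹ • (Bᴴ * B)) ^ k) := by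
  set E := 1 - c⁻¹ • (B * Bᴴ) with hE
  set F := 1 - c⁻¹ • (Bᴴ * B) with hF
  have hEB : E * B = B * F := by
    rw [hE, hF, Matrix.sub_mul, Matrix.mul_sub, Matrix.smul_mul, Matrix.mul_smul,
      Matrix.mul_assoc]; simp only [Matrix.one_mul, Matrix.mul_one]
  have hEkB : ∀ k : ℕ, E ^ k * B = B * F ^ k := by
    intro k
    induction k with
    | zero => simp
    | succ k ih =>
      rw [pow_succ', Matrix.mul_assoc, ih, ← Matrix.mul_assoc, hEB, Matrix.mul_assoc, ← pow_succ']
  induction k with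
  | zero => simp only [pow_zero, sub_self, Tr_zero]
  | succ k ih =>
    have e1 : (1 : Matrix m m N) - E ^ (k + 1) = (1 - E ^ k) + c⁻¹ • (E ^ k * (B * Bᴴ)) := by
      rw [pow_succ]
      nth_rewrite 2 [hE]
      rw [Matrix.mul_sub, Matrix.mul_one, Matrix.mul_smul]; abel
    have e2 : (1 : Matrix n n N) - F ^ (k + 1) = (1 - F ^ k) + c⁻¹ • (F ^ k * (Bᴴ * B)) := by
      rw [pow_succ]
      nth_rewrite 2 [hF]
      rw [Matrix.mul_sub, Matrix.mul_one, Matrix.mul_smul]; abel
    rw [e1, e2, Tr_add, Tr_add, ih, Tr_smul, Tr_smul]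
    congr 2
    rw [← Matrix.mul_assoc, hEkB, Matrix.mul_assoc, Tr_comm, Matrix.mul_assoc]

/-- Rank identity: left and right supports have the same trace. -/
lemma Tr_lsupp_eq [DecidableEq m] [DecidableEq n] (B : Matrix m n N)
    {S : Matrix m m N} (hS : IsProj S) (hSB : S * B = B)
    (happ : ∀ ε : ℝ, 0 < ε → ∃ X : Matrix m m N, D.hs (S - B * Bᴴ * X) < ε)
    {T : Matrix n n N} (hT : IsProj T) (hTB : T * Bᴴ = Bᴴ)
    (happ' : ∀ ε : ℝ, 0 < ε → ∃ X : Matrix n n N, D.hs (T - Bᴴ * B * X) < ε) :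
    D.Tr S = D.Tr T := by
  obtain ⟨C1, hC1, h1⟩ := D.exists_bound_mul B
  obtain ⟨C2, hC2, h2⟩ := D.exists_bound_mul Bᴴ
  set c := C1 + C2 with hc
  have hcpos : 0 < c := by (clear * - hC1 hC2; positivity)
  have hb1 : ∀ (l : Type) [Fintype l] (x : Matrix n l N), D.hs (B * x) ≤ c * D.hs x :=
    fun l _ x => (h1 l x).trans (by have := D.hs_nonneg x; (clear B S hS hSB happ T hT hTB happ' hC1 h1 h2 hc hcpos; linarith only [mul_nonneg (le_of_lt (sub_pos.2 hC2)) (sub_nonneg.2 this)]))
  have hb2 : ∀ (l : Type) [Fintype l] (x : Matrix m l N), D.hs (Bᴴ * x) ≤ c * D.hs x :=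
    fun l _ x => (h2 l x).trans (by have := D.hs_nonneg x; (clear B S hS hSB happ T hT hTB happ' h1 hC2 h2 hc hcpos hb1; linarith only [mul_nonneg (le_of_lt (sub_pos.2 hC1)) (sub_nonneg.2 this)]))
  have t1 := D.tr_limit B hcpos hb1 hS hSB happ
  have t2 := D.tr_limit Bᴴ hcpos hb2 hT hTB (by simpa only [conjTranspose_conjTranspose] using happ')
  have e : ∀ j : ℕ, D.Tr (1 - (1 - c⁻¹ • (B * Bᴴ)) ^ (2 * j)) =
      D.Tr (1 - (1 - c⁻¹ • (Bᴴ * Bᴴᴴ)) ^ (2 * j)) := fun j => by
    rw [D.tr_pow_eq, Matrix.conjTranspose_conjTranspose]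
  exact tendsto_nhds_unique t1 (by simpa only [e] using t2)

/-- The trace of the left support is bounded by the trace of any projection absorbing `B`
on the right. -/
lemma Tr_lsupp_le [DecidableEq m] [DecidableEq n] (B : Matrix m n N)
    {S : Matrix m m N} (hS : IsProj S) (hSB : S * B = B)
    (happ : ∀ ε : ℝ, 0 < ε → ∃ X : Matrix m m N, D.hs (S - B * Bᴴ * X) < ε)
    {A : Matrix n n N} (hA : IsProj A) (hBA : B * A = B) : D.Tr S ≤ D.Tr A := by
  obtain ⟨T, hT, hTB, happ'⟩ := D.exists_lsupp Bᴴ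
  rw [Matrix.conjTranspose_conjTranspose] at happ'
  rw [D.Tr_lsupp_eq B hS hSB happ hT hTB happ']
  have hAB : (1 - A) * Bᴴ = 0 := by
    have := congrArg Matrix.conjTranspose hBA
    rw [Matrix.conjTranspose_mul, hA.2] at this
    rw [Matrix.sub_mul, Matrix.one_mul, this, sub_self]
  have h0 : (1 - A) * T = 0 := by
    refine D.lsupp_mul (B := Bᴴ) ?_ hAB
    simpa only [conjTranspose_conjTranspose] using happ'
  rw [Matrix.sub_mul, Matrix.one_mul, sub_eq_zero] at h0
  exact D.Tr_le_of_mul hA hT h0.symm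

end support

end TraceData

end Vale.Agent.P239
end

section

/-! Extended dimension (projection version) for abstract finite trace data. -/

set_option linter.unusedSectionVars false

namespace Vale.Agent.P239

open scoped Matrix ENNReal
open Matrix

universe u v w

namespace TraceData

variable {N : Type u} [Ring N] [StarRing N] [Algebra ℝ N] [StarModule ℝ N] (D : TraceData N)

section basic

variable {M : Type v} [AddCommGroup M] [Module N M]

/-- `g` restricted to the row module of `A` is injective. -/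
def Emb {ι : Type} [Fintype ι] (A : Matrix ι ι N) (g : (ι → N) →ₗ[N] M) : Prop :=
  ∀ x, x ᵥ* A = x → g x = 0 → x = 0

variable (M) in
/-- `r` is the trace of a finitely generated projective submodule of `M`. -/
def Has (r : ℝ) : Prop :=
  ∃ (n : ℕ) (A : Matrix (Fin n) (Fin n) N) (g : (Fin n → N) →ₗ[N] M),
    IsProj A ∧ Emb A g ∧ D.Tr A = r

variable (M) in
/-- extended dimension, projection version -/
noncomputable def tdim : ℝ≥0∞ := ⨆ (r : ℝ) (_ : D.Has M r), ENNReal.ofReal r

lemma has_of {ι : Type} [Fintype ι] (A : Matrix ι ι N) (hA : IsProj A)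
    (g : (ι → N) →ₗ[N] M) (hg : Emb A g) : D.Has M (D.Tr A) := by
  classical
  let e : ι ≃ Fin (Fintype.card ι) := Fintype.equivFin ι
  refine ⟨Fintype.card ι, A.submatrix e.symm e.symm,
    g.comp (LinearMap.funLeft N N e), ⟨?_, ?_⟩, ?_, ?_⟩
  · rw [Matrix.submatrix_mul_equiv, hA.1]
  · rw [Matrix.conjTranspose_submatrix, hA.2]
  · intro x hx hgx
    have h1 : (fun i => x (e i)) ᵥ* A = fun i => x (e i) := by
      ext i
      have := congrFun hx (e i)
      simp only [Matrix.vecMul, dotProduct, Matrix.submatrix_apply, Equiv.symm_apply_apply] at this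
      rw [← this]
      simp only [Matrix.vecMul, dotProduct]
      exact Fintype.sum_equiv e _ _ (by simp)
    have h2 : (fun i => x (e i)) = 0 := hg _ h1 hgx
    ext i
    have := congrFun h2 (e.symm i)
    simpa using this
  · unfold Tr
    exact Fintype.sum_equiv e.symm _ _ (by simp)

lemma le_tdim {ι : Type} [Fintype ι] (A : Matrix ι ι N) (hA : IsProj A)
    (g : (ι → N) →ₗ[N] M) (hg : Emb A g) : ENNReal.ofReal (D.Tr A) ≤ D.tdim M :=
  le_iSup₂_of_le (D.Tr A) (D.has_of A hA g hg) le_rfl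

lemma tdim_le {c : ℝ≥0∞} (h : ∀ (n : ℕ) (A : Matrix (Fin n) (Fin n) N)
    (g : (Fin n → N) →ₗ[N] M), IsProj A → Emb A g → ENNReal.ofReal (D.Tr A) ≤ c) :
    D.tdim M ≤ c := by
  refine iSup₂_le ?_
  rintro r ⟨n, A, g, hA, hg, rfl⟩
  exact h n A g hA hg

lemma has_zero : ∃ r, D.Has M r :=
  ⟨_, D.has_of (ι := Fin 0) 0 ⟨by simp, by simp⟩ 0 (fun x _ _ => Subsingleton.elim _ _)⟩

end basic

section mono

variable {M : Type v} [AddCommGroup M] [Module N M] {M' : Type w} [AddCommGroup M'] [Module N M']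

lemma tdim_mono (f : M →ₗ[N] M') (hf : Function.Injective f) : D.tdim M ≤ D.tdim M' := by
  refine D.tdim_le fun n A g hA hg => D.le_tdim A hA (f.comp g) fun x hx h => hg x hx ?_
  exact hf (by simpa only [map_zero, LinearMap.coe_comp, Function.comp_apply] using h)

lemma tdim_congr (f : M ≃ₗ[N] M') : D.tdim M = D.tdim M' :=
  le_antisymm (D.tdim_mono f.toLinearMap f.injective) (D.tdim_mono f.symm.toLinearMap
    f.symm.injective)

/-- lifting through a surjection -/
lemma exists_lift {ι : Type} [Fintype ι] (p : M →ₗ[N] M') (hp : Function.Surjective p)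
    (g : (ι → N) →ₗ[N] M') : ∃ g' : (ι → N) →ₗ[N] M, p.comp g' = g := by
  classical
  choose b hb using fun i : ι => hp (g (Pi.single i 1))
  refine ⟨Fintype.linearCombination N b, ?_⟩
  refine LinearMap.pi_ext' fun i => LinearMap.ext_ring ?_
  simp only [LinearMap.coe_comp, LinearMap.coe_single, Function.comp_apply, Fintype.linearCombination_apply, Pi.single_apply, ite_smul, one_smul, zero_smul, Finset.sum_ite_eq', Finset.mem_univ, ↓reduceIte, hb]

end mono

section key

variable {M : Type v} [AddCommGroup M] [Module N M] {ι : Type} [Fintype ι]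

/-- If the rows of a projection `Q` are approximated by elements of a submodule `K`, the
dimension of `K` is at least the trace of `Q`. -/
lemma Tr_le_tdim_of_approx (K : Submodule N (ι → N)) {Q : Matrix ι ι N} (hQ : IsProj Q)
    (happ : ∀ ε : ℝ, 0 < ε → ∀ i, ∃ k ∈ K,
      ∑ j, D.t (star (k j - Q i j) * (k j - Q i j)) < ε) :
    ENNReal.ofReal (D.Tr Q) ≤ D.tdim K := by
  classical
  refine le_of_forall_pos_le_add fun ε hε => ?_
  -- it suffices to treat real positive `ε`
  by_cases htop : ε = ⊤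
  · simp [htop]
  have hε' : 0 < ε.toReal := ENNReal.toReal_pos hε.ne' htop
  set δ := ε.toReal with hδ
  have hcard : (0 : ℝ) < Fintype.card ι + 1 := by positivity
  choose k hk hlt using fun i => happ (δ / (Fintype.card ι + 1)) (by positivity) i
  let B : Matrix ι ι N := Matrix.of k
  have hBQ : D.hs (B - Q) ≤ δ := by
    have : D.hs (B - Q) ≤ ∑ _i : ι, δ / (Fintype.card ι + 1) := by
      unfold hs
      exact Finset.sum_le_sum fun i _ => (hlt i).le
    refine this.trans ?_
    rw [Finset.sum_const, Finset.card_univ, nsmul_eq_mul, mul_div_assoc', div_le_iff₀ hcard]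
    linarith
  obtain ⟨S, hS, hSB, hSapp⟩ := D.exists_lsupp B
  have hemb : ENNReal.ofReal (D.Tr S) ≤ D.tdim K := by
    let g : (ι → N) →ₗ[N] K := Fintype.linearCombination N (fun i => (⟨k i, hk i⟩ : K))
    refine D.le_tdim S hS g fun x hx hgx => ?_
    have h1 : x ᵥ* B = 0 := by
      have := congrArg (Subtype.val) hgx
      simp only [g, Fintype.linearCombination_apply, Submodule.coe_sum, Submodule.coe_smul,
        ZeroMemClass.coe_zero] at this
      rw [← this]
      ext j
      simp only [vecMul, dotProduct, of_apply, Finset.sum_apply, Pi.smul_apply, smul_eq_mul, B]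
    have h2 : (Matrix.replicateRow Unit x) * B = 0 := by
      rw [← Matrix.replicateRow_vecMul, h1]; rfl
    have h3 := D.lsupp_mul hSapp h2
    rw [← Matrix.replicateRow_vecMul, hx] at h3
    ext j
    exact congrFun (congrFun h3 ()) j
  have hTr : D.Tr Q ≤ D.Tr S + δ := by
    have e1 : D.Tr Q = D.Tr (S * Q) + D.Tr ((1 - S) * Q) := by
      rw [← Tr_add, ← Matrix.add_mul]; simp
    have e2 : D.Tr ((1 - S) * Q) = D.hs ((1 - S) * Q) := by
      rw [hs_eq, Matrix.conjTranspose_mul, hQ.2, hS.one_sub.2]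
      rw [show Q * (1 - S) * ((1 - S) * Q) = Q * ((1 - S) * (1 - S)) * Q by
        simp only [Matrix.mul_assoc], hS.one_sub.1]
      rw [D.Tr_comm (Q * (1 - S)) Q, ← Matrix.mul_assoc, hQ.1, Tr_comm]
    have e3 : (1 - S) * Q = (1 - S) * (Q - B) := by
      rw [Matrix.mul_sub, Matrix.sub_mul 1 S B, hSB, Matrix.one_mul, sub_self, sub_zero]
    have e4 : D.hs ((1 - S) * Q) ≤ δ := by
      rw [e3]
      refine (D.hs_proj_mul_le hS.one_sub _).trans ?_
      rw [← hs_neg, neg_sub]; exact hBQ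
    have e5 : D.Tr (S * Q) ≤ D.Tr S := by
      have h := D.hs_nonneg ((1 - Q) * S)
      rw [hs_eq, Matrix.conjTranspose_mul, hS.2, hQ.one_sub.2] at h
      rw [show S * (1 - Q) * ((1 - Q) * S) = S * ((1 - Q) * (1 - Q)) * S by
        simp only [Matrix.mul_assoc], hQ.one_sub.1, Tr_comm, ← Matrix.mul_assoc, hS.1,
        Matrix.mul_sub, Matrix.mul_one, Tr_sub] at h
      (clear K hQ happ ε hε htop δ hε' hδ hcard k hk hlt B hBQ hS hSB hSapp hemb e1 e2 e3 e4; linarith)
    linarith
  calc ENNReal.ofReal (D.Tr Q) ≤ ENNReal.ofReal (D.Tr S + δ) := ENNReal.ofReal_le_ofReal hTr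
    _ = ENNReal.ofReal (D.Tr S) + ENNReal.ofReal δ :=
        ENNReal.ofReal_add (D.Tr_proj_nonneg hS) hε'.le
    _ ≤ D.tdim K + ε := by
        rw [hδ, ENNReal.ofReal_toReal htop]
        (clear Q hQ happ hε htop δ hε' hδ hcard hlt hBQ hSB hTr; gcongr)

/-- Kernel inequality. -/
lemma Tr_le_ker_add {C : Type v} [AddCommGroup C] [Module N C] {A : Matrix ι ι N} (hA : IsProj A)
    (g : (ι → N) →ₗ[N] C) (K : Submodule N (ι → N))
    (hK : ∀ x, x ∈ K ↔ x ᵥ* A = x ∧ g x = 0) :
    ENNReal.ofReal (D.Tr A) ≤ D.tdim K + D.tdim C := by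
  classical
  obtain ⟨Q, hQ1, hQ2, hQK, happ⟩ := D.proj ι K
  have hQ : IsProj Q := ⟨hQ1, hQ2⟩
  have hAQ0 : (1 - A) * Q = 0 := by
    have h' : ((1 - A) * Qᴴ) = 0 := by
      refine D.mul_eq_zero_of_approx (1 - A) Qᴴ fun ε hε => ?_
      have hcard : (0 : ℝ) < Fintype.card ι + 1 := by (clear * -; positivity)
      choose k hk hlt using fun i => happ (ε / (Fintype.card ι + 1)) (by positivity) i
      refine ⟨(Matrix.of k)ᴴ, ?_, ?_⟩
      · have : Matrix.of k * A = Matrix.of k := by
          ext i j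
          have := congrFun ((hK _).1 (hk i)).1 j
          simpa only [Matrix.mul_apply, of_apply, vecMul, dotProduct] using this
        rw [← hA.one_sub.2, ← Matrix.conjTranspose_mul, Matrix.mul_sub, this, Matrix.mul_one,
          sub_self, Matrix.conjTranspose_zero]
      · rw [← Matrix.conjTranspose_sub, hs_conjTranspose, ← hs_neg, neg_sub]
        have : D.hs (Matrix.of k - Q) ≤ ∑ _i : ι, ε / (Fintype.card ι + 1) := by
          unfold hs
          exact Finset.sum_le_sum fun i _ => (hlt i).le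
        refine this.trans_lt ?_
        rw [Finset.sum_const, Finset.card_univ, nsmul_eq_mul, mul_div_assoc']
        rw [div_lt_iff₀ hcard]
        linarith
    rwa [hQ2] at h'
  have hAQ : A * Q = Q := by
    rw [Matrix.sub_mul, Matrix.one_mul, sub_eq_zero] at hAQ0; exact hAQ0.symm
  have hQA' : Q * A = Q := by
    have := congrArg Matrix.conjTranspose hAQ
    rwa [Matrix.conjTranspose_mul, hQ.2, hA.2] at this
  have hAsub : IsProj (A - Q) := hA.sub hQ hAQ
  have h1 : ENNReal.ofReal (D.Tr (A - Q)) ≤ D.tdim C := by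
    refine D.le_tdim (A - Q) hAsub g fun x hx hgx => ?_
    have hxA : x ᵥ* A = x := by
      conv_lhs => rw [← hx]
      rw [Matrix.vecMul_vecMul, Matrix.sub_mul, hA.1, hQA', hx]
    have hxK : x ∈ K := (hK x).2 ⟨hxA, hgx⟩
    have hxQ : x ᵥ* Q = x := hQK x hxK
    rw [← hxQ, ← hx, Matrix.vecMul_vecMul, Matrix.sub_mul, hAQ, hQ.1, sub_self,
      Matrix.vecMul_zero]
  have h2 : ENNReal.ofReal (D.Tr Q) ≤ D.tdim K := D.Tr_le_tdim_of_approx K hQ happ
  have h3 : D.Tr A = D.Tr Q + D.Tr (A - Q) := by rw [Tr_sub]; ring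
  rw [h3, ENNReal.ofReal_add (D.Tr_proj_nonneg hQ) (D.Tr_proj_nonneg hAsub)]
  exact add_le_add h2 h1

end key

end TraceData

end Vale.Agent.P239
end

section

/-! Additivity of the extended dimension, dense left ideals, torsion modules. -/

set_option linter.unusedSectionVars false

namespace Vale.Agent.P239

open scoped Matrix ENNReal
open Matrix

universe u v w

namespace TraceData

variable {N : Type u} [Ring N] [StarRing N] [Algebra ℝ N] [StarModule ℝ N] (D : TraceData N)

section additivity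

variable {M : Type v} [AddCommGroup M] [Module N M] {M' : Type w} [AddCommGroup M'] [Module N M']

lemma tdim_le_of_surjective (p : M →ₗ[N] M') (hp : Function.Surjective p) :
    D.tdim M' ≤ D.tdim M := by
  refine D.tdim_le fun n A g hA hg => ?_
  obtain ⟨g', hg'⟩ := exists_lift p hp g
  refine D.le_tdim A hA g' fun x hx hx0 => hg x hx ?_
  rw [← hg', LinearMap.comp_apply, hx0, map_zero]

lemma tdim_range_le (f : M →ₗ[N] M') : D.tdim (LinearMap.range f) ≤ D.tdim M :=
  D.tdim_le_of_surjective f.rangeRestrict f.surjective_rangeRestrict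

lemma tdim_add_le {M₁ : Type*} [AddCommGroup M₁] [Module N M₁] {M₂ : Type*} [AddCommGroup M₂]
    [Module N M₂] (f : M₁ →ₗ[N] M) (hf : Function.Injective f) (p : M →ₗ[N] M₂)
    (hp : Function.Surjective p) (h : ∀ x, p (f x) = 0) : D.tdim M₁ + D.tdim M₂ ≤ D.tdim M := by
  classical
  refine ENNReal.biSup_add_biSup_le' D.has_zero D.has_zero ?_
  rintro r₁ ⟨n₁, A₁, g₁, hA₁, hg₁, rfl⟩ r₂ ⟨n₂, A₂, g₂, hA₂, hg₂, rfl⟩
  obtain ⟨g₂', hg₂'⟩ := exists_lift p hp g₂
  let A : Matrix (Fin n₁ ⊕ Fin n₂) (Fin n₁ ⊕ Fin n₂) N := Matrix.fromBlocks A₁ 0 0 A₂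
  have hA : IsProj A := by
    refine ⟨?_, ?_⟩
    · simp only [fromBlocks_multiply, hA₁.1, Matrix.mul_zero, add_zero, Matrix.zero_mul, hA₂.1, zero_add, A]
    · simp [A, Matrix.fromBlocks_conjTranspose, hA₁.2, hA₂.2]
  let g : (Fin n₁ ⊕ Fin n₂ → N) →ₗ[N] M :=
    (f.comp g₁).comp (LinearMap.funLeft N N Sum.inl) + g₂'.comp (LinearMap.funLeft N N Sum.inr)
  have hg : Emb A g := by
    intro x hx hgx
    have hx' := hx
    simp only [A] at hx'
    rw [Matrix.vecMul_fromBlocks] at hx'
    have e1 : (x ∘ Sum.inl) ᵥ* A₁ = x ∘ Sum.inl := by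
      ext i
      have := congrFun hx' (Sum.inl i)
      simpa using this
    have e2 : (x ∘ Sum.inr) ᵥ* A₂ = x ∘ Sum.inr := by
      ext i
      have := congrFun hx' (Sum.inr i)
      simpa using this
    have hgx' : f (g₁ (x ∘ Sum.inl)) + g₂' (x ∘ Sum.inr) = 0 := hgx
    have h2 : g₂ (x ∘ Sum.inr) = 0 := by
      have := congrArg p hgx'
      rw [map_add, h, zero_add, map_zero] at this
      rw [← hg₂', LinearMap.comp_apply, this]
    have h3 : x ∘ Sum.inr = 0 := hg₂ _ e2 h2
    rw [h3, map_zero, add_zero] at hgx'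
    have h4 : x ∘ Sum.inl = 0 := hg₁ _ e1 (hf (by rw [hgx', map_zero]))
    ext i
    rcases i with i | i
    · exact congrFun h4 i
    · exact congrFun h3 i
  have hTr : D.Tr A = D.Tr A₁ + D.Tr A₂ := by
    simp only [Tr, Fintype.sum_sum_type, fromBlocks_apply₁₁, fromBlocks_apply₂₂, A]
  rw [← ENNReal.ofReal_add (D.Tr_proj_nonneg hA₁) (D.Tr_proj_nonneg hA₂), ← hTr]
  exact D.le_tdim A hA g hg

lemma tdim_le_ker_add (p : M →ₗ[N] M') : D.tdim M ≤ D.tdim (LinearMap.ker p) + D.tdim M' := by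
  refine D.tdim_le fun n A g hA hg => ?_
  let K : Submodule N (Fin n → N) :=
    LinearMap.eqLocus A.vecMulLinear LinearMap.id ⊓ LinearMap.ker (p.comp g)
  have hK : ∀ x, x ∈ K ↔ x ᵥ* A = x ∧ (p.comp g) x = 0 := fun x => Iff.rfl
  have hK' : D.tdim K ≤ D.tdim (LinearMap.ker p) := by
    refine D.tdim_mono ((g.comp K.subtype).codRestrict (LinearMap.ker p) fun x => ?_) ?_
    · exact x.2.2
    · rw [← LinearMap.ker_eq_bot, LinearMap.ker_eq_bot']
      rintro ⟨x, hx⟩ h
      have h1 : g x = 0 := congrArg Subtype.val h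
      exact Subtype.ext (hg x ((hK x).1 hx).1 h1)
  exact (D.Tr_le_ker_add hA (p.comp g) K hK).trans (by gcongr)

lemma tdim_le_add {M₁ : Type*} [AddCommGroup M₁] [Module N M₁] (f : M₁ →ₗ[N] M)
    (p : M →ₗ[N] M') (h : LinearMap.ker p ≤ LinearMap.range f) :
    D.tdim M ≤ D.tdim M₁ + D.tdim M' := by
  refine (D.tdim_le_ker_add p).trans ?_
  gcongr
  exact (D.tdim_mono (Submodule.inclusion h) (Submodule.inclusion_injective h)).trans
    (D.tdim_range_le f)

lemma tdim_le_of_le {K L : Submodule N M} (h : K ≤ L) : D.tdim K ≤ D.tdim L :=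
  D.tdim_mono (Submodule.inclusion h) (Submodule.inclusion_injective h)

lemma tdim_add_quot (K : Submodule N M) : D.tdim K + D.tdim (M ⧸ K) = D.tdim M := by
  refine le_antisymm (D.tdim_add_le K.subtype K.injective_subtype K.mkQ K.mkQ_surjective
    (fun x => by simp)) ?_
  exact D.tdim_le_add K.subtype K.mkQ (by simp)

lemma tdim_of_subsingleton [Subsingleton M] : D.tdim M = 0 := by
  refine le_antisymm (D.tdim_le fun n A g hA hg => ?_) bot_le
  have : A = 0 := by
    ext i j
    have h1 : A i = 0 := hg (A i) (by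
      ext j
      have := congrFun (congrFun hA.1 i) j
      simpa only [vecMul, dotProduct, Matrix.mul_apply] using this) (Subsingleton.elim _ _)
    exact congrFun h1 j
  rw [this, Tr_zero]; simp

lemma tdim_sup_le (K L : Submodule N M) :
    D.tdim (K ⊔ L : Submodule N M) ≤ D.tdim K + D.tdim L := by
  let p : (K ⊔ L : Submodule N M) →ₗ[N] (M ⧸ K) := K.mkQ.comp (K ⊔ L).subtype
  have h1 := D.tdim_le_ker_add p.rangeRestrict
  refine h1.trans (add_le_add ?_ ?_)
  · have hker : ∀ x : LinearMap.ker p.rangeRestrict, ((x : (K ⊔ L : Submodule N M)) : M) ∈ K := by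
      rintro ⟨x, hx⟩
      rw [LinearMap.ker_rangeRestrict, LinearMap.mem_ker] at hx
      simpa [p] using hx
    refine D.tdim_mono
      (((K ⊔ L).subtype.comp (LinearMap.ker p.rangeRestrict).subtype).codRestrict K hker) ?_
    intro x y hxy
    have := congrArg Subtype.val hxy
    exact Subtype.ext (Subtype.ext this)
  · have hr : LinearMap.range p ≤ LinearMap.range (K.mkQ.comp L.subtype) := by
      rintro _ ⟨⟨x, hx⟩, rfl⟩
      obtain ⟨a, ha, b, hb, rfl⟩ := Submodule.mem_sup.1 hx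
      refine ⟨⟨b, hb⟩, ?_⟩
      simp only [p, LinearMap.comp_apply, Submodule.subtype_apply, map_add]
      have : K.mkQ a = 0 := by simpa using ha
      rw [this, zero_add]
    exact (D.tdim_le_of_le hr).trans (D.tdim_range_le _)

lemma tdim_finset_sup_le {κ : Type*} (s : Finset κ) (S : κ → Submodule N M) :
    D.tdim (⨆ i ∈ s, S i : Submodule N M) ≤ ∑ i ∈ s, D.tdim (S i) := by
  classical
  induction s using Finset.induction_on with
  | empty =>
    have h0 : (⨆ i ∈ (∅ : Finset κ), S i) = ⊥ := by simp only [Finset.notMem_empty, not_false_eq_true, iSup_neg, iSup_bot]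
    rw [h0, Finset.sum_empty, D.tdim_of_subsingleton]
  | insert a s ha ih =>
    rw [Finset.sum_insert ha, Finset.iSup_insert]
    exact (D.tdim_sup_le _ _).trans (by gcongr)

lemma tdim_iSup_le {κ : Type*} (S : κ → Submodule N M) :
    D.tdim (⨆ i, S i : Submodule N M) ≤ ∑' i, D.tdim (S i) := by
  classical
  refine D.tdim_le fun n A g hA hg => ?_
  have hmem : ∀ j : Fin n, ((g (Pi.single j 1) : (⨆ i, S i : Submodule N M)) : M) ∈
    ⨆ i, S i := fun j => (g (Pi.single j 1)).2
  choose s hs using fun j => Submodule.mem_iSup_iff_exists_finset.1 (hmem j)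
  let t : Finset κ := Finset.univ.biUnion s
  have ht : ∀ j : Fin n, ((g (Pi.single j 1) : (⨆ i, S i : Submodule N M)) : M) ∈
      ⨆ i ∈ t, S i := by
    intro j
    refine (iSup_le fun i => iSup_le fun hi => ?_ :
      (⨆ i ∈ s j, S i) ≤ ⨆ i ∈ t, S i) (hs j)
    exact le_iSup₂_of_le i (Finset.mem_biUnion.2 ⟨j, Finset.mem_univ j, hi⟩) le_rfl
  let g' : (Fin n → N) →ₗ[N] (⨆ i ∈ t, S i : Submodule N M) :=
    Fintype.linearCombination N (fun j => ⟨_, ht j⟩)
  have hgg' : ∀ x, ((g' x : (⨆ i ∈ t, S i : Submodule N M)) : M) = (g x : M) := by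
    intro x
    have e : (Submodule.subtype _).comp g' = (Submodule.subtype _).comp g := by
      refine LinearMap.pi_ext' fun j => LinearMap.ext_ring ?_
      simp only [LinearMap.coe_comp, Submodule.coe_subtype, LinearMap.coe_single, Function.comp_apply, Fintype.linearCombination_apply, Pi.single_apply, ite_smul, one_smul, zero_smul, Finset.sum_ite_eq', Finset.mem_univ, ↓reduceIte, g']
    exact LinearMap.congr_fun e x
  have hg' : Emb A g' := by
    intro x hx h0
    refine hg x hx (Subtype.ext ?_)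
    rw [← hgg', h0]; rfl
  refine (D.le_tdim A hA g' hg').trans ((D.tdim_finset_sup_le t S).trans ?_)
  exact ENNReal.sum_le_tsum t

end additivity

section free

variable {ι : Type} [Fintype ι]

lemma row_eq_zero {A : Matrix ι ι N} (h : ∀ i, A i = 0) : A = 0 := by
  ext i j; exact congrFun (h i) j

/-- dimension of the projective module `N^ι A` is at most the trace of `A` -/
lemma tdim_eqLocus_le {A : Matrix ι ι N} (hA : IsProj A) :
    D.tdim (LinearMap.eqLocus A.vecMulLinear LinearMap.id) ≤ ENNReal.ofReal (D.Tr A) := by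
  classical
  refine D.tdim_le fun m B g hB hg => ENNReal.ofReal_le_ofReal ?_
  let Φ : Matrix (Fin m) ι N := Matrix.of fun i => (g (Pi.single i 1) : ι → N)
  have hg_eq : ∀ x, (g x : ι → N) = x ᵥ* Φ := by
    intro x
    have e : (Submodule.subtype _).comp g = Φ.vecMulLinear := by
      refine LinearMap.pi_ext' fun j => LinearMap.ext_ring ?_
      ext i
      simp only [LinearMap.coe_comp, Submodule.coe_subtype, LinearMap.coe_single, Function.comp_apply, LinearMap.flip_apply, vecMulBilin_apply, single_vecMul, of_row, Pi.smul_apply, smul_eq_mul, one_mul, Φ]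
    exact LinearMap.congr_fun e x
  have hΦA : Φ * A = Φ := by
    ext i j
    have h1 : ((g (Pi.single i 1) : ι → N)) ᵥ* A = (g (Pi.single i 1) : ι → N) :=
      (g (Pi.single i 1)).2
    have := congrFun h1 j
    simpa [Matrix.mul_apply, Matrix.vecMul, dotProduct, Φ] using this
  obtain ⟨S, hS, hSB, happ⟩ := D.exists_lsupp (B * Φ)
  have hBS : B * S = S := by
    have h0 : (1 - B) * S = 0 := by
      refine D.lsupp_mul happ ?_
      rw [← Matrix.mul_assoc, Matrix.sub_mul, hB.1, Matrix.one_mul, sub_self, Matrix.zero_mul]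
    rw [Matrix.sub_mul, Matrix.one_mul, sub_eq_zero] at h0
    exact h0.symm
  have hSB' : S * B = S := by
    have := congrArg Matrix.conjTranspose hBS
    rwa [Matrix.conjTranspose_mul, hS.2, hB.2] at this
  have hz : (B - S) * Φ = 0 := by
    have : (B - S) * B = B - S := by rw [Matrix.sub_mul, hB.1, hSB']
    rw [← this, Matrix.mul_assoc, Matrix.sub_mul, hSB]
    rw [← Matrix.mul_assoc, hB.1, sub_self]
  have hBeq : B - S = 0 := by
    refine row_eq_zero fun i => hg _ ?_ ?_
    · have : (B - S) * B = B - S := by rw [Matrix.sub_mul, hB.1, hSB']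
      ext j
      have := congrFun (congrFun this i) j
      simpa only [vecMul, dotProduct, Matrix.sub_apply, Matrix.mul_apply] using this
    · apply Subtype.ext
      rw [hg_eq]
      ext j
      have := congrFun (congrFun hz i) j
      simpa only [vecMul, dotProduct, Matrix.sub_apply, ZeroMemClass.coe_zero, Pi.zero_apply, Matrix.mul_apply,     Matrix.zero_apply] using this
  have hBS2 : B = S := sub_eq_zero.1 hBeq
  rw [hBS2]
  exact D.Tr_lsupp_le _ hS hSB happ hA (by rw [Matrix.mul_assoc, hΦA])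

end free

section dense

/-- A left ideal containing elements arbitrarily close to `1` in the 2-norm. -/
def Dense (J : Submodule N N) : Prop :=
  ∀ ε : ℝ, 0 < ε → ∃ a ∈ J, D.t (star (1 - a) * (1 - a)) < ε

lemma Dense.mono {J J' : Submodule N N} (h : J ≤ J') (hJ : D.Dense J) : D.Dense J' :=
  fun ε hε => let ⟨a, ha, hlt⟩ := hJ ε hε; ⟨a, h ha, hlt⟩

end dense

section torsion

variable {M : Type v} [AddCommGroup M] [Module N M] {M' : Type w} [AddCommGroup M'] [Module N M']

end torsion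

end TraceData

end Vale.Agent.P239
end

section

/-! Induction inequality for the extended dimension. -/

set_option linter.unusedSectionVars false

namespace Vale.Agent.P239

open scoped Matrix ENNReal
open Matrix

universe u v w

namespace TraceData

variable {N₁ : Type u} [Ring N₁] [StarRing N₁] [Algebra ℝ N₁] [StarModule ℝ N₁]
  {N₂ : Type v} [Ring N₂] [StarRing N₂] [Algebra ℝ N₂] [StarModule ℝ N₂]
  (D₁ : TraceData N₁) (D₂ : TraceData N₂)

section mapMatrix

variable (φ : N₁ →+* N₂) (hstar : ∀ x, φ (star x) = star (φ x)) (ht : ∀ x, D₂.t (φ x) = D₁.t x)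
  {m n : Type} [Fintype m] [Fintype n]

end mapMatrix

lemma exists_coords {N : Type*} [Ring N] {I : Type*} (F : Finset I) :
    ∃ (n : ℕ) (u : Fin n → I), ∀ z : I →₀ N, z.support ⊆ F →
      Fintype.linearCombination N (fun k : Fin n => Finsupp.single (u k) (1 : N))
        (fun k => z (u k)) = z := by
  classical
  refine ⟨F.card, fun k => (F.equivFin.symm k : I), fun z hz => ?_⟩
  rw [Fintype.linearCombination_apply]
  have e : ∀ k : Fin F.card, z (F.equivFin.symm k : I) • Finsupp.single (F.equivFin.symm k : I)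
      (1 : N) = (fun i : F => Finsupp.single (i : I) (z i)) (F.equivFin.symm k) := fun k => by
    rw [Finsupp.smul_single, smul_eq_mul, mul_one]
  simp only [e]
  rw [Equiv.sum_comp F.equivFin.symm (fun i : F => Finsupp.single (i : I) (z i)),
    Finset.sum_coe_sort F (fun i => Finsupp.single i (z i))]
  rw [← Finsupp.sum_of_support_subset z hz (fun i a => Finsupp.single i a) (by simp)]
  exact Finsupp.sum_single z

end TraceData

end Vale.Agent.P239
end
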