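import Vale.Agent.P239.Bdl.B1
import Vale.Agent.P239.Bdl.B2

set_option linter.all false

namespace AFast1d7f69x5a
@[reducible] noncomputable def a0.{u1} {x1 : Type u1} : UniformSpace (Vale.Agent.P239.L2 x1) := inferInstance
@[reducible] noncomputable def a1.{u1} {x1 : Type u1} : PseudoMetricSpace (Vale.Agent.P239.L2 x1) := inferInstance
@[reducible] noncomputable def a2.{u1} {x1 : Type u1} : TopologicalSpace (Vale.Agent.P239.L2 x1) := inferInstance
theorem a3.{u1} {x1 : Type u1} : UniformContinuousConstSMul ℂ (Vale.Agent.P239.L2 x1) := inferInstance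
@[reducible] noncomputable def a4.{u1} {x1 : Type u1} : SeminormedAddCommGroup (Vale.Agent.P239.L2 x1) := inferInstance
@[reducible] noncomputable def a5.{u1} {x1 : Type u1} [x2 : Group x1] {x3 : Subgroup x1} : TopologicalSpace (Vale.Agent.P239.L2 ↥x3) := inferInstance
@[reducible] noncomputable def a6.{u1} {x1 : Type u1} [x2 : Group x1] {x3 : Subgroup x1} : UniformSpace (Vale.Agent.P239.L2 ↥x3) := inferInstance
@[reducible] noncomputable def a7.{u1} {x1 : Type u1} [x2 : Group x1] {x3 : Subgroup x1} : PseudoMetricSpace (Vale.Agent.P239.L2 ↥x3) := inferInstance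
theorem a8.{u1} {x1 : Type u1} [x2 : Group x1] {x3 : Subgroup x1} : UniformContinuousConstSMul ℂ (Vale.Agent.P239.L2 ↥x3) := inferInstance
@[reducible] noncomputable def a9.{u1} {x1 : Type u1} [x2 : Group x1] {x3 : Subgroup x1} : SeminormedAddCommGroup (Vale.Agent.P239.L2 ↥x3) := inferInstance
@[reducible] noncomputable def a10.{u1} {x1 : Type u1} : Module ℂ (Vale.Agent.P239.L2 x1) := inferInstance
@[reducible] noncomputable def a11.{u1} {x1 : Type} {x2 : Type u1} : Module ℂ (x1 → Vale.Agent.P239.L2 x2) := inferInstance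
@[reducible] def a12 : AddMonoidWithOne ENNReal := inferInstance
@[reducible] noncomputable def a13.{u1} {x1 : Type u1} : Inner ℂ (Vale.Agent.P239.L2 x1) := inferInstance
@[reducible] noncomputable def a14.{u1} {x1 : Type u1} : NormedSpace ℂ (Vale.Agent.P239.L2 x1) := inferInstance
end AFast1d7f69x5a
attribute [local instance] AFast1d7f69x5a.a0 AFast1d7f69x5a.a1 AFast1d7f69x5a.a2 AFast1d7f69x5a.a3
  AFast1d7f69x5a.a4 AFast1d7f69x5a.a5 AFast1d7f69x5a.a6 AFast1d7f69x5a.a7 AFast1d7f69x5a.a8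
  AFast1d7f69x5a.a9 AFast1d7f69x5a.a10 AFast1d7f69x5a.a11 AFast1d7f69x5a.a12 AFast1d7f69x5a.a13
  AFast1d7f69x5a.a14
namespace AFast1d7f69x5b
@[reducible] noncomputable def a0.{u1} {x1 : Type u1} : SMulZeroClass ℂ (Vale.Agent.P239.L2 x1) := inferInstance
@[reducible] noncomputable def a1.{u1} {x1 : Type u1} : DistribSMul ℂ (Vale.Agent.P239.L2 x1) := inferInstance
@[reducible] noncomputable def a2.{u1} {x1 : Type u1} : SMul ℂ (Vale.Agent.P239.L2 x1) := inferInstance
@[reducible] noncomputable def a3.{u1} {x1 : Type u1} : DistribMulAction ℂ (Vale.Agent.P239.L2 x1) := inferInstance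
theorem a4.{u1} {x1 : Type u1} : ContinuousAdd (Vale.Agent.P239.L2 x1) := inferInstance
@[reducible] noncomputable def a5.{u1} {x1 : Type u1} : Semiring (Vale.Agent.P239.L2 x1 →L[ℂ] Vale.Agent.P239.L2 x1) := inferInstance
@[reducible] noncomputable def a6.{u1} {x1 : Type u1} : Algebra ℂ (Vale.Agent.P239.L2 x1 →L[ℂ] Vale.Agent.P239.L2 x1) := inferInstance
@[reducible] noncomputable def a7.{u1} {x1 : Type u1} : AddCommMonoid (Vale.Agent.P239.L2 x1) := inferInstance
@[reducible] noncomputable def a8.{u1} {x1 : Type u1} [x2 : Group x1] {x3 : Subgroup x1} : SMul ℂ (Vale.Agent.P239.L2 ↥x3) := inferInstance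
@[reducible] noncomputable def a9.{u1} {x1 : Type u1} [x2 : Group x1] {x3 : Subgroup x1} : SMulZeroClass ℂ (Vale.Agent.P239.L2 ↥x3) := inferInstance
theorem a10.{u1} {x1 : Type u1} : ContinuousConstSMul ℂ (Vale.Agent.P239.L2 x1) := inferInstance
@[reducible] noncomputable def a11.{u1} {x1 : Type u1} [x2 : Group x1] {x3 : Subgroup x1} : DistribSMul ℂ (Vale.Agent.P239.L2 ↥x3) := inferInstance
@[reducible] noncomputable def a12.{u1} {x1 : Type u1} [x2 : Group x1] {x3 : Subgroup x1} : Semiring (Vale.Agent.P239.L2 ↥x3 →L[ℂ] Vale.Agent.P239.L2 ↥x3) := inferInstance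
theorem a13.{u1} {x1 : Type u1} : IsTopologicalAddGroup (Vale.Agent.P239.L2 x1) := inferInstance
@[reducible] noncomputable def a14.{u1} {x1 : Type} {x2 : Type u1} : Module ℂ (WithLp 2 ((i : x1) → (fun x => Vale.Agent.P239.L2 x2) i)) := inferInstance
@[reducible] noncomputable def a15.{u1} {x1 : Type u1} : AddMonoid (Vale.Agent.P239.L2 x1) := inferInstance
theorem a16.{u1} {x1 : Type u1} [x2 : Group x1] {x3 : Subgroup x1} : ContinuousAdd (Vale.Agent.P239.L2 ↥x3) := inferInstance
@[reducible] noncomputable def a17.{u1} {x1 : Type u1} : AddZeroClass (Vale.Agent.P239.L2 x1) := inferInstance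
@[reducible] noncomputable def a18.{u1} {x1 : Type u1} : AddZero (Vale.Agent.P239.L2 x1) := inferInstance
theorem a19.{u1} {x1 : Type u1} [x2 : Group x1] : NonUnitalAlgHomClass (Vale.Agent.P239.VN x1 →ₐ[ℂ] Vale.Agent.P239.L2 x1 →L[ℂ] Vale.Agent.P239.L2 x1) ℂ (Vale.Agent.P239.VN x1) (Vale.Agent.P239.L2 x1 →L[ℂ] Vale.Agent.P239.L2 x1) := inferInstance
@[reducible] noncomputable def a20.{u1} {x1 : Type u1} [x2 : Group x1] {x3 : Subgroup x1} : DistribMulAction ℂ (Vale.Agent.P239.L2 ↥x3) := inferInstance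
@[reducible] noncomputable def a21.{u1} {x1 : Type u1} [x2 : Group x1] {x3 : Subgroup x1} : Algebra ℂ (Vale.Agent.P239.L2 ↥x3 →L[ℂ] Vale.Agent.P239.L2 ↥x3) := inferInstance
@[reducible] noncomputable def a22.{u1} {x1 : Type u1} : NonAssocSemiring (Vale.Agent.P239.L2 x1 →L[ℂ] Vale.Agent.P239.L2 x1) := inferInstance
@[reducible] noncomputable def a23.{u1} {x1 : Type u1} : Module ℂ (Vale.Agent.P239.L2 x1 →L[ℂ] Vale.Agent.P239.L2 x1) := inferInstance
@[reducible] noncomputable def a24.{u1} {x1 : Type u1} [x2 : Group x1] {x3 : Subgroup x1} : AddCommMonoid (Vale.Agent.P239.L2 ↥x3) := inferInstance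
theorem a25.{u1} {x1 : Type u1} [x2 : Group x1] : MulHomClass (Vale.Agent.P239.VN x1 →ₐ[ℂ] Vale.Agent.P239.L2 x1 →L[ℂ] Vale.Agent.P239.L2 x1) (Vale.Agent.P239.VN x1) (Vale.Agent.P239.L2 x1 →L[ℂ] Vale.Agent.P239.L2 x1) := inferInstance
theorem a26.{u1} {x1 : Type u1} [x2 : Group x1] : LinearMapClass (Vale.Agent.P239.VN x1 →ₐ[ℂ] Vale.Agent.P239.L2 x1 →L[ℂ] Vale.Agent.P239.L2 x1) ℂ (Vale.Agent.P239.VN x1) (Vale.Agent.P239.L2 x1 →L[ℂ] Vale.Agent.P239.L2 x1) := inferInstance
theorem a27.{u1} {x1 : Type u1} [x2 : Group x1] {x3 : Subgroup x1} : ContinuousConstSMul ℂ (Vale.Agent.P239.L2 ↥x3) := inferInstance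
theorem a28.{u1} {x1 : Type u1} [x2 : Group x1] {x3 : Subgroup x1} : IsTopologicalAddGroup (Vale.Agent.P239.L2 ↥x3) := inferInstance
@[reducible] noncomputable def a29.{u1} {x1 : Type u1} : SMul ℂ (Vale.Agent.P239.L2 x1 →L[ℂ] Vale.Agent.P239.L2 x1) := inferInstance
@[reducible] noncomputable def a30.{u1} {x1 : Type u1} : MulAction ℂ (Vale.Agent.P239.L2 x1) := inferInstance
theorem a31.{u1} {x1 : Type u1} [x2 : Group x1] : AddHomClass (Vale.Agent.P239.VN x1 →ₐ[ℂ] Vale.Agent.P239.L2 x1 →L[ℂ] Vale.Agent.P239.L2 x1) (Vale.Agent.P239.VN x1) (Vale.Agent.P239.L2 x1 →L[ℂ] Vale.Agent.P239.L2 x1) := inferInstance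
theorem a32.{u1} {x1 : Type u1} [x2 : Group x1] : MonoidWithZeroHomClass (Vale.Agent.P239.VN x1 →ₐ[ℂ] Vale.Agent.P239.L2 x1 →L[ℂ] Vale.Agent.P239.L2 x1) (Vale.Agent.P239.VN x1) (Vale.Agent.P239.L2 x1 →L[ℂ] Vale.Agent.P239.L2 x1) := inferInstance
@[reducible] noncomputable def a33.{u1} {x1 : Type u1} : AddCommMonoid (Vale.Agent.P239.L2 x1 →L[ℂ] Vale.Agent.P239.L2 x1) := inferInstance
@[reducible] noncomputable def a34.{u1} {x1 : Type u1} : Add (Vale.Agent.P239.L2 x1 →L[ℂ] Vale.Agent.P239.L2 x1) := inferInstance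
@[reducible] noncomputable def a35.{u1} {x1 : Type u1} [x2 : Group x1] {x3 : Subgroup x1} : AddZero (Vale.Agent.P239.L2 ↥x3) := inferInstance
@[reducible] noncomputable def a36.{u1} {x1 : Type u1} [x2 : Group x1] {x3 : Subgroup x1} : AddZeroClass (Vale.Agent.P239.L2 ↥x3) := inferInstance
@[reducible] noncomputable def a37.{u1} {x1 : Type u1} [x2 : Group x1] {x3 : Subgroup x1} : AddMonoid (Vale.Agent.P239.L2 ↥x3) := inferInstance
@[reducible] noncomputable def a38.{u1} {x1 : Type u1} : NonUnitalNonAssocSemiring (Vale.Agent.P239.L2 x1 →L[ℂ] Vale.Agent.P239.L2 x1) := inferInstance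
theorem a39.{u1} {x1 : Type u1} [x2 : Group x1] : MulActionSemiHomClass (Vale.Agent.P239.VN x1 →ₐ[ℂ] Vale.Agent.P239.L2 x1 →L[ℂ] Vale.Agent.P239.L2 x1) (⇑(RingHom.id ℂ)) (Vale.Agent.P239.VN x1) (Vale.Agent.P239.L2 x1 →L[ℂ] Vale.Agent.P239.L2 x1) := inferInstance
theorem a40.{u1} {x1 : Type u1} [x2 : Group x1] : ZeroHomClass (Vale.Agent.P239.VN x1 →ₐ[ℂ] Vale.Agent.P239.L2 x1 →L[ℂ] Vale.Agent.P239.L2 x1) (Vale.Agent.P239.VN x1) (Vale.Agent.P239.L2 x1 →L[ℂ] Vale.Agent.P239.L2 x1) := inferInstance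
@[reducible] noncomputable def a41.{u1} {x1 : Type} {x2 : Type u1} : Module ℂ (WithLp 2 (x1 → Vale.Agent.P239.L2 x2)) := inferInstance
theorem a42.{u1} {x1 : Type u1} [x2 : Group x1] : AddMonoidHomClass (Vale.Agent.P239.VN x1 →ₐ[ℂ] Vale.Agent.P239.L2 x1 →L[ℂ] Vale.Agent.P239.L2 x1) (Vale.Agent.P239.VN x1) (Vale.Agent.P239.L2 x1 →L[ℂ] Vale.Agent.P239.L2 x1) := inferInstance
theorem a43.{u1} {x1 : Type u1} [x2 : Group x1] : DistribMulActionSemiHomClass (Vale.Agent.P239.VN x1 →ₐ[ℂ] Vale.Agent.P239.L2 x1 →L[ℂ] Vale.Agent.P239.L2 x1) (⇑(MonoidHom.id ℂ)) (Vale.Agent.P239.VN x1) (Vale.Agent.P239.L2 x1 →L[ℂ] Vale.Agent.P239.L2 x1) := inferInstance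
@[reducible] noncomputable def a44.{u1} {x1 : Type u1} : AddCommMagma (Vale.Agent.P239.L2 x1) := inferInstance
@[reducible] noncomputable def a45.{u1} {x1 : Type u1} : AddCommSemigroup (Vale.Agent.P239.L2 x1) := inferInstance
@[reducible] noncomputable def a46.{u1} {x1 : Type u1} : NonUnitalNonAssocRing (Vale.Agent.P239.L2 x1 →L[ℂ] Vale.Agent.P239.L2 x1) := inferInstance
@[reducible] noncomputable def a47.{u1} {x1 : Type u1} : SeminormedAddCommGroup (Vale.Agent.P239.L2 x1 →L[ℂ] Vale.Agent.P239.L2 x1) := inferInstance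
@[reducible] noncomputable def a48.{u1} {x1 : Type u1} : NonAssocRing (Vale.Agent.P239.L2 x1 →L[ℂ] Vale.Agent.P239.L2 x1) := inferInstance
@[reducible] noncomputable def a49.{u1} {x1 : Type u1} : SMulZeroClass ℂ (Vale.Agent.P239.L2 x1 →L[ℂ] Vale.Agent.P239.L2 x1) := inferInstance
@[reducible] noncomputable def a50.{u1} {x1 : Type u1} : Ring (Vale.Agent.P239.L2 x1 →L[ℂ] Vale.Agent.P239.L2 x1) := inferInstance
@[reducible] noncomputable def a51.{u1} {x1 : Type u1} : DistribSMul ℂ (Vale.Agent.P239.L2 x1 →L[ℂ] Vale.Agent.P239.L2 x1) := inferInstance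
@[reducible] noncomputable def a52.{u1} {x1 : Type u1} : DistribMulAction ℂ (Vale.Agent.P239.L2 x1 →L[ℂ] Vale.Agent.P239.L2 x1) := inferInstance
theorem a53.{u1} {x1 : Type u1} [x2 : Group x1] : OneHomClass (Vale.Agent.P239.VN x1 →ₐ[ℂ] Vale.Agent.P239.L2 x1 →L[ℂ] Vale.Agent.P239.L2 x1) (Vale.Agent.P239.VN x1) (Vale.Agent.P239.L2 x1 →L[ℂ] Vale.Agent.P239.L2 x1) := inferInstance
theorem a54.{u1} {x1 : Type u1} [x2 : Group x1] : MonoidHomClass (Vale.Agent.P239.VN x1 →ₐ[ℂ] Vale.Agent.P239.L2 x1 →L[ℂ] Vale.Agent.P239.L2 x1) (Vale.Agent.P239.VN x1) (Vale.Agent.P239.L2 x1 →L[ℂ] Vale.Agent.P239.L2 x1) := inferInstance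
@[reducible] noncomputable def a55.{u1} {x1 : Type u1} : AddZeroClass (Vale.Agent.P239.L2 x1 →L[ℂ] Vale.Agent.P239.L2 x1) := inferInstance
@[reducible] noncomputable def a56.{u1} {x1 : Type u1} : AddMonoid (Vale.Agent.P239.L2 x1 →L[ℂ] Vale.Agent.P239.L2 x1) := inferInstance
@[reducible] noncomputable def a57.{u1} {x1 : Type u1} : AddZero (Vale.Agent.P239.L2 x1 →L[ℂ] Vale.Agent.P239.L2 x1) := inferInstance
@[reducible] noncomputable def a58.{u1} {x1 : Type u1} : MulOneClass (Vale.Agent.P239.L2 x1 →L[ℂ] Vale.Agent.P239.L2 x1) := inferInstance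
@[reducible] noncomputable def a59.{u1} {x1 : Type u1} : MulZeroOneClass (Vale.Agent.P239.L2 x1 →L[ℂ] Vale.Agent.P239.L2 x1) := inferInstance
@[reducible] noncomputable def a60.{u1} {x1 : Type u1} : Distrib (Vale.Agent.P239.L2 x1 →L[ℂ] Vale.Agent.P239.L2 x1) := inferInstance
end AFast1d7f69x5b
attribute [local instance] AFast1d7f69x5b.a0 AFast1d7f69x5b.a1 AFast1d7f69x5b.a2 AFast1d7f69x5b.a3
  AFast1d7f69x5b.a4 AFast1d7f69x5b.a5 AFast1d7f69x5b.a6 AFast1d7f69x5b.a7 AFast1d7f69x5b.a8
  AFast1d7f69x5b.a9 AFast1d7f69x5b.a10 AFast1d7f69x5b.a11 AFast1d7f69x5b.a12 AFast1d7f69x5b.a13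
  AFast1d7f69x5b.a14 AFast1d7f69x5b.a15 AFast1d7f69x5b.a16 AFast1d7f69x5b.a17 AFast1d7f69x5b.a18
  AFast1d7f69x5b.a19 AFast1d7f69x5b.a20 AFast1d7f69x5b.a21 AFast1d7f69x5b.a22 AFast1d7f69x5b.a23
  AFast1d7f69x5b.a24 AFast1d7f69x5b.a25 AFast1d7f69x5b.a26 AFast1d7f69x5b.a27 AFast1d7f69x5b.a28
  AFast1d7f69x5b.a29 AFast1d7f69x5b.a30 AFast1d7f69x5b.a31 AFast1d7f69x5b.a32 AFast1d7f69x5b.a33
  AFast1d7f69x5b.a34 AFast1d7f69x5b.a35 AFast1d7f69x5b.a36 AFast1d7f69x5b.a37 AFast1d7f69x5b.a38
  AFast1d7f69x5b.a39 AFast1d7f69x5b.a40 AFast1d7f69x5b.a41 AFast1d7f69x5b.a42 AFast1d7f69x5b.a43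
  AFast1d7f69x5b.a44 AFast1d7f69x5b.a45 AFast1d7f69x5b.a46 AFast1d7f69x5b.a47 AFast1d7f69x5b.a48
  AFast1d7f69x5b.a49 AFast1d7f69x5b.a50 AFast1d7f69x5b.a51 AFast1d7f69x5b.a52 AFast1d7f69x5b.a53
  AFast1d7f69x5b.a54 AFast1d7f69x5b.a55 AFast1d7f69x5b.a56 AFast1d7f69x5b.a57 AFast1d7f69x5b.a58
  AFast1d7f69x5b.a59 AFast1d7f69x5b.a60
section

/-! Star structure and trace on the group von Neumann algebra. -/

namespace Vale.Agent.P239

open scoped ENNReal InnerProductSpace

set_option linter.unusedSectionVars false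

variable {G : Type*} [Group G]

open Classical in
/-- The basis vector at `x`. -/
noncomputable def dl (x : G) : L2 G := lp.single 2 x 1

open Classical in
theorem dl_apply (x y : G) : dl x y = if y = x then 1 else 0 := by
  rw [dl, lp.single_apply, Pi.single_apply]

theorem inner_dl (x : G) (v : L2 G) : ⟪dl x, v⟫_ℂ = v x := by
  classical
  rw [dl, lp.inner_single_left]
  simp

theorem rTrans_apply (g : G) (v : L2 G) (x : G) : rTrans g v x = v (x * g) := rfl

theorem rTrans_dl (g x : G) : rTrans g (dl x) = dl (x * g⁻¹) := by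
  classical
  refine lp.ext (funext fun y => ?_)
  rw [rTrans_apply, dl_apply, dl_apply]
  congr 1
  rw [eq_mul_inv_iff_mul_eq]

theorem lam_dl (g x : G) : (lam g).op (dl x) = dl (g * x) := by
  classical
  refine lp.ext (funext fun y => ?_)
  rw [lam_op_apply, dl_apply, dl_apply]
  congr 1
  rw [inv_mul_eq_iff_eq_mul]

theorem inner_rTrans (g : G) (u v : L2 G) : ⟪rTrans g u, rTrans g v⟫_ℂ = ⟪u, v⟫_ℂ :=
  (shift (Equiv.mulRight g)).inner_map_map u v

theorem rTrans_mul (g h : G) (v : L2 G) : rTrans g (rTrans h v) = rTrans (g * h) v := by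
  refine lp.ext (funext fun y => ?_)
  simp only [rTrans_apply, mul_assoc]

theorem rTrans_one (v : L2 G) : rTrans 1 v = v := by
  refine lp.ext (funext fun y => ?_)
  simp only [rTrans_apply, mul_one]

theorem inner_rTrans_left (g : G) (u v : L2 G) : ⟪rTrans g u, v⟫_ℂ = ⟪u, rTrans g⁻¹ v⟫_ℂ := by
  rw [← inner_rTrans g⁻¹, rTrans_mul, inv_mul_cancel, rTrans_one]

theorem VN.op_comm (a : VN G) (g : G) (v : L2 G) :
    a.op (rTrans g v) = rTrans g (a.op v) := by
  have h := a.2
  rw [Subalgebra.mem_centralizer_iff] at h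
  have := h (rTrans g) ⟨g, rfl⟩
  exact (DFunLike.congr_fun this v).symm

/-- Constructor for elements of the group von Neumann algebra. -/
noncomputable def VN.mk (T : L2 G →L[ℂ] L2 G) (h : ∀ g v, T (rTrans g v) = rTrans g (T v)) :
    VN G :=
  ⟨T, by
    rw [Subalgebra.mem_centralizer_iff]
    rintro _ ⟨g, rfl⟩
    refine ContinuousLinearMap.ext fun v => ?_
    exact (h g v).symm⟩

@[simp] theorem VN.mk_op (T : L2 G →L[ℂ] L2 G) (h : ∀ g v, T (rTrans g v) = rTrans g (T v)) :
    (VN.mk T h).op = T := rfl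

theorem VN.ext_op {a b : VN G} (h : ∀ v, a.op v = b.op v) : a = b :=
  VN.op_injective (ContinuousLinearMap.ext h)

theorem VN.op_dl (a : VN G) (x y : G) : a.op (dl x) y = a.op (dl 1) (y * x⁻¹) := by
  have : (dl x : L2 G) = rTrans x⁻¹ (dl 1) := by rw [rTrans_dl, inv_inv, one_mul]
  rw [this, VN.op_comm, rTrans_apply]

theorem VN.op_ext_one {a b : VN G} (h : a.op (dl 1) = b.op (dl 1)) : a = b := by
  classical
  have h2 : ∀ x, a.op (dl x) = b.op (dl x) := fun x => by
    refine lp.ext (funext fun y => ?_)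
    rw [VN.op_dl, h, ← VN.op_dl]
  refine VN.ext_op fun v => ?_
  have hv := lp.hasSum_single (p := 2) (by norm_num) v
  have e : ∀ x, lp.single 2 x (v x) = v x • (dl x : L2 G) := fun x => by
    rw [dl, ← lp.single_smul]; simp
  simp only [e] at hv
  have h3 := hv.mapL a.op
  have h4 := hv.mapL b.op
  simp only [map_smul, h2] at h3 h4
  exact h3.unique h4

noncomputable instance : StarRing (VN G) where
  star a := VN.mk (ContinuousLinearMap.adjoint a.op) (by
    intro g v
    refine ext_inner_left ℂ fun w => ?_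
    rw [ContinuousLinearMap.adjoint_inner_right]
    rw [← inv_inv g, ← inner_rTrans_left, ← inner_rTrans_left,
      ContinuousLinearMap.adjoint_inner_right, VN.op_comm])
  star_involutive a := VN.ext_op fun v => by
    simp only [VN.mk_op, ContinuousLinearMap.adjoint_adjoint]
  star_mul a b := VN.ext_op fun v => by
    simp only [VN.mk_op, map_mul]
    rw [← ContinuousLinearMap.star_eq_adjoint, star_mul]
    rfl
  star_add a b := VN.ext_op fun v => by
    simp only [VN.mk_op, map_add]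

theorem VN.op_star (a : VN G) : (star a).op = ContinuousLinearMap.adjoint a.op := rfl

theorem VN.inner_star_left (a : VN G) (u v : L2 G) : ⟪(star a).op u, v⟫_ℂ = ⟪u, a.op v⟫_ℂ := by
  rw [VN.op_star, ContinuousLinearMap.adjoint_inner_left]

theorem VN.inner_star_right (a : VN G) (u v : L2 G) : ⟪u, (star a).op v⟫_ℂ = ⟪a.op u, v⟫_ℂ := by
  rw [VN.op_star, ContinuousLinearMap.adjoint_inner_right]

theorem star_lam (g : G) : star (lam g) = lam g⁻¹ := by
  classical
  refine VN.op_ext_one ?_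
  refine lp.ext (funext fun y => ?_)
  rw [← inner_dl, VN.inner_star_right, lam_dl, inner_dl, lam_dl, dl_apply, dl_apply]
  congr 1
  rw [mul_one, eq_inv_iff_mul_eq_one, eq_comm, mul_eq_one_iff_eq_inv', eq_comm, eq_inv_iff_mul_eq_one]

instance : StarModule ℂ (VN G) where
  star_smul c a := VN.ext_op fun v => by
    rw [VN.op_star, map_smul VN.op c a, map_smulₛₗ, map_smul VN.op]
    rfl

theorem tr_eq (a : VN G) : tr a = ⟪dl 1, a.op (dl 1)⟫_ℂ := rfl

theorem tr_star (a : VN G) : tr (star a) = star (tr a) := by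
  rw [tr_eq, tr_eq, VN.inner_star_right, ← inner_conj_symm]
  rfl

theorem tr_star_mul_self (a : VN G) : tr (star a * a) = (‖a.op (dl 1)‖ : ℂ) ^ 2 := by
  rw [tr_eq, map_mul, mul_apply_eq_comp, VN.inner_star_right,
    inner_self_eq_norm_sq_to_K]
  rfl

theorem tr_add (a b : VN G) : tr (a + b) = tr a + tr b := by
  rw [tr_eq, tr_eq, tr_eq, map_add, add_apply, inner_add_right]

theorem tr_smul (c : ℂ) (a : VN G) : tr (c • a) = c * tr a := by
  rw [tr_eq, tr_eq, map_smul, smul_apply, inner_smul_right]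

theorem tr_mul_eq (a b : VN G) :
    tr (a * b) = ∑' x, a.op (dl 1) x⁻¹ * b.op (dl 1) x := by
  rw [tr_eq, map_mul, mul_apply_eq_comp, ← VN.inner_star_left, lp.inner_eq_tsum]
  refine tsum_congr fun x => ?_
  have h1 : (star a).op (dl 1) x = star (a.op (dl 1) x⁻¹) := by
    rw [← inner_dl, VN.inner_star_right, ← inner_conj_symm, inner_dl, VN.op_dl a x 1, one_mul]
    rfl
  rw [RCLike.inner_apply, h1]
  simp [mul_comm]

theorem tr_mul_comm (a b : VN G) : tr (a * b) = tr (b * a) := by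
  rw [tr_mul_eq, tr_mul_eq, ← (Equiv.inv G).tsum_eq]
  refine tsum_congr fun x => ?_
  simp [mul_comm]

theorem tr_one : tr (1 : VN G) = 1 := by
  classical
  rw [tr_eq, map_one, one_apply_eq_self, inner_dl, dl_apply]; simp

end Vale.Agent.P239
end

section

/-! Trace data on the group von Neumann algebra. -/

set_option linter.unusedSectionVars false

namespace Vale.Agent.P239

open scoped ENNReal InnerProductSpace Matrix
open Matrix

variable {G : Type*} [Group G]

/-- real part of the trace as a real-linear map -/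
noncomputable def retr : VN G →ₗ[ℝ] ℝ where
  toFun a := (tr a).re
  map_add' a b := by rw [tr_add, Complex.add_re]
  map_smul' c a := by
    have : (c • a : VN G) = ((c : ℂ) • a : VN G) := rfl
    rw [this, tr_smul]
    simp

theorem retr_apply (a : VN G) : retr a = (tr a).re := rfl

theorem retr_star_mul_self (a : VN G) : retr (star a * a) = ‖a.op (dl 1)‖ ^ 2 := by
  rw [retr_apply, tr_star_mul_self, ← Complex.ofReal_pow, Complex.ofReal_re]

theorem retr_mul_comm (a b : VN G) : retr (a * b) = retr (b * a) := by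
  rw [retr_apply, tr_mul_comm, retr_apply]

theorem retr_mul_star_self (a : VN G) : retr (star a * a) = ‖(star a).op (dl 1)‖ ^ 2 := by
  rw [retr_mul_comm]
  nth_rewrite 1 [← star_star a]
  rw [retr_star_mul_self]

section proj

variable {ι : Type} [Fintype ι] [DecidableEq ι]

/-- The Hilbert space `ℓ²(G)^ι`. -/
abbrev HH (ι : Type) [Fintype ι] (G : Type*) := PiLp 2 (fun _ : ι => L2 G)

/-- coordinate inclusion -/
noncomputable def inj (ι : Type) [Fintype ι] [DecidableEq ι] (G : Type*) (j : ι) :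
    L2 G →L[ℂ] HH ι G :=
  ((PiLp.continuousLinearEquiv 2 ℂ (fun _ : ι => L2 G)).symm.toContinuousLinearMap).comp
    (ContinuousLinearMap.single ℂ (fun _ : ι => L2 G) j)

/-- coordinate projection -/
noncomputable def prj (ι : Type) [Fintype ι] (G : Type*) (j : ι) : HH ι G →L[ℂ] L2 G :=
  (ContinuousLinearMap.proj j).comp
    (PiLp.continuousLinearEquiv 2 ℂ (fun _ : ι => L2 G)).toContinuousLinearMap

theorem prj_apply (j : ι) (v : HH ι G) : prj ι G j v = v j := rfl

theorem inj_apply (i j : ι) (v : L2 G) : inj ι G j v i = if i = j then v else 0 := by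
  change (Pi.single j v : ι → L2 G) i = _
  rw [Pi.single_apply]

theorem sum_inj (v : HH ι G) : ∑ j, inj ι G j (v j) = v := by
  ext1 i
  have : (∑ j, inj ι G j (v j)) i = ∑ j, inj ι G j (v j) i := by
    rw [← prj_apply, map_sum]; rfl
  rw [this]
  simp [inj_apply]

theorem inner_inj (j : ι) (u : L2 G) (v : HH ι G) : ⟪inj ι G j u, v⟫_ℂ = ⟪u, v j⟫_ℂ := by
  rw [PiLp.inner_apply, Finset.sum_eq_single j]
  · rw [inj_apply, if_pos rfl]
  · intro i _ hij
    rw [inj_apply, if_neg hij, inner_zero_left]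
  · intro h; exact absurd (Finset.mem_univ j) h

/-- diagonal right translation -/
noncomputable def rT (ι : Type) [Fintype ι] [DecidableEq ι] (g : G) : HH ι G →L[ℂ] HH ι G :=
  ∑ j, (inj ι G j).comp ((rTrans g).comp (prj ι G j))

theorem rT_apply (g : G) (v : HH ι G) (i : ι) : rT ι g v i = rTrans g (v i) := by
  rw [← prj_apply, rT, _root_.sum_apply, map_sum, Finset.sum_eq_single i]
  · change inj ι G i (rTrans g (v i)) i = _
    rw [inj_apply, if_pos rfl]
  · intro j _ hij
    change inj ι G j (rTrans g (v j)) i = 0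
    rw [inj_apply, if_neg (Ne.symm hij)]
  · intro h; exact absurd (Finset.mem_univ i) h

theorem rT_inj (g : G) (j : ι) (u : L2 G) : rT ι g (inj ι G j u) = inj ι G j (rTrans g u) := by
  ext1 i
  rw [rT_apply, inj_apply, inj_apply]
  split_ifs
  · rfl
  · exact map_zero _

theorem inner_rT_left (g : G) (u v : HH ι G) : ⟪rT ι g u, v⟫_ℂ = ⟪u, rT ι g⁻¹ v⟫_ℂ := by
  rw [PiLp.inner_apply, PiLp.inner_apply]
  refine Finset.sum_congr rfl fun i _ => ?_
  rw [rT_apply, rT_apply, inner_rTrans_left]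

/-- the vector attached to a row of operators -/
noncomputable def vec (k : ι → VN G) : HH ι G := WithLp.toLp 2 fun i => (star (k i)).op (dl 1)

theorem vec_apply (k : ι → VN G) (i : ι) : vec k i = (star (k i)).op (dl 1) := rfl

theorem rT_vec (g : G) (k : ι → VN G) : rT ι g (vec k) = vec (lam g • k) := by
  ext1 i
  rw [rT_apply, vec_apply, vec_apply, ← VN.op_comm, rTrans_dl, Pi.smul_apply, smul_eq_mul,
    star_mul, star_lam, map_mul, mul_apply_eq_comp, lam_dl]
  simp

/-- the complex subspace attached to a left submodule of `N^ι`. -/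
noncomputable def vecSub (K : Submodule (VN G) (ι → VN G)) : Submodule ℂ (HH ι G) where
  carrier := {v | ∃ k ∈ K, vec k = v}
  zero_mem' := ⟨0, K.zero_mem, by ext1 i; rw [vec_apply]; simp⟩
  add_mem' := by
    rintro _ _ ⟨k, hk, rfl⟩ ⟨k', hk', rfl⟩
    refine ⟨k + k', K.add_mem hk hk', ?_⟩
    ext1 i
    rw [vec_apply, PiLp.add_apply, vec_apply, vec_apply, Pi.add_apply, star_add, map_add]
    rfl
  smul_mem' := by
    rintro c _ ⟨k, hk, rfl⟩
    refine ⟨(algebraMap ℂ (VN G) (star c)) • k, K.smul_mem _ hk, ?_⟩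
    ext1 i
    rw [vec_apply, PiLp.smul_apply, vec_apply, Pi.smul_apply, smul_eq_mul, ← Algebra.smul_def,
      star_smul, star_star, map_smul]
    rfl

theorem mem_vecSub {K : Submodule (VN G) (ι → VN G)} {k : ι → VN G} (hk : k ∈ K) :
    vec k ∈ vecSub K := ⟨k, hk, rfl⟩

/-- its closure -/
noncomputable def UU (K : Submodule (VN G) (ι → VN G)) : Submodule ℂ (HH ι G) :=
  (vecSub K).topologicalClosure

instance (K : Submodule (VN G) (ι → VN G)) : CompleteSpace (UU K) :=
  (vecSub K).isClosed_topologicalClosure.completeSpace_coe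

theorem rT_mem_UU (K : Submodule (VN G) (ι → VN G)) (g : G) {v : HH ι G} (hv : v ∈ UU K) :
    rT ι g v ∈ UU K := by
  have h1 : vecSub K ≤ (vecSub K).topologicalClosure.comap (rT ι g : HH ι G →ₗ[ℂ] HH ι G) := by
    rintro _ ⟨k, hk, rfl⟩
    refine (vecSub K).le_topologicalClosure ?_
    change rT ι g (vec k) ∈ vecSub K
    rw [rT_vec]
    exact mem_vecSub (K.smul_mem _ hk)
  have h2 : IsClosed (((vecSub K).topologicalClosure.comap (rT ι g : HH ι G →ₗ[ℂ] HH ι G) :
      Submodule ℂ (HH ι G)) : Set (HH ι G)) :=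
    (vecSub K).isClosed_topologicalClosure.preimage (rT ι g).continuous
  exact (vecSub K).topologicalClosure_minimal h1 h2 hv

theorem proj_comm (K : Submodule (VN G) (ι → VN G)) (g : G) (v : HH ι G) :
    (UU K).starProjection (rT ι g v) = rT ι g ((UU K).starProjection v) := by
  refine Submodule.eq_starProjection_of_mem_of_inner_eq_zero ?_ ?_
  · exact rT_mem_UU K g (Submodule.starProjection_apply_mem _ _)
  · intro w hw
    rw [← map_sub, inner_rT_left]
    exact Submodule.starProjection_inner_eq_zero v _ (rT_mem_UU K g⁻¹ hw)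

/-- The matrix of the projection onto `UU K`. -/
noncomputable def projMat (K : Submodule (VN G) (ι → VN G)) : Matrix ι ι (VN G) :=
  Matrix.of fun i j => VN.mk ((prj ι G i).comp ((UU K).starProjection.comp (inj ι G j))) (by
    intro g v
    change (UU K).starProjection (inj ι G j (rTrans g v)) i =
      rTrans g ((UU K).starProjection (inj ι G j v) i)
    rw [← rT_inj, proj_comm, rT_apply])

theorem projMat_op (K : Submodule (VN G) (ι → VN G)) (i j : ι) (v : L2 G) :
    (projMat K i j).op v = (UU K).starProjection (inj ι G j v) i := rfl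

theorem projMat_mul (K : Submodule (VN G) (ι → VN G)) : projMat K * projMat K = projMat K := by
  ext i j
  refine VN.ext_op fun v => ?_
  rw [Matrix.mul_apply, map_sum, _root_.sum_apply]
  have e : ∀ k, (projMat K i k * projMat K k j).op v =
      prj ι G i ((UU K).starProjection (inj ι G k ((UU K).starProjection (inj ι G j v) k))) :=
    fun k => by
      rw [map_mul, mul_apply_eq_comp, projMat_op, projMat_op]; rfl
  simp only [e]
  rw [← map_sum, ← map_sum, sum_inj, projMat_op, prj_apply]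
  rw [(Submodule.starProjection_eq_self_iff (K := UU K)).2
    (Submodule.starProjection_apply_mem _ _)]

theorem projMat_star (K : Submodule (VN G) (ι → VN G)) : (projMat K)ᴴ = projMat K := by
  ext i j
  refine VN.ext_op fun v => ?_
  refine ext_inner_left ℂ fun w => ?_
  rw [Matrix.conjTranspose_apply, VN.inner_star_right, projMat_op, projMat_op, ← inner_inj]
  rw [← inner_conj_symm, ← inner_inj, inner_conj_symm]
  exact (UU K).starProjection_isSymmetric _ _

theorem projMat_vecMul (K : Submodule (VN G) (ι → VN G)) {k : ι → VN G} (hk : k ∈ K) :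
    k ᵥ* projMat K = k := by
  have key : ∀ u : HH ι G, (∀ w ∈ UU K, ⟪w, u⟫_ℂ = 0) → ∑ i, (k i).op (u i) = 0 := by
    intro u hu
    refine lp.ext (funext fun y => ?_)
    rw [← inner_dl, inner_sum]
    have h1 := hu (vec (lam y⁻¹ • k)) ((vecSub K).le_topologicalClosure
      (mem_vecSub (K.smul_mem _ hk)))
    rw [PiLp.inner_apply] at h1
    rw [lp.coeFn_zero, Pi.zero_apply, ← h1]
    refine Finset.sum_congr rfl fun i _ => ?_
    rw [vec_apply, Pi.smul_apply, smul_eq_mul, star_mul, star_lam, inv_inv, map_mul,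
      mul_apply_eq_comp, lam_dl, mul_one, VN.inner_star_left]
  ext j
  refine VN.ext_op fun v => ?_
  simp only [Matrix.vecMul, dotProduct]
  rw [map_sum, _root_.sum_apply]
  have h2 := key (inj ι G j v - (UU K).starProjection (inj ι G j v)) (fun w hw => by
    rw [← inner_conj_symm, Submodule.starProjection_inner_eq_zero _ _ hw, map_zero])
  have e : ∀ i, (k i * projMat K i j).op v = (k i).op ((UU K).starProjection (inj ι G j v) i) :=
    fun i => by rw [map_mul, mul_apply_eq_comp, projMat_op]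
  simp only [e]
  have h3 : ∀ i, (inj ι G j v - (UU K).starProjection (inj ι G j v)) i =
    inj ι G j v i - (UU K).starProjection (inj ι G j v) i := fun i => rfl
  simp only [h3, map_sub, Finset.sum_sub_distrib] at h2
  rw [sub_eq_zero] at h2
  rw [← h2, Finset.sum_eq_single j]
  · rw [inj_apply, if_pos rfl]
  · intro i _ hij
    rw [inj_apply, if_neg hij, map_zero]
  · intro h; exact absurd (Finset.mem_univ j) h

theorem projMat_approx (K : Submodule (VN G) (ι → VN G)) (ε : ℝ) (hε : 0 < ε) (i : ι) :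
    ∃ k ∈ K, ∑ j, retr (star (k j - projMat K i j) * (k j - projMat K i j)) < ε := by
  have hmem : (UU K).starProjection (inj ι G i (dl 1)) ∈ closure (vecSub K : Set (HH ι G)) :=
    Submodule.starProjection_apply_mem (UU K) _
  obtain ⟨_, ⟨k, hk, rfl⟩, hlt⟩ := Metric.mem_closure_iff.1 hmem (Real.sqrt ε) (Real.sqrt_pos.2 hε)
  refine ⟨k, hk, ?_⟩
  have e : ∑ j, retr (star (k j - projMat K i j) * (k j - projMat K i j)) =
      ‖vec k - (UU K).starProjection (inj ι G i (dl 1))‖ ^ 2 := by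
    rw [PiLp.norm_sq_eq_of_L2]
    refine Finset.sum_congr rfl fun j _ => ?_
    rw [retr_mul_star_self, star_sub, map_sub]
    congr 2
    change (star (k j)).op (dl 1) - (star (projMat K i j)).op (dl 1) = vec k j - _
    rw [vec_apply]
    congr 1
    have := congrFun (congrFun (projMat_star K) j) i
    rw [Matrix.conjTranspose_apply] at this
    rw [this, projMat_op]
    rfl
  rw [e]
  rw [dist_comm, dist_eq_norm] at hlt
  calc _ < (Real.sqrt ε) ^ 2 := by gcongr
    _ = ε := Real.sq_sqrt hε.le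

end proj

/-- The trace data of the group von Neumann algebra. -/
noncomputable def vnData (G : Type*) [Group G] : TraceData (VN G) where
  t := retr
  comm := retr_mul_comm
  star_t a := by rw [retr_apply, tr_star, retr_apply]; exact Complex.conj_re _
  nonneg a := by rw [retr_star_mul_self]; positivity
  faithful a h := by
    rw [retr_star_mul_self] at h
    have h2 : a.op (dl 1) = 0 := by simpa using h
    exact VN.op_ext_one (by rw [h2, map_zero]; rfl)
  one := by rw [retr_apply, tr_one]; rfl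
  bdd a := by
    refine ⟨‖a.op‖ ^ 2, by positivity, fun x => ?_⟩
    rw [retr_star_mul_self, retr_star_mul_self, map_mul, mul_apply_eq_comp, ← mul_pow]
    gcongr
    exact a.op.le_opNorm _
  proj ι _ _ K := ⟨projMat K, projMat_mul K, projMat_star K, fun k hk => projMat_vecMul K hk,
    fun ε hε i => projMat_approx K ε hε i⟩

end Vale.Agent.P239
end
namespace AFast1d7f69x446a
@[reducible] noncomputable def a0.{u1} {x1 : Type} [x2 : Fintype x1] {x3 : Type u1} : TopologicalSpace (Vale.Agent.P239.HH x1 x3) := inferInstance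
end AFast1d7f69x446a
attribute [local instance] AFast1d7f69x446a.a0
namespace AFast1d7f69x446b
@[reducible] noncomputable def a0.{u1} {x1 : Type} [x2 : Fintype x1] {x3 : Type u1} : SMulZeroClass ℂ (Vale.Agent.P239.HH x1 x3) := inferInstance
@[reducible] noncomputable def a1.{u1} {x1 : Type} [x2 : Fintype x1] {x3 : Type u1} : DistribSMul ℂ (Vale.Agent.P239.HH x1 x3) := inferInstance
@[reducible] noncomputable def a2.{u1} {x1 : Type} [x2 : Fintype x1] {x3 : Type u1} : DistribMulAction ℂ (Vale.Agent.P239.HH x1 x3) := inferInstance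
@[reducible] noncomputable def a3.{u1} {x1 : Type} [x2 : Fintype x1] {x3 : Type u1} : SMul ℂ (Vale.Agent.P239.HH x1 x3) := inferInstance
@[reducible] noncomputable def a4.{u1} {x1 : Type} [x2 : Fintype x1] {x3 : Type u1} : Module ℂ (Vale.Agent.P239.HH x1 x3) := inferInstance
theorem a5.{u1} {x1 : Type} [x2 : Fintype x1] {x3 : Type u1} : ContinuousConstSMul ℂ (Vale.Agent.P239.HH x1 x3) := inferInstance
@[reducible] noncomputable def a6.{u1} {x1 : Type} [x2 : Fintype x1] {x3 : Type u1} : NormedSpace ℂ (Vale.Agent.P239.HH x1 x3) := inferInstance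
theorem a7.{u1} {x1 : Type} [x2 : Fintype x1] {x3 : Type u1} : AddMonoidHomClass (Vale.Agent.P239.HH x1 x3 →L[ℂ] Vale.Agent.P239.L2 x3) (Vale.Agent.P239.HH x1 x3) (Vale.Agent.P239.L2 x3) := inferInstance
theorem a8.{u1} {x1 : Type} [x2 : Fintype x1] {x3 : Type u1} : DistribMulActionSemiHomClass (Vale.Agent.P239.HH x1 x3 →L[ℂ] Vale.Agent.P239.L2 x3) (⇑(RingHom.id ℂ)) (Vale.Agent.P239.HH x1 x3) (Vale.Agent.P239.L2 x3) := inferInstance
theorem a9.{u1} {x1 : Type} [x2 : Fintype x1] {x3 : Type u1} : UniformContinuousConstSMul ℂ (Vale.Agent.P239.HH x1 x3) := inferInstance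
theorem a10.{u1} {x1 : Type} [x2 : Fintype x1] {x3 : Type u1} : ContinuousAdd (Vale.Agent.P239.HH x1 x3) := inferInstance
end AFast1d7f69x446b
attribute [local instance] AFast1d7f69x446b.a0 AFast1d7f69x446b.a1 AFast1d7f69x446b.a2
  AFast1d7f69x446b.a3 AFast1d7f69x446b.a4 AFast1d7f69x446b.a5 AFast1d7f69x446b.a6
  AFast1d7f69x446b.a7 AFast1d7f69x446b.a8 AFast1d7f69x446b.a9 AFast1d7f69x446b.a10

section

/-! The inclusion of group von Neumann algebras for a subgroup. -/

set_option linter.unusedSectionVars false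

namespace Vale.Agent.P239

open scoped ENNReal InnerProductSpace

variable {G : Type*} [Group G] (H : Subgroup G)

/-- slice of a vector along the right coset `H y`. -/
noncomputable def slice (y : G) : L2 G →ₗ[ℂ] L2 H where
  toFun ξ := ⟨fun h => ξ (h * y), by
    have h := lp.memℓp ξ
    rw [memℓp_gen_iff (by norm_num)] at h
    have h2 : Memℓp (fun h : H => ξ (h * y)) 2 := by
      rw [memℓp_gen_iff (by norm_num)]
      exact h.comp_injective (i := fun h : H => (h : G) * y)
        (fun a b hab => Subtype.ext (mul_right_cancel hab))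
    exact h2⟩
  map_add' _ _ := rfl
  map_smul' _ _ := rfl

theorem slice_apply (y : G) (ξ : L2 G) (h : H) : slice H y ξ h = ξ (h * y) := rfl

theorem slice_mul (h : H) (y : G) (ξ : L2 G) :
    slice H ((h : G) * y) ξ = rTrans h (slice H y ξ) := by
  refine lp.ext (funext fun k => ?_)
  rw [slice_apply, rTrans_apply, slice_apply, Subgroup.coe_mul, mul_assoc]

/-- representatives of right cosets -/
noncomputable def rep (q : G ⧸ H) : G := (Quotient.out q)⁻¹

/-- decomposition of `G` into right cosets -/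
noncomputable def cosetEquiv : (G ⧸ H) × H ≃ G where
  toFun p := p.2 * rep H p.1
  invFun y := (((y⁻¹ : G) : G ⧸ H), ⟨y * Quotient.out ((y⁻¹ : G) : G ⧸ H), by
    have h : ((y⁻¹ : G) : G ⧸ H) = ((Quotient.out ((y⁻¹ : G) : G ⧸ H) : G) : G ⧸ H) :=
      (QuotientGroup.out_eq' _).symm
    have h2 := QuotientGroup.eq.1 h
    rwa [inv_inv] at h2⟩)
  left_inv := by
    rintro ⟨q, h⟩
    have e : (((((h : G) * rep H q)⁻¹ : G)) : G ⧸ H) = q := by
      rw [mul_inv_rev, rep, inv_inv]
      have : ((Quotient.out q * ((h : G))⁻¹ : G) : G ⧸ H) = (Quotient.out q : G) :=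
        QuotientGroup.mk_mul_of_mem _ (H.inv_mem h.2)
      rw [this]
      exact QuotientGroup.out_eq' q
    refine Prod.ext e (Subtype.ext ?_)
    change (h : G) * rep H q * Quotient.out (((((h : G) * rep H q)⁻¹ : G)) : G ⧸ H) = h
    rw [e, rep, inv_mul_cancel_right]
  right_inv := by
    intro y
    change y * Quotient.out ((y⁻¹ : G) : G ⧸ H) * rep H ((y⁻¹ : G) : G ⧸ H) = y
    rw [rep, mul_inv_cancel_right]

theorem cosetEquiv_eq (q : G ⧸ H) (h : H) :
    cosetEquiv H (q, h) = (h : G) * rep H q := rfl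

variable {H}

theorem norm_sq_eq_tsum (ξ : L2 G) : ‖ξ‖ ^ 2 = ∑' y, ‖ξ y‖ ^ 2 := by
  have := lp.norm_rpow_eq_tsum (p := 2) (by norm_num) ξ
  simpa using this

theorem summable_norm_sq (ξ : L2 G) : Summable fun y => ‖ξ y‖ ^ 2 := by
  have h := lp.memℓp ξ
  rw [memℓp_gen_iff (by norm_num)] at h
  simpa using h

variable (H)

theorem norm_slice_coset (ξ : L2 G) (q : G ⧸ H) :
    ‖slice H (rep H q) ξ‖ ^ 2 = ∑' h : H, ‖ξ (cosetEquiv H (q, h))‖ ^ 2 := by
  rw [norm_sq_eq_tsum]
  rfl

theorem summable_coset (ξ : L2 G) :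
    Summable fun q : G ⧸ H => ‖slice H (rep H q) ξ‖ ^ 2 := by
  have h1 : Summable fun p : (G ⧸ H) × H => ‖ξ (cosetEquiv H p)‖ ^ 2 :=
    ((cosetEquiv H).summable_iff (f := fun y => ‖ξ y‖ ^ 2)).2 (summable_norm_sq ξ)
  have h2 := (summable_prod_of_nonneg (f := fun p : (G ⧸ H) × H => ‖ξ (cosetEquiv H p)‖ ^ 2)
    (fun _ => by positivity)).1 h1
  refine h2.2.congr fun q => ?_
  exact (norm_slice_coset H ξ q).symm

theorem norm_sq_coset (ξ : L2 G) :
    ‖ξ‖ ^ 2 = ∑' q : G ⧸ H, ‖slice H (rep H q) ξ‖ ^ 2 := by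
  have h1 : Summable fun p : (G ⧸ H) × H => ‖ξ (cosetEquiv H p)‖ ^ 2 :=
    ((cosetEquiv H).summable_iff (f := fun y => ‖ξ y‖ ^ 2)).2 (summable_norm_sq ξ)
  rw [norm_sq_eq_tsum, ← (cosetEquiv H).tsum_eq, h1.tsum_prod]
  exact tsum_congr fun q => (norm_slice_coset H ξ q).symm

/-- the pointwise formula for the induced operator -/
noncomputable def indFun (T : VN H) (ξ : L2 G) (y : G) : ℂ := T.op (slice H y ξ) 1

theorem indFun_mul (T : VN H) (ξ : L2 G) (h : H) (y : G) :
    indFun H T ξ (h * y) = T.op (slice H y ξ) h := by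
  rw [indFun, slice_mul, VN.op_comm, rTrans_apply, one_mul]

theorem indFun_coset (T : VN H) (ξ : L2 G) (q : G ⧸ H) (h : H) :
    indFun H T ξ (cosetEquiv H (q, h)) = T.op (slice H (rep H q) ξ) h := by
  rw [cosetEquiv_eq, indFun_mul]

theorem indFun_summable_aux (T : VN H) (ξ : L2 G) :
    Summable (fun p : (G ⧸ H) × H => ‖indFun H T ξ (cosetEquiv H p)‖ ^ 2) ∧
    ∑' p : (G ⧸ H) × H, ‖indFun H T ξ (cosetEquiv H p)‖ ^ 2 ≤ ‖T.op‖ ^ 2 * ‖ξ‖ ^ 2 := by
  have e : ∀ q : G ⧸ H, ∑' h : H, ‖indFun H T ξ (cosetEquiv H (q, h))‖ ^ 2 =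
      ‖T.op (slice H (rep H q) ξ)‖ ^ 2 := by
    intro q
    rw [norm_sq_eq_tsum]
    refine tsum_congr fun h => ?_
    rw [indFun_coset]
  have hb : ∀ q : G ⧸ H, ‖T.op (slice H (rep H q) ξ)‖ ^ 2 ≤
      ‖T.op‖ ^ 2 * ‖slice H (rep H q) ξ‖ ^ 2 := by
    intro q
    rw [← mul_pow]
    gcongr
    exact T.op.le_opNorm _
  have hs2 : Summable fun q : G ⧸ H => ‖T.op (slice H (rep H q) ξ)‖ ^ 2 :=
    Summable.of_nonneg_of_le (fun _ => by positivity) hb ((summable_coset H ξ).mul_left _)
  have hs : Summable (fun p : (G ⧸ H) × H => ‖indFun H T ξ (cosetEquiv H p)‖ ^ 2) := by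
    rw [summable_prod_of_nonneg (fun _ => by positivity)]
    refine ⟨fun q => ?_, ?_⟩
    · have := summable_norm_sq (T.op (slice H (rep H q) ξ))
      refine this.congr fun h => ?_
      rw [indFun_coset]
    · exact hs2.congr fun q => (e q).symm
  refine ⟨hs, ?_⟩
  rw [hs.tsum_prod]
  simp only [e]
  rw [norm_sq_coset H ξ, ← tsum_mul_left]
  exact hs2.tsum_le_tsum hb ((summable_coset H ξ).mul_left _)

theorem indFun_memℓp (T : VN H) (ξ : L2 G) : Memℓp (indFun H T ξ) 2 := by
  rw [memℓp_gen_iff (by norm_num)]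
  have h2 : Summable (fun y => ‖indFun H T ξ y‖ ^ 2) :=
    (cosetEquiv H).summable_iff.1 (indFun_summable_aux H T ξ).1
  refine h2.congr fun y => ?_
  norm_num

/-- the induced operator -/
noncomputable def indOp (T : VN H) : L2 G →L[ℂ] L2 G :=
  LinearMap.mkContinuous
    { toFun := fun ξ => ⟨indFun H T ξ, indFun_memℓp H T ξ⟩
      map_add' := fun ξ η => by
        refine lp.ext (funext fun y => ?_)
        change indFun H T (ξ + η) y = indFun H T ξ y + indFun H T η y
        rw [indFun, map_add, map_add]; rfl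
      map_smul' := fun c ξ => by
        refine lp.ext (funext fun y => ?_)
        change indFun H T (c • ξ) y = c • indFun H T ξ y
        rw [indFun, map_smul, map_smul]; rfl } ‖T.op‖ (fun ξ => by
      have h := (indFun_summable_aux H T ξ).2
      rw [(cosetEquiv H).tsum_eq (fun y => ‖indFun H T ξ y‖ ^ 2)] at h
      have h2 : ‖(⟨indFun H T ξ, indFun_memℓp H T ξ⟩ : L2 G)‖ ^ 2 ≤ (‖T.op‖ * ‖ξ‖) ^ 2 := by
        rw [norm_sq_eq_tsum, mul_pow]
        exact h
      exact le_of_sq_le_sq h2 (by positivity))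

theorem indOp_apply (T : VN H) (ξ : L2 G) (y : G) : indOp H T ξ y = T.op (slice H y ξ) 1 := rfl

theorem slice_rTrans (g y : G) (ξ : L2 G) : slice H y (rTrans g ξ) = slice H (y * g) ξ := by
  refine lp.ext (funext fun k => ?_)
  rw [slice_apply, rTrans_apply, slice_apply, mul_assoc]

/-- the induced element of the von Neumann algebra of `G` -/
noncomputable def ind (T : VN H) : VN G := VN.mk (indOp H T) (by
  intro g v
  refine lp.ext (funext fun y => ?_)
  rw [indOp_apply, slice_rTrans, rTrans_apply, indOp_apply])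

theorem ind_apply (T : VN H) (ξ : L2 G) (y : G) : (ind H T).op ξ y = T.op (slice H y ξ) 1 := rfl

theorem slice_ind (T : VN H) (ξ : L2 G) (y : G) :
    slice H y ((ind H T).op ξ) = T.op (slice H y ξ) := by
  refine lp.ext (funext fun k => ?_)
  rw [slice_apply, ind_apply, slice_mul, VN.op_comm, rTrans_apply, one_mul]

/-- the inclusion of von Neumann algebras as a ring homomorphism -/
noncomputable def indHom : VN H →+* VN G where
  toFun := ind H
  map_one' := VN.ext_op fun v => lp.ext (funext fun y => by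
    rw [ind_apply, map_one, map_one]
    change slice H y v 1 = v y
    rw [slice_apply]; simp)
  map_mul' S T := VN.ext_op fun v => lp.ext (funext fun y => by
    rw [ind_apply, map_mul, map_mul, mul_apply_eq_comp, mul_apply_eq_comp, ind_apply, slice_ind])
  map_zero' := VN.ext_op fun v => lp.ext (funext fun y => by
    rw [ind_apply, map_zero, map_zero]
    rfl)
  map_add' S T := VN.ext_op fun v => lp.ext (funext fun y => by
    rw [ind_apply, map_add, map_add]
    rfl)

theorem indHom_apply (T : VN H) (ξ : L2 G) (y : G) :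
    (indHom H T).op ξ y = T.op (slice H y ξ) 1 := rfl

theorem indHom_lam (h : H) : indHom H (lam h) = lam (h : G) := by
  refine VN.ext_op fun v => lp.ext (funext fun y => ?_)
  rw [indHom_apply, lam_op_apply, lam_op_apply, slice_apply]
  simp

end Vale.Agent.P239
end

section

/-! Conditional expectation onto the von Neumann algebra of a subgroup. -/

set_option linter.unusedSectionVars false

namespace Vale.Agent.P239

open scoped ENNReal InnerProductSpace

variable {G : Type*} [Group G] (H : Subgroup G)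

end Vale.Agent.P239
end
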