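import Vale.Agent.P239.MathlibUsed
import Vale.Agent.P239.Bdl.B3
import Vale.Agent.P239.Bdl.B2
import Vale.Agent.P239.Bdl.B1

set_option linter.all false

section

/-! Functions of finite energy and harmonic functions on a group. -/

namespace Vale.Agent.P239

variable {G : Type*} [Group G]

/-- `f` has finite energy with respect to `S`. -/
def FinEn (S : Finset G) (f : G → ℝ) : Prop :=
  ∀ s ∈ S, Summable fun x => (f (x * s) - f x) ^ 2

/-- `f` is harmonic with respect to `S`. -/
def Harm (S : Finset G) (f : G → ℝ) : Prop :=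
  ∀ x, ∑ s ∈ S, (f (x * s) - f x) = 0

end Vale.Agent.P239
end

section

/-! Extended dimension over the group von Neumann algebra: the interface. -/

set_option linter.unusedSectionVars false

namespace Vale.Agent.P239

open scoped ENNReal InnerProductSpace Matrix
open Matrix

section vnDim_eq

variable (G : Type*) [Group G] (M : Type*) [AddCommGroup M] [Module (VN G) M]

theorem vnData_Tr {ι : Type} [Fintype ι] (A : Matrix ι ι (VN G)) :
    (vnData G).Tr A = (∑ i, tr (A i i)).re := by
  rw [TraceData.Tr, Complex.re_sum]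
  rfl

theorem vnDim_eq_tdim : vnDim G M = (vnData G).tdim M := by
  classical
  apply le_antisymm
  · refine iSup_le fun P => iSup_le fun n => iSup_le fun A => iSup_le fun hA => iSup_le fun he => ?_
    obtain ⟨e⟩ := he
    rw [← vnData_Tr]
    -- right support of the idempotent `A`
    obtain ⟨T, hT, hTA, happ⟩ := (vnData G).exists_lsupp Aᴴ
    have hAT : A * T = A := by
      have := congrArg Matrix.conjTranspose hTA
      rwa [Matrix.conjTranspose_mul, hT.2, Matrix.conjTranspose_conjTranspose] at this
    have hAA : Aᴴ * Aᴴ = Aᴴ := by rw [← Matrix.conjTranspose_mul, hA]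
    have hT0 : (1 - Aᴴ) * T = 0 := by
      refine (vnData G).mul_eq_zero_of_approx _ _ fun ε hε => ?_
      obtain ⟨X, hX⟩ := happ ε hε
      refine ⟨_, ?_, hX⟩
      rw [← Matrix.mul_assoc, ← Matrix.mul_assoc, Matrix.sub_mul, Matrix.one_mul, hAA, sub_self,
        Matrix.zero_mul, Matrix.zero_mul]
    have hTA' : T * A = T := by
      rw [Matrix.sub_mul, Matrix.one_mul, sub_eq_zero] at hT0
      have := congrArg Matrix.conjTranspose hT0
      rw [Matrix.conjTranspose_mul, hT.2, Matrix.conjTranspose_conjTranspose] at this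
      exact this.symm
    have hTr : (vnData G).Tr A = (vnData G).Tr T := by
      rw [← hAT, (vnData G).Tr_comm, hTA']
    rw [hTr]
    let g : (Fin n → VN G) →ₗ[VN G] M :=
      P.subtype.comp (e.symm.toLinearMap.comp A.vecMulLinear.rangeRestrict)
    refine (vnData G).le_tdim T hT g fun x hx h0 => ?_
    have h1 : A.vecMulLinear.rangeRestrict x = 0 := by
      have h2 : e.symm (A.vecMulLinear.rangeRestrict x) = 0 := Subtype.ext h0
      simpa using h2
    have h3 : x ᵥ* A = 0 := congrArg Subtype.val h1
    have h4 : x ᵥ* A = x := by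
      conv_lhs => rw [← hx]
      rw [Matrix.vecMul_vecMul, hTA', hx]
    rw [← h4, h3]
  · refine (vnData G).tdim_le fun n A g hA hg => ?_
    rw [vnData_Tr]
    let f : LinearMap.range A.vecMulLinear →ₗ[VN G] M :=
      g.comp (LinearMap.range A.vecMulLinear).subtype
    have hf : Function.Injective f := by
      rw [← LinearMap.ker_eq_bot, LinearMap.ker_eq_bot']
      rintro ⟨_, ⟨x, rfl⟩⟩ h0
      refine Subtype.ext (hg _ ?_ h0)
      change (x ᵥ* A) ᵥ* A = x ᵥ* A
      rw [Matrix.vecMul_vecMul, hA.1]
    refine le_iSup_of_le (LinearMap.range f) (le_iSup_of_le n (le_iSup_of_le A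
      (le_iSup_of_le hA.1 (le_iSup_of_le ⟨(LinearEquiv.ofInjective f hf).symm⟩ le_rfl))))

end vnDim_eq

section interface

variable {G : Type*} [Group G]

/-- The 2-norm on the group von Neumann algebra. -/
noncomputable def d2 (x : VN G) : ℝ := ‖x.op (dl 1)‖

/-- A left ideal with elements arbitrarily close to `1`. -/
def DenseIdeal (J : Submodule (VN G) (VN G)) : Prop :=
  ∀ ε : ℝ, 0 < ε → ∃ a ∈ J, d2 (1 - a) < ε

theorem DenseIdeal.mono {J J' : Submodule (VN G) (VN G)} (h : J ≤ J') (hJ : DenseIdeal J) :
    DenseIdeal J' :=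
  fun ε hε => let ⟨a, ha, hlt⟩ := hJ ε hε; ⟨a, h ha, hlt⟩

variable {M : Type*} [AddCommGroup M] [Module (VN G) M]
  {M' : Type*} [AddCommGroup M'] [Module (VN G) M']

/-- (D1) -/
theorem vnDim_mono (f : M →ₗ[VN G] M') (hf : Function.Injective f) : vnDim G M ≤ vnDim G M' := by
  rw [vnDim_eq_tdim, vnDim_eq_tdim]
  exact (vnData G).tdim_mono f hf

theorem vnDim_congr (f : M ≃ₗ[VN G] M') : vnDim G M = vnDim G M' :=
  le_antisymm (vnDim_mono f.toLinearMap f.injective) (vnDim_mono f.symm.toLinearMap
    f.symm.injective)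

theorem vnDim_iSup_le {κ : Type*} (S : κ → Submodule (VN G) M) :
    vnDim G (⨆ i, S i : Submodule (VN G) M) ≤ ∑' i, vnDim G (S i) := by
  simp only [vnDim_eq_tdim]
  exact (vnData G).tdim_iSup_le S

end interface

section induction

variable {G : Type*} [Group G] (H : Subgroup G)

end induction

end Vale.Agent.P239
end

section

/-! If harmonic functions of finite energy are constant, the first L2-Betti number vanishes. -/

set_option linter.unusedSectionVars false

namespace Vale.Agent.P239

open scoped ENNReal InnerProductSpace Matrix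
open Matrix

section closure

variable {G : Type*} [Group G] {ι : Type} [Fintype ι] [DecidableEq ι]

theorem UU_mono {R Z : Submodule (VN G) (ι → VN G)} (h : R ≤ Z) : UU R ≤ UU Z := by
  refine Submodule.topologicalClosure_mono ?_
  rintro _ ⟨k, hk, rfl⟩
  exact ⟨k, h hk, rfl⟩

theorem vec_mem_UU {K : Submodule (VN G) (ι → VN G)} {k : ι → VN G} (hk : k ∈ K) :
    vec k ∈ UU K := (vecSub K).le_topologicalClosure (mem_vecSub hk)

theorem sum_op_eq_zero (K : Submodule (VN G) (ι → VN G)) {u : HH ι G}
    (hu : ∀ w ∈ UU K, ⟪w, u⟫_ℂ = 0) {k : ι → VN G} (hk : k ∈ K) : ∑ i, (k i).op (u i) = 0 := by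
  refine lp.ext (funext fun y => ?_)
  rw [← inner_dl, inner_sum]
  have h1 := hu (vec (lam y⁻¹ • k)) (vec_mem_UU (K.smul_mem _ hk))
  rw [PiLp.inner_apply] at h1
  rw [lp.coeFn_zero, Pi.zero_apply, ← h1]
  refine Finset.sum_congr rfl fun i _ => ?_
  rw [vec_apply, Pi.smul_apply, smul_eq_mul, star_mul, star_lam, inv_inv, map_mul,
    mul_apply_eq_comp, lam_dl, mul_one, VN.inner_star_left]

theorem projMat_congr {R Z : Submodule (VN G) (ι → VN G)} (h : UU Z = UU R) :
    projMat Z = projMat R := by
  have key : ∀ (U V : Submodule ℂ (HH ι G)) [U.HasOrthogonalProjection]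
      [V.HasOrthogonalProjection] (v : HH ι G), U = V → U.starProjection v = V.starProjection v := by
    rintro U V _ _ v rfl; rfl
  ext i j
  refine VN.ext_op fun v => ?_
  rw [projMat_op, projMat_op, key _ _ _ h]

/-- If `R ≤ Z` have the same closure then `Z / R` has dimension zero. -/
theorem vnDim_of_UU_le (R Z : Submodule (VN G) (ι → VN G)) (hR : R ≤ Z) (hU : UU Z ≤ UU R)
    {M : Type*} [AddCommGroup M] [Module (VN G) M] (q : Z →ₗ[VN G] M)
    (hq : Function.Surjective q) (hker : ∀ z : Z, (z : ι → VN G) ∈ R → q z = 0) :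
    vnDim G M = 0 := by
  have hUU : UU Z = UU R := le_antisymm hU (UU_mono hR)
  rw [vnDim_eq_tdim]
  have h1 : (vnData G).tdim Z ≤ ENNReal.ofReal ((vnData G).Tr (projMat Z)) := by
    have hle : Z ≤ LinearMap.eqLocus (projMat Z).vecMulLinear LinearMap.id := fun k hk =>
      projMat_vecMul Z hk
    exact ((vnData G).tdim_mono (Submodule.inclusion hle)
      (Submodule.inclusion_injective _)).trans
        ((vnData G).tdim_eqLocus_le ⟨projMat_mul Z, projMat_star Z⟩)
  have h2 : ENNReal.ofReal ((vnData G).Tr (projMat R)) ≤ (vnData G).tdim R :=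
    (vnData G).Tr_le_tdim_of_approx R ⟨projMat_mul R, projMat_star R⟩
      (fun ε hε i => projMat_approx R ε hε i)
  have h3 : (vnData G).tdim R ≤ (vnData G).tdim (LinearMap.ker q) := by
    refine (vnData G).tdim_mono (LinearMap.codRestrict _ (Submodule.inclusion hR) fun x => ?_) ?_
    · exact hker _ x.2
    · intro x y hxy
      have := congrArg (fun z => ((z : LinearMap.ker q) : Z)) hxy
      exact Submodule.inclusion_injective hR this
  have h4 := (vnData G).tdim_add_quot (LinearMap.ker q)
  have h5 : (vnData G).tdim (Z ⧸ LinearMap.ker q) = (vnData G).tdim M :=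
    (vnData G).tdim_congr (q.quotKerEquivOfSurjective hq)
  rw [h5] at h4
  rw [projMat_congr hUU] at h1
  have h6 : (vnData G).tdim Z ≤ (vnData G).tdim (LinearMap.ker q) := h1.trans (h2.trans h3)
  have hfin : (vnData G).tdim (LinearMap.ker q) ≠ ⊤ := by
    have : (vnData G).tdim (LinearMap.ker q) ≤ (vnData G).tdim Z := by
      rw [← h4]; exact le_self_add
    exact ((this.trans h1).trans_lt ENNReal.ofReal_lt_top).ne
  rw [← h4] at h6
  have h7 : (vnData G).tdim (LinearMap.ker q) + (vnData G).tdim M ≤
      (vnData G).tdim (LinearMap.ker q) + 0 := by rw [add_zero]; exact h6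
  exact le_antisymm ((ENNReal.add_le_add_iff_left hfin).1 h7) bot_le

end closure

section link

variable {G : Type*} [Group G]

/-- a gradient field without divergence vanishes -/
theorem field_eq_zero (S : Finset G) (hsym : ∀ g ∈ S, g⁻¹ ∈ S)
    (h : ∀ f : G → ℝ, FinEn S f → Harm S f → ∀ x y, f x = f y) {n : ℕ} (s : Fin n → G)
    (hsum : ∀ F : G → ℂ, ∑ i, F (s i) = ∑ g ∈ S, F g) (hsurjS : ∀ g ∈ S, ∃ i, s i = g)
    (ξ : HH (Fin n) G) (hdiv : ∑ i, ((lam (s i)⁻¹).op (ξ i) - ξ i) = 0) (f : G → ℂ)
    (hf : ∀ x i, f (x * s i) - f x = ξ i x⁻¹) : ξ = 0 := by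
  have hharm : ∀ y, ∑ g ∈ S, (f (y * g) - f y) = 0 := by
    intro y
    have h2 := congrArg (fun v : L2 G => v y⁻¹) hdiv
    simp only [lp.coeFn_sum, Finset.sum_apply, lp.coeFn_sub, Pi.sub_apply, lp.coeFn_zero,
      Pi.zero_apply, lam_op_apply, inv_inv] at h2
    have e1 : ∀ i, ξ i (s i * y⁻¹) = f y - f (y * (s i)⁻¹) := by
      intro i
      have := hf (y * (s i)⁻¹) i
      rw [_root_.mul_inv_rev, inv_inv, inv_mul_cancel_right] at this
      exact this.symm
    have e2 : ∀ i, ξ i y⁻¹ = f (y * s i) - f y := fun i => (hf y i).symm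
    simp only [e1, e2, Finset.sum_sub_distrib] at h2
    have e3 : ∑ i, f (y * (s i)⁻¹) = ∑ g ∈ S, f (y * g) := by
      rw [hsum (fun g => f (y * g⁻¹))]
      refine Finset.sum_nbij' (fun g => g⁻¹) (fun g => g⁻¹) (fun g hg => hsym g hg)
        (fun g hg => hsym g hg) (by simp) (by simp) (by simp)
    have e4 : ∑ i, f (y * s i) = ∑ g ∈ S, f (y * g) := hsum (fun g => f (y * g))
    have e5 : ∑ _i : Fin n, f y = ∑ _g ∈ S, f y := hsum (fun _ => f y)
    rw [e3, e4, e5] at h2
    rw [Finset.sum_sub_distrib]
    linear_combination (-1 / 2 : ℂ) * h2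
  have hsq : ∀ i, Summable fun x => ‖ξ i x⁻¹‖ ^ 2 := fun i =>
    (Equiv.inv G).summable_iff.2 (summable_norm_sq (ξ i))
  have hre := h (fun x => (f x).re) (by
    intro g hg
    obtain ⟨i, rfl⟩ := hsurjS g hg
    refine Summable.of_nonneg_of_le (fun _ => sq_nonneg _) (fun x => ?_) (hsq i)
    rw [← Complex.sub_re, hf, ← sq_abs]
    gcongr
    exact Complex.abs_re_le_norm _) (by
    intro x
    have := congrArg Complex.re (hharm x)
    simpa using this)
  have him := h (fun x => (f x).im) (by
    intro g hg
    obtain ⟨i, rfl⟩ := hsurjS g hg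
    refine Summable.of_nonneg_of_le (fun _ => sq_nonneg _) (fun x => ?_) (hsq i)
    rw [← Complex.sub_im, hf, ← sq_abs]
    gcongr
    exact Complex.abs_im_le_norm _) (by
    intro x
    have := congrArg Complex.im (hharm x)
    simpa using this)
  ext1 i
  refine lp.ext (funext fun x => ?_)
  have h1 := hf x⁻¹ i
  rw [inv_inv] at h1
  rw [← h1, Complex.ext (hre (x⁻¹ * s i) x⁻¹) (him (x⁻¹ * s i) x⁻¹), sub_self]
  rfl

/-- the divergence of vectors in the closure of the cycles -/
theorem div_eq_zero {n : ℕ} (s : Fin n → G) (Z : Submodule (VN G) (Fin n → VN G))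
    (hZ : ∀ k ∈ Z, ∑ i, k i * (lam (s i) - 1) = 0) (v : HH (Fin n) G) (hv : v ∈ UU Z) :
    ∑ i, ((lam (s i)⁻¹).op (v i) - v i) = 0 := by
  let T : HH (Fin n) G →L[ℂ] L2 G :=
    ∑ i, (((lam (s i)⁻¹).op - 1).comp (prj (Fin n) G i))
  have hT : ∀ v, T v = ∑ i, ((lam (s i)⁻¹).op (v i) - v i) := by
    intro v
    rw [_root_.sum_apply]
    rfl
  have hcl : IsClosed ((LinearMap.ker (T : HH (Fin n) G →ₗ[ℂ] L2 G) :
      Submodule ℂ (HH (Fin n) G)) : Set (HH (Fin n) G)) := by
    exact T.isClosed_ker
  have hle : vecSub Z ≤ LinearMap.ker (T : HH (Fin n) G →ₗ[ℂ] L2 G) := by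
    rintro _ ⟨k, hk, rfl⟩
    change T (vec k) = 0
    rw [hT]
    have h2 := congrArg (fun a : VN G => (star a).op (dl 1)) (hZ k hk)
    simp only [star_sum, star_mul, star_sub, star_one, star_lam, star_zero, map_zero,
      map_sum, _root_.sum_apply] at h2
    rw [show (0 : L2 G →L[ℂ] L2 G) (dl 1) = 0 from rfl] at h2
    rw [← h2]
    refine Finset.sum_congr rfl fun i _ => ?_
    rw [vec_apply, map_mul, mul_apply_eq_comp, map_sub, map_one]
    rfl
  rw [← hT]
  exact (vecSub Z).topologicalClosure_minimal hle hcl hv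

/-- a field orthogonal to the relations is a gradient -/
theorem exists_potential {n : ℕ} (s : Fin n → G) (q : (Fin n → VN G) →ₗ[VN G] Om (lamHom G))
    (hqe : ∀ i, q (Pi.single i 1) = om (lamHom G) (s i))
    (hqs : ∀ g, ∃ k, q k = om (lamHom G) g) (ξ : HH (Fin n) G)
    (hξR : ∀ w ∈ UU (LinearMap.ker q), ⟪w, ξ⟫_ℂ = 0) :
    ∃ f : G → ℂ, ∀ x i, f (x * s i) - f x = ξ i x⁻¹ := by
  choose kk hkk using hqs
  let c : G → L2 G := fun g => ∑ i, (kk g i).op (ξ i)
  have hc : ∀ g k, q k = om (lamHom G) g → c g = ∑ i, (k i).op (ξ i) := by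
    intro g k hk
    have hmem : kk g - k ∈ LinearMap.ker q := by
      change q (kk g - k) = 0
      rw [map_sub, hkk, hk, sub_self]
    have h0 := sum_op_eq_zero _ hξR hmem
    simp only [Pi.sub_apply, map_sub, _root_.sub_apply, Finset.sum_sub_distrib] at h0
    exact sub_eq_zero.1 h0
  have hcs : ∀ x i, c (x * s i) = c x + (lam x).op (ξ i) := by
    intro x i
    rw [hc (x * s i) (kk x + lam x • Pi.single i 1) (by
      rw [map_add, map_smul, hkk, hqe, om_mul, lamHom_apply])]
    simp only [Pi.add_apply, map_add, _root_.add_apply, Finset.sum_add_distrib]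
    congr 1
    rw [Finset.sum_eq_single i]
    · simp
    · intro j _ hj
      simp [hj]
    · intro hh; exact absurd (Finset.mem_univ i) hh
  refine ⟨fun x => c x 1, fun x i => ?_⟩
  change c (x * s i) 1 - c x 1 = _
  rw [hcs, lp.coeFn_add, Pi.add_apply, add_sub_cancel_left, lam_op_apply, mul_one]

theorem vnDim_K_eq_zero_of_harm (S : Finset G) (hS : Subgroup.closure (S : Set G) = ⊤)
    (hsym : ∀ s ∈ S, s⁻¹ ∈ S)
    (h : ∀ f : G → ℝ, FinEn S f → Harm S f → ∀ x y, f x = f y) :
    vnDim G (K (lamHom G)) = 0 := by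
  classical
  let s : Fin S.card → G := fun i => (S.equivFin.symm i : G)
  have hs : ∀ i, s i ∈ S := fun i => (S.equivFin.symm i).2
  have hsum : ∀ F : G → ℂ, ∑ i, F (s i) = ∑ g ∈ S, F g := by
    intro F
    rw [← Finset.sum_coe_sort S]
    exact Fintype.sum_equiv S.equivFin.symm _ _ (fun _ => rfl)
  have hsurjS : ∀ g ∈ S, ∃ i, s i = g := fun g hg =>
    ⟨S.equivFin ⟨g, hg⟩, by simp [s]⟩
  let q : (Fin S.card → VN G) →ₗ[VN G] Om (lamHom G) :=
    Fintype.linearCombination (VN G) (fun i => om (lamHom G) (s i))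
  have hqe : ∀ i, q (Pi.single i 1) = om (lamHom G) (s i) := by
    intro i
    simp [q, Fintype.linearCombination_apply, Pi.single_apply, ite_smul]
  have hqs : ∀ g, ∃ k, q k = om (lamHom G) g := by
    intro g
    have hg : g ∈ Subgroup.closure (S : Set G) := by rw [hS]; trivial
    induction hg using Subgroup.closure_induction with
    | mem x hx =>
      obtain ⟨i, rfl⟩ := hsurjS x hx
      exact ⟨_, hqe i⟩
    | one => exact ⟨0, by rw [map_zero, om_one]⟩
    | mul x y _ _ hx hy =>
      obtain ⟨k, hk⟩ := hx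
      obtain ⟨l, hl⟩ := hy
      exact ⟨k + lam x • l, by rw [map_add, map_smul, hk, hl, om_mul, lamHom_apply]⟩
    | inv x _ hx =>
      obtain ⟨k, hk⟩ := hx
      exact ⟨-(lam x⁻¹ • k), by rw [map_neg, map_smul, hk, om_inv, lamHom_apply]⟩
  have hqsurj : ∀ z, ∃ k, q k = z := by
    intro z
    have hz := om_span (lamHom G) z
    have hle : Submodule.span (VN G) (Set.range (om (lamHom G))) ≤ LinearMap.range q := by
      rw [Submodule.span_le]
      rintro _ ⟨g, rfl⟩
      exact hqs g
    exact hle hz
  let R : Submodule (VN G) (Fin S.card → VN G) := LinearMap.ker q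
  let Z : Submodule (VN G) (Fin S.card → VN G) := (K (lamHom G)).comap q
  have hRZ : R ≤ Z := by
    intro k hk
    change q k ∈ K (lamHom G)
    rw [show q k = 0 from hk]
    exact Submodule.zero_mem _
  have hZ : ∀ k ∈ Z, ∑ i, k i * (lam (s i) - 1) = 0 := by
    intro k hk
    have h1 : mu (lamHom G) (q k) = 0 := hk
    rw [show q k = ∑ i, k i • om (lamHom G) (s i) from
      Fintype.linearCombination_apply _ _ _] at h1
    rw [map_sum] at h1
    rw [← h1]
    refine Finset.sum_congr rfl fun i _ => ?_
    rw [map_smul, mu_om, lamHom_apply, smul_eq_mul]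
  have hU : UU Z ≤ UU R := by
    intro v hv
    have h1 : v - (UU R).starProjection v = 0 := by
      have hm : v - (UU R).starProjection v ∈ UU Z :=
        Submodule.sub_mem _ hv (UU_mono hRZ (Submodule.starProjection_apply_mem _ _))
      obtain ⟨f, hf⟩ := exists_potential s q hqe hqs (v - (UU R).starProjection v) (by
        intro w hw
        rw [← inner_conj_symm, Submodule.starProjection_inner_eq_zero _ _ hw, map_zero])
      exact field_eq_zero S hsym h s hsum hsurjS _ (div_eq_zero s Z hZ _ hm) f hf
    rw [sub_eq_zero.1 h1]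
    exact Submodule.starProjection_apply_mem _ _
  refine vnDim_of_UU_le R Z hRZ hU (q.restrict (p := Z) (q := K (lamHom G)) fun k hk => hk) ?_ ?_
  · rintro ⟨z, hz⟩
    obtain ⟨k, hk⟩ := hqsurj z
    have hkZ : k ∈ Z := by
      change q k ∈ K (lamHom G)
      rw [hk]; exact hz
    exact ⟨⟨k, hkZ⟩, Subtype.ext hk⟩
  · intro z hz
    exact Subtype.ext hz

end link

end Vale.Agent.P239
end

section

namespace Vale.Agent.P239

end Vale.Agent.P239
end

section

/-! Lower bound for the dimension over a subgroup. -/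

set_option linter.unusedSectionVars false

namespace Vale.Agent.P239

open scoped ENNReal InnerProductSpace Matrix
open Matrix

universe u v w

namespace TraceData

variable {N : Type u} [Ring N] [StarRing N] [Algebra ℝ N] [StarModule ℝ N] (D : TraceData N)

end TraceData

variable {G : Type*} [Group G] (H : Subgroup G)

end Vale.Agent.P239
end

section

/-!
The torsion calculus of dense left ideals over the group von Neumann algebra.
-/

namespace Vale.Agent.P239

open scoped ENNReal

variable {G : Type*} [Group G]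

theorem vnDim_le_of_injective {A B : Type*} [AddCommGroup A] [Module (VN G) A] [AddCommGroup B]
    [Module (VN G) B] (f : A →ₗ[VN G] B) (hf : Function.Injective f) :
    vnDim G A ≤ vnDim G B := vnDim_mono f hf

end Vale.Agent.P239
end

section

/-!
Assembly of the graph inequality for first L2-Betti numbers.
-/

namespace Vale.Agent.P239

open scoped ENNReal Pointwise

section

variable {G : Type*} [Group G]

theorem l2Betti_one_eq {X : Type*} [TopologicalSpace X] [MulAction G X] [ContinuousConstSMul G X]
    [ContractibleSpace X] (hfree : ∀ (g : G) (x : X), g • x = x → g = 1) :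
    l2Betti G X 1 = vnDim G (K (lamHom G)) := by
  obtain ⟨e⟩ := homol_one_equiv (G := G) (X := X) hfree
  exact vnDim_congr e

end

end Vale.Agent.P239
end

section

/-! Infinite normal subgroups and the first L2-Betti number. -/

set_option linter.unusedSectionVars false

namespace Vale.Agent.P239

open scoped ENNReal InnerProductSpace Matrix
open Matrix

variable {G : Type*} [Group G] (H : Subgroup G)

section omF

/-- The additive map between the modules of the subgroup and of the group. -/
noncomputable def omF : Om (lamHom H) →+ Om (lamHom G) :=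
  letI : Module (VN H) (Om (lamHom G)) := Module.compHom _ (indHom H)
  (Om.lift (lamHom H) (fun h => om (lamHom G) (h : G)) (fun h k => by
    rw [Subgroup.coe_mul, om_mul]
    congr 1
    change lamHom G (h : G) • om (lamHom G) (k : G) =
      indHom H (lamHom H h) • om (lamHom G) (k : G)
    rw [lamHom_apply, lamHom_apply, indHom_lam])).toAddMonoidHom

end omF

end Vale.Agent.P239
end

section

/-! Vanishing of the first L2-Betti number for groups with a finitely generated infinite normal
subgroup of infinite index, and for groups containing such a group as an almost normal subgroup. -/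

set_option linter.unusedSectionVars false

namespace Vale.Agent.P239

open scoped ENNReal Pointwise

variable {G : Type*} [Group G] (H : Subgroup G)

end Vale.Agent.P239
end
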