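import Vale.Agent.P239.MathlibUsed

set_option linter.all false

section

/-!
Dirichlet functions on a finitely generated group and their potentials.
-/

namespace Vale.Agent.P239

open scoped ENNReal InnerProductSpace

variable {G : Type*} [Group G] (S : Finset G)

/-- `ℓ²` of the directed edges. -/
noncomputable abbrev HS (S : Finset G) : Type _ := lp (fun _ : S × G => ℝ) 2

/-- Functions of finite energy. -/
noncomputable def Dir : Submodule ℝ (G → ℝ) where
  carrier := {f | Memℓp (fun p : S × G => f (p.2 * (p.1 : G)) - f p.2) 2}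
  add_mem' {f g} hf hg := by
    have h := Memℓp.add hf hg
    refine (congrArg (Memℓp · 2) (funext fun p => ?_)).mp h
    simp only [Pi.add_apply]; ring
  zero_mem' := by
    have h : Memℓp (0 : S × G → ℝ) 2 := zero_memℓp
    refine (congrArg (Memℓp · 2) (funext fun p => ?_)).mp h
    simp
  smul_mem' c f hf := by
    have h := Memℓp.const_smul hf c
    refine (congrArg (Memℓp · 2) (funext fun p => ?_)).mp h
    simp only [Pi.smul_apply, smul_eq_mul]; ring

theorem mem_Dir {f : G → ℝ} :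
    f ∈ Dir S ↔ Memℓp (fun p : S × G => f (p.2 * (p.1 : G)) - f p.2) 2 := Iff.rfl

/-- The gradient. -/
noncomputable def grad : Dir S →ₗ[ℝ] HS S where
  toFun f := ⟨fun p => f.1 (p.2 * (p.1 : G)) - f.1 p.2, f.2⟩
  map_add' f g := by
    refine lp.ext (funext fun p => ?_)
    change (f.1 + g.1) _ - (f.1 + g.1) _ = (f.1 _ - f.1 _) + (g.1 _ - g.1 _)
    simp only [Pi.add_apply]; ring
  map_smul' c f := by
    refine lp.ext (funext fun p => ?_)
    change (c • f.1) _ - (c • f.1) _ = c * (f.1 _ - f.1 _)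
    simp only [Pi.smul_apply, smul_eq_mul]; ring

@[simp] theorem grad_apply (f : Dir S) (p : S × G) :
    grad S f p = f.1 (p.2 * (p.1 : G)) - f.1 p.2 := rfl

/-- The energy pairing. -/
noncomputable def en (f g : Dir S) : ℝ := ⟪grad S f, grad S g⟫_ℝ

theorem hasSum_en (f g : Dir S) :
    HasSum (fun p : S × G => (f.1 (p.2 * (p.1 : G)) - f.1 p.2) * (g.1 (p.2 * (p.1 : G)) - g.1 p.2))
      (en S f g) := by
  have h := lp.hasSum_inner (𝕜 := ℝ) (grad S f) (grad S g)
  refine (congrArg (HasSum · (en S f g)) (funext fun p => ?_)).mp h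
  simp only [grad_apply, RCLike.inner_apply, Real.ringHom_apply, mul_comm]

theorem en_comm (f g : Dir S) : en S f g = en S g f := real_inner_comm _ _

theorem en_add_left (f g h : Dir S) : en S (f + g) h = en S f h + en S g h := by
  rw [en, map_add, inner_add_left]; rfl

theorem en_sub_left (f g h : Dir S) : en S (f - g) h = en S f h - en S g h := by
  rw [en, map_sub, inner_sub_left]; rfl

theorem en_sub_right (f g h : Dir S) : en S f (g - h) = en S f g - en S f h := by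
  rw [en, map_sub, inner_sub_right]; rfl

theorem en_smul_left (c : ℝ) (f h : Dir S) : en S (c • f) h = c * en S f h := by
  rw [en, map_smul, real_inner_smul_left]; rfl

theorem en_self_nonneg (f : Dir S) : 0 ≤ en S f f := real_inner_self_nonneg

theorem en_self (f : Dir S) : en S f f = ‖grad S f‖ ^ 2 := real_inner_self_eq_norm_sq _

variable {S} in
/-- Evaluation differences are continuous in the gradient. -/
theorem exists_eval (hS : Subgroup.closure (S : Set G) = ⊤) (x : G) :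
    ∃ L : HS S →L[ℝ] ℝ, ∀ (ω : HS S) (f : G → ℝ),
      (∀ p : S × G, ω p = f (p.2 * (p.1 : G)) - f p.2) → L ω = f x - f 1 := by
  have hx : x ∈ Subgroup.closure (S : Set G) := by rw [hS]; trivial
  induction hx using Subgroup.closure_induction_right with
  | one => exact ⟨0, fun ω f _ => by simp⟩
  | mul_right x _ s hs ih =>
    obtain ⟨L, hL⟩ := ih
    refine ⟨L + lp.evalCLM ℝ (fun _ : S × G => ℝ) 2 (⟨s, hs⟩, x), fun ω f hf => ?_⟩
    rw [add_apply, hL ω f hf]
    have : lp.evalCLM ℝ (fun _ : S × G => ℝ) 2 (⟨s, hs⟩, x) ω = ω (⟨s, hs⟩, x) := rfl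
    rw [this, hf]
    ring
  | mul_inv_cancel x _ s hs ih =>
    obtain ⟨L, hL⟩ := ih
    refine ⟨L - lp.evalCLM ℝ (fun _ : S × G => ℝ) 2 (⟨s, hs⟩, x * s⁻¹), fun ω f hf => ?_⟩
    rw [sub_apply, hL ω f hf]
    have : lp.evalCLM ℝ (fun _ : S × G => ℝ) 2 (⟨s, hs⟩, x * s⁻¹) ω = ω (⟨s, hs⟩, x * s⁻¹) := rfl
    rw [this, hf]
    simp only [inv_mul_cancel_right]
    ring

/-- The space of gradients. -/
noncomputable def Grad : Submodule ℝ (HS S) := LinearMap.range (grad S)

theorem mem_Grad {ω : HS S} :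
    ω ∈ Grad S ↔ ∃ f : G → ℝ, ∀ p : S × G, ω p = f (p.2 * (p.1 : G)) - f p.2 := by
  constructor
  · rintro ⟨f, rfl⟩
    exact ⟨f.1, fun p => rfl⟩
  · rintro ⟨f, hf⟩
    refine ⟨⟨f, ?_⟩, ?_⟩
    · rw [mem_Dir]
      have h := lp.memℓp ω
      exact (congrArg (Memℓp · 2) (funext fun p => hf p)).mp h
    · exact lp.ext (funext fun p => (hf p).symm)

variable {S} in
theorem isClosed_Grad (hS : Subgroup.closure (S : Set G) = ⊤) :
    IsClosed (Grad S : Set (HS S)) := by
  choose L hL using fun x : G => exists_eval hS x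
  have key : (Grad S : Set (HS S)) =
      ⋂ p : S × G, {ω : HS S | lp.evalCLM ℝ (fun _ : S × G => ℝ) 2 p ω =
        L (p.2 * (p.1 : G)) ω - L p.2 ω} := by
    ext ω
    rw [SetLike.mem_coe, mem_Grad, Set.mem_iInter]
    constructor
    · rintro ⟨f, hf⟩ p
      have h1 : lp.evalCLM ℝ (fun _ : S × G => ℝ) 2 p ω = ω p := rfl
      rw [Set.mem_ofPred_eq, h1, hf p, hL _ ω f hf, hL _ ω f hf]
      ring
    · intro h
      exact ⟨fun x => L x ω, fun p => h p⟩
  rw [key]
  refine isClosed_iInter fun p => isClosed_eq ?_ ?_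
  · exact (lp.evalCLM ℝ (fun _ : S × G => ℝ) 2 p).continuous
  · exact ((L _).continuous.sub (L _).continuous)

variable {S} in
/-- Potentials: Riesz representers of evaluation differences. -/
theorem exists_pot (hS : Subgroup.closure (S : Set G) = ⊤) (x : G) :
    ∃ v : Dir S, ∀ f : Dir S, en S v f = f.1 x - f.1 1 := by
  obtain ⟨L, hL⟩ := exists_eval hS x
  have : IsClosed (Grad S : Set (HS S)) := isClosed_Grad hS
  have : CompleteSpace (Grad S) := this.completeSpace_coe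
  let r : HS S := (InnerProductSpace.toDual ℝ (HS S)).symm L
  obtain ⟨v, hv⟩ : ((Grad S).starProjection r) ∈ Grad S := Submodule.starProjection_apply_mem _ _
  refine ⟨v, fun f => ?_⟩
  have h1 : ⟪(Grad S).starProjection r, grad S f⟫_ℝ = ⟪r, grad S f⟫_ℝ := by
    have h := (Submodule.sub_starProjection_mem_orthogonal (K := Grad S) r)
    rw [Submodule.mem_orthogonal'] at h
    have := h (grad S f) ⟨f, rfl⟩
    rw [inner_sub_left] at this
    (clear x hL v hv h; linarith)
  rw [en, hv, h1, InnerProductSpace.toDual_symm_apply]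
  exact hL _ _ fun p => rfl

variable {S} in
theorem const_of_en_self (hS : Subgroup.closure (S : Set G) = ⊤) {f : Dir S} (h : en S f f = 0)
    (x : G) : f.1 x = f.1 1 := by
  obtain ⟨L, hL⟩ := exists_eval hS x
  have h0 : grad S f = 0 := by
    rw [en_self] at h
    exact norm_eq_zero.1 (pow_eq_zero_iff (two_ne_zero) |>.1 h)
  have := hL (grad S f) f.1 fun p => rfl
  rw [h0, map_zero] at this
  linarith only [this]

end Vale.Agent.P239
end

section

/-!
Elementary properties of potentials.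
-/

namespace Vale.Agent.P239

open scoped ENNReal InnerProductSpace

variable {G : Type*} [Group G] {S : Finset G}

theorem mem_Dir_of_le {f : G → ℝ} (hf : f ∈ Dir S) {g : G → ℝ}
    (h : ∀ p : S × G, |g (p.2 * (p.1 : G)) - g p.2| ≤ |f (p.2 * (p.1 : G)) - f p.2|) :
    g ∈ Dir S := by
  rw [mem_Dir] at hf ⊢
  rw [memℓp_gen_iff (by norm_num)] at hf ⊢
  refine hf.of_nonneg_of_le (fun p => by positivity) fun p => ?_
  rw [Real.norm_eq_abs, Real.norm_eq_abs]
  exact Real.rpow_le_rpow (abs_nonneg _) (h p) (by (clear * -; norm_num))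

theorem mem_Dir_of_contr {f : G → ℝ} (hf : f ∈ Dir S) {g : G → ℝ}
    (h : ∀ p : S × G, (g (p.2 * (p.1 : G)) - g p.2) ^ 2 ≤
      (f (p.2 * (p.1 : G)) - f p.2) * (g (p.2 * (p.1 : G)) - g p.2)) :
    g ∈ Dir S := by
  refine mem_Dir_of_le hf fun p => ?_
  have h1 := h p
  rcases eq_or_ne (g (p.2 * (p.1 : G)) - g p.2) 0 with h0 | h0
  · rw [h0, abs_zero]; exact abs_nonneg _
  · have h2 : |g (p.2 * (p.1 : G)) - g p.2| * |g (p.2 * (p.1 : G)) - g p.2| ≤
        |f (p.2 * (p.1 : G)) - f p.2| * |g (p.2 * (p.1 : G)) - g p.2| := by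
      rw [← abs_mul, ← abs_mul]
      refine le_trans ?_ (h1.trans (le_abs_self _))
      rw [abs_of_nonneg (mul_self_nonneg _)]
      exact le_of_eq (sq _).symm
    exact le_of_mul_le_mul_right h2 (abs_pos.2 h0)

theorem en_le_of_contr (f : Dir S) (g : Dir S)
    (h : ∀ p : S × G, (g.1 (p.2 * (p.1 : G)) - g.1 p.2) ^ 2 ≤
      (f.1 (p.2 * (p.1 : G)) - f.1 p.2) * (g.1 (p.2 * (p.1 : G)) - g.1 p.2)) :
    en S g g ≤ en S f g := by
  refine hasSum_le (fun p => ?_) (hasSum_en S g g) (hasSum_en S f g)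
  rw [← sq]
  exact h p

/-- `w` represents `f ↦ f x - f y`. -/
def IsPot (x y : G) (w : Dir S) : Prop := ∀ f : Dir S, en S w f = f.1 x - f.1 y

theorem IsPot.neg {x y : G} {w : Dir S} (h : IsPot x y w) : IsPot y x (-w) := by
  intro f
  have : -w = (-1 : ℝ) • w := (neg_one_smul ℝ w).symm
  rw [this, en_smul_left, h f]; ring

theorem IsPot.sub {x y z : G} {w w' : Dir S} (h : IsPot x z w) (h' : IsPot y z w') :
    IsPot x y (w - w') := by
  intro f
  rw [en_sub_left, h f, h' f]; ring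

theorem IsPot.en_self {x y : G} {w : Dir S} (h : IsPot x y w) : en S w w = w.1 x - w.1 y := h w

theorem IsPot.le {x y : G} {w : Dir S} (h : IsPot x y w) : w.1 y ≤ w.1 x := by
  have := h.en_self
  have := en_self_nonneg S w
  linarith

theorem IsPot.unique {x y : G} {w w' : Dir S} (h : IsPot x y w) (h' : IsPot x y w') :
    en S w w = en S w' w' := by
  rw [h.en_self, ← h' w, en_comm, h w', ← h'.en_self]

/-- clamping to `[s, t]` -/
noncomputable def clp (s t r : ℝ) : ℝ := max s (min t r)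

theorem clp_sq {s t : ℝ} (a b : ℝ) :
    (clp s t a - clp s t b) ^ 2 ≤ (a - b) * (clp s t a - clp s t b) := by
  have h1 : |clp s t a - clp s t b| ≤ |a - b| := by
    unfold clp
    exact (abs_max_sub_max_le_max _ _ _ _).trans (by
      rw [sub_self, abs_zero, max_eq_right (abs_nonneg _)]
      exact (abs_min_sub_min_le_max _ _ _ _).trans (by
        rw [sub_self, abs_zero, max_eq_right (abs_nonneg _)]))
  have hmono : ∀ {a b : ℝ}, a ≤ b → clp s t a ≤ clp s t b := fun hab =>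
    max_le_max le_rfl (min_le_min le_rfl hab)
  rcases le_total a b with hab | hab
  · have h2 := hmono hab
    rw [abs_of_nonpos (by linarith only [h2]), abs_of_nonpos (by linarith only [hab])] at h1
    linarith only [mul_nonneg (sub_nonneg.2 h1) (sub_nonneg.2 h2)]
  · have h2 := hmono hab
    rw [abs_of_nonneg (by linarith only [h2]), abs_of_nonneg (by linarith)] at h1
    linarith only [mul_nonneg (sub_nonneg.2 h1) (sub_nonneg.2 h2)]

theorem clp_mem {s t : ℝ} (hst : s ≤ t) (r : ℝ) : s ≤ clp s t r ∧ clp s t r ≤ t :=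
  ⟨le_max_left _ _, max_le hst (min_le_left _ _)⟩

theorem clp_of_le {s t r : ℝ} (hst : s ≤ t) (h : t ≤ r) : clp s t r = t := by
  rw [clp, min_eq_left h, max_eq_right hst]

theorem clp_of_ge {s t r : ℝ} (hst : s ≤ t) (h : r ≤ s) : clp s t r = s := by
  rw [clp, min_eq_right (h.trans hst), max_eq_left h]

/-- the clamped function -/
noncomputable def cD (s t : ℝ) (w : Dir S) : Dir S :=
  ⟨fun x => clp s t (w.1 x), mem_Dir_of_contr w.2 fun _ => clp_sq _ _⟩

theorem IsPot.en_clamp {x y : G} {w : Dir S} (h : IsPot x y w) {s t : ℝ} (hst : s ≤ t)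
    (hs : w.1 y ≤ s) (ht : t ≤ w.1 x) : en S (cD s t w) (cD s t w) ≤ t - s := by
  refine (en_le_of_contr w (cD s t w) fun _ => clp_sq _ _).trans ?_
  rw [h]
  change clp s t (w.1 x) - clp s t (w.1 y) ≤ t - s
  rw [clp_of_le hst ht, clp_of_ge hst hs]

theorem IsPot.mem_range (hS : Subgroup.closure (S : Set G) = ⊤) {x y : G} {w : Dir S}
    (h : IsPot x y w) (z : G) : w.1 y ≤ w.1 z ∧ w.1 z ≤ w.1 x := by
  have hle := h.le
  have h1 := h.en_clamp hle le_rfl le_rfl
  set c := cD (w.1 y) (w.1 x) w with hc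
  have hx : c.1 x = w.1 x := clp_of_le hle le_rfl
  have hy : c.1 y = w.1 y := clp_of_ge hle le_rfl
  have h2 : en S (w - c) (w - c) = 0 := by
    refine le_antisymm ?_ (en_self_nonneg S _)
    rw [en_sub_left, en_sub_right, en_sub_right, en_comm S c w, h c, h w, hx, hy]
    linarith only [h1]
  have h3 := const_of_en_self hS h2 z
  have h4 := const_of_en_self hS h2 x
  have h5 : w.1 z - c.1 z = w.1 x - c.1 x := h3.trans h4.symm
  rw [hx, sub_self, sub_eq_zero] at h5
  rw [h5]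
  exact clp_mem hle _

/-- adjacency -/
def Adj (S : Finset G) (a b : G) : Prop := ∃ s ∈ S, b = a * s ∨ a = b * s

theorem Adj.symm {a b : G} (h : Adj S a b) : Adj S b a := by
  obtain ⟨s, hs, h | h⟩ := h
  · exact ⟨s, hs, Or.inr h⟩
  · exact ⟨s, hs, Or.inl h⟩

/-- connectedness inside `A` -/
def Con (S : Finset G) (A : Set G) : G → G → Prop :=
  Relation.ReflTransGen fun a b => a ∈ A ∧ b ∈ A ∧ Adj S a b

theorem Con.symm {A : Set G} {x y : G} (h : Con S A x y) : Con S A y x := by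
  induction h with
  | refl => exact Relation.ReflTransGen.refl
  | tail _ hbc ih => exact Relation.ReflTransGen.head ⟨hbc.2.1, hbc.1, hbc.2.2.symm⟩ ih

theorem IsPot.con (hS : Subgroup.closure (S : Set G) = ⊤) {x y : G} {w : Dir S}
    (h : IsPot x y w) {t : ℝ} (ht : w.1 y < t) {z : G} (hz : t < w.1 z) :
    Con S {u | t < w.1 u} x z := by
  classical
  by_contra hcon
  let U : Set G := {u | t < w.1 u ∧ ¬ Con S {u | t < w.1 u} x u}
  let g : G → ℝ := fun u => if u ∈ U then w.1 u - t else 0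
  have hxt : t < w.1 x := lt_of_lt_of_le hz (h.mem_range hS z).2
  have hcase : ∀ a b : G, Adj S a b → a ∈ U → b ∉ U → w.1 b ≤ t := by
    intro a b hab ha hb
    by_contra hbt
    push Not at hbt
    apply hb
    refine ⟨hbt, fun hc => ha.2 ?_⟩
    exact hc.tail ⟨hbt, ha.1, hab.symm⟩
  have hg : ∀ p : S × G, (g (p.2 * (p.1 : G)) - g p.2) ^ 2 ≤
      (w.1 (p.2 * (p.1 : G)) - w.1 p.2) * (g (p.2 * (p.1 : G)) - g p.2) := by
    rintro ⟨s, a⟩
    have hadj : Adj S a (a * s) := ⟨s, s.2, Or.inl rfl⟩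
    simp only [g]
    by_cases ha : a ∈ U <;> by_cases hb : a * (s : G) ∈ U
    · rw [if_pos ha, if_pos hb]; linarith only []
    · have h1 := hcase _ _ hadj ha hb
      rw [if_pos ha, if_neg hb]
      have h2 : t < w.1 a := ha.1
      nlinarith only [h1, h2]
    · have h1 := hcase _ _ hadj.symm hb ha
      rw [if_neg ha, if_pos hb]
      have h2 : t < w.1 (a * s) := hb.1
      nlinarith
    · rw [if_neg ha, if_neg hb]; simp only [sub_self, ne_eq, OfNat.ofNat_ne_zero, not_false_eq_true, zero_pow, mul_zero, Std.le_refl]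
  let gD : Dir S := ⟨g, mem_Dir_of_contr w.2 hg⟩
  have h1 : en S gD gD ≤ en S w gD := en_le_of_contr w gD hg
  have hx : g x = 0 := if_neg fun hx => hx.2 Relation.ReflTransGen.refl
  have hy : g y = 0 := if_neg fun hy => absurd hy.1 (not_lt.2 ht.le)
  rw [h gD] at h1
  change en S gD gD ≤ g x - g y at h1
  rw [hx, hy, sub_zero] at h1
  have h2 := le_antisymm h1 (en_self_nonneg S _)
  have h3 : g z = g x := (const_of_en_self hS h2 z).trans (const_of_en_self hS h2 x).symm
  rw [hx] at h3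
  have hzU : z ∈ U := ⟨hz, hcon⟩
  simp only [g] at h3
  rw [if_pos hzU] at h3
  linarith only [hz, h3]

end Vale.Agent.P239
end

section

/-!
Four point inequality for effective resistance.
-/

namespace Vale.Agent.P239

open scoped ENNReal InnerProductSpace
open MeasureTheory

variable {G : Type*} [Group G] {S : Finset G}

/-- The translate of a function. -/
theorem hasSum_slice (f : Dir S) (s : S) :
    Summable fun x : G => (f.1 (x * (s : G)) - f.1 x) ^ 2 := by
  have h := (hasSum_en S f f).summable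
  have h2 := h.comp_injective (i := fun x : G => ((s, x) : S × G)) (by
    intro a b hab; simpa using hab)
  refine h2.congr fun x => ?_
  simp only [Function.comp_apply, sq]

theorem tsum_slice_le (f : Dir S) (s : S) :
    ∑' x : G, (f.1 (x * (s : G)) - f.1 x) ^ 2 ≤ en S f f := by
  have h := (hasSum_en S f f)
  rw [← h.tsum_eq]
  have h2 := tsum_comp_le_tsum_of_inj h.summable (fun p => mul_self_nonneg _)
    (i := fun x : G => ((s, x) : S × G)) (by intro a b hab; simpa using hab)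
  refine le_trans (le_of_eq ?_) h2
  exact tsum_congr fun x => by simp only [sq, Function.comp_apply]

theorem trans_step (f : G → ℝ) (a b : G) {A B : ℝ}
    (ha : (Summable fun x : G => (f (x * a) - f x) ^ 2) ∧
      ∑' x : G, (f (x * a) - f x) ^ 2 ≤ A)
    (hb : (Summable fun x : G => (f (x * b) - f x) ^ 2) ∧
      ∑' x : G, (f (x * b) - f x) ^ 2 ≤ B) :
    (Summable fun x : G => (f (x * (a * b)) - f x) ^ 2) ∧
      ∑' x : G, (f (x * (a * b)) - f x) ^ 2 ≤ 2 * B + 2 * A := by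
  have h1 : Summable fun x : G => (f (x * a * b) - f (x * a)) ^ 2 := by
    have h := (Equiv.mulRight a).summable_iff.2 hb.1
    exact h
  have h1' : ∑' x : G, (f (x * a * b) - f (x * a)) ^ 2 =
      ∑' x : G, (f (x * b) - f x) ^ 2 := by
    have h := (Equiv.mulRight a).tsum_eq (fun x => (f (x * b) - f x) ^ 2)
    exact h
  have h2 := ha.1
  have h3 : Summable fun x : G => 2 * (f (x * a * b) - f (x * a)) ^ 2 +
      2 * (f (x * a) - f x) ^ 2 := (h1.mul_left 2).add (h2.mul_left 2)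
  have h4 : ∀ x : G, (f (x * (a * b)) - f x) ^ 2 ≤
      2 * (f (x * a * b) - f (x * a)) ^ 2 + 2 * (f (x * a) - f x) ^ 2 := by
    intro x
    rw [← mul_assoc]
    linarith only [sq_nonneg ((f (x * a * b) - f (x * a)) - (f (x * a) - f x))]
  have h5 : Summable fun x : G => (f (x * (a * b)) - f x) ^ 2 :=
    Summable.of_nonneg_of_le (fun x => sq_nonneg _) h4 h3
  refine ⟨h5, (h5.tsum_le_tsum h4 h3).trans ?_⟩
  rw [(h1.mul_left 2).tsum_add (h2.mul_left 2), tsum_mul_left, tsum_mul_left, h1']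
  have := ha.2
  have := hb.2
  linarith only [ha, hb]

theorem trans_inv (f : G → ℝ) (s : G) {B : ℝ}
    (h1 : (Summable fun x : G => (f (x * s) - f x) ^ 2) ∧
      ∑' x : G, (f (x * s) - f x) ^ 2 ≤ B) :
    (Summable fun x : G => (f (x * s⁻¹) - f x) ^ 2) ∧
      ∑' x : G, (f (x * s⁻¹) - f x) ^ 2 ≤ B := by
  have heq : ∀ x : G, (f (x * s⁻¹) - f x) ^ 2 =
      (fun y => (f (y * s) - f y) ^ 2) ((Equiv.mulRight s⁻¹) x) := by
    intro x
    simp only [Equiv.coe_mulRight, inv_mul_cancel_right]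
    ring
  constructor
  · exact ((Equiv.mulRight s⁻¹).summable_iff.2 h1.1).congr fun x => (heq x).symm
  · rw [tsum_congr heq, (Equiv.mulRight s⁻¹).tsum_eq (fun y => (f (y * s) - f y) ^ 2)]
    exact h1.2

variable (S) in
theorem exists_trans_bound (hS : Subgroup.closure (S : Set G) = ⊤) (g : G) :
    ∃ C : ℝ, 0 ≤ C ∧ ∀ f : Dir S, (Summable fun x : G => (f.1 (x * g) - f.1 x) ^ 2) ∧
      ∑' x : G, (f.1 (x * g) - f.1 x) ^ 2 ≤ C * en S f f := by
  have hg : g ∈ Subgroup.closure (S : Set G) := by rw [hS]; trivial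
  have gen : ∀ s ∈ S, ∀ f : Dir S, (Summable fun x : G => (f.1 (x * s) - f.1 x) ^ 2) ∧
        ∑' x : G, (f.1 (x * s) - f.1 x) ^ 2 ≤ en S f f := fun s hs f =>
    ⟨hasSum_slice f ⟨s, hs⟩, tsum_slice_le f ⟨s, hs⟩⟩
  induction hg using Subgroup.closure_induction_right with
  | one => exact ⟨0, le_rfl, fun f => by simp only [mul_one, sub_self, ne_eq, OfNat.ofNat_ne_zero, not_false_eq_true, zero_pow, summable_zero, tsum_zero, zero_mul, Std.le_refl, and_self]⟩
  | mul_right x _ s hs ih =>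
    obtain ⟨A, hA, ih⟩ := ih
    refine ⟨2 + 2 * A, by (clear * - hA; positivity), fun f => ?_⟩
    have h := trans_step f.1 x s (ih f) (gen s hs f)
    exact ⟨h.1, h.2.trans (le_of_eq (by ring))⟩
  | mul_inv_cancel x _ s hs ih =>
    obtain ⟨A, hA, ih⟩ := ih
    refine ⟨2 + 2 * A, by positivity, fun f => ?_⟩
    have h := trans_step f.1 x s⁻¹ (ih f) (trans_inv f.1 s (gen s hs f))
    exact ⟨h.1, h.2.trans (le_of_eq (by ring))⟩

/-- The crossing property for a finite set `F`. -/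
def CrossProp (S F : Finset G) : Prop :=
  ∀ (A B : Set G) (x y z w : G), x ∈ A → x ∈ B → y ∈ A → y ∉ B → z ∉ A → z ∈ B → w ∉ A → w ∉ B →
    Con S A x y → Con S Bᶜ y w → Con S Aᶜ z w → Con S B x z →
    ∃ u : G, (∃ a ∈ F, u * a ∈ A) ∧ (∃ a ∈ F, u * a ∉ A) ∧ (∃ a ∈ F, u * a ∈ B) ∧
      (∃ a ∈ F, u * a ∉ B)

theorem exists_osc_bound (hS : Subgroup.closure (S : Set G) = ⊤) (F : Finset G) :
    ∃ C : ℝ, 0 ≤ C ∧ ∀ f : Dir S, ∀ a ∈ F, ∀ b ∈ F,
      (Summable fun u : G => (f.1 (u * a) - f.1 (u * b)) ^ 2) ∧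
      ∑' u : G, (f.1 (u * a) - f.1 (u * b)) ^ 2 ≤ C * en S f f := by
  choose C hC0 hC using fun g : G => exists_trans_bound S hS g
  refine ⟨∑ a ∈ F, ∑ b ∈ F, C (b⁻¹ * a), ?_, fun f a ha b hb => ?_⟩
  · exact Finset.sum_nonneg fun a _ => Finset.sum_nonneg fun b _ => hC0 _
  · have h := hC (b⁻¹ * a) f
    have h1 : Summable fun u : G => (f.1 (u * a) - f.1 (u * b)) ^ 2 := by
      have h2 := (Equiv.mulRight b).summable_iff.2 h.1
      refine h2.congr fun u => ?_
      simp only [Function.comp_apply, Equiv.coe_mulRight]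
      rw [mul_assoc u b, mul_inv_cancel_left]
    have h3 : ∑' u : G, (f.1 (u * a) - f.1 (u * b)) ^ 2 =
        ∑' u : G, (f.1 (u * (b⁻¹ * a)) - f.1 u) ^ 2 := by
      have h2 := (Equiv.mulRight b).tsum_eq (fun x => (f.1 (x * (b⁻¹ * a)) - f.1 x) ^ 2)
      rw [← h2]
      refine tsum_congr fun u => ?_
      simp only [Equiv.coe_mulRight]
      rw [mul_assoc u b, mul_inv_cancel_left]
    refine ⟨h1, ?_⟩
    rw [h3]
    refine h.2.trans (mul_le_mul_of_nonneg_right ?_ (en_self_nonneg S f))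
    calc C (b⁻¹ * a) ≤ ∑ b ∈ F, C (b⁻¹ * a) :=
          Finset.single_le_sum (f := fun b => C (b⁻¹ * a)) (fun b _ => hC0 _) hb
      _ ≤ ∑ a ∈ F, ∑ b ∈ F, C (b⁻¹ * a) :=
          Finset.single_le_sum (f := fun a => ∑ b ∈ F, C (b⁻¹ * a))
            (fun a _ => Finset.sum_nonneg fun b _ => hC0 _) ha

theorem IsPot.con' (hS : Subgroup.closure (S : Set G) = ⊤) {x y : G} {w : Dir S}
    (h : IsPot x y w) {t : ℝ} (ht : t < w.1 x) {z : G} (hz : w.1 z < t) (htr : ∀ u, w.1 u ≠ t) :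
    Con S {u | t < w.1 u}ᶜ y z := by
  have h1 := h.neg.con hS (t := -t) (z := z) (neg_lt_neg ht) (neg_lt_neg hz)
  have h2 : {u | -t < (-w).1 u} = {u | t < w.1 u}ᶜ := by
    ext u
    change -t < -(w.1 u) ↔ ¬ t < w.1 u
    rw [neg_lt_neg_iff, not_lt]
    exact ⟨le_of_lt, fun h => lt_of_le_of_ne h (htr u)⟩
  rwa [h2] at h1

theorem ofReal_mul_ofReal_le (p q : ℝ) :
    ENNReal.ofReal p * ENNReal.ofReal q ≤ ENNReal.ofReal (p ^ 2 + q ^ 2) := by
  rcases le_total p 0 with hp | hp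
  · rw [ENNReal.ofReal_of_nonpos hp, zero_mul]; exact bot_le
  · rw [← ENNReal.ofReal_mul hp]
    refine ENNReal.ofReal_le_ofReal ?_
    nlinarith only []

/-- Area estimate. -/
theorem area_le [Countable G] (F : Finset G) {T₁ T₂ : Set ℝ} (c₁ c₂ : G → ℝ) {C₁ C₂ : ℝ}
    (h₁ : ∀ a ∈ F, ∀ b ∈ F, (Summable fun u : G => (c₁ (u * a) - c₁ (u * b)) ^ 2) ∧
      ∑' u : G, (c₁ (u * a) - c₁ (u * b)) ^ 2 ≤ C₁)
    (h₂ : ∀ a ∈ F, ∀ b ∈ F, (Summable fun u : G => (c₂ (u * a) - c₂ (u * b)) ^ 2) ∧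
      ∑' u : G, (c₂ (u * a) - c₂ (u * b)) ^ 2 ≤ C₂)
    (hT : ∀ t ∈ T₁, ∀ s ∈ T₂, ∃ u : G, (∃ a ∈ F, t < c₁ (u * a)) ∧ (∃ b ∈ F, c₁ (u * b) < t) ∧
      (∃ a ∈ F, s < c₂ (u * a)) ∧ (∃ b ∈ F, c₂ (u * b) < s)) :
    volume T₁ * volume T₂ ≤ (F.card : ℝ≥0∞) ^ 4 * ENNReal.ofReal (C₁ + C₂) := by
  let J := F × F × F × F
  let R : J × G → Set (ℝ × ℝ) := fun i =>
    (Set.Ioo (c₁ (i.2 * i.1.1)) (c₁ (i.2 * i.1.2.1))) ×ˢ
      (Set.Ioo (c₂ (i.2 * i.1.2.2.1)) (c₂ (i.2 * i.1.2.2.2)))
  have hcov : T₁ ×ˢ T₂ ⊆ ⋃ i : J × G, R i := by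
    rintro ⟨t, s⟩ ⟨ht, hs⟩
    obtain ⟨u, ⟨a, ha, h1⟩, ⟨b, hb, h2⟩, ⟨a', ha', h3⟩, ⟨b', hb', h4⟩⟩ := hT t ht s hs
    exact Set.mem_iUnion.2 ⟨((⟨b, hb⟩, ⟨a, ha⟩, ⟨b', hb'⟩, ⟨a', ha'⟩), u), ⟨⟨h2, h1⟩, ⟨h4, h3⟩⟩⟩
  have hvol : volume (T₁ ×ˢ T₂) = volume T₁ * volume T₂ := by
    rw [Measure.volume_eq_prod, Measure.prod_prod]
  have hR : ∀ i : J × G, volume (R i) ≤ ENNReal.ofReal
      ((c₁ (i.2 * i.1.2.1) - c₁ (i.2 * i.1.1)) ^ 2 +
        (c₂ (i.2 * i.1.2.2.2) - c₂ (i.2 * i.1.2.2.1)) ^ 2) := by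
    intro i
    rw [Measure.volume_eq_prod, Measure.prod_prod, Real.volume_Ioo, Real.volume_Ioo]
    exact ofReal_mul_ofReal_le _ _
  calc volume T₁ * volume T₂ = volume (T₁ ×ˢ T₂) := hvol.symm
    _ ≤ volume (⋃ i : J × G, R i) := measure_mono hcov
    _ ≤ ∑' i : J × G, volume (R i) := measure_iUnion_le _
    _ ≤ ∑' i : J × G, ENNReal.ofReal
      ((c₁ (i.2 * i.1.2.1) - c₁ (i.2 * i.1.1)) ^ 2 +
        (c₂ (i.2 * i.1.2.2.2) - c₂ (i.2 * i.1.2.2.1)) ^ 2) := ENNReal.tsum_le_tsum hR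
    _ = ∑' j : J, ∑' u : G, ENNReal.ofReal
      ((c₁ (u * j.2.1) - c₁ (u * j.1)) ^ 2 +
        (c₂ (u * j.2.2.2) - c₂ (u * j.2.2.1)) ^ 2) := ENNReal.tsum_prod'
    _ ≤ ∑' j : J, ENNReal.ofReal (C₁ + C₂) := by
      refine ENNReal.tsum_le_tsum fun j => ?_
      have g1 := h₁ j.2.1 j.2.1.2 j.1 j.1.2
      have g2 := h₂ j.2.2.2 j.2.2.2.2 j.2.2.1 j.2.2.1.2
      rw [← ENNReal.ofReal_tsum_of_nonneg (fun u => by (clear * -; positivity)) (g1.1.add g2.1),
        g1.1.tsum_add g2.1]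
      exact ENNReal.ofReal_le_ofReal (add_le_add g1.2 g2.2)
    _ = (F.card : ℝ≥0∞) ^ 4 * ENNReal.ofReal (C₁ + C₂) := by
      rw [tsum_fintype, Finset.sum_const, Finset.card_univ, nsmul_eq_mul]
      congr 1
      simp only [J, Fintype.card_prod, Fintype.card_coe]
      push_cast
      ring

theorem exists_rect_bound [Countable G] (hS : Subgroup.closure (S : Set G) = ⊤) {F : Finset G}
    (hF : CrossProp S F) :
    ∃ C : ℝ, 0 ≤ C ∧ ∀ (x y z w : G) (v₁ v₂ : Dir S), IsPot x z v₁ → IsPot x y v₂ →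
      min (v₁.1 y - v₁.1 w) (v₂.1 z - v₂.1 w) ≤ C := by
  obtain ⟨C, hC0, hC⟩ := exists_osc_bound hS F
  refine ⟨2 * ((F.card : ℝ) ^ 4 * C), by (clear * - hC0; positivity), fun x y z w v₁ v₂ h₁ h₂ => ?_⟩
  by_cases hk1 : v₁.1 y - v₁.1 w ≤ 0
  · exact (min_le_left _ _).trans (hk1.trans (by (clear * - hC0; positivity)))
  by_cases hk2 : v₂.1 z - v₂.1 w ≤ 0
  · exact (min_le_right _ _).trans (hk2.trans (by (clear * - hC0; positivity)))
  push Not at hk1 hk2
  set k₁ := v₁.1 y - v₁.1 w with hk₁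
  set k₂ := v₂.1 z - v₂.1 w with hk₂
  let c₁ := cD (v₁.1 w) (v₁.1 y) v₁
  let c₂ := cD (v₂.1 w) (v₂.1 z) v₂
  have e₁ : en S c₁ c₁ ≤ k₁ :=
    h₁.en_clamp (by linarith only [hk1]) (h₁.mem_range hS w).1 (h₁.mem_range hS y).2
  have e₂ : en S c₂ c₂ ≤ k₂ :=
    h₂.en_clamp (by linarith only [hk2]) (h₂.mem_range hS w).1 (h₂.mem_range hS z).2
  let T₁ : Set ℝ := Set.Ioo (v₁.1 w) (v₁.1 y) \ Set.range v₁.1
  let T₂ : Set ℝ := Set.Ioo (v₂.1 w) (v₂.1 z) \ Set.range v₂.1
  have hV₁ : volume T₁ = ENNReal.ofReal k₁ := by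
    rw [measure_sdiff_null ((Set.countable_range _).measure_zero _), Real.volume_Ioo]
  have hV₂ : volume T₂ = ENNReal.ofReal k₂ := by
    rw [measure_sdiff_null ((Set.countable_range _).measure_zero _), Real.volume_Ioo]
  have harea := area_le F (T₁ := T₁) (T₂ := T₂) c₁.1 c₂.1 (C₁ := C * k₁) (C₂ := C * k₂)
    (fun a ha b hb => ⟨(hC c₁ a ha b hb).1, (hC c₁ a ha b hb).2.trans
      (mul_le_mul_of_nonneg_left e₁ hC0)⟩)
    (fun a ha b hb => ⟨(hC c₂ a ha b hb).1, (hC c₂ a ha b hb).2.trans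
      (mul_le_mul_of_nonneg_left e₂ hC0)⟩) (by
    rintro t ⟨⟨ht1, ht2⟩, htr⟩ s ⟨⟨hs1, hs2⟩, hsr⟩
    have htr' : ∀ u, v₁.1 u ≠ t := fun u hu => htr ⟨u, hu⟩
    have hsr' : ∀ u, v₂.1 u ≠ s := fun u hu => hsr ⟨u, hu⟩
    have m1 := h₁.mem_range hS w
    have m2 := h₁.mem_range hS y
    have m3 := h₂.mem_range hS w
    have m4 := h₂.mem_range hS z
    obtain ⟨u, ⟨a, ha, h1⟩, ⟨b, hb, h2⟩, ⟨a', ha', h3⟩, ⟨b', hb', h4⟩⟩ :=
      hF {u | t < v₁.1 u} {u | s < v₂.1 u} x y z w (lt_of_lt_of_le ht2 m2.2)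
        (lt_of_lt_of_le hs2 m4.2) ht2 (not_lt.2 (m3.1.trans hs1.le))
        (not_lt.2 (m1.1.trans ht1.le)) hs2 (not_lt.2 ht1.le) (not_lt.2 hs1.le)
        (h₁.con hS (lt_of_le_of_lt m1.1 ht1) ht2)
        (h₂.con' hS (lt_of_lt_of_le hs2 m4.2) hs1 hsr')
        (h₁.con' hS (lt_of_lt_of_le ht2 m2.2) ht1 htr')
        (h₂.con hS (lt_of_le_of_lt m3.1 hs1) hs2)
    refine ⟨u, ⟨a, ha, ?_⟩, ⟨b, hb, ?_⟩, ⟨a', ha', ?_⟩, ⟨b', hb', ?_⟩⟩
    · exact lt_max_of_lt_right (lt_min ht2 h1)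
    · exact max_lt ht1 ((min_le_right _ _).trans_lt (lt_of_le_of_ne (not_lt.1 h2) (htr' _)))
    · exact lt_max_of_lt_right (lt_min hs2 h3)
    · exact max_lt hs1 ((min_le_right _ _).trans_lt (lt_of_le_of_ne (not_lt.1 h4) (hsr' _))))
  rw [hV₁, hV₂, ← ENNReal.ofReal_mul hk1.le] at harea
  have h5 : (F.card : ℝ≥0∞) ^ 4 * ENNReal.ofReal (C * k₁ + C * k₂) =
      ENNReal.ofReal ((F.card : ℝ) ^ 4 * (C * k₁ + C * k₂)) := by
    rw [ENNReal.ofReal_mul (by (clear * -; positivity)), ENNReal.ofReal_pow (by (clear * -; positivity)),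
      ENNReal.ofReal_natCast]
  rw [h5, ENNReal.ofReal_le_ofReal_iff (by (clear * - hC0 hk1 hk2; positivity))] at harea
  have hmin : 0 < min k₁ k₂ := lt_min hk1 hk2
  have hD : 0 ≤ (F.card : ℝ) ^ 4 * C := by (clear * - hC0; positivity)
  rcases le_total k₁ k₂ with hle | hle
  · rw [min_eq_left hle]
    have h6 : k₁ * k₂ ≤ (2 * ((F.card : ℝ) ^ 4 * C)) * k₂ := by linarith only [mul_nonneg (sub_nonneg.2 hD) (sub_nonneg.2 hle), harea]
    exact le_of_mul_le_mul_right h6 hk2
  · rw [min_eq_right hle]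
    have h6 : k₂ * k₁ ≤ (2 * ((F.card : ℝ) ^ 4 * C)) * k₁ := by linarith only [mul_nonneg (sub_nonneg.2 hD) (sub_nonneg.2 hle), harea]
    exact le_of_mul_le_mul_right h6 hk1

end Vale.Agent.P239
end

section

/-!
The resistance metric, its hyperbolicity, and the WPD property.
-/

namespace Vale.Agent.P239

open scoped ENNReal InnerProductSpace
open Filter Topology

variable {G : Type*} [Group G] {S : Finset G}

section Pot

/-- The chosen potential of `x` against `1`. -/
noncomputable def pot (hS : Subgroup.closure (S : Set G) = ⊤) (x : G) : Dir S :=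
  (exists_pot hS x).choose

variable (hS : Subgroup.closure (S : Set G) = ⊤)

theorem pot_isPot (x : G) : IsPot x 1 (pot hS x) := (exists_pot hS x).choose_spec

theorem pot_sub_isPot (x y : G) : IsPot x y (pot hS x - pot hS y) :=
  (pot_isPot hS x).sub (pot_isPot hS y)

/-- The effective resistance. -/
noncomputable def res (x y : G) : ℝ := en S (pot hS x - pot hS y) (pot hS x - pot hS y)

/-- The Gromov product at `1`. -/
noncomputable def gp (x y : G) : ℝ := en S (pot hS x) (pot hS y)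

theorem gp_comm (x y : G) : gp hS x y = gp hS y x := en_comm _ _ _

theorem gp_eq (x y : G) : gp hS x y = (pot hS x).1 y - (pot hS x).1 1 := by
  rw [gp_comm]; rw [gp, pot_isPot hS y]

theorem res_eq (x y : G) : res hS x y = gp hS x x + gp hS y y - 2 * gp hS x y := by
  rw [res, en_sub_left, en_sub_right, en_sub_right, en_comm S (pot hS y) (pot hS x)]
  simp only [gp]; ring

theorem gp_one (x : G) : gp hS 1 x = 0 := by
  rw [gp, pot_isPot hS 1]; ring

theorem gp_one' (x : G) : gp hS x 1 = 0 := by rw [gp_comm, gp_one]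

theorem gp_nonneg (x y : G) : 0 ≤ gp hS x y := by
  rw [gp_eq]
  have := ((pot_isPot hS x).mem_range hS y).1
  linarith

theorem gp_le (x y : G) : gp hS x y ≤ gp hS x x := by
  rw [gp_eq, gp_eq]
  have := ((pot_isPot hS x).mem_range hS y).2
  linarith

theorem res_comm (x y : G) : res hS x y = res hS y x := by
  rw [res_eq, res_eq, gp_comm hS y x]; ring

theorem res_self (x : G) : res hS x x = 0 := by rw [res_eq]; ring

theorem res_one (x : G) : res hS 1 x = gp hS x x := by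
  rw [res_eq, gp_one, gp_one]; ring

theorem res_nonneg (x y : G) : 0 ≤ res hS x y := en_self_nonneg _ _

theorem res_isPot {x y : G} {w : Dir S} (h : IsPot x y w) : res hS x y = w.1 x - w.1 y := by
  rw [res, (pot_sub_isPot hS x y).unique h, h.en_self]

theorem res_triangle (x y z : G) : res hS x z ≤ res hS x y + res hS y z := by
  have h := ((pot_sub_isPot hS x y).mem_range hS z).1
  have h1 : 0 ≤ en S (pot hS x - pot hS y) (pot hS z - pot hS y) := by
    rw [en_comm, pot_sub_isPot hS z y]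
    linarith
  rw [en_sub_left, en_sub_right, en_sub_right] at h1
  rw [res_eq, res_eq, res_eq]
  have h2 : en S (pot hS y) (pot hS z) = gp hS y z := rfl
  have h3 : en S (pot hS y) (pot hS y) = gp hS y y := rfl
  have h4 : en S (pot hS x) (pot hS z) = gp hS x z := rfl
  have h5 : en S (pot hS x) (pot hS y) = gp hS x y := rfl
  rw [h2, h3, h4, h5] at h1
  linarith only [h1]

/-- Hyperbolicity of the effective resistance. -/
theorem exists_four_point [Countable G] {F : Finset G} (hF : CrossProp S F) :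
    ∃ δ : ℝ, 0 ≤ δ ∧ ∀ x y z w : G,
      res hS x w + res hS y z ≤ max (res hS x y + res hS z w) (res hS x z + res hS y w) + δ := by
  obtain ⟨C, hC0, hC⟩ := exists_rect_bound hS hF
  refine ⟨2 * C, by positivity, fun x y z w => ?_⟩
  have h := hC x y z w _ _ (pot_sub_isPot hS x z) (pot_sub_isPot hS x y)
  have h1 : (pot hS x - pot hS z).1 y - (pot hS x - pot hS z).1 w =
      (res hS x w + res hS y z - (res hS x y + res hS z w)) / 2 := by
    rw [← pot_sub_isPot hS y w, en_sub_left, en_sub_right, en_sub_right]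
    simp only [res_eq, gp]
    rw [en_comm S (pot hS y) (pot hS x), en_comm S (pot hS w) (pot hS x),
      en_comm S (pot hS w) (pot hS z)]
    ring
  have h2 : (pot hS x - pot hS y).1 z - (pot hS x - pot hS y).1 w =
      (res hS x w + res hS y z - (res hS x z + res hS y w)) / 2 := by
    rw [← pot_sub_isPot hS z w, en_sub_left, en_sub_right, en_sub_right]
    simp only [res_eq, gp]
    rw [en_comm S (pot hS z) (pot hS x), en_comm S (pot hS z) (pot hS y),
      en_comm S (pot hS w) (pot hS x), en_comm S (pot hS w) (pot hS y)]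
    ring
  rw [h1, h2] at h
  rcases min_le_iff.1 h with h | h
  · have := le_max_left (res hS x y + res hS z w) (res hS x z + res hS y w)
    linarith only [this, h]
  · have := le_max_right (res hS x y + res hS z w) (res hS x z + res hS y w)
    linarith only [h, this]

end Pot

section Trans

/-- The permutation of directed edges. -/
def edgePerm (S : Finset G) (g : G) : S × G ≃ S × G where
  toFun p := (p.1, g⁻¹ * p.2)
  invFun p := (p.1, g * p.2)
  left_inv p := by simp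
  right_inv p := by simp

theorem mem_Dir_trans {f : G → ℝ} (hf : f ∈ Dir S) (g : G) : (fun x => f (g⁻¹ * x)) ∈ Dir S := by
  rw [mem_Dir] at hf ⊢
  rw [memℓp_gen_iff (by norm_num)] at hf ⊢
  have h := (edgePerm S g).summable_iff.2 hf
  refine h.congr fun p => ?_
  change ‖f (g⁻¹ * p.2 * (p.1 : G)) - f (g⁻¹ * p.2)‖ ^ _ =
    ‖f (g⁻¹ * (p.2 * (p.1 : G))) - f (g⁻¹ * p.2)‖ ^ _
  rw [mul_assoc]

/-- Translation. -/
noncomputable def trD (g : G) (f : Dir S) : Dir S := ⟨fun x => f.1 (g⁻¹ * x), mem_Dir_trans f.2 g⟩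

theorem en_trD (g : G) (f f' : Dir S) : en S (trD g f) (trD g f') = en S f f' := by
  have h1 := hasSum_en S (trD g f) (trD g f')
  have h2 := (edgePerm S g).hasSum_iff.2 (hasSum_en S f f')
  refine h1.unique ?_
  refine (congrArg (HasSum · (en S f f')) (funext fun p => ?_)).mp h2
  change (f.1 (g⁻¹ * p.2 * (p.1 : G)) - f.1 (g⁻¹ * p.2)) *
    (f'.1 (g⁻¹ * p.2 * (p.1 : G)) - f'.1 (g⁻¹ * p.2)) =
    (f.1 (g⁻¹ * (p.2 * (p.1 : G))) - f.1 (g⁻¹ * p.2)) *
    (f'.1 (g⁻¹ * (p.2 * (p.1 : G))) - f'.1 (g⁻¹ * p.2))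
  rw [mul_assoc]

theorem trD_trD (g h : G) (f : Dir S) : trD g (trD h f) = trD (g * h) f := by
  refine Subtype.ext (funext fun x => ?_)
  change f.1 (h⁻¹ * (g⁻¹ * x)) = f.1 ((g * h)⁻¹ * x)
  rw [mul_inv_rev, mul_assoc]

theorem trD_one (f : Dir S) : trD 1 f = f := by
  refine Subtype.ext (funext fun x => ?_)
  change f.1 (1⁻¹ * x) = f.1 x
  rw [inv_one, one_mul]

theorem IsPot.trans {x y : G} {w : Dir S} (h : IsPot x y w) (g : G) :
    IsPot (g * x) (g * y) (trD g w) := by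
  intro f
  have h1 : f = trD g (trD g⁻¹ f) := by rw [trD_trD, mul_inv_cancel, trD_one]
  rw [h1, en_trD, h]
  change f.1 (g⁻¹⁻¹ * x) - f.1 (g⁻¹⁻¹ * y) =
    f.1 (g⁻¹⁻¹ * (g⁻¹ * (g * x))) - f.1 (g⁻¹⁻¹ * (g⁻¹ * (g * y)))
  rw [inv_inv, inv_mul_cancel_left, inv_mul_cancel_left]

theorem res_mul (hS : Subgroup.closure (S : Set G) = ⊤) (g x y : G) :
    res hS (g * x) (g * y) = res hS x y := by
  rw [res_isPot hS ((pot_sub_isPot hS x y).trans g), ← ((pot_sub_isPot hS x y).trans g).en_self,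
    en_trD]
  rfl

/-- Matrix coefficients vanish at infinity. -/
theorem tendsto_inner_trD (f : Dir S) (η : HS S) :
    Tendsto (fun h : G => ⟪grad S (trD h f), η⟫_ℝ) cofinite (𝓝 0) := by
  classical
  have hnorm : ∀ h : G, ‖grad S (trD h f)‖ = ‖grad S f‖ := by
    intro h
    have h1 := en_self S (trD h f)
    rw [en_trD, en_self] at h1
    exact ((pow_left_inj₀ (norm_nonneg _) (norm_nonneg _) two_ne_zero).1 h1).symm
  rw [Metric.tendsto_nhds]
  intro ε hε
  have hsum : HasSum (fun p : S × G => lp.single 2 p (η p)) η := lp.hasSum_single (by norm_num) η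
  obtain ⟨T, hT⟩ := ((Metric.tendsto_nhds.1 hsum (ε / (2 * (‖grad S f‖ + 1))) (by positivity))).exists
  have hfin : Tendsto (fun h : G => ∑ p ∈ T, (grad S f (p.1, h⁻¹ * p.2)) * η p) cofinite (𝓝 0) := by
    have h0 : (0 : ℝ) = ∑ p ∈ T, 0 * η p := by simp
    rw [h0]
    refine tendsto_finsetSum _ fun p _ => Tendsto.mul_const _ ?_
    have h1 : Tendsto (fun q : S × G => grad S f q) cofinite (𝓝 0) := by
      have h2 := (hasSum_en S f f).summable.tendsto_cofinite_zero
      have h3 := (Real.continuous_sqrt.tendsto 0).comp h2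
      rw [Real.sqrt_zero] at h3
      rw [tendsto_zero_iff_abs_tendsto_zero]
      refine h3.congr fun q => ?_
      simp only [Function.comp_apply, Real.sqrt_mul_self_eq_abs, grad_apply]
    refine h1.comp (Function.Injective.tendsto_cofinite ?_)
    intro a b hab
    have := (Prod.ext_iff.1 hab).2
    simpa only [mul_left_inj, inv_inj] using this
  filter_upwards [Metric.tendsto_nhds.1 hfin (ε / 2) (by positivity)] with h hh
  rw [dist_zero_right] at hh ⊢
  have h1 : ⟪grad S (trD h f), ∑ p ∈ T, lp.single 2 p (η p)⟫_ℝ =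
      ∑ p ∈ T, (grad S f (p.1, h⁻¹ * p.2)) * η p := by
    rw [inner_sum]
    refine Finset.sum_congr rfl fun p _ => ?_
    rw [lp.inner_single_right]
    simp only [grad_apply]
    simp only [trD, RCLike.inner_apply, Real.ringHom_apply, mul_comm, mul_assoc]
  have h2 : ⟪grad S (trD h f), η⟫_ℝ = ⟪grad S (trD h f), η - ∑ p ∈ T, lp.single 2 p (η p)⟫_ℝ +
      ∑ p ∈ T, (grad S f (p.1, h⁻¹ * p.2)) * η p := by
    rw [inner_sub_right, h1]; ring
  rw [h2]
  refine (norm_add_le _ _).trans_lt ?_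
  have h3 : ‖⟪grad S (trD h f), η - ∑ p ∈ T, lp.single 2 p (η p)⟫_ℝ‖ ≤ ε / 2 := by
    refine (norm_inner_le_norm _ _).trans ?_
    rw [hnorm, ← dist_eq_norm, dist_comm]
    have h4 : ‖grad S f‖ * (ε / (2 * (‖grad S f‖ + 1))) ≤ ε / 2 := by
      rw [mul_div_assoc', div_le_div_iff₀ (by (clear * -; positivity)) (by positivity)]
      linarith only [hε]
    exact (mul_le_mul_of_nonneg_left hT.le (norm_nonneg _)).trans h4
  linarith only [h3, hh]

theorem finite_en_trD (f f' : Dir S) {ε : ℝ} (hε : 0 < ε) :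
    {h : G | ε ≤ |en S (trD h f) f'|}.Finite := by
  have h := tendsto_inner_trD f (grad S f')
  have h1 := (Metric.tendsto_nhds.1 h ε hε)
  rw [Filter.eventually_cofinite] at h1
  refine h1.subset fun x hx => ?_
  simp only [Set.mem_ofPred_eq, not_lt, dist_zero_right]
  exact hx

end Trans

end Vale.Agent.P239
end

section

/-!
Loxodromic elements for the resistance metric.
-/

namespace Vale.Agent.P239

open scoped ENNReal InnerProductSpace
open Filter Topology

variable {G : Type*} [Group G] {S : Finset G} (hS : Subgroup.closure (S : Set G) = ⊤)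

/-- four point inequality -/
def Four (δ : ℝ) : Prop := ∀ x y z w : G,
  res hS x w + res hS y z ≤ max (res hS x y + res hS z w) (res hS x z + res hS y w) + δ

theorem res_inv (g : G) : res hS 1 g⁻¹ = res hS 1 g := by
  rw [← res_mul hS g, mul_one, mul_inv_cancel, res_comm]

theorem two_gp (x y : G) : 2 * gp hS x y = res hS 1 x + res hS 1 y - res hS x y := by
  rw [res_one, res_one, res_eq]; ring

variable {hS}

theorem Four.gp {δ : ℝ} (h : Four hS δ) (x y z : G) :
    min (gp hS x y) (gp hS y z) ≤ gp hS x z + δ / 2 := by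
  have h1 := h x 1 y z
  have h2 := two_gp hS x y
  have h3 := two_gp hS y z
  have h4 := two_gp hS x z
  rw [res_comm hS x 1] at h1
  rcases max_choice (res hS 1 x + res hS y z) (res hS x y + res hS 1 z) with h5 | h5
  · rw [h5] at h1
    exact (min_le_right _ _).trans (by linarith only [h1, h3, h4])
  · rw [h5] at h1
    exact (min_le_left _ _).trans (by linarith)

end Vale.Agent.P239
end

section

/-!
Harmonic parts of potentials.
-/

namespace Vale.Agent.P239

open scoped ENNReal InnerProductSpace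
open Filter Topology

variable {G : Type*} [Group G] {S : Finset G}

/-- Square summable functions. -/
def SqS (f : G → ℝ) : Prop := Summable fun x => f x ^ 2

theorem en_self_eq_sum (f : Dir S) :
    en S f f = ∑ s ∈ S, ∑' x : G, (f.1 (x * s) - f.1 x) ^ 2 := by
  have h := hasSum_en S f f
  rw [← h.tsum_eq, h.summable.tsum_prod' (fun s => ?_), tsum_fintype,
    ← Finset.sum_coe_sort S (fun s => ∑' x : G, (f.1 (x * s) - f.1 x) ^ 2)]
  · exact Finset.sum_congr rfl fun s _ => tsum_congr fun x => (sq _).symm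
  · exact (hasSum_slice f s).congr fun x => sq _

theorem sq_slice {f : G → ℝ} (hf : SqS f) (s : G) :
    (Summable fun x => (f (x * s) - f x) ^ 2) ∧
      ∑' x, (f (x * s) - f x) ^ 2 ≤ 4 * ∑' x, f x ^ 2 := by
  have h1 : Summable fun x : G => f (x * s) ^ 2 := by
    have h := (Equiv.mulRight s).summable_iff.2 hf
    exact h
  have h1' : ∑' x : G, f (x * s) ^ 2 = ∑' x : G, f x ^ 2 := by
    have h := (Equiv.mulRight s).tsum_eq (fun x => f x ^ 2)
    exact h
  have h2 : Summable fun x : G => f x ^ 2 := hf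
  have h3 : Summable fun x : G => 2 * f (x * s) ^ 2 + 2 * f x ^ 2 :=
    (h1.mul_left 2).add (h2.mul_left 2)
  have h4 : ∀ x : G, (f (x * s) - f x) ^ 2 ≤ 2 * f (x * s) ^ 2 + 2 * f x ^ 2 := by
    intro x
    linarith only [sq_nonneg (f (x * s) + f x)]
  have h5 : Summable fun x : G => (f (x * s) - f x) ^ 2 :=
    Summable.of_nonneg_of_le (fun x => sq_nonneg _) h4 h3
  refine ⟨h5, (h5.tsum_le_tsum h4 h3).trans ?_⟩
  rw [(h1.mul_left 2).tsum_add (h2.mul_left 2), tsum_mul_left, tsum_mul_left, h1']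
  linarith

theorem mem_Dir_iff {f : G → ℝ} :
    f ∈ Dir S ↔ ∀ s ∈ S, Summable fun x => (f (x * s) - f x) ^ 2 := by
  constructor
  · intro hf s hs
    exact hasSum_slice ⟨f, hf⟩ ⟨s, hs⟩
  · intro h
    rw [mem_Dir, memℓp_gen_iff (by norm_num)]
    rw [summable_prod_of_nonneg (fun p => by positivity)]
    refine ⟨fun s => ?_, Summable.of_finite⟩
    refine (h s s.2).congr fun x => ?_
    simp

theorem SqS.mem_Dir {f : G → ℝ} (hf : SqS f) : f ∈ Dir S :=
  mem_Dir_iff.2 fun s _ => (sq_slice hf s).1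

theorem sqS_iff {f : G → ℝ} : SqS f ↔ Memℓp f 2 := by
  rw [memℓp_gen_iff (by norm_num)]
  simp only [SqS, Real.norm_eq_abs, ENNReal.toReal_ofNat, Real.rpow_ofNat, sq_abs]

theorem SqS.trans {f : G → ℝ} (hf : SqS f) (g : G) : SqS (fun x => f (g⁻¹ * x)) := by
  have h := (Equiv.mulLeft g⁻¹).summable_iff.2 hf
  exact h

variable (S) in
/-- `ℓ²(G)` inside the Dirichlet functions. -/
noncomputable def l2Dir : lp (fun _ : G => ℝ) 2 →ₗ[ℝ] Dir S where
  toFun φ := ⟨φ, (sqS_iff.2 (lp.memℓp φ)).mem_Dir⟩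
  map_add' _ _ := rfl
  map_smul' _ _ := rfl

variable (S) in
/-- `ℓ²(G)` inside the Dirichlet functions, as a map to gradients. -/
noncomputable def gradL2 : lp (fun _ : G => ℝ) 2 →L[ℝ] HS S :=
  LinearMap.mkContinuous ((grad S).comp (l2Dir S))
    (2 * (S.card : ℝ)) (by
      intro φ
      have h1 : ‖φ‖ ^ 2 = ∑' x, φ x ^ 2 := by
        have h := lp.hasSum_norm (by norm_num : 0 < (2 : ℝ≥0∞).toReal) φ
        have h2 := h.tsum_eq
        simp only [ENNReal.toReal_ofNat, Real.rpow_ofNat, Real.norm_eq_abs, sq_abs] at h2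
        exact h2.symm
      have h2 : ‖grad S ⟨φ, (sqS_iff.2 (lp.memℓp φ)).mem_Dir⟩‖ ^ 2 ≤
          (2 * (S.card : ℝ) * ‖φ‖) ^ 2 := by
        rw [← en_self, en_self_eq_sum]
        calc ∑ s ∈ S, ∑' x : G, (φ (x * s) - φ x) ^ 2 ≤ ∑ s ∈ S, 4 * ∑' x, φ x ^ 2 :=
              Finset.sum_le_sum fun s _ => (sq_slice (sqS_iff.2 (lp.memℓp φ)) s).2
          _ = (S.card : ℝ) * (4 * ‖φ‖ ^ 2) := by
              rw [Finset.sum_const, nsmul_eq_mul, h1]
          _ ≤ (2 * (S.card : ℝ) * ‖φ‖) ^ 2 := by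
              have hc : (S.card : ℝ) ≤ (S.card : ℝ) ^ 2 := by
                rcases Nat.eq_zero_or_pos S.card with h0 | h0
                · rw [h0]; simp
                · have : (1 : ℝ) ≤ S.card := by exact_mod_cast h0
                  nlinarith
              linarith only [mul_nonneg (sub_nonneg.2 hc) (sq_nonneg ‖φ‖)]
      exact (pow_le_pow_iff_left₀ (norm_nonneg _) (by positivity) two_ne_zero).1 h2)

theorem gradL2_apply (φ : lp (fun _ : G => ℝ) 2) :
    gradL2 S φ = grad S ⟨φ, (sqS_iff.2 (lp.memℓp φ)).mem_Dir⟩ := rfl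

/-- Orthogonal to `ℓ²`. -/
def Orth (u : Dir S) : Prop := ∀ ψ : Dir S, SqS ψ.1 → en S u ψ = 0

theorem single_mem (y : G) [DecidableEq G] : SqS (Pi.single y (1 : ℝ) : G → ℝ) := by
  refine summable_of_ne_finset_zero (s := {y}) fun x hx => ?_
  rw [Finset.mem_singleton] at hx
  rw [Pi.single_eq_of_ne hx]; simp

theorem en_single [DecidableEq G] (hsym : ∀ s ∈ S, s⁻¹ ∈ S) (u : Dir S) (y : G) :
    en S u ⟨Pi.single y (1 : ℝ), (single_mem y).mem_Dir⟩ =
      - 2 * ∑ s ∈ S, (u.1 (y * s) - u.1 y) := by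
  have h := hasSum_en S u ⟨Pi.single y (1 : ℝ), (single_mem y).mem_Dir⟩
  have hslice : ∀ s : S, HasSum (fun x : G => (u.1 (x * (s : G)) - u.1 x) *
      ((Pi.single y (1 : ℝ) : G → ℝ) (x * (s : G)) - (Pi.single y (1 : ℝ) : G → ℝ) x))
      ((u.1 y - u.1 (y * (s : G)⁻¹)) - (u.1 (y * s) - u.1 y)) := by
    intro s
    have h1 : HasSum (fun x : G => (u.1 (x * (s : G)) - u.1 x) *
      ((Pi.single y (1 : ℝ) : G → ℝ) (x * (s : G)))) (u.1 y - u.1 (y * (s : G)⁻¹)) := by
      have := hasSum_single (f := fun x : G => (u.1 (x * (s : G)) - u.1 x) *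
        ((Pi.single y (1 : ℝ) : G → ℝ) (x * (s : G)))) (y * (s : G)⁻¹) (by
          intro x hx
          rw [Pi.single_eq_of_ne, mul_zero]
          intro h
          apply hx
          rw [← h, mul_inv_cancel_right])
      simpa only [inv_mul_cancel_right, Pi.single_eq_same, mul_one] using this
    have h2 : HasSum (fun x : G => (u.1 (x * (s : G)) - u.1 x) *
      ((Pi.single y (1 : ℝ) : G → ℝ) x)) (u.1 (y * s) - u.1 y) := by
      have := hasSum_single (f := fun x : G => (u.1 (x * (s : G)) - u.1 x) *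
        ((Pi.single y (1 : ℝ) : G → ℝ) x)) y (by
          intro x hx
          rw [Pi.single_eq_of_ne hx, mul_zero])
      simpa only [Pi.single_eq_same, mul_one] using this
    refine (congrArg (HasSum · _) (funext fun x => ?_)).mp (h1.sub h2)
    ring
  have h3 := HasSum.prod_fiberwise (g := fun s : S =>
    (u.1 y - u.1 (y * (s : G)⁻¹)) - (u.1 (y * s) - u.1 y)) h hslice
  have h4 := h3.unique (hasSum_fintype _)
  rw [h4, Finset.sum_sub_distrib]
  have e1 : ∑ s : S, (u.1 y - u.1 (y * (s : G)⁻¹)) = - ∑ s ∈ S, (u.1 (y * s) - u.1 y) := by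
    rw [Finset.sum_coe_sort S (fun s => u.1 y - u.1 (y * s⁻¹)), ← Finset.sum_neg_distrib]
    refine Finset.sum_nbij' (fun s => s⁻¹) (fun s => s⁻¹) (fun s hs => hsym s hs)
      (fun s hs => hsym s hs) (fun s _ => inv_inv s) (fun s _ => inv_inv s) fun s _ => ?_
    ring
  have e2 : ∑ s : S, (u.1 (y * s) - u.1 y) = ∑ s ∈ S, (u.1 (y * s) - u.1 y) :=
    Finset.sum_coe_sort S (fun s => u.1 (y * s) - u.1 y)
  rw [e1, e2]; ring

theorem Orth.harm (hsym : ∀ s ∈ S, s⁻¹ ∈ S) {u : Dir S} (hu : Orth u) (y : G) :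
    ∑ s ∈ S, (u.1 (y * s) - u.1 y) = 0 := by
  classical
  have h := en_single hsym u y
  have h0 := hu ⟨Pi.single y (1 : ℝ), (single_mem y).mem_Dir⟩ (single_mem y)
  rw [h0] at h
  linarith only [h]

theorem orth_of_harm (hsym : ∀ s ∈ S, s⁻¹ ∈ S) {u : Dir S}
    (hu : ∀ y : G, ∑ s ∈ S, (u.1 (y * s) - u.1 y) = 0) : Orth u := by
  classical
  intro ψ hψ
  let φ : lp (fun _ : G => ℝ) 2 := ⟨ψ.1, sqS_iff.1 hψ⟩
  have h1 : HasSum (fun x : G => lp.single 2 x (φ x)) φ := lp.hasSum_single (by norm_num) φ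
  have h2 : HasSum (fun x : G => ⟪grad S u, gradL2 S (lp.single 2 x (φ x))⟫_ℝ)
      ⟪grad S u, gradL2 S φ⟫_ℝ :=
    ((innerSL ℝ (grad S u)).comp (gradL2 S)).hasSum h1
  have h3 : ∀ x : G, ⟪grad S u, gradL2 S (lp.single 2 x (φ x))⟫_ℝ = 0 := by
    intro x
    have e1 : lp.single (E := fun _ : G => ℝ) 2 x (φ x) =
        φ x • (⟨Pi.single x (1 : ℝ), sqS_iff.1 (single_mem x)⟩ : lp (fun _ : G => ℝ) 2) := by
      refine lp.ext (funext fun y => ?_)
      rw [lp.coeFn_smul, Pi.smul_apply, lp.single_apply]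
      change (Pi.single x (φ x) : G → ℝ) y = φ x • (Pi.single x (1 : ℝ) : G → ℝ) y
      by_cases h : y = x
      · subst h; simp only [Pi.single_eq_same, smul_eq_mul, mul_one]
      · rw [Pi.single_eq_of_ne h, Pi.single_eq_of_ne h]; simp only [smul_eq_mul, mul_zero]
    rw [e1, map_smul, inner_smul_right]
    have := en_single hsym u x
    rw [hu x, mul_zero] at this
    have e2 : ⟪grad S u, gradL2 S
      (⟨Pi.single x (1 : ℝ), sqS_iff.1 (single_mem x)⟩ : lp (fun _ : G => ℝ) 2)⟫_ℝ = 0 := this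
    rw [e2, mul_zero]
  have h4 := h2.unique ((congrArg (HasSum · (0 : ℝ)) (funext h3)).mpr hasSum_zero)
  exact h4

end Vale.Agent.P239
end

section

/-!
Existence of loxodromic elements.
-/

namespace Vale.Agent.P239

open scoped ENNReal InnerProductSpace
open Filter Topology

variable {G : Type*} [Group G] {S : Finset G}

theorem exists_decomp {C : ℝ} (hgap : ∀ f : G → ℝ, SqS f →
    ∑' x, f x ^ 2 ≤ C * ∑ s ∈ S, ∑' x, (f (x * s) - f x) ^ 2) (v : Dir S) :
    ∃ h φ : Dir S, v = h + φ ∧ SqS φ.1 ∧ Orth h := by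
  have hbound : ∀ φ : lp (fun _ : G => ℝ) 2, ‖φ‖ ≤ (Real.sqrt (max C 0)).toNNReal *
      ‖gradL2 S φ‖ := by
    intro φ
    have h1 : ‖φ‖ ^ 2 = ∑' x, φ x ^ 2 := by
      have h := lp.hasSum_norm (by norm_num : 0 < (2 : ℝ≥0∞).toReal) φ
      have h2 := h.tsum_eq
      simp only [ENNReal.toReal_ofNat, Real.rpow_ofNat, Real.norm_eq_abs, sq_abs] at h2
      exact h2.symm
    have h2 : ‖gradL2 S φ‖ ^ 2 = ∑ s ∈ S, ∑' x, (φ (x * s) - φ x) ^ 2 := by
      rw [gradL2_apply, ← en_self, en_self_eq_sum]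
    have h3 := hgap φ (sqS_iff.2 (lp.memℓp φ))
    rw [← h1, ← h2] at h3
    rw [Real.coe_toNNReal _ (Real.sqrt_nonneg _)]
    refine (pow_le_pow_iff_left₀ (norm_nonneg _) (by positivity) two_ne_zero).1 ?_
    rw [mul_pow, Real.sq_sqrt (le_max_right _ _)]
    exact h3.trans (mul_le_mul_of_nonneg_right (le_max_left _ _) (sq_nonneg _))
  have hanti : AntilipschitzWith (Real.sqrt (max C 0)).toNNReal (gradL2 S) :=
    ContinuousLinearMap.antilipschitz_of_bound _ hbound
  have hcl : IsClosed ((LinearMap.range (gradL2 S).toLinearMap : Submodule ℝ (HS S)) :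
      Set (HS S)) := by
    have := hanti.isClosed_range (gradL2 S).uniformContinuous
    rw [LinearMap.coe_range]
    exact this
  have : CompleteSpace (LinearMap.range (gradL2 S).toLinearMap) := hcl.completeSpace_coe
  obtain ⟨φ, hφ⟩ : (LinearMap.range (gradL2 S).toLinearMap).starProjection (grad S v) ∈
      LinearMap.range (gradL2 S).toLinearMap := Submodule.starProjection_apply_mem _ _
  refine ⟨v - l2Dir S φ, l2Dir S φ, by abel, sqS_iff.2 (lp.memℓp φ), fun ψ hψ => ?_⟩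
  have h := (Submodule.sub_starProjection_mem_orthogonal
    (K := LinearMap.range (gradL2 S).toLinearMap) (grad S v))
  rw [Submodule.mem_orthogonal'] at h
  have h2 := h (grad S ψ) ⟨⟨ψ.1, sqS_iff.1 hψ⟩, rfl⟩
  rw [← hφ] at h2
  have h3 : grad S v - (gradL2 S).toLinearMap φ = grad S (v - l2Dir S φ) := by
    rw [map_sub]; rfl
  rw [h3] at h2
  exact h2

end Vale.Agent.P239
end

section

/-!
The deck group of a covering of a compact space by a connected locally compact space is finitely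
generated.
-/

namespace Vale.Agent.P239

open scoped Pointwise Topology
open Set

variable {M X Γ : Type*} [TopologicalSpace M] [TopologicalSpace X] [Group Γ] [MulAction Γ X]

theorem locallyCompact_of_cover [LocallyCompactSpace M] {p : X → M}
    (hp : IsQuotientCoveringMap p Γ) : LocallyCompactSpace X := by
  have hloc := hp.isCoveringMap.isLocalHomeomorph
  choose e he hpe using hloc
  have : ∀ x : X, (𝓝 x).HasBasis
      (fun s ↦ s ∈ 𝓝 (e x x) ∧ IsCompact s ∧ s ⊆ (e x).target)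
      fun s ↦ (e x).symm '' s := fun x ↦ by
    rw [← (e x).symm_map_nhds_eq (he x)]
    exact ((compact_basis_nhds (e x x)).hasBasis_self_subset
      ((e x).open_target.mem_nhds ((e x).map_source (he x)))).map _
  refine .of_hasBasis this ?_
  rintro x s ⟨_, h₂, h₃⟩
  exact h₂.image_of_continuousOn ((e x).continuousOn_symm.mono h₃)

/-- The action of the deck group is proper. -/
theorem finite_meet [T2Space M] {p : X → M} (hp : IsQuotientCoveringMap p Γ) {C D : Set X}
    (hC : IsCompact C) (hD : IsCompact D) : {g : Γ | (g • C ∩ D).Nonempty}.Finite := by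
  have hcs : ContinuousConstSMul Γ X := hp.toContinuousConstSMul
  -- local statement
  have hlocal : ∀ x y : X, ∃ U ∈ 𝓝 x, ∃ V ∈ 𝓝 y, {g : Γ | (g • U ∩ V).Nonempty}.Finite := by
    intro x y
    by_cases hxy : p x = p y
    · obtain ⟨h, hh⟩ := hp.apply_eq_iff_mem_orbit.1 hxy.symm
      have hh' : h • x = y := hh
      obtain ⟨U, hU, hU'⟩ := hp.disjoint x
      refine ⟨U, hU, h • U, ?_, ?_⟩
      · rw [← hh']
        exact smul_mem_nhds_smul h hU
      · refine (Set.finite_singleton h).subset ?_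
        rintro g ⟨z, ⟨u, hu, rfl⟩, ⟨v, hv, hvu⟩⟩
        have h1 : (h⁻¹ * g) = 1 := by
          apply hU'
          refine ⟨v, ⟨u, hu, ?_⟩, hv⟩
          change (h⁻¹ * g) • u = v
          have hvu' : h • v = g • u := hvu
          rw [mul_smul, ← hvu', inv_smul_smul]
        exact (inv_mul_eq_one.1 h1).symm
    · obtain ⟨A, B, hA, hB, hxA, hyB, hAB⟩ := t2_separation hxy
      refine ⟨p ⁻¹' A, (hA.preimage hp.continuous).mem_nhds hxA, p ⁻¹' B,
        (hB.preimage hp.continuous).mem_nhds hyB, ?_⟩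
      have : {g : Γ | (g • (p ⁻¹' A) ∩ p ⁻¹' B).Nonempty} = ∅ := by
        ext g
        simp only [mem_ofPred_eq, mem_empty_iff_false, iff_false]
        rintro ⟨z, ⟨u, hu, rfl⟩, hz⟩
        have h1 : p (g • u) ∈ B := hz
        rw [hp.map_smul] at h1
        exact Set.disjoint_left.1 hAB hu h1
      rw [this]
      exact Set.finite_empty
  -- for a fixed point and the compact set `D`
  have hpoint : ∀ x : X, ∃ U ∈ 𝓝 x, {g : Γ | (g • U ∩ D).Nonempty}.Finite := by
    intro x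
    choose U hU V hV hfin using hlocal x
    obtain ⟨t, -, ht⟩ := hD.elim_nhds_subcover V (fun y _ => hV y)
    refine ⟨⋂ y ∈ t, U y, (Filter.biInter_finset_mem t).2 fun y _ => hU y, ?_⟩
    refine (Set.Finite.biUnion t.finite_toSet fun y _ => hfin y).subset ?_
    rintro g ⟨z, ⟨u, hu, rfl⟩, hz⟩
    obtain ⟨y, hy, hzy⟩ := mem_iUnion₂.1 (ht hz)
    refine mem_iUnion₂.2 ⟨y, hy, _, ⟨u, ?_, rfl⟩, hzy⟩
    exact mem_iInter₂.1 hu y hy
  choose U hU hfin using hpoint
  obtain ⟨t, -, ht⟩ := hC.elim_nhds_subcover U (fun x _ => hU x)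
  refine (Set.Finite.biUnion t.finite_toSet fun x _ => hfin x).subset ?_
  rintro g ⟨z, ⟨u, hu, rfl⟩, hz⟩
  obtain ⟨x, hx, hux⟩ := mem_iUnion₂.1 (ht hu)
  exact mem_iUnion₂.2 ⟨x, hx, _, ⟨u, hux, rfl⟩, hz⟩

/-- The deck group is finitely generated. -/
theorem fg_of_cover [CompactSpace M] [T2Space M] [LocallyCompactSpace X] [ConnectedSpace X]
    {p : X → M} (hp : IsQuotientCoveringMap p Γ) : Group.FG Γ := by
  classical
  have hcs : ContinuousConstSMul Γ X := hp.toContinuousConstSMul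
  have hopen : IsOpenMap p := hp.isCoveringMap.isOpenMap
  -- an open relatively compact set whose translates cover
  have h1 : ∀ x : X, ∃ K : Set X, IsCompact K ∧ K ∈ 𝓝 x := fun x => exists_compact_mem_nhds x
  choose K hK hKx using h1
  have hcov : (univ : Set M) ⊆ ⋃ x : X, p '' (interior (K x)) := by
    intro m _
    obtain ⟨x, rfl⟩ := hp.surjective m
    exact mem_iUnion.mpr ⟨x, x, mem_interior_iff_mem_nhds.mpr (hKx x), rfl⟩
  obtain ⟨t, ht⟩ := isCompact_univ.elim_finite_subcover _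
    (fun x => hopen _ isOpen_interior) hcov
  let U : Set X := ⋃ x ∈ t, interior (K x)
  let C : Set X := ⋃ x ∈ t, K x
  have hC : IsCompact C := t.isCompact_biUnion fun x _ => hK x
  have hU : IsOpen U := isOpen_biUnion fun x _ => isOpen_interior
  have hUC : U ⊆ C := by
    intro y hy
    obtain ⟨x, hx, hy'⟩ := mem_iUnion₂.1 hy
    exact mem_iUnion₂.2 ⟨x, hx, interior_subset hy'⟩
  have hUcov : ∀ x : X, ∃ g : Γ, x ∈ g • U := by
    intro x
    obtain ⟨y, hy, z, hz, hzx⟩ := mem_iUnion₂.mp (ht (mem_univ (p x)))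
    obtain ⟨g, hg⟩ := hp.apply_eq_iff_mem_orbit.mp hzx.symm
    exact ⟨g, z, mem_iUnion₂.mpr ⟨y, hy, hz⟩, hg⟩
  let S : Set Γ := {g | (g • C ∩ C).Nonempty}
  have hS : S.Finite := finite_meet hp hC hC
  obtain ⟨x₀⟩ : Nonempty X := inferInstance
  let H : Subgroup Γ := Subgroup.closure S
  let A : Set X := ⋃ g ∈ {g : Γ | g ∈ H}, g • U
  let B : Set X := ⋃ g ∈ {g : Γ | g ∉ H}, g • U
  have hA : IsOpen A := isOpen_biUnion fun g _ => hU.smul g
  have hB : IsOpen B := isOpen_biUnion fun g _ => hU.smul g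
  have hAB : A ∪ B = univ := by
    refine eq_univ_of_forall fun x => ?_
    obtain ⟨g, hg⟩ := hUcov x
    by_cases hgH : g ∈ H
    · exact Or.inl (mem_iUnion₂.2 ⟨g, hgH, hg⟩)
    · exact Or.inr (mem_iUnion₂.2 ⟨g, hgH, hg⟩)
  have hdisj : ∀ x, x ∈ A → x ∈ B → False := by
    intro x hxA hxB
    obtain ⟨g, hg, hxg⟩ := mem_iUnion₂.1 hxA
    obtain ⟨g', hg', hxg'⟩ := mem_iUnion₂.1 hxB
    obtain ⟨u, hu, hux⟩ := hxg
    obtain ⟨u', hu', hux'⟩ := hxg'
    have hux1 : g • u = x := hux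
    have hux2 : g' • u' = x := hux'
    apply hg'
    have h2 : g⁻¹ * g' ∈ S := by
      refine ⟨u, ⟨u', hUC hu', ?_⟩, hUC hu⟩
      change (g⁻¹ * g') • u' = u
      rw [mul_smul, hux2, ← hux1, inv_smul_smul]
    have h3 : g * (g⁻¹ * g') ∈ H := H.mul_mem hg (Subgroup.subset_closure h2)
    rwa [mul_inv_cancel_left] at h3
  have hUne : U.Nonempty := by
    obtain ⟨g, z, hz, _⟩ := hUcov x₀
    exact ⟨z, hz⟩
  have hAuniv : A = univ := by
    have hcl : IsClopen A := by
      refine ⟨⟨?_⟩, hA⟩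
      have : Aᶜ = B := by
        ext x
        constructor
        · intro hx
          have := mem_univ x
          rw [← hAB] at this
          exact this.resolve_left hx
        · intro hx hx'
          exact hdisj x hx' hx
      rw [this]
      exact hB
    refine hcl.eq_univ ?_
    obtain ⟨u, hu⟩ := hUne
    exact ⟨u, mem_iUnion₂.2 ⟨1, H.one_mem, by rwa [one_smul]⟩⟩
  have htop : H = ⊤ := by
    rw [eq_top_iff]
    intro g _
    by_contra hg
    obtain ⟨u, hu⟩ := hUne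
    have h1 : g • u ∈ B := mem_iUnion₂.2 ⟨g, hg, u, hu, rfl⟩
    have h2 : g • u ∈ A := by rw [hAuniv]; exact mem_univ _
    exact hdisj _ h2 h1
  rw [Group.fg_def]
  exact ⟨hS.toFinset, by rw [hS.coe_toFinset]; exact htop⟩

end Vale.Agent.P239
end

section

/-!
The crossing property from simple connectivity.
-/

namespace Vale.Agent.P239

open scoped Pointwise Topology unitInterval
open Set Filter

section Comb

variable {G : Type*} (α β : G → ℤ)

end Comb

section Cross

variable {X Γ : Type*} [TopologicalSpace X] [Group Γ] [MulAction Γ X] [ContinuousConstSMul Γ X]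

/-- grid points -/
noncomputable def gpt (N a : ℕ) : I := Set.projIcc 0 1 zero_le_one ((a : ℝ) / N)

theorem gpt_zero (N : ℕ) : gpt N 0 = 0 := by
  unfold gpt
  rw [Nat.cast_zero, zero_div]
  exact Set.projIcc_left _

theorem gpt_self {N : ℕ} (hN : 0 < N) : gpt N N = 1 := by
  unfold gpt
  rw [div_self (by positivity)]
  exact Set.projIcc_right _

theorem dist_gpt (N a : ℕ) : dist (gpt N (a + 1)) (gpt N a) ≤ 1 / N := by
  unfold gpt
  have h := (LipschitzWith.projIcc (zero_le_one (α := ℝ))).dist_le_mul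
    (((a + 1 : ℕ) : ℝ) / N) ((a : ℝ) / N)
  refine h.trans ?_
  rw [NNReal.coe_one, one_mul, Real.dist_eq]
  have : ((a + 1 : ℕ) : ℝ) / N - (a : ℝ) / N = 1 / N := by
    push_cast; ring
  rw [this, abs_of_nonneg (by positivity)]

/-- Labels of the vertical sides. -/
noncomputable def vlab (H : I × X → X) (l : X → Γ) (o : X) (N : ℕ) (p : Γ) (b : ℕ) : Γ :=
  if b = 0 then p else l (H (gpt N b, p • o))

variable {M : Type*} [TopologicalSpace M]

end Cross

end Vale.Agent.P239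
end
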