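import Vale.Agent.P239.MathlibUsed

set_option linter.all false

section

namespace Vale.Agent.P239

/-- The Følner condition: `G` is amenable. For every finite set `S` of elements and every `n` there
is a finite nonempty set `F` such that for every `s` in `S` the number of points of `F` which left
multiplication by `s` moves out of `F` is at most `1 / n` of the number of points of `F`. -/
def Foelner (G : Type*) [Group G] : Prop :=
  ∀ (S : Finset G) (n : ℕ), ∃ F : Finset G, F.Nonempty ∧
    ∀ s ∈ S, n * {x | x ∈ F ∧ s * x ∉ F}.ncard ≤ F.card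

end Vale.Agent.P239
end

section

/-! The spectral gap of groups which are not amenable (discrete Cheeger inequality). -/

namespace Vale.Agent.P239

variable {G : Type*} [Group G]

open Classical in
/-- points of `F` moved out of `F` by right multiplication by `s` -/
noncomputable def outR (F : Finset G) (s : G) : Finset G := F.filter fun x => x * s ∉ F

theorem mem_outR {F : Finset G} {s x : G} : x ∈ outR F s ↔ x ∈ F ∧ x * s ∉ F := by
  simp only [outR, Finset.mem_filter]

theorem outR_one (F : Finset G) : (outR F 1).card = 0 := by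
  rw [Finset.card_eq_zero, Finset.eq_empty_iff_forall_notMem]
  intro x hx
  rw [mem_outR, mul_one] at hx
  exact hx.2 hx.1

theorem outR_mul (F : Finset G) (s t : G) :
    (outR F (s * t)).card ≤ (outR F s).card + (outR F t).card := by
  classical
  have h : outR F (s * t) ⊆ outR F s ∪ (outR F t).image (fun x => x * s⁻¹) := by
    intro x hx
    rw [mem_outR] at hx
    rw [Finset.mem_union]
    by_cases hxs : x * s ∈ F
    · right
      rw [Finset.mem_image]
      exact ⟨x * s, mem_outR.2 ⟨hxs, by rw [mul_assoc]; exact hx.2⟩, by simp⟩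
    · left
      exact mem_outR.2 ⟨hx.1, hxs⟩
  exact (Finset.card_le_card h).trans ((Finset.card_union_le _ _).trans
    (Nat.add_le_add_left Finset.card_image_le _))

theorem outR_inv (F : Finset G) (s : G) : (outR F s⁻¹).card = (outR F s).card := by
  classical
  have h1 := Finset.card_filter_add_card_filter_not (s := F) (fun x : G => x * s⁻¹ ∈ F)
  have h2 := Finset.card_filter_add_card_filter_not (s := F) (fun x : G => x * s ∈ F)
  have h3 : (F.filter fun x => x * s⁻¹ ∈ F).card = (F.filter fun x => x * s ∈ F).card := by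
    refine Finset.card_nbij' (fun x => x * s⁻¹) (fun x => x * s) ?_ ?_ ?_ ?_
    · intro x hx
      simp only [Finset.coe_filter, Set.mem_ofPred_eq] at hx ⊢
      exact ⟨hx.2, by simpa using hx.1⟩
    · intro x hx
      simp only [Finset.coe_filter, Set.mem_ofPred_eq] at hx ⊢
      exact ⟨hx.2, by simpa only [mul_inv_cancel_right] using hx.1⟩
    · intro x _; simp
    · intro x _; simp
  have e1 : outR F s⁻¹ = F.filter fun x => ¬ x * s⁻¹ ∈ F := by
    ext x; simp [mem_outR]
  have e2 : outR F s = F.filter fun x => ¬ x * s ∈ F := by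
    ext x; simp [mem_outR]
  rw [e1, e2]
  omega

theorem outR_le_of_closure (S : Finset G) (hS : Subgroup.closure (S : Set G) = ⊤) (g : G) :
    ∃ N : ℕ, ∀ F : Finset G, (outR F g).card ≤ N * ∑ s ∈ S, (outR F s).card := by
  have hg : g ∈ Subgroup.closure (S : Set G) := by rw [hS]; trivial
  induction hg using Subgroup.closure_induction with
  | mem x hx =>
    refine ⟨1, fun F => ?_⟩
    rw [one_mul]
    exact Finset.single_le_sum (f := fun s => (outR F s).card) (fun _ _ => Nat.zero_le _) hx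
  | one => exact ⟨0, fun F => by rw [outR_one]; exact Nat.zero_le _⟩
  | mul x y _ _ hx hy =>
    obtain ⟨N, hN⟩ := hx
    obtain ⟨M, hM⟩ := hy
    refine ⟨N + M, fun F => (outR_mul F x y).trans ?_⟩
    rw [add_mul]
    exact add_le_add (hN F) (hM F)
  | inv x _ hx =>
    obtain ⟨N, hN⟩ := hx
    exact ⟨N, fun F => by rw [outR_inv]; exact hN F⟩

/-- The isoperimetric inequality of a group which is not amenable. -/
theorem exists_cheeger (hF : ¬ Foelner G) (S : Finset G)
    (hS : Subgroup.closure (S : Set G) = ⊤) :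
    ∃ M : ℕ, ∀ F : Finset G, F.card ≤ M * ∑ s ∈ S, (outR F s).card := by
  classical
  unfold Foelner at hF
  push Not at hF
  obtain ⟨S₀, n, h⟩ := hF
  choose N hN using outR_le_of_closure S hS
  refine ⟨n * ∑ s ∈ S₀, N s, fun F => ?_⟩
  rcases F.eq_empty_or_nonempty with rfl | hne
  · simp only [Finset.card_empty, zero_le]
  obtain ⟨s, hs, hlt⟩ := h (F.image fun x => x⁻¹) (hne.image _)
  have hcard : (F.image fun x => x⁻¹).card = F.card :=
    Finset.card_image_of_injective _ inv_injective
  have hset : {x | x ∈ (F.image fun x => x⁻¹) ∧ s * x ∉ (F.image fun x => x⁻¹)} =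
      (((outR F s⁻¹).image fun x => x⁻¹ : Finset G) : Set G) := by
    ext x
    simp only [Set.mem_ofPred_eq, Finset.mem_image, Finset.coe_image, Set.mem_image,
      Finset.mem_coe, mem_outR, not_exists, not_and]
    constructor
    · rintro ⟨⟨y, hy, rfl⟩, h2⟩
      refine ⟨y, ⟨hy, fun h3 => h2 _ h3 ?_⟩, rfl⟩
      simp
    · rintro ⟨y, ⟨hy, h2⟩, rfl⟩
      refine ⟨⟨y, hy, rfl⟩, fun z hz hzz => h2 ?_⟩
      have : y * s⁻¹ = z := by
        rw [← inv_inj, hzz]
        simp
      rw [this]; exact hz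
  rw [hset, Set.ncard_coe_finset, hcard, Finset.card_image_of_injective _ inv_injective,
    outR_inv] at hlt
  calc F.card ≤ n * (outR F s).card := hlt.le
    _ ≤ n * (N s * ∑ s ∈ S, (outR F s).card) := by gcongr; exact hN s F
    _ ≤ n * ((∑ s ∈ S₀, N s) * ∑ s ∈ S, (outR F s).card) := by
        gcongr
        exact Finset.single_le_sum (f := N) (fun _ _ => Nat.zero_le _) hs
    _ = _ := by ring

/-- Layer decomposition. -/
theorem sum_le_of_cheeger (S : Finset G) (M : ℕ)
    (hM : ∀ F : Finset G, F.card ≤ M * ∑ s ∈ S, (outR F s).card) :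
    ∀ (n : ℕ) (F : Finset G) (g : G → ℝ), F.card = n → (∀ x, 0 ≤ g x) → (∀ x, x ∉ F → g x = 0) →
      ∑ x ∈ F, g x ≤ M * ∑ s ∈ S, ∑ x ∈ F, max (g x - g (x * s)) 0 := by
  classical
  intro n
  induction n with
  | zero =>
    intro F g hF _ _
    rw [Finset.card_eq_zero] at hF
    subst hF
    simp only [Finset.sum_empty, Finset.sum_const_zero, mul_zero, Std.le_refl]
  | succ n ih =>
    intro F g hF hg0 hgF
    have hne : F.Nonempty := by rw [← Finset.card_pos]; omega
    obtain ⟨x₀, hx₀, hmin⟩ := Finset.exists_min_image F g hne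
    set m := g x₀ with hm
    have hm0 : 0 ≤ m := hg0 _
    let g' : G → ℝ := fun x => if x ∈ F then g x - m else 0
    have hg'0 : ∀ x, 0 ≤ g' x := by
      intro x
      simp only [g']
      split_ifs with h
      · linarith only [hmin x h]
      · exact le_rfl
    have hg'x₀ : g' x₀ = 0 := by simp [g', hx₀, hm]
    have hF' : (F.erase x₀).card = n := by rw [Finset.card_erase_of_mem hx₀]; omega
    have h1 := ih (F.erase x₀) g' hF' hg'0 (by
      intro x hx
      by_cases hxF : x ∈ F
      · have : x = x₀ := by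
          by_contra hne'
          exact hx (Finset.mem_erase.2 ⟨hne', hxF⟩)
        rw [this, hg'x₀]
      · simp [g', hxF])
    have h2 : ∑ x ∈ F.erase x₀, g' x = ∑ x ∈ F, g' x := by
      rw [← Finset.add_sum_erase F g' hx₀, hg'x₀, zero_add]
    have h3 : ∀ s, ∑ x ∈ F.erase x₀, max (g' x - g' (x * s)) 0 =
        ∑ x ∈ F, max (g' x - g' (x * s)) 0 := by
      intro s
      rw [← Finset.add_sum_erase F (fun x => max (g' x - g' (x * s)) 0) hx₀]
      rw [hg'x₀, zero_sub, max_eq_right (by linarith only [hg'0 (x₀ * s)]), zero_add]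
    have h4 : ∑ x ∈ F, g x = m * F.card + ∑ x ∈ F, g' x := by
      have : ∀ x ∈ F, g x = m + g' x := by
        intro x hx
        simp [g', hx]
      rw [Finset.sum_congr rfl this, Finset.sum_add_distrib, Finset.sum_const, nsmul_eq_mul]
      ring
    have h5 : ∀ s, ∑ x ∈ F, max (g x - g (x * s)) 0 =
        m * (outR F s).card + ∑ x ∈ F, max (g' x - g' (x * s)) 0 := by
      intro s
      have e : ∀ x ∈ F, max (g x - g (x * s)) 0 =
          (if x * s ∉ F then m else 0) + max (g' x - g' (x * s)) 0 := by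
        intro x hx
        by_cases hxs : x * s ∈ F
        · simp only [hxs, not_true_eq_false, ↓reduceIte, hx, sub_sub_sub_cancel_right, zero_add, g']
        · have e1 : g (x * s) = 0 := hgF _ hxs
          have e2 : g' (x * s) = 0 := by simp [g', hxs]
          have e3 : g' x = g x - m := by simp [g', hx]
          rw [if_pos hxs, e1, e2, sub_zero, sub_zero, max_eq_left (hg0 x), max_eq_left (hg'0 x),
            e3]
          ring
      rw [Finset.sum_congr rfl e, Finset.sum_add_distrib]
      congr 1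
      rw [← Finset.sum_filter, Finset.sum_const, nsmul_eq_mul, mul_comm]
      rfl
    have h6 : (F.card : ℝ) ≤ M * ∑ s ∈ S, ((outR F s).card : ℝ) := by
      exact_mod_cast hM F
    rw [h2] at h1
    simp only [h3] at h1
    simp only [h5, Finset.sum_add_distrib]
    rw [h4, mul_add, ← Finset.mul_sum]
    have h7 : m * (F.card : ℝ) ≤ m * (M * ∑ s ∈ S, ((outR F s).card : ℝ)) := by (clear * - h6 hm0; gcongr)
    linarith only [h1, h7]

theorem mul_le_weighted (t a b : ℝ) (ht : 0 < t) :
    a * b ≤ t / 2 * a ^ 2 + 1 / (2 * t) * b ^ 2 := by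
  have h4 : 0 ≤ 1 / (2 * t) * (t * a - b) ^ 2 := by positivity
  have h5 : 1 / (2 * t) * (t * a - b) ^ 2 = t / 2 * a ^ 2 + 1 / (2 * t) * b ^ 2 - a * b := by
    field_simp
    ring
  linarith

theorem gap_alg (M c Q E : ℝ) (hM : 0 < M) (hc : 0 < c) :
    M * ((4 * M * c) / 2 * E + c * (2 * Q / (4 * M * c))) = M * ((4 * M * c) / 2 * E) + Q / 2 := by
  field_simp
  ring

theorem gap_alg2 (t Q : ℝ) (ht : 0 < t) : 1 / (2 * t) * (4 * Q) = 2 * Q / t := by
  field_simp
  ring

theorem trunc_pointwise (u v ε t : ℝ) (ht : 0 < t) :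
    max (max (u ^ 2 - ε) 0 - max (v ^ 2 - ε) 0) 0 ≤
      t / 2 * (v - u) ^ 2 + 1 / (2 * t) * (v + u) ^ 2 := by
  have a1 : max (u ^ 2 - ε) 0 - max (v ^ 2 - ε) 0 ≤ |u ^ 2 - v ^ 2| := by
    have := abs_max_sub_max_le_abs (u ^ 2 - ε) (v ^ 2 - ε) 0
    refine (le_abs_self _).trans (this.trans (le_of_eq ?_))
    congr 1; ring
  have a2 : |u ^ 2 - v ^ 2| = |v - u| * |v + u| := by
    rw [← abs_mul, ← abs_neg]
    congr 1; ring
  have a3 : |v - u| * |v + u| ≤ t / 2 * (v - u) ^ 2 + 1 / (2 * t) * (v + u) ^ 2 := by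
    rw [← sq_abs (v - u), ← sq_abs (v + u)]
    exact mul_le_weighted t _ _ ht
  refine max_le ?_ (by positivity)
  linarith only [a3, a2, a1]

theorem summable_sq_shift {f : G → ℝ} (hf : Summable fun x => f x ^ 2) (s : G) :
    Summable fun x => f (x * s) ^ 2 := (Equiv.mulRight s).summable_iff.2 hf

theorem summable_sq_diff {f : G → ℝ} (hf : Summable fun x => f x ^ 2) (s : G) :
    Summable fun x => (f (x * s) - f x) ^ 2 := by
  refine Summable.of_nonneg_of_le (fun _ => sq_nonneg _) (fun x => ?_)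
    (((summable_sq_shift hf s).mul_left 2).add (hf.mul_left 2))
  linarith only [sq_nonneg (f (x * s) + f x)]

theorem summable_sq_sum {f : G → ℝ} (hf : Summable fun x => f x ^ 2) (s : G) :
    Summable fun x => (f (x * s) + f x) ^ 2 := by
  refine Summable.of_nonneg_of_le (fun _ => sq_nonneg _) (fun x => ?_)
    (((summable_sq_shift hf s).mul_left 2).add (hf.mul_left 2))
  linarith only [sq_nonneg (f (x * s) - f x)]

theorem tsum_sq_sum_le {f : G → ℝ} (hf : Summable fun x => f x ^ 2) (s : G) :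
    ∑' x, (f (x * s) + f x) ^ 2 ≤ 4 * ∑' x, f x ^ 2 := by
  have hQs : ∑' x, f (x * s) ^ 2 = ∑' x, f x ^ 2 := (Equiv.mulRight s).tsum_eq (fun x => f x ^ 2)
  have h1 : ∑' x, (f (x * s) + f x) ^ 2 ≤ ∑' x, (2 * f (x * s) ^ 2 + 2 * f x ^ 2) := by
    refine (summable_sq_sum hf s).tsum_le_tsum (fun x => ?_)
      (((summable_sq_shift hf s).mul_left 2).add (hf.mul_left 2))
    linarith only [sq_nonneg (f (x * s) - f x)]
  rw [((summable_sq_shift hf s).mul_left 2).tsum_add (hf.mul_left 2), tsum_mul_left,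
    tsum_mul_left, hQs] at h1
  linarith only [h1]

/-- main bound for the truncations -/
theorem gap_trunc (S : Finset G) (M : ℕ)
    (hM : ∀ F : Finset G, F.card ≤ M * ∑ s ∈ S, (outR F s).card) {f : G → ℝ}
    (hf : Summable fun x => f x ^ 2) (t : ℝ) (ht : 0 < t) (A : Finset G) (ε : ℝ) (hε : 0 < ε) :
    ∑ x ∈ A, (f x ^ 2 - ε) ≤ M * (t / 2 * ∑ s ∈ S, ∑' x, (f (x * s) - f x) ^ 2 +
      S.card * (2 * (∑' x, f x ^ 2) / t)) := by
  classical
  have hfin : {x | ε < f x ^ 2}.Finite := by
    have h1 := hf.tendsto_cofinite_zero.eventually (gt_mem_nhds hε)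
    have h2 : {x | ¬ f x ^ 2 < ε}.Finite := h1
    exact h2.subset fun x hx => not_lt.2 (le_of_lt hx)
  set F : Finset G := hfin.toFinset with hFdef
  have hmemF : ∀ x, x ∈ F ↔ ε < f x ^ 2 := fun x => by simp [hFdef]
  have hg0 : ∀ x, 0 ≤ max (f x ^ 2 - ε) 0 := fun x => le_max_right _ _
  have hgF : ∀ x, x ∉ F → max (f x ^ 2 - ε) 0 = 0 := by
    intro x hx
    rw [hmemF, not_lt] at hx
    exact max_eq_right (by linarith)
  have h1 := sum_le_of_cheeger S M hM F.card F (fun x => max (f x ^ 2 - ε) 0) rfl hg0 hgF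
  have h2 : ∑ x ∈ A, (f x ^ 2 - ε) ≤ ∑ x ∈ F, max (f x ^ 2 - ε) 0 := by
    calc ∑ x ∈ A, (f x ^ 2 - ε) ≤ ∑ x ∈ A, max (f x ^ 2 - ε) 0 :=
          Finset.sum_le_sum fun x _ => le_max_left _ _
      _ ≤ ∑ x ∈ A ∪ F, max (f x ^ 2 - ε) 0 :=
          Finset.sum_le_sum_of_subset_of_nonneg Finset.subset_union_left fun x _ _ => hg0 x
      _ = ∑ x ∈ F, max (f x ^ 2 - ε) 0 :=
          (Finset.sum_subset Finset.subset_union_right fun x _ hx => hgF x hx).symm
  have h3 : ∀ s ∈ S, ∑ x ∈ F, max (max (f x ^ 2 - ε) 0 - max (f (x * s) ^ 2 - ε) 0) 0 ≤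
      t / 2 * ∑' x, (f (x * s) - f x) ^ 2 + 2 * (∑' x, f x ^ 2) / t := by
    intro s _
    calc ∑ x ∈ F, max (max (f x ^ 2 - ε) 0 - max (f (x * s) ^ 2 - ε) 0) 0
        ≤ ∑ x ∈ F, (t / 2 * (f (x * s) - f x) ^ 2 + 1 / (2 * t) * (f (x * s) + f x) ^ 2) :=
          Finset.sum_le_sum fun x _ => trunc_pointwise _ _ ε t ht
      _ = t / 2 * ∑ x ∈ F, (f (x * s) - f x) ^ 2 +
            1 / (2 * t) * ∑ x ∈ F, (f (x * s) + f x) ^ 2 := by
          rw [Finset.sum_add_distrib, Finset.mul_sum, Finset.mul_sum]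
      _ ≤ t / 2 * ∑' x, (f (x * s) - f x) ^ 2 + 1 / (2 * t) * (4 * ∑' x, f x ^ 2) := by
          gcongr
          · exact (summable_sq_diff hf s).sum_le_tsum F fun _ _ => sq_nonneg _
          · exact ((summable_sq_sum hf s).sum_le_tsum F fun _ _ => sq_nonneg _).trans
              (tsum_sq_sum_le hf s)
      _ = _ := by rw [gap_alg2 t _ ht]
  refine h2.trans (h1.trans ?_)
  gcongr
  refine (Finset.sum_le_sum h3).trans (le_of_eq ?_)
  rw [Finset.sum_add_distrib, ← Finset.mul_sum, Finset.sum_const, nsmul_eq_mul]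

/-- The spectral gap. -/
theorem exists_gap (hF : ¬ Foelner G) (S : Finset G) (hS : Subgroup.closure (S : Set G) = ⊤) :
    ∃ C : ℝ, 0 < C ∧ ∀ f : G → ℝ, (Summable fun x => f x ^ 2) →
      ∑' x, f x ^ 2 ≤ C * ∑ s ∈ S, ∑' x, (f (x * s) - f x) ^ 2 := by
  obtain ⟨M, hM⟩ := exists_cheeger hF S hS
  have hMpos : 0 < M := by
    rcases Nat.eq_zero_or_pos M with h | h
    · have := hM {1}
      rw [h] at this
      simp only [Finset.card_singleton, zero_mul, nonpos_iff_eq_zero, one_ne_zero] at this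
    · exact h
  have hSpos : 0 < S.card := by
    rcases Nat.eq_zero_or_pos S.card with h | h
    · have := hM {1}
      rw [Finset.card_eq_zero.1 h] at this
      simp only [Finset.card_singleton, Finset.sum_empty, mul_zero, nonpos_iff_eq_zero, one_ne_zero] at this
    · exact h
  have hM' : (0 : ℝ) < M := by exact_mod_cast hMpos
  have hS' : (0 : ℝ) < S.card := by exact_mod_cast hSpos
  refine ⟨4 * M ^ 2 * S.card, by positivity, fun f hf => ?_⟩
  have hA : ∀ A : Finset G, ∑ x ∈ A, f x ^ 2 ≤
      M * ((4 * M * S.card) / 2 * ∑ s ∈ S, ∑' x, (f (x * s) - f x) ^ 2) +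
        (∑' x, f x ^ 2) / 2 := by
    intro A
    refine le_of_forall_pos_le_add fun δ hδ => ?_
    have h1 := gap_trunc S M hM hf (4 * M * S.card) (by positivity) A (δ / (A.card + 1))
      (by positivity)
    rw [gap_alg M S.card _ _ hM' hS', Finset.sum_sub_distrib, Finset.sum_const,
      nsmul_eq_mul] at h1
    have h2 : (A.card : ℝ) * (δ / (A.card + 1)) ≤ δ := by
      rw [mul_div_assoc', div_le_iff₀ (by (clear * -; positivity))]
      linarith only [hδ]
    linarith only [h2, h1]
  have hfinal := hf.tsum_le_of_sum_le hA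
  linarith

end Vale.Agent.P239
end

section

/-! Groups with a cyclic subgroup of finite index are amenable. -/

namespace Vale.Agent.P239

variable {G : Type*} [Group G]

end Vale.Agent.P239
end
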