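import Vale.Agent.P239.Bdl.B6
import Vale.Agent.P239.Bdl.B7

set_option linter.all false

section

/-! Interface file for the full proof: `G` one-ended, torsion free, `H^2` with finite supports
vanishes, then finite energy harmonic functions are constant. -/

namespace Vale.Agent.P239.F

open Filter Topology Set
open Vale.Agent.P239
open scoped RealInnerProductSpace

variable {G : Type*} [Group G]

/-- A set with finite coboundary is finite or cofinite. -/
def OneEnded (S : Finset G) : Prop :=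
  ∀ A : Set G, {x | ∃ y, Adj S x y ∧ ¬ (x ∈ A ↔ y ∈ A)}.Finite → A.Finite ∨ Aᶜ.Finite

/-- Closed 1-cochains modulo 2 at scale `T` are exact. -/
def H1Ex (T : Finset G) : Prop :=
  ∀ c : G → G → ZMod 2,
    (∀ x y z, x⁻¹ * y ∈ T → y⁻¹ * z ∈ T → x⁻¹ * z ∈ T → c x y + c y z = c x z) →
    ∃ f : G → ZMod 2, ∀ x y, x⁻¹ * y ∈ T → c x y = f x + f y

/-- A finitely supported 2-cocycle modulo 2 at scale `T` is, at scale `S`, the coboundary of a
finitely supported 1-cochain (ordered cochains). -/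
def H2Fill (S T : Finset G) : Prop :=
  ∀ b : G → G → G → ZMod 2, {p : G × G × G | b p.1 p.2.1 p.2.2 ≠ 0}.Finite →
    (∀ x y z w, x⁻¹ * y ∈ T → x⁻¹ * z ∈ T → x⁻¹ * w ∈ T → y⁻¹ * z ∈ T → y⁻¹ * w ∈ T →
      z⁻¹ * w ∈ T → b y z w + b x z w + b x y w + b x y z = 0) →
    ∃ c : G → G → ZMod 2, {p : G × G | c p.1 p.2 ≠ 0}.Finite ∧
      ∀ x y z, x⁻¹ * y ∈ S → y⁻¹ * z ∈ S → x⁻¹ * z ∈ S → b x y z = c x y + c y z + c x z

/-- All standing hypotheses on the group. -/
structure Hyp (S T : Finset G) : Prop where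
  gen : Subgroup.closure (S : Set G) = ⊤
  symS : ∀ s ∈ S, s⁻¹ ∈ S
  symT : ∀ s ∈ T, s⁻¹ ∈ T
  oneS : (1 : G) ∈ S
  sub : S ⊆ T
  inf : Infinite G
  oneEnd : OneEnded S
  exS : H1Ex S
  exT : H1Ex T
  fill : H2Fill S T
  tf : ∀ g : G, g ≠ 1 → ∀ n : ℕ, n ≠ 0 → g ^ n ≠ 1
  gap : ∃ C : ℝ, 0 < C ∧ ∀ f : G → ℝ, (Summable fun x => f x ^ 2) →
      ∑' x, f x ^ 2 ≤ C * ∑ s ∈ S, ∑' x, (f (x * s) - f x) ^ 2

/-- There is a nonconstant harmonic function of finite energy. -/
def HasHD (S : Finset G) : Prop :=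
  ∃ u : Dir S, (∀ y : G, ∑ s ∈ S, (u.1 (y * s) - u.1 y) = 0) ∧ ∃ x y, u.1 x ≠ u.1 y

variable {S : Finset G} (hS : Subgroup.closure (S : Set G) = ⊤)

/-- The horofunction cocycle of the vertex `z`. -/
noncomputable def hb (z : G) : G → G → ℝ := fun x y => res hS x z - res hS y z

/-- `A` accumulates (if at all) only at the point `β`. -/
def Conv (A : Set G) (β : G → G → ℝ) : Prop := Tendsto (hb hS) (cofinite ⊓ 𝓟 A) (𝓝 β)

/-- Points at infinity of the set `V`. -/
def Lim (V : Set G) : Set (G → G → ℝ) := {β | MapClusterPt β (cofinite ⊓ 𝓟 V) (hb hS)}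

/-- Gromov product of `x` with the point `β`, based at `w`. -/
noncomputable def gpb (w x : G) (β : G → G → ℝ) : ℝ := (res hS w x - β x w) / 2

/-- The point `β` is at finite distance. -/
def IsFin (β : G → G → ℝ) : Prop := ∃ C : ℝ, ∀ x, gpb hS 1 x β ≤ C

/-- The action on points. -/
def act (g : G) (β : G → G → ℝ) : G → G → ℝ := fun x y => β (g⁻¹ * x) (g⁻¹ * y)

/-- The `T`-boundary of `A`. -/
def bd (T : Finset G) (A : Set G) : Set G := {x | ∃ y, Adj T x y ∧ ¬ (x ∈ A ↔ y ∈ A)}

/-- The `M`-boundary of `U` inside `V`. -/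
def bdIn (M : Finset G) (V U : Set G) : Set G :=
  {x | x ∈ V ∧ ∃ y ∈ V, Adj M x y ∧ ¬ (x ∈ U ↔ y ∈ U)}

/-- A block: a subgroup acting cofinitely on a connected set `V` with two limit points, which is
not separated by any set whose boundary in `V` accumulates at one point only. -/
structure Block where
  H : Subgroup G
  V : Set G
  M : Finset G
  reps : Finset G
  inv : ∀ h ∈ H, ∀ x ∈ V, h * x ∈ V
  cof : ∀ x ∈ V, ∃ h ∈ H, ∃ f ∈ reps, x = h * f
  conn : ∀ x ∈ V, ∀ y ∈ V, Con M V x y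
  two : ∃ β ∈ Lim hS V, ∃ β' ∈ Lim hS V, β ≠ β'
  bl : ∀ U ⊆ V, ∀ β, Conv hS (bdIn M V U) β → Conv hS U β ∨ Conv hS (V \ U) β

end Vale.Agent.P239.F
end

section

/-!
Definitions for module C: averaging operator, cuts, canonical sets.
-/

namespace Vale.Agent.P239.F

open Filter Topology Set
open Vale.Agent.P239

variable {G : Type*} [Group G]

/-- the averaging operator -/
noncomputable def avg (S : Finset G) (f : G → ℝ) : G → ℝ :=
  fun x => (∑ s ∈ S, f (x * s)) / S.card

/-- the harmonic function of a set -/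
noncomputable def phi (S : Finset G) (A : Set G) (x : G) : ℝ :=
  limUnder atTop (fun n => ((avg S)^[n] (A.indicator 1)) x)

/-- the canonical set -/
noncomputable def HH (S : Finset G) (A : Set G) : Set G := {x | 1 / 2 < phi S A x}

variable {S : Finset G} (hS : Subgroup.closure (S : Set G) = ⊤)

/-- `A` is a cut at `β` -/
def IsCut (A : Set G) (β : G → G → ℝ) : Prop := β ∈ Lim hS univ ∧ Conv hS (bd S A) β

/-- nontrivial with respect to `β` -/
def Nontriv (A : Set G) (β : G → G → ℝ) : Prop := ¬ Conv hS A β ∧ ¬ Conv hS Aᶜ β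

/-- the part of the hypotheses used by the potential theory -/
structure HypS (S : Finset G) : Prop where
  gen : Subgroup.closure (S : Set G) = ⊤
  symS : ∀ s ∈ S, s⁻¹ ∈ S
  oneS : (1 : G) ∈ S
  inf : Infinite G
  gap : ∃ C : ℝ, 0 < C ∧ ∀ f : G → ℝ, (Summable fun x => f x ^ 2) →
      ∑' x, f x ^ 2 ≤ C * ∑ s ∈ S, ∑' x, (f (x * s) - f x) ^ 2

theorem Hyp.toHypS {S T : Finset G} (h : Hyp S T) : HypS S :=
  ⟨h.gen, h.symS, h.oneS, h.inf, h.gap⟩

end Vale.Agent.P239.F
end

section

/-!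
Module C, second half (C4-C7): definitions and the list `CIn` of everything that is taken from the
modules D, C0-C3 and B.
-/

namespace Vale.Agent.P239.F

open Filter Topology Set
open Vale.Agent.P239
open scoped Pointwise

variable {G : Type*} [Group G] {S : Finset G} (hS : Subgroup.closure (S : Set G) = ⊤)

/-- centres of nontrivial cuts -/
def Cent : Set (G → G → ℝ) := {c | ∃ A : Set G, IsCut hS A c ∧ Nontriv hS A c}

/-- directed edges at scale `M` crossed by a nontrivial cut with centre `c` -/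
def Ec (M : Finset G) (c : G → G → ℝ) : Set (G × G) :=
  {e | e.1⁻¹ * e.2 ∈ M ∧ ∃ A : Set G, IsCut hS A c ∧ Nontriv hS A c ∧ e.1 ∈ HH S A ∧ e.2 ∉ HH S A}

/-- endpoints of the crossed edges -/
def Vc (M : Finset G) (c : G → G → ℝ) : Set G :=
  {x | ∃ y, (x, y) ∈ Ec hS M c ∨ (y, x) ∈ Ec hS M c}

/-- stabilizer of a point, as a set -/
def Stb (c : G → G → ℝ) : Set G := {g | act g c = c}

/-- the atom at `c` containing `G` near the point `p` -/
def Kp (c p : G → G → ℝ) : Set G :=
  {x | ∀ A : Set G, IsCut hS A c → Nontriv hS A c → (x ∈ HH S A ↔ p ∈ Lim hS (HH S A))}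

/-- its canonical set -/
noncomputable def Hp (c p : G → G → ℝ) : Set G := HH S (Kp hS c p)

/-- Everything used from the other modules. -/
structure CIn (T : Finset G) : Prop where
  hyp : Hyp S T
  /-- compactness -/
  lim_nonempty : ∀ A : Set G, A.Infinite → (Lim hS A).Nonempty
  conv_iff : ∀ (A : Set G) (β : G → G → ℝ), Conv hS A β ↔ ∀ β' ∈ Lim hS A, β' = β
  /-- ultrafilter limits of vertices exist -/
  exists_lim : ∀ (U : Ultrafilter G) (k : G → G), ∃ β, Tendsto (fun n => hb hS (k n)) U (𝓝 β)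
  /-- ultrafilter limits of points exist and are points -/
  exists_limP : ∀ (U : Ultrafilter G) (q : G → G → G → ℝ), (∀ n, q n ∈ Lim hS univ) →
    ∃ β ∈ Lim hS univ, Tendsto q U (𝓝 β)
  /-- points are not vertices -/
  ne_hb : ∀ β ∈ Lim hS univ, ∀ z : G, β ≠ hb hS z
  /-- bounded changes on the right do not change limits -/
  shift : ∀ (U : Ultrafilter G) (k : G → G) (β : G → G → ℝ) (s : G), Tendsto k U cofinite →
    Tendsto (fun n => hb hS (k n)) U (𝓝 β) → Tendsto (fun n => hb hS (k n * s)) U (𝓝 β)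
  /-- `act g` is compatible with `hb` -/
  act_hb : ∀ g z : G, act g (hb hS z) = hb hS (g * z)
  /-- a set whose boundary does not accumulate at `β` is constant near `β` -/
  const_near : ∀ β ∈ Lim hS univ, ∀ A : Set G, β ∉ Lim hS (bd S A) →
    β ∉ Lim hS A ∨ β ∉ Lim hS Aᶜ
  /-- convergence property on vertices -/
  cvg : ∀ (U : Ultrafilter G) (k w : G → G) (x y q : G → G → ℝ), Tendsto k U cofinite →
    Tendsto (fun n => hb hS (k n)) U (𝓝 x) → Tendsto (fun n => hb hS (k n)⁻¹) U (𝓝 y) →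
    Tendsto (fun n => hb hS (w n)) U (𝓝 q) → q ≠ y →
    Tendsto (fun n => hb hS (k n * w n)) U (𝓝 x)
  /-- convergence property on points -/
  cvgP : ∀ (U : Ultrafilter G) (k : G → G) (p : G → G → G → ℝ) (x y q : G → G → ℝ),
    Tendsto k U cofinite → (∀ n, p n ∈ Lim hS univ) →
    Tendsto (fun n => hb hS (k n)) U (𝓝 x) → Tendsto (fun n => hb hS (k n)⁻¹) U (𝓝 y) →
    Tendsto p U (𝓝 q) → q ≠ y →
    Tendsto (fun n => act (k n) (p n)) U (𝓝 x)
  /-- for a point of finite type `k_n → x` implies `k_n c → x` -/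
  fin_act : ∀ (U : Ultrafilter G) (k : G → G) (c x : G → G → ℝ), c ∈ Lim hS univ → IsFin hS c →
    Tendsto k U cofinite → Tendsto (fun n => hb hS (k n)) U (𝓝 x) →
    Tendsto (fun n => act (k n) c) U (𝓝 x)
  /-- (CM): if `g` has the two limit points `a ≠ b` and `s` fixes `b` then `s` fixes `a` -/
  cm : ∀ (g s : G) (a b : G → G → ℝ), a ∈ Lim hS univ → b ∈ Lim hS univ → a ≠ b →
    Tendsto (fun n : ℕ => hb hS (g ^ n)) atTop (𝓝 a) →
    Tendsto (fun n : ℕ => hb hS (g⁻¹ ^ n)) atTop (𝓝 b) → act s b = b → act s a = a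
  /-- all orbits of points are infinite -/
  orb : ∀ β ∈ Lim hS univ, (range fun g : G => act g β).Infinite
  /-- there are at least two points -/
  two : ∃ β ∈ Lim hS univ, ∃ β' ∈ Lim hS univ, β ≠ β'
  /-- canonical sets: equivariance -/
  HH_smul : ∀ (g : G) (A : Set G), HH S (g • A) = g • HH S A
  /-- the canonical set of a cut differs from it only near the centre -/
  HH_near : ∀ (A : Set G) (β : G → G → ℝ), IsCut hS A β → Conv hS (symmDiff (HH S A) A) β
  /-- monotonicity and insensitivity to sets converging to the centre -/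
  HH_mono : ∀ (A B : Set G) (β : G → G → ℝ), IsCut hS A β → IsCut hS B β →
    Conv hS (A \ B) β → HH S A ⊆ HH S B
  /-- disjoint cuts have disjoint canonical sets -/
  HH_disj : ∀ (A B : Set G) (β : G → G → ℝ), IsCut hS A β → IsCut hS B β →
    Conv hS (A ∩ B) β → Disjoint (HH S A) (HH S B)
  /-- a union of components of the canonical set does not converge to the centre -/
  HH_comp : ∀ (A C : Set G) (β : G → G → ℝ), IsCut hS A β → C ⊆ HH S A → C.Nonempty →
    (∀ x ∈ C, ∀ y ∈ HH S A, Adj S x y → y ∈ C) → ¬ Conv hS C β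
  /-- stay lemma: if finitely many elements translate the boundary vertices of `HH S A` to
  finitely many vertices keeping `HH S A`, then a subset with finite boundary inside `HH S A`
  converging to the centre is finite -/
  HH_stay : ∀ (A C : Set G) (β : G → G → ℝ) (F : Set G), IsCut hS A β → F.Finite →
    (∀ x ∈ HH S A, x ∈ bd S (HH S A) → ∃ g : G, g • HH S A = HH S A ∧ g * x ∈ F) →
    C ⊆ HH S A → {x | x ∈ C ∧ ∃ y ∈ HH S A \ C, Adj S x y}.Finite → Conv hS C β → C.Finite
  /-- exact nestedness for different centres -/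
  nest : ∀ (A B : Set G) (c d : G → G → ℝ), IsCut hS A c → Nontriv hS A c → IsCut hS B d →
    Nontriv hS B d → c ≠ d → HH S A ⊆ HH S B ∨ HH S B ⊆ HH S A ∨ Disjoint (HH S A) (HH S B) ∨
      HH S A ∪ HH S B = univ
  /-- discreteness (module B) -/
  fin : ∀ x y : G, x⁻¹ * y ∈ S → {c | (x, y) ∈ Ec hS S c}.Finite

end Vale.Agent.P239.F
end

section

/-! Neighbourhood filters of points. -/

namespace Vale.Agent.P239.F.N

open Filter Topology Set
open Vale.Agent.P239 Vale.Agent.P239.F

variable {G : Type*} [Group G] {S T : Finset G}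

variable (hS : Subgroup.closure (S : Set G) = ⊤)

/-- The trace on `G` of the punctured neighbourhoods of the point `β`. -/
noncomputable def nf (β : G → G → ℝ) : Filter G := cofinite ⊓ comap (hb hS) (𝓝 β)

theorem mem_nf {β : G → G → ℝ} {A : Set G} :
    A ∈ nf hS β ↔ ∃ O ∈ 𝓝 β, {x | hb hS x ∈ O ∧ x ∉ A}.Finite := by
  unfold nf
  rw [mem_inf_iff_superset]
  constructor
  · rintro ⟨U, hU, V, ⟨O, hO, hOV⟩, hUV⟩
    refine ⟨O, hO, (mem_cofinite.1 hU).subset ?_⟩
    rintro x ⟨hx, hxA⟩ hxU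
    exact hxA (hUV ⟨hxU, hOV hx⟩)
  · rintro ⟨O, hO, hfin⟩
    refine ⟨{x | hb hS x ∈ O ∧ x ∉ A}ᶜ, hfin.compl_mem_cofinite, hb hS ⁻¹' O,
      preimage_mem_comap hO, ?_⟩
    rintro x ⟨h1, h2⟩
    by_contra h3
    exact h1 ⟨h2, h3⟩

theorem conv_iff {A : Set G} {β : G → G → ℝ} :
    Conv hS A β ↔ ∀ O ∈ 𝓝 β, {x | x ∈ A ∧ hb hS x ∉ O}.Finite := by
  unfold Conv
  rw [tendsto_def]
  refine forall₂_congr fun O _ => ?_
  rw [mem_inf_principal, mem_cofinite]
  refine iff_of_eq (congrArg Set.Finite ?_)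
  ext x
  simp only [mem_preimage, mem_compl_iff, mem_ofPred_eq, Classical.not_imp]

theorem mem_lim {A : Set G} {β : G → G → ℝ} :
    β ∈ Lim hS A ↔ ∀ O ∈ 𝓝 β, {x | x ∈ A ∧ hb hS x ∈ O}.Infinite := by
  unfold Lim
  rw [Set.mem_ofPred_eq, mapClusterPt_iff_frequently]
  refine forall₂_congr fun O _ => ?_
  rw [frequently_inf_principal, frequently_cofinite_iff_infinite]

theorem conv_iff_lim {A : Set G} {β : G → G → ℝ} : β ∉ Lim hS A ↔ Aᶜ ∈ nf hS β := by
  rw [mem_lim, mem_nf]
  push Not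
  refine exists_congr fun O => and_congr_right fun _ => ?_
  refine iff_of_eq (congrArg Set.Finite ?_)
  ext x
  simp only [mem_ofPred_eq, mem_compl_iff, not_not, and_comm]

theorem _root_.Vale.Agent.P239.F.Conv.mono {A B : Set G} {β : G → G → ℝ} (h : Conv hS B β) (hAB : A ⊆ B) : Conv hS A β :=
  Tendsto.mono_left h (inf_le_inf_left _ (principal_mono.2 hAB))

theorem _root_.Vale.Agent.P239.F.Conv.of_finite {A : Set G} (hA : A.Finite) (β : G → G → ℝ) : Conv hS A β := by
  rw [conv_iff]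
  intro O _
  exact hA.subset fun x hx => hx.1

theorem nf_cofinite {A : Set G} (hA : Aᶜ.Finite) (β : G → G → ℝ) : A ∈ nf hS β := by
  rw [mem_nf]
  exact ⟨univ, univ_mem, hA.subset fun x hx => hx.2⟩

theorem _root_.Vale.Agent.P239.F.Conv.compl_mem {A : Set G} {β β' : G → G → ℝ} (hA : Conv hS A β) (hne : β ≠ β') :
    Aᶜ ∈ nf hS β' := by
  obtain ⟨O, O', hO, hO', h1, h2, hd⟩ := t2_separation hne
  rw [conv_iff] at hA
  rw [mem_nf]
  refine ⟨O', hO'.mem_nhds h2, (hA O (hO.mem_nhds h1)).subset ?_⟩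
  rintro x ⟨hx, hxA⟩
  refine ⟨not_not.1 hxA, fun hxO => ?_⟩
  exact Set.disjoint_left.1 hd hxO hx

/-- A set converging to `β` is finite away from `β`. -/
theorem _root_.Vale.Agent.P239.F.Conv.finite_inter {A B : Set G} {β : G → G → ℝ} (hA : Conv hS A β) (hB : Bᶜ ∈ nf hS β) :
    (A ∩ B).Finite := by
  rw [conv_iff] at hA
  rw [mem_nf] at hB
  obtain ⟨O, hO, h1⟩ := hB
  refine ((hA O hO).union h1).subset ?_
  rintro x ⟨hxA, hxB⟩
  by_cases hx : hb hS x ∈ O
  · exact Or.inr ⟨hx, fun h => h hxB⟩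
  · exact Or.inl ⟨hxA, hx⟩

end Vale.Agent.P239.F.N
end

section

/-! Depth of superlevel sets of harmonic functions. -/

namespace Vale.Agent.P239.S

open Filter Set
open Vale.Agent.P239 Vale.Agent.P239.F

variable {G : Type*} [Group G] {S : Finset G}

/-- Harnack inequality for one step. -/
theorem harnack_one (h : G → ℝ) (h0 : ∀ x, 0 ≤ h x)
    (hh : ∀ x, ∑ s ∈ S, (h (x * s) - h x) = 0) (x : G) {s : G} (hs : s ∈ S) :
    h (x * s) ≤ S.card * h x := by
  have h1 := hh x
  rw [Finset.sum_sub_distrib, Finset.sum_const, nsmul_eq_mul] at h1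
  have h2 : h (x * s) ≤ ∑ s ∈ S, h (x * s) :=
    Finset.single_le_sum (f := fun s => h (x * s)) (fun _ _ => h0 _) hs
  linarith

/-- Harnack inequality. -/
theorem harnack (hS : Subgroup.closure (S : Set G) = ⊤) (hsym : ∀ s ∈ S, s⁻¹ ∈ S) (g : G) :
    ∃ C : ℝ, 0 < C ∧ ∀ h : G → ℝ, (∀ x, 0 ≤ h x) → (∀ x, ∑ s ∈ S, (h (x * s) - h x) = 0) →
      ∀ x, h (x * g) ≤ C * h x := by
  have hg : g ∈ Subgroup.closure (S : Set G) := by rw [hS]; trivial
  induction hg using Subgroup.closure_induction_right with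
  | one => exact ⟨1, one_pos, fun h _ _ x => by simp only [mul_one, one_mul, Std.le_refl]⟩
  | mul_right g _ s hs ih =>
    obtain ⟨C, hC, hC'⟩ := ih
    have hc : (0 : ℝ) < S.card := by
      have := Finset.card_pos.2 ⟨s, hs⟩; exact_mod_cast this
    refine ⟨S.card * C, by (clear * - hc hC; positivity), fun h h0 hh x => ?_⟩
    have h1 := harnack_one h h0 hh (x * g) hs
    have h2 := hC' h h0 hh x
    rw [← mul_assoc]
    (clear * - h1 h2; nlinarith)
  | mul_inv_cancel g _ s hs ih =>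
    obtain ⟨C, hC, hC'⟩ := ih
    have hc : (0 : ℝ) < S.card := by
      have := Finset.card_pos.2 ⟨s, hs⟩; exact_mod_cast this
    refine ⟨S.card * C, by (clear * - hc hC; positivity), fun h h0 hh x => ?_⟩
    have h1 := harnack_one h h0 hh (x * g) (hsym s hs)
    have h2 := hC' h h0 hh x
    rw [← mul_assoc]
    nlinarith only [h1, h2]

theorem harnack_finset (hS : Subgroup.closure (S : Set G) = ⊤) (hsym : ∀ s ∈ S, s⁻¹ ∈ S)
    (F : Finset G) :
    ∃ C : ℝ, 0 < C ∧ ∀ h : G → ℝ, (∀ x, 0 ≤ h x) → (∀ x, ∑ s ∈ S, (h (x * s) - h x) = 0) →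
      ∀ x, ∀ f ∈ F, h (x * f) ≤ C * h x := by
  classical
  induction F using Finset.induction_on with
  | empty => exact ⟨1, one_pos, fun _ _ _ _ f hf => absurd hf (Finset.notMem_empty _)⟩
  | insert g F _ ih =>
    obtain ⟨C, hC, hC'⟩ := ih
    obtain ⟨D, hD, hD'⟩ := harnack hS hsym g
    refine ⟨C + D, by positivity, fun h h0 hh x f hf => ?_⟩
    rcases Finset.mem_insert.1 hf with rfl | hf
    · have := hD' h h0 hh x
      linarith only [mul_nonneg (le_of_lt (sub_pos.2 hC)) (sub_nonneg.2 (h0 x)), this]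
    · have := hC' h h0 hh x f hf
      linarith only [mul_nonneg (le_of_lt (sub_pos.2 hD)) (sub_nonneg.2 (h0 x)), this]

theorem forall_of_adj (hS : Subgroup.closure (S : Set G) = ⊤) {p : G → Prop} {x : G} (hx : p x)
    (h : ∀ a b, Adj S a b → p a → p b) (y : G) : p y := by
  have hg : x⁻¹ * y ∈ Subgroup.closure (S : Set G) := by rw [hS]; trivial
  have key : ∀ g ∈ Subgroup.closure (S : Set G), p (x * g) := by
    intro g hg
    induction hg using Subgroup.closure_induction_right with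
    | one => rwa [mul_one]
    | mul_right g _ s hs ih => exact h _ _ ⟨s, hs, Or.inl (mul_assoc _ _ _).symm⟩ ih
    | mul_inv_cancel g _ s hs ih =>
      refine h _ _ ⟨s, hs, Or.inr ?_⟩ ih
      rw [mul_assoc, inv_mul_cancel_right]
  have := key _ hg
  rwa [mul_inv_cancel_left] at this

/-- Components of superlevel sets of harmonic functions are infinite. -/
theorem comp_infinite [Infinite G] (hS : Subgroup.closure (S : Set G) = ⊤)
    (hsym : ∀ s ∈ S, s⁻¹ ∈ S) (h : G → ℝ) (hh : ∀ x, ∑ s ∈ S, (h (x * s) - h x) = 0) {t : ℝ}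
    {x : G} (hx : t < h x) : {y | Con S {u | t < h u} x y}.Infinite := by
  intro hfin
  set K : Set G := {y | Con S {u | t < h u} x y} with hK
  have hxK : x ∈ K := Relation.ReflTransGen.refl
  have hKt : ∀ y ∈ K, t < h y := by
    intro y hy
    induction hy with
    | refl => exact hx
    | tail _ h1 _ => exact h1.2.1
  obtain ⟨m, hm, hmax⟩ := Set.exists_max_image K h hfin ⟨x, hxK⟩
  have hstep : ∀ a b, Adj S a b → (a ∈ K ∧ h a = h m) → (b ∈ K ∧ h b = h m) := by
    rintro a b hab ⟨ha, ham⟩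
    have hle : ∀ s ∈ S, h (a * s) - h a ≤ 0 := by
      intro s hs
      by_cases hst : t < h (a * s)
      · have : a * s ∈ K := Relation.ReflTransGen.tail ha ⟨hKt a ha, hst, s, hs, Or.inl rfl⟩
        have := hmax _ this
        linarith only [ham, this]
      · have := hKt a ha
        push Not at hst
        linarith only [this, hst]
    have heq : ∀ s ∈ S, h (a * s) - h a = 0 := (Finset.sum_eq_zero_iff_of_nonpos hle).1 (hh a)
    have hb : h b = h a := by
      obtain ⟨s, hs, rfl | rfl⟩ := hab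
      · have := heq s hs; linarith only [this]
      · have := heq _ (hsym s hs)
        rw [mul_inv_cancel_right] at this; linarith only [this]
    refine ⟨Relation.ReflTransGen.tail ha ⟨hKt a ha, ?_, hab⟩, hb.trans ham⟩
    change t < h b
    rw [hb]; exact hKt a ha
  have hall : ∀ y, y ∈ K ∧ h y = h m := forall_of_adj hS ⟨hm, rfl⟩ hstep
  have : K = Set.univ := Set.eq_univ_of_forall fun y => (hall y).1
  rw [this] at hfin
  exact Set.infinite_univ hfin

/-- Connected pieces of `K`. -/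
theorem con_comp {A : Set G} {x : G} {y z : G} (hy : Con S A x y) (hz : Con S A x z) :
    Con S {w | Con S A x w} y z := by
  have key : ∀ w, Con S A x w → Con S {w | Con S A x w} x w := by
    intro w hw
    induction hw with
    | refl => exact Relation.ReflTransGen.refl
    | tail h1 h2 ih => exact ih.tail ⟨h1, h1.tail h2, h2.2.2⟩
  exact (key y hy).symm.trans (key z hz)

end Vale.Agent.P239.S
end
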