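import Vale.Agent.P239.MathlibUsed
import Vale.Agent.P239.Bdl.B8
import Vale.Agent.P239.Bdl.B6

set_option linter.all false

section

/-! Closed 1-cochains at a large scale are exact, for groups of deck transformations of a
contractible space over a compact space. -/

namespace Vale.Agent.P239.F

open scoped Pointwise Topology unitInterval
open Set Filter
open Vale.Agent.P239

section Comb

variable {G A : Type*} [AddCommGroup A]

/-- Additivity of a cochain on a set. -/
def AddOn (c : G → G → A) (U : Set G) : Prop :=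
  ∀ x ∈ U, ∀ y ∈ U, ∀ z ∈ U, c x y + c y z = c x z

theorem AddOn.self {c : G → G → A} {U : Set G} (h : AddOn c U) {x : G} (hx : x ∈ U) :
    c x x = 0 := by
  have := h x hx x hx x hx
  exact left_eq_add.1 this.symm

/-- Grid argument. -/
theorem gridA (c : G → G → A) (lab : ℕ → ℕ → G) (N : ℕ)
    (hsq : ∀ a b, a < N → b < N → ∃ U : Set G, AddOn c U ∧
      lab a b ∈ U ∧ lab (a + 1) b ∈ U ∧ lab a (b + 1) ∈ U ∧ lab (a + 1) (b + 1) ∈ U) :
    (∑ a ∈ Finset.range N, c (lab a 0) (lab (a + 1) 0)) -
      (∑ a ∈ Finset.range N, c (lab a N) (lab (a + 1) N)) =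
    (∑ b ∈ Finset.range N, c (lab 0 b) (lab 0 (b + 1))) -
      (∑ b ∈ Finset.range N, c (lab N b) (lab N (b + 1))) := by
  have h1 : ∀ a b, a < N → b < N →
      c (lab a b) (lab (a + 1) b) - c (lab a (b + 1)) (lab (a + 1) (b + 1)) =
      c (lab a b) (lab a (b + 1)) - c (lab (a + 1) b) (lab (a + 1) (b + 1)) := by
    intro a b ha hb
    obtain ⟨U, hU, h00, h10, h01, h11⟩ := hsq a b ha hb
    have e1 := hU _ h00 _ h10 _ h11
    have e2 := hU _ h00 _ h01 _ h11
    rw [sub_eq_sub_iff_add_eq_add, e1, e2]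
  have h2 : ∀ b, b < N → (∑ a ∈ Finset.range N, c (lab a b) (lab (a + 1) b)) -
      (∑ a ∈ Finset.range N, c (lab a (b + 1)) (lab (a + 1) (b + 1))) =
      c (lab 0 b) (lab 0 (b + 1)) - c (lab N b) (lab N (b + 1)) := by
    intro b hb
    rw [← Finset.sum_sub_distrib]
    rw [Finset.sum_congr rfl fun a ha => h1 a b (Finset.mem_range.1 ha) hb]
    exact Finset.sum_range_sub' (fun a => c (lab a b) (lab a (b + 1))) N
  have h3 := Finset.sum_congr (rfl : Finset.range N = Finset.range N)
    fun b hb => h2 b (Finset.mem_range.1 hb)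
  rw [Finset.sum_range_sub' (fun b => ∑ a ∈ Finset.range N, c (lab a b) (lab (a + 1) b)) N,
    Finset.sum_sub_distrib] at h3
  exact h3

end Comb

section Cover

variable {X Γ : Type*} [TopologicalSpace X] [Group Γ] [MulAction Γ X] [ContinuousConstSMul Γ X]
variable {A : Type*} [AddCommGroup A]

theorem edgeA {H : I × X → X} (hH : Continuous H) (hH0 : ∀ x, H (0, x) = x) {y₀ : X}
    (hH1 : ∀ x, H (1, x) = y₀) {K U : Set X} (hU : IsOpen U) (hcov : ∀ x : X, ∃ g : Γ, x ∈ g • U)
    {F : Set Γ} (hF : ∀ g : Γ, (g • K ∩ U).Nonempty → g ∈ F)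
    {l : X → Γ} (hl : ∀ x, x ∈ l x • K) {o : X} (ho : o ∈ K)
    {s : Γ} {γ : Path o (s • o)} (hγ : ∀ t, γ t ∈ K) (c : Γ → Γ → A)
    (hc : ∀ u : Γ, AddOn c {h | u⁻¹ * h ∈ F}) (p : Γ) :
    ∀ᶠ N : ℕ in atTop, c p (p * s) =
      (∑ b ∈ Finset.range N, c (vlab H l o N p b) (vlab H l o N p (b + 1))) -
      (∑ b ∈ Finset.range N, c (vlab H l o N (p * s) b) (vlab H l o N (p * s) (b + 1))) := by
  classical
  let Q : I × I → X := fun q => H (q.2, p • γ q.1)
  have hQ : Continuous Q := by
    refine hH.comp (continuous_snd.prodMk ?_)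
    exact (γ.continuous.comp continuous_fst).const_smul p
  obtain ⟨δ, hδ, hball⟩ := lebesgue_number_lemma_of_metric (isCompact_univ (X := I × I))
    (c := fun g : Γ => Q ⁻¹' (g • U)) (fun g => (hU.smul g).preimage hQ) (by
      intro q _
      obtain ⟨g, hg⟩ := hcov (Q q)
      exact mem_iUnion.2 ⟨g, hg⟩)
  have hev : ∀ᶠ N : ℕ in atTop, (1 : ℝ) / N < δ :=
    (tendsto_order.1 tendsto_one_div_atTop_nhds_zero_nat).2 δ hδ
  filter_upwards [hev, eventually_gt_atTop 0] with N hN hN0
  let lab : ℕ → ℕ → Γ := fun a b =>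
    if b = 0 then (if a < N then p else p * s) else l (Q (gpt N a, gpt N b))
  have hgN : ∀ a, N ≤ a → gpt N a = 1 := by
    intro a ha
    unfold gpt
    refine Set.projIcc_of_right_le _ ?_
    rw [le_div_iff₀ (by positivity), one_mul]
    exact_mod_cast ha
  have hlab : ∀ a b, Q (gpt N a, gpt N b) ∈ lab a b • K := by
    intro a b
    by_cases hb : b = 0
    · subst hb
      have e1 : Q (gpt N a, gpt N 0) = p • γ (gpt N a) := by
        simp only [Q]
        rw [gpt_zero, hH0]
      by_cases ha : a < N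
      · simp only [lab, if_true, if_pos ha]
        rw [e1]
        exact smul_mem_smul_set (hγ _)
      · simp only [lab, if_true, if_neg ha]
        rw [e1, hgN a (not_lt.1 ha), γ.target, ← mul_smul]
        exact smul_mem_smul_set ho
    · simp only [lab, if_neg hb]
      exact hl _
  have hsq : ∀ a b, a < N → b < N → ∃ U : Set Γ, AddOn c U ∧
      lab a b ∈ U ∧ lab (a + 1) b ∈ U ∧ lab a (b + 1) ∈ U ∧ lab (a + 1) (b + 1) ∈ U := by
    intro a b ha hb
    obtain ⟨g, hg⟩ := hball (gpt N a, gpt N b) (mem_univ _)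
    refine ⟨{h | g⁻¹ * h ∈ F}, hc g, ?_⟩
    have hmem : ∀ c d, (gpt N c, gpt N d) ∈ Metric.ball (gpt N a, gpt N b) δ →
        lab c d ∈ {h | g⁻¹ * h ∈ F} := by
      intro c d hcd
      refine hF _ ?_
      have h1 : Q (gpt N c, gpt N d) ∈ g • U := hg hcd
      have h2 := hlab c d
      refine ⟨g⁻¹ • Q (gpt N c, gpt N d), ?_, ?_⟩
      · rw [mul_smul]
        exact smul_mem_smul_set h2
      · rw [mem_smul_set_iff_inv_smul_mem] at h1
        exact h1
    have hd : ∀ c, dist (gpt N (c + 1)) (gpt N c) < δ := fun c => (dist_gpt N c).trans_lt hN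
    refine ⟨hmem _ _ (Metric.mem_ball_self hδ), hmem _ _ ?_, hmem _ _ ?_, hmem _ _ ?_⟩
    · rw [Metric.mem_ball, Prod.dist_eq]
      exact max_lt (hd a) (by rw [dist_self]; exact hδ)
    · rw [Metric.mem_ball, Prod.dist_eq]
      exact max_lt (by rw [dist_self]; exact hδ) (hd b)
    · rw [Metric.mem_ball, Prod.dist_eq]
      exact max_lt (hd a) (hd b)
  have hkey := gridA c lab N hsq
  -- identify the four sides
  have hself : ∀ g : Γ, g • K ∩ U ≠ ∅ → True := fun _ _ => trivial
  have hpp : c p p = 0 := by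
    obtain ⟨U', hU', h00, -, -, -⟩ := hsq 0 0 hN0 hN0
    have : lab 0 0 = p := by simp only [lab, if_true, if_pos hN0]
    rw [this] at h00
    exact hU'.self h00
  have hbot : (∑ a ∈ Finset.range N, c (lab a 0) (lab (a + 1) 0)) = c p (p * s) := by
    obtain ⟨n, rfl⟩ := Nat.exists_eq_succ_of_ne_zero hN0.ne'
    rw [Finset.sum_range_succ, Finset.sum_eq_zero, zero_add]
    · simp only [lab, if_true]
      rw [if_pos (Nat.lt_succ_self n), if_neg (lt_irrefl _)]
    · intro a ha
      rw [Finset.mem_range] at ha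
      simp only [lab, if_true]
      rw [if_pos (by omega), if_pos (by omega), hpp]
  have htop : (∑ a ∈ Finset.range N, c (lab a N) (lab (a + 1) N)) = 0 := by
    have hlc : ∀ c, lab c N = l y₀ := by
      intro c
      simp only [lab, if_neg hN0.ne', Q]
      rw [gpt_self hN0, hH1]
    refine Finset.sum_eq_zero fun a _ => ?_
    rw [hlc, hlc]
    obtain ⟨n, rfl⟩ := Nat.exists_eq_succ_of_ne_zero hN0.ne'
    obtain ⟨U', hU', -, -, h01, -⟩ := hsq 0 n hN0 (Nat.lt_succ_self n)
    have e : lab 0 (n + 1) = l y₀ := hlc 0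
    rw [e] at h01
    exact hU'.self h01
  have hleft : ∀ b, lab 0 b = vlab H l o N p b := by
    intro b
    by_cases hb : b = 0
    · simp only [lab, vlab, if_pos hb, if_pos hN0]
    · simp only [lab, vlab, if_neg hb, Q]
      rw [gpt_zero, γ.source]
  have hright : ∀ b, lab N b = vlab H l o N (p * s) b := by
    intro b
    by_cases hb : b = 0
    · simp only [lab, vlab, if_pos hb, if_neg (lt_irrefl N)]
    · simp only [lab, vlab, if_neg hb, Q]
      rw [gpt_self hN0, γ.target, ← mul_smul]
  rw [hbot, htop, sub_zero] at hkey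
  rw [hkey]
  congr 1
  · exact Finset.sum_congr rfl fun b _ => by rw [hleft, hleft]
  · exact Finset.sum_congr rfl fun b _ => by rw [hright, hright]

/-- From eventual identities to an exact potential on the generators. -/
theorem exists_pot_of_eventually {S : Finset Γ} (hS : Subgroup.closure (S : Set Γ) = ⊤)
    {c : Γ → Γ → A} {θ : ℕ → Γ → A}
    (hθ : ∀ s ∈ S, ∀ p : Γ, ∀ᶠ N : ℕ in atTop, c p (p * s) = θ N p - θ N (p * s)) :
    ∃ f : Γ → A, ∀ s ∈ S, ∀ p : Γ, c p (p * s) = f (p * s) - f p := by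
  have h1 : ∀ x : Γ, ∃ a : A, ∀ᶠ N : ℕ in atTop, θ N 1 - θ N x = a := by
    intro x
    have hx : x ∈ Subgroup.closure (S : Set Γ) := by rw [hS]; trivial
    induction hx using Subgroup.closure_induction_right with
    | one => exact ⟨0, Eventually.of_forall fun N => sub_self _⟩
    | mul_right x _ s hs ih =>
      obtain ⟨a, ha⟩ := ih
      refine ⟨a + c x (x * s), ?_⟩
      filter_upwards [ha, hθ s hs x] with N h1 h2
      rw [h2, ← h1]; abel
    | mul_inv_cancel x _ s hs ih =>
      obtain ⟨a, ha⟩ := ih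
      refine ⟨a - c (x * s⁻¹) (x * s⁻¹ * s), ?_⟩
      filter_upwards [ha, hθ s hs (x * s⁻¹)] with N h1 h2
      rw [h2, ← h1, inv_mul_cancel_right]; abel
  choose f hf using h1
  refine ⟨f, fun s hs p => ?_⟩
  obtain ⟨N, h1, h2, h3⟩ := ((hf p).and ((hf (p * s)).and (hθ s hs p))).exists
  rw [h3, ← h1, ← h2]; abel

variable {M : Type*} [TopologicalSpace M]

/-- Exactness of closed 1-cochains at all large scales. -/
theorem exists_exact [CompactSpace M] [T2Space M] [LocallyCompactSpace X] [ContractibleSpace X]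
    {p : X → M} (hp : IsQuotientCoveringMap p Γ) :
    ∃ S : Finset Γ, Subgroup.closure (S : Set Γ) = ⊤ ∧ (∀ s ∈ S, s⁻¹ ∈ S) ∧ 1 ∈ S ∧
      ∃ F : Finset Γ, ∀ (c : Γ → Γ → A), (∀ u : Γ, AddOn c {h | u⁻¹ * h ∈ F}) →
        ∃ f : Γ → A, ∀ s ∈ S, ∀ p : Γ, c p (p * s) = f (p * s) - f p := by
  classical
  have hopen : IsOpenMap p := hp.isCoveringMap.isOpenMap
  obtain ⟨S₀, hS₀⟩ := (Group.fg_def.1 (fg_of_cover hp) : (⊤ : Subgroup Γ).FG)
  let S : Finset Γ := insert 1 (S₀ ∪ S₀.image (fun g => g⁻¹))
  have hS : Subgroup.closure (S : Set Γ) = ⊤ := by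
    rw [eq_top_iff, ← hS₀]
    exact Subgroup.closure_mono fun x hx => by simp [S]; right; left; exact hx
  have hsym : ∀ s ∈ S, s⁻¹ ∈ S := by
    intro s hs
    simp only [S, Finset.mem_insert, Finset.mem_union, Finset.mem_image] at hs ⊢
    rcases hs with hs | hs | ⟨t, ht, rfl⟩
    · left; rw [hs, inv_one]
    · exact Or.inr (Or.inr ⟨s, hs, rfl⟩)
    · right; left; rwa [inv_inv]
  -- an open relatively compact set whose translates cover
  have h1 : ∀ x : X, ∃ K : Set X, IsCompact K ∧ K ∈ 𝓝 x := fun x => exists_compact_mem_nhds x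
  choose K hK hKx using h1
  have hcov : (univ : Set M) ⊆ ⋃ x : X, p '' (interior (K x)) := by
    intro m _
    obtain ⟨x, rfl⟩ := hp.surjective m
    exact mem_iUnion.mpr ⟨x, x, mem_interior_iff_mem_nhds.mpr (hKx x), rfl⟩
  obtain ⟨t, ht⟩ := isCompact_univ.elim_finite_subcover _
    (fun x => hopen _ isOpen_interior) hcov
  let U : Set X := ⋃ x ∈ t, interior (K x)
  let C : Set X := ⋃ x ∈ t, K x
  have hC : IsCompact C := t.isCompact_biUnion fun x _ => hK x
  have hU : IsOpen U := isOpen_biUnion fun x _ => isOpen_interior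
  have hUC : U ⊆ C := by
    intro y hy
    obtain ⟨x, hx, hy'⟩ := mem_iUnion₂.1 hy
    exact mem_iUnion₂.2 ⟨x, hx, interior_subset hy'⟩
  have hUcov : ∀ x : X, ∃ g : Γ, x ∈ g • U := by
    intro x
    obtain ⟨y, hy, z, hz, hzx⟩ := mem_iUnion₂.mp (ht (mem_univ (p x)))
    obtain ⟨g, hg⟩ := hp.apply_eq_iff_mem_orbit.mp hzx.symm
    exact ⟨g, z, mem_iUnion₂.mpr ⟨y, hy, hz⟩, hg⟩
  obtain ⟨o⟩ : Nonempty X := inferInstance
  let γ : ∀ s : Γ, Path o (s • o) := fun s => PathConnectedSpace.somePath o (s • o)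
  let K' : Set X := C ∪ ({o} ∪ ⋃ s ∈ S, range (γ s))
  have hK' : IsCompact K' := hC.union (isCompact_singleton.union
    (S.isCompact_biUnion fun s _ => isCompact_range (γ s).continuous))
  have hfin : {g : Γ | (g • K' ∩ C).Nonempty}.Finite := finite_meet hp hK' hC
  have hl : ∀ x : X, ∃ g : Γ, x ∈ g • K' := by
    intro x
    obtain ⟨g, hg⟩ := hUcov x
    exact ⟨g, smul_set_mono (hUC.trans subset_union_left) hg⟩
  choose l hl using hl
  obtain ⟨y₀, ⟨Hm⟩⟩ := id_nullhomotopic X
  refine ⟨S, hS, hsym, Finset.mem_insert_self _ _, hfin.toFinset, fun c hc => ?_⟩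
  refine exists_pot_of_eventually hS (θ := fun N q =>
    ∑ b ∈ Finset.range N, c (vlab Hm l o N q b) (vlab Hm l o N q (b + 1))) ?_
  intro s hs q
  exact edgeA (H := Hm) Hm.continuous (fun x => Hm.map_zero_left x)
    (fun x => Hm.map_one_left x) hU hUcov (F := {g : Γ | (g • K' ∩ C).Nonempty})
    (fun g hg => hg.mono (inter_subset_inter_right _ hUC)) hl
    (Or.inr (Or.inl rfl)) (γ := γ s)
    (fun t => Or.inr (Or.inr (mem_iUnion₂.2 ⟨s, hs, ⟨t, rfl⟩⟩))) c
    (by simpa using hc) q

end Cover

section Scale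

variable {G : Type*} [Group G] [DecidableEq G]

theorem exists_subset_pow {S : Finset G} (hS : Subgroup.closure (S : Set G) = ⊤)
    (hsym : ∀ s ∈ S, s⁻¹ ∈ S) (h1 : 1 ∈ S) (F : Finset G) :
    ∃ n₀ : ℕ, ∀ n, n₀ ≤ n → F ⊆ S ^ n := by
  have hx : ∀ x : G, ∃ n : ℕ, x ∈ S ^ n := by
    intro x
    have hx : x ∈ Subgroup.closure (S : Set G) := by rw [hS]; trivial
    induction hx using Subgroup.closure_induction_right with
    | one => exact ⟨0, by simp⟩
    | mul_right x _ s hs ih =>
      obtain ⟨n, hn⟩ := ih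
      exact ⟨n + 1, by rw [pow_succ]; exact Finset.mul_mem_mul hn hs⟩
    | mul_inv_cancel x _ s hs ih =>
      obtain ⟨n, hn⟩ := ih
      exact ⟨n + 1, by rw [pow_succ]; exact Finset.mul_mem_mul hn (hsym s hs)⟩
  choose n hn using hx
  refine ⟨F.sup n, fun m hm x hx => ?_⟩
  exact Finset.pow_subset_pow_right h1 ((Finset.le_sup hx).trans hm) (hn x)

/-- Exactness on the generators implies exactness at every larger scale. -/
theorem h1Ex_pow {S F : Finset G} (hsym : ∀ s ∈ S, s⁻¹ ∈ S) (h1 : 1 ∈ S)
    (hF : ∀ (c : G → G → ZMod 2), (∀ u : G, AddOn c {h | u⁻¹ * h ∈ F}) →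
        ∃ f : G → ZMod 2, ∀ s ∈ S, ∀ p : G, c p (p * s) = f (p * s) - f p)
    {n : ℕ} (hn : 1 ≤ n) (hFn : F⁻¹ * F ⊆ S ^ n) : H1Ex (S ^ n) := by
  intro c hc
  obtain ⟨f, hf⟩ := hF c (by
    intro u x hx y hy z hz
    have key : ∀ a b : G, u⁻¹ * a ∈ F → u⁻¹ * b ∈ F → a⁻¹ * b ∈ S ^ n := by
      intro a b ha hb
      have : a⁻¹ * b = (u⁻¹ * a)⁻¹ * (u⁻¹ * b) := by group
      rw [this]
      exact hFn (Finset.mul_mem_mul (Finset.inv_mem_inv ha) hb)
    exact hc x y z (key x y hx hy) (key y z hy hz) (key x z hx hz))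
  refine ⟨f, ?_⟩
  have hS1 : S ⊆ S ^ n := by
    have := Finset.pow_subset_pow_right h1 hn
    rwa [pow_one] at this
  have key : ∀ m, m ≤ n → ∀ t ∈ S ^ m, ∀ x, c x (x * t) = f x + f (x * t) := by
    intro m
    induction m with
    | zero =>
      intro _ t ht x
      rw [pow_zero, Finset.mem_one] at ht
      subst ht
      have h0 := hc x x x (by rw [inv_mul_cancel]; exact hS1 h1) (by rw [inv_mul_cancel]; exact hS1 h1)
        (by rw [inv_mul_cancel]; exact hS1 h1)
      rw [mul_one, CharTwo.add_self_eq_zero]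
      exact left_eq_add.1 h0.symm
    | succ m ih =>
      intro hm t ht x
      rw [pow_succ] at ht
      obtain ⟨t', ht', s, hs, rfl⟩ := Finset.mem_mul.1 ht
      have hle : S ^ m ⊆ S ^ n := Finset.pow_subset_pow_right h1 (by omega)
      have hle' : S ^ (m + 1) ⊆ S ^ n := Finset.pow_subset_pow_right h1 hm
      have h2 := hc x (x * t') (x * (t' * s)) (by rw [inv_mul_cancel_left]; exact hle ht')
        (by
          have : (x * t')⁻¹ * (x * (t' * s)) = s := by group
          rw [this]; exact hS1 hs)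
        (by
          rw [inv_mul_cancel_left]
          exact hle' (by rw [pow_succ]; exact Finset.mul_mem_mul ht' hs))
      rw [← h2, ih (by omega) t' ht' x, ← mul_assoc, hf s hs (x * t')]
      have e : f (x * t' * s) - f (x * t') = f (x * t' * s) + f (x * t') := by
        rw [sub_eq_add_neg, CharTwo.neg_eq]
      rw [e]
      have : f x + f (x * t') + (f (x * t' * s) + f (x * t')) =
          f x + f (x * t' * s) + (f (x * t') + f (x * t')) := by abel
      rw [this, CharTwo.add_self_eq_zero, add_zero]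
  intro x y hxy
  have := key n le_rfl _ hxy x
  rwa [mul_inv_cancel_left] at this

end Scale

variable {X Γ : Type*} [TopologicalSpace X] [Group Γ] [MulAction Γ X] [ContinuousConstSMul Γ X]
variable {M : Type*} [TopologicalSpace M]

open Classical in
theorem exists_h1Ex [CompactSpace M] [T2Space M] [LocallyCompactSpace X] [ContractibleSpace X]
    {p : X → M} (hp : IsQuotientCoveringMap p Γ) :
    ∃ S : Finset Γ, Subgroup.closure (S : Set Γ) = ⊤ ∧ (∀ s ∈ S, s⁻¹ ∈ S) ∧ 1 ∈ S ∧
      ∃ n₀ : ℕ, 1 ≤ n₀ ∧ ∀ n, n₀ ≤ n → H1Ex (S ^ n) := by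
  obtain ⟨S, hS, hsym, h1, F, hF⟩ := exists_exact (A := ZMod 2) hp
  obtain ⟨n₀, hn₀⟩ := exists_subset_pow hS hsym h1 (F⁻¹ * F)
  exact ⟨S, hS, hsym, h1, n₀ + 1, by omega, fun n hn =>
    h1Ex_pow hsym h1 hF (by omega) (hn₀ n (by omega))⟩

end Vale.Agent.P239.F
end

section

/-! The augmented complex of lists and the prism operator. -/

namespace Vale.Agent.P239.TF

open Finsupp

/-- Chains: finite combinations of lists. -/
abbrev LC (F V : Type*) [CommRing F] : Type _ := List V →₀ F

variable {F V W : Type*} [CommRing F]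

/-- Prepending a vertex. -/
noncomputable def lcons (x : V) : LC F V →ₗ[F] LC F V := Finsupp.lmapDomain F F (fun t => x :: t)

@[simp] theorem lcons_single (x : V) (t : List V) (a : F) :
    lcons x (single t a) = single (x :: t) a := by
  simp [lcons, Finsupp.mapDomain_single]

/-- Boundary of a list (augmented: the boundary of a vertex is the empty list). -/
noncomputable def bl : List V → LC F V
  | [] => 0
  | x :: t => single t 1 - lcons x (bl t)

/-- The boundary. -/
noncomputable def bdy : LC F V →ₗ[F] LC F V := Finsupp.lsum F fun t => LinearMap.toSpanSingleton F _ (bl t)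

theorem bdy_single (t : List V) (a : F) : bdy (single t a) = a • bl t := by
  simp [bdy]

theorem bdy_nil (a : F) : bdy (single ([] : List V) a) = 0 := by
  rw [bdy_single]; simp [bl]

theorem bdy_lcons (x : V) (c : LC F V) : bdy (lcons x c) = c - lcons x (bdy c) := by
  have : (bdy ∘ₗ lcons x : LC F V →ₗ[F] LC F V) = LinearMap.id - lcons x ∘ₗ bdy := by
    refine Finsupp.lhom_ext fun t a => ?_
    simp only [LinearMap.comp_apply, LinearMap.sub_apply, LinearMap.id_apply, lcons_single,
      bdy_single, bl, map_smul, smul_sub]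
    congr 1
    rw [Finsupp.smul_single, smul_eq_mul, mul_one]
  exact LinearMap.congr_fun this c

theorem bdy_bl (t : List V) : bdy (bl t : LC F V) = 0 := by
  induction t with
  | nil => simp [bl]
  | cons x t ih =>
    rw [bl, map_sub, bdy_single, bdy_lcons, ih, map_zero, sub_zero, one_smul, sub_self]

theorem bdy_bdy (c : LC F V) : bdy (bdy c) = 0 := by
  have : (bdy ∘ₗ bdy : LC F V →ₗ[F] LC F V) = 0 := by
    refine Finsupp.lhom_ext fun t a => ?_
    simp only [LinearMap.comp_apply, bdy_single, map_smul, bdy_bl, smul_zero,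
      LinearMap.zero_apply]
  exact LinearMap.congr_fun this c

/-- Push forward of chains. -/
noncomputable def psh (f : V → W) : LC F V →ₗ[F] LC F W := Finsupp.lmapDomain F F (List.map f)

@[simp] theorem psh_single (f : V → W) (t : List V) (a : F) :
    psh f (single t a) = single (t.map f) a := by
  simp [psh, Finsupp.mapDomain_single]

theorem psh_lcons (f : V → W) (x : V) (c : LC F V) :
    psh f (lcons x c) = lcons (f x) (psh f c) := by
  have : (psh f ∘ₗ lcons x : LC F V →ₗ[F] LC F W) = lcons (f x) ∘ₗ psh f := by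
    refine Finsupp.lhom_ext fun t a => ?_
    simp
  exact LinearMap.congr_fun this c

theorem psh_bl (f : V → W) (t : List V) : psh f (bl t : LC F V) = bl (t.map f) := by
  induction t with
  | nil => simp [bl]
  | cons x t ih =>
    rw [bl, map_sub, psh_single, psh_lcons, ih, List.map_cons, bl]

theorem bdy_psh (f : V → W) (c : LC F V) : bdy (psh f c) = psh f (bdy c) := by
  have : (bdy ∘ₗ psh f : LC F V →ₗ[F] LC F W) = psh f ∘ₗ bdy := by
    refine Finsupp.lhom_ext fun t a => ?_
    simp only [LinearMap.comp_apply, psh_single, bdy_single, map_smul, psh_bl]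
  exact LinearMap.congr_fun this c

theorem psh_id (c : LC F V) : psh (fun x => x) c = c := by
  have : (psh (fun x : V => x) : LC F V →ₗ[F] LC F V) = LinearMap.id := by
    refine Finsupp.lhom_ext fun t a => ?_
    simp
  exact LinearMap.congr_fun this c

theorem psh_psh {Z : Type*} (f : V → W) (g : W → Z) (c : LC F V) :
    psh g (psh f c) = psh (fun x => g (f x)) c := by
  have : (psh g ∘ₗ psh f : LC F V →ₗ[F] LC F Z) = psh (fun x => g (f x)) := by
    refine Finsupp.lhom_ext fun t a => ?_
    simp [Function.comp_def]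
  exact LinearMap.congr_fun this c

/-- The prism on a list. -/
noncomputable def prl (a b : V → W) : List V → LC F W
  | [] => 0
  | x :: t => single (a x :: b x :: t.map b) 1 - lcons (a x) (prl a b t)

/-- The prism operator. -/
noncomputable def pr (a b : V → W) : LC F V →ₗ[F] LC F W :=
  Finsupp.lsum F fun t => LinearMap.toSpanSingleton F _ (prl a b t)

theorem pr_single (a b : V → W) (t : List V) (r : F) : pr a b (single t r) = r • prl a b t := by
  simp [pr]

theorem pr_lcons (a b : V → W) (x : V) (c : LC F V) :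
    pr a b (lcons x c) = lcons (a x) (lcons (b x) (psh b c)) - lcons (a x) (pr a b c) := by
  have : (pr a b ∘ₗ lcons x : LC F V →ₗ[F] LC F W) =
      lcons (a x) ∘ₗ lcons (b x) ∘ₗ psh b - lcons (a x) ∘ₗ pr a b := by
    refine Finsupp.lhom_ext fun t r => ?_
    simp only [LinearMap.comp_apply, LinearMap.sub_apply, lcons_single, pr_single, prl, map_smul,
      smul_sub, psh_single]
    congr 1
    rw [Finsupp.smul_single, smul_eq_mul, mul_one]
  exact LinearMap.congr_fun this c

/-- The prism formula on a list. -/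
theorem bdy_prl (a b : V → W) (t : List V) :
    bdy (prl a b t : LC F W) + pr a b (bl t) = single (t.map b) 1 - single (t.map a) 1 := by
  induction t with
  | nil => simp [prl, bl]
  | cons x t ih =>
    rw [prl, bl, map_sub, map_sub, bdy_lcons, pr_lcons, pr_single, psh_bl]
    have h1 : (single (a x :: b x :: t.map b) 1 : LC F W) =
        lcons (a x) (lcons (b x) (single (t.map b) 1)) := by simp
    rw [h1, bdy_lcons, bdy_lcons, bdy_single, one_smul, one_smul, map_sub]
    have h2 : bdy (prl a b t : LC F W) = single (t.map b) 1 - single (t.map a) 1 -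
        pr a b (bl t) := by rw [← ih]; abel
    rw [h2, map_sub, map_sub]
    simp only [lcons_single, List.map_cons]
    abel

/-- The prism formula. -/
theorem bdy_pr (a b : V → W) (c : LC F V) :
    bdy (pr a b c) + pr a b (bdy c) = psh b c - psh a c := by
  have : (bdy ∘ₗ pr a b + pr a b ∘ₗ bdy : LC F V →ₗ[F] LC F W) = psh b - psh a := by
    refine Finsupp.lhom_ext fun t r => ?_
    simp only [LinearMap.comp_apply, LinearMap.add_apply, LinearMap.sub_apply, psh_single,
      pr_single, bdy_single, map_smul]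
    rw [← smul_add, bdy_prl, smul_sub, Finsupp.smul_single, Finsupp.smul_single, smul_eq_mul,
      mul_one]
  exact LinearMap.congr_fun this c

/-- Chains supported on a set of lists. -/
def On (P : List V → Prop) : Submodule F (LC F V) where
  carrier := {c | ∀ t, c t ≠ 0 → P t}
  add_mem' {a b} ha hb t ht := by
    by_contra h
    refine ht ?_
    rw [Finsupp.add_apply, not_not.1 fun h' => h (ha t h'), not_not.1 fun h' => h (hb t h'),
      add_zero]
  zero_mem' t ht := absurd rfl ht
  smul_mem' r a ha t ht := by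
    refine ha t fun h => ht ?_
    rw [Finsupp.smul_apply, h, smul_zero]

theorem mem_On {P : List V → Prop} {c : LC F V} : c ∈ (On P : Submodule F (LC F V)) ↔
    ∀ t, c t ≠ 0 → P t := Iff.rfl

theorem single_mem_On {P : List V → Prop} {t : List V} (h : P t) (a : F) :
    single t a ∈ (On P : Submodule F (LC F V)) := by
  classical
  intro s hs
  rw [Finsupp.single_apply] at hs
  by_cases h' : t = s
  · rwa [← h']
  · rw [if_neg h'] at hs; exact absurd rfl hs

theorem On_mono {P Q : List V → Prop} (h : ∀ t, P t → Q t) :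
    (On P : Submodule F (LC F V)) ≤ On Q := fun _ hc t ht => h t (hc t ht)

/-- A linear map sends chains on `P` to chains in `N` if it does so on lists. -/
theorem map_mem_of {P : List V → Prop} {c : LC F V} (hc : c ∈ (On P : Submodule F (LC F V)))
    {M : Type*} [AddCommGroup M] [Module F M] (φ : LC F V →ₗ[F] M) (N : Submodule F M)
    (h : ∀ t, P t → φ (single t 1) ∈ N) : φ c ∈ N := by
  classical
  rw [← Finsupp.sum_single c, Finsupp.sum, map_sum]
  refine N.sum_mem fun t ht => ?_
  have e : (single t (c t) : LC F V) = c t • single t 1 := by simp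
  rw [e, map_smul]
  exact N.smul_mem _ (h t (hc t (Finsupp.mem_support_iff.1 ht)))

/-- two linear maps which agree on lists with `P` agree on chains on `P` -/
theorem map_eq_of {P : List V → Prop} {c : LC F V} (hc : c ∈ (On P : Submodule F (LC F V)))
    {M : Type*} [AddCommGroup M] [Module F M] (φ ψ : LC F V →ₗ[F] M)
    (h : ∀ t, P t → φ (single t 1) = ψ (single t 1)) : φ c = ψ c := by
  have := map_mem_of hc (φ - ψ) ⊥ (fun t ht => by
    rw [Submodule.mem_bot, LinearMap.sub_apply, h t ht, sub_self])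
  rwa [Submodule.mem_bot, LinearMap.sub_apply, sub_eq_zero] at this

theorem lcons_mem_On {P Q : List V → Prop} {x : V} (h : ∀ t, P t → Q (x :: t)) {c : LC F V}
    (hc : c ∈ (On P : Submodule F (LC F V))) : lcons x c ∈ (On Q : Submodule F (LC F V)) :=
  map_mem_of hc _ _ fun t ht => by rw [lcons_single]; exact single_mem_On (h t ht) 1

theorem psh_mem_On {P : List V → Prop} {Q : List W → Prop} {f : V → W}
    (h : ∀ t, P t → Q (t.map f)) {c : LC F V}
    (hc : c ∈ (On P : Submodule F (LC F V))) : psh f c ∈ (On Q : Submodule F (LC F W)) :=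
  map_mem_of hc _ _ fun t ht => by rw [psh_single]; exact single_mem_On (h t ht) 1

/-- lists with entries in a set, of given length -/
def LenIn (A : Set V) (n : ℕ) (t : List V) : Prop := t.length = n ∧ ∀ x ∈ t, x ∈ A

theorem bl_mem (A : Set V) : ∀ (t : List V) (n : ℕ), LenIn A (n + 1) t →
    (bl t : LC F V) ∈ (On (LenIn A n) : Submodule F (LC F V))
  | [], n, h => by simp [LenIn] at h
  | [x], n, h => by
    have hn : n = 0 := by have := h.1; simp at this; omega
    subst hn
    simp only [bl, map_zero, sub_zero]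
    exact single_mem_On ⟨rfl, by simp⟩ 1
  | x :: y :: t, n, h => by
    obtain ⟨m, rfl⟩ : ∃ m, n = m + 1 := ⟨t.length, by have := h.1; simp at this; exact this.symm⟩
    rw [bl]
    refine Submodule.sub_mem _ (single_mem_On ⟨by simpa using h.1, fun z hz => h.2 z (by simp at hz ⊢; tauto)⟩ 1) ?_
    refine lcons_mem_On (P := LenIn A m) ?_ (bl_mem A (y :: t) m ⟨by simpa using h.1,
      fun z hz => h.2 z (by simp at hz ⊢; tauto)⟩)
    intro s hs
    refine ⟨by simp [hs.1], ?_⟩
    intro z hz
    rcases List.mem_cons.1 hz with rfl | hz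
    · exact h.2 _ (by simp)
    · exact hs.2 z hz

theorem prl_mem (a b : V → W) {A : Set V} {B : Set W} (ha : ∀ x ∈ A, a x ∈ B)
    (hb : ∀ x ∈ A, b x ∈ B) : ∀ (t : List V) (n : ℕ), LenIn A n t →
    (prl a b t : LC F W) ∈ (On (LenIn B (n + 1)) : Submodule F (LC F W))
  | [], n, h => by simp [prl]
  | x :: t, n, h => by
    obtain ⟨m, rfl⟩ : ∃ m, n = m + 1 := ⟨t.length, by have := h.1; simp at this; exact this.symm⟩
    have ht : LenIn A m t := ⟨by simpa using h.1, fun z hz => h.2 z (by simp [hz])⟩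
    have hx : x ∈ A := h.2 x (by simp)
    rw [prl]
    have h1 : LenIn B (m + 1 + 1) (a x :: b x :: t.map b) := by
      refine ⟨by simpa using ht.1, fun z hz => ?_⟩
      rcases List.mem_cons.1 hz with rfl | hz
      · exact ha x hx
      · rcases List.mem_cons.1 hz with rfl | hz
        · exact hb x hx
        · obtain ⟨y, hy, rfl⟩ := List.mem_map.1 hz
          exact hb y (ht.2 y hy)
    have h2 : ∀ s, LenIn B (m + 1) s → LenIn B (m + 1 + 1) (a x :: s) := by
      intro s hs
      refine ⟨by simp [hs.1], ?_⟩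
      intro z hz
      rcases List.mem_cons.1 hz with rfl | hz
      · exact ha x hx
      · exact hs.2 z hz
    exact Submodule.sub_mem _ (single_mem_On h1 1) (lcons_mem_On h2 (prl_mem a b ha hb t m ht))

/-- lists of length `n` small with respect to a family of sets -/
def Sm {ι : Type*} (U : ι → Set V) (n : ℕ) (t : List V) : Prop :=
  t.length = n ∧ ∃ i, ∀ x ∈ t, x ∈ U i

end Vale.Agent.P239.TF
end

section

/-! Sorting of admissible lists, and the algebra of a free rotation: there is no equivariant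
system of chains in a finite dimensional complex. -/

namespace Vale.Agent.P239.TF

open Finsupp

section Ins

variable {F : Type*} [CommRing F] {ι A : Type*} [LinearOrder ι]

/-- Signed insertion of a vertex into a sorted list. -/
noncomputable def insl (v : ι × A) : List (ι × A) → LC F (ι × A)
  | [] => single [v] 1
  | u :: t => if v.1 < u.1 then single (v :: u :: t) 1 else
      if v.1 = u.1 then 0 else - lcons u (insl v t)

/-- Linear version. -/
noncomputable def insL (v : ι × A) : LC F (ι × A) →ₗ[F] LC F (ι × A) :=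
  Finsupp.lsum F fun t => LinearMap.toSpanSingleton F _ (insl v t)

theorem insL_single (v : ι × A) (t : List (ι × A)) (a : F) :
    insL v (single t a) = a • insl v t := by simp [insL]

/-- sorted lists -/
def Srt (t : List (ι × A)) : Prop := t.Pairwise fun a b => a.1 < b.1

theorem insl_of_lt {v : ι × A} {t : List (ι × A)} (h : ∀ u ∈ t, v.1 < u.1) :
    (insl v t : LC F (ι × A)) = single (v :: t) 1 := by
  cases t with
  | nil => rfl
  | cons u t => rw [insl, if_pos (h u (by simp))]

theorem insL_lcons_lt {v u : ι × A} (h : u.1 < v.1) (c : LC F (ι × A)) :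
    insL v (lcons u c) = - lcons u (insL v c) := by
  have : (insL v ∘ₗ lcons u + lcons u ∘ₗ insL v : LC F (ι × A) →ₗ[F] LC F (ι × A)) = 0 := by
    refine Finsupp.lhom_ext fun t a => ?_
    simp only [LinearMap.comp_apply, lcons_single, insL_single, LinearMap.add_apply, map_smul,
      LinearMap.zero_apply]
    rw [insl, if_neg (not_lt.2 h.le), if_neg h.ne', smul_neg, neg_add_cancel]
  exact eq_neg_of_add_eq_zero_left (LinearMap.congr_fun this c)

theorem insL_lcons_eq {v u : ι × A} (h : v.1 = u.1) (c : LC F (ι × A)) :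
    insL v (lcons u c) = 0 := by
  have : (insL v ∘ₗ lcons u : LC F (ι × A) →ₗ[F] _) = 0 := by
    refine Finsupp.lhom_ext fun t a => ?_
    simp only [LinearMap.comp_apply, lcons_single, insL_single, LinearMap.zero_apply]
    rw [insl, if_neg (by rw [h]; exact lt_irrefl _), if_pos h, smul_zero]
  exact LinearMap.congr_fun this c

/-- boundary of lists whose vertices satisfy a predicate -/
theorem bl_mem' (P : ι × A → Prop) (t : List (ι × A)) (h : ∀ u ∈ t, P u) :
    (bl t : LC F (ι × A)) ∈ (On (fun s => ∀ u ∈ s, P u) : Submodule F (LC F (ι × A))) := by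
  induction t with
  | nil => exact Submodule.zero_mem _
  | cons x t ih =>
    rw [bl]
    refine Submodule.sub_mem _ (single_mem_On (fun u hu => h u (by simp [hu])) 1) ?_
    refine lcons_mem_On (fun s hs u hu => ?_) (ih fun u hu => h u (by simp [hu]))
    rcases List.mem_cons.1 hu with rfl | hu
    · exact h _ (by simp)
    · exact hs u hu

theorem bdy_insl {v : ι × A} : ∀ (s : List (ι × A)), Srt s →
    (∀ u ∈ s, v.1 = u.1 → v = u) →
    bdy (insl v s : LC F (ι × A)) + insL v (bl s) = single s 1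
  | [], _, _ => by
    rw [insl, bdy_single, bl, bl, bl, map_zero, map_zero, sub_zero, add_zero, one_smul]
  | u :: t, hs, hc => by
    have hut : ∀ w ∈ t, u.1 < w.1 := (List.pairwise_cons.1 hs).1
    have ht : Srt t := (List.pairwise_cons.1 hs).2
    rcases lt_trichotomy v.1 u.1 with h | h | h
    · have h1 : insL v (bl (u :: t) : LC F (ι × A)) = lcons v (bl (u :: t)) := by
        refine map_eq_of (bl_mem' (fun w => v.1 < w.1) (u :: t) ?_) _ _ fun s hs => ?_
        · intro w hw
          rcases List.mem_cons.1 hw with rfl | hw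
          · exact h
          · exact h.trans (hut w hw)
        · rw [insL_single, one_smul, lcons_single, insl_of_lt hs]
      rw [insl, if_pos h, bdy_single, one_smul, h1]
      conv_lhs => rw [bl]
      abel
    · obtain rfl : v = u := hc u (by simp) h
      rw [insl, if_neg (lt_irrefl _), if_pos rfl, map_zero, zero_add, bl, map_sub,
        insL_lcons_eq rfl, sub_zero, insL_single, one_smul, insl_of_lt hut]
    · have ih := bdy_insl t ht (fun w hw => hc w (by simp [hw]))
      rw [insl, if_neg (not_lt.2 h.le), if_neg h.ne', map_neg, bdy_lcons, bl, map_sub,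
        insL_lcons_lt h, insL_single, one_smul]
      have h2 : bdy (insl v t : LC F (ι × A)) = single t 1 - insL v (bl t) := by
        rw [← ih]; abel
      rw [h2, map_sub, lcons_single]
      abel

theorem insl_mem {v : ι × A} : ∀ (s : List (ι × A)), Srt s →
    (insl v s : LC F (ι × A)) ∈ (On (fun t => Srt t ∧ t.length = s.length + 1 ∧
      ∀ u ∈ t, u = v ∨ u ∈ s) : Submodule F (LC F (ι × A)))
  | [], _ => single_mem_On ⟨List.pairwise_singleton _ _, rfl, fun u hu => Or.inl (by simpa using hu)⟩ 1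
  | u :: t, hs => by
    have hut : ∀ w ∈ t, u.1 < w.1 := (List.pairwise_cons.1 hs).1
    have ht : Srt t := (List.pairwise_cons.1 hs).2
    rcases lt_trichotomy v.1 u.1 with h | h | h
    · rw [insl, if_pos h]
      refine single_mem_On ⟨List.pairwise_cons.2 ⟨?_, hs⟩, rfl, ?_⟩ 1
      · intro w hw
        rcases List.mem_cons.1 hw with rfl | hw
        · exact h
        · exact h.trans (hut w hw)
      · intro w hw
        rcases List.mem_cons.1 hw with rfl | hw
        · exact Or.inl rfl
        · exact Or.inr hw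
    · rw [insl, if_neg (by rw [h]; exact lt_irrefl _), if_pos h]
      exact Submodule.zero_mem _
    · rw [insl, if_neg (not_lt.2 h.le), if_neg h.ne']
      refine Submodule.neg_mem _ (lcons_mem_On ?_ (insl_mem t ht))
      rintro s ⟨h1, h2, h3⟩
      refine ⟨List.pairwise_cons.2 ⟨?_, h1⟩, by simp [h2], ?_⟩
      · intro w hw
        rcases h3 w hw with rfl | hw
        · exact h
        · exact hut w hw
      · intro w hw
        rcases List.mem_cons.1 hw with rfl | hw
        · exact Or.inr (by simp)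
        · rcases h3 w hw with rfl | hw
          · exact Or.inl rfl
          · exact Or.inr (by simp [hw])

/-- Sorting. -/
noncomputable def Tl : List (ι × A) → LC F (ι × A)
  | [] => single [] 1
  | v :: t => insL v (Tl t)

/-- Sorting, linear version. -/
noncomputable def TL : LC F (ι × A) →ₗ[F] LC F (ι × A) :=
  Finsupp.lsum F fun t => LinearMap.toSpanSingleton F _ (Tl t)

theorem TL_single (t : List (ι × A)) (a : F) : TL (single t a) = a • Tl t := by simp [TL]

theorem TL_lcons (v : ι × A) (c : LC F (ι × A)) : TL (lcons v c) = insL v (TL c) := by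
  have : (TL ∘ₗ lcons v : LC F (ι × A) →ₗ[F] _) = insL v ∘ₗ TL := by
    refine Finsupp.lhom_ext fun t a => ?_
    simp only [LinearMap.comp_apply, lcons_single, TL_single, map_smul, Tl]
  exact LinearMap.congr_fun this c

theorem Tl_mem (l : List (ι × A)) :
    (Tl l : LC F (ι × A)) ∈ (On (fun t => Srt t ∧ t.length = l.length ∧ ∀ u ∈ t, u ∈ l) :
      Submodule F (LC F (ι × A))) := by
  induction l with
  | nil => exact single_mem_On ⟨List.Pairwise.nil, rfl, by simp⟩ 1
  | cons v l ih =>
    rw [Tl]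
    refine map_mem_of ih _ _ fun t ht => ?_
    rw [insL_single, one_smul]
    refine On_mono ?_ (insl_mem t ht.1)
    rintro s ⟨h1, h2, h3⟩
    refine ⟨h1, by rw [h2, ht.2.1, List.length_cons], fun u hu => ?_⟩
    rcases h3 u hu with rfl | h
    · simp
    · exact List.mem_cons_of_mem _ (ht.2.2 u h)

/-- admissible lists -/
def Adm (t : List (ι × A)) : Prop := ∀ a ∈ t, ∀ b ∈ t, a.1 = b.1 → a = b

theorem bdy_Tl (l : List (ι × A)) (hl : Adm l) : bdy (Tl l : LC F (ι × A)) = TL (bl l) := by
  induction l with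
  | nil => rw [Tl, bdy_nil, bl, map_zero]
  | cons v l ih =>
    have hl' : Adm l := fun a ha b hb => hl a (by simp [ha]) b (by simp [hb])
    rw [Tl, bl, map_sub, TL_lcons, ← ih hl', TL_single, one_smul]
    have := map_eq_of (Tl_mem l) (bdy ∘ₗ insL v + insL v ∘ₗ bdy : LC F (ι × A) →ₗ[F] _)
      LinearMap.id (fun t ht => by
        rw [LinearMap.add_apply, LinearMap.comp_apply, LinearMap.comp_apply, insL_single,
          one_smul, bdy_single, one_smul, LinearMap.id_apply]
        exact bdy_insl t ht.1 fun u hu h => hl v (by simp) u (by simp [ht.2.2 u hu]) h)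
    rw [LinearMap.add_apply, LinearMap.comp_apply, LinearMap.comp_apply, LinearMap.id_apply]
      at this
    exact eq_sub_of_add_eq this

theorem bdy_TL {c : LC F (ι × A)} (hc : c ∈ (On Adm : Submodule F (LC F (ι × A)))) :
    bdy (TL c) = TL (bdy c) := by
  have := map_eq_of hc (bdy ∘ₗ TL : LC F (ι × A) →ₗ[F] _) (TL ∘ₗ bdy) (fun t ht => by
    rw [LinearMap.comp_apply, LinearMap.comp_apply, TL_single, one_smul, bdy_single, one_smul,
      bdy_Tl t ht])
  exact this

theorem TL_mem {P : List (ι × A) → Prop} {n : ℕ} (hP : ∀ t, P t → t.length = n)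
    {c : LC F (ι × A)} (hc : c ∈ (On P : Submodule F (LC F (ι × A)))) :
    TL c ∈ (On (fun t => Srt t ∧ t.length = n) : Submodule F (LC F (ι × A))) :=
  map_mem_of hc _ _ fun t ht => by
    rw [TL_single, one_smul]
    exact On_mono (fun s hs => ⟨hs.1, hs.2.1.trans (hP t ht)⟩) (Tl_mem t)

theorem Srt.length_le [Fintype ι] {t : List (ι × A)} (h : Srt t) : t.length ≤ Fintype.card ι := by
  have h1 : (t.map Prod.fst).Nodup := by
    rw [List.nodup_iff_pairwise_ne, List.pairwise_map]
    exact h.imp fun hab => hab.ne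
  have := h1.length_le_card
  rwa [List.length_map] at this

/-- equivariance -/
theorem psh_insl (r : A → A) (v : ι × A) (s : List (ι × A)) :
    psh (Prod.map id r) (insl v s : LC F (ι × A)) =
      insl (Prod.map id r v) (s.map (Prod.map id r)) := by
  induction s with
  | nil => simp [insl]
  | cons u t ih =>
    rw [insl, List.map_cons, insl]
    simp only [Prod.map_fst, id_eq]
    split_ifs
    · simp
    · rw [map_zero]
    · rw [map_neg, psh_lcons, ih]

theorem psh_Tl (r : A → A) (l : List (ι × A)) :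
    psh (Prod.map id r) (Tl l : LC F (ι × A)) = Tl (l.map (Prod.map id r)) := by
  induction l with
  | nil => simp [Tl]
  | cons v l ih =>
    rw [Tl, List.map_cons, Tl, ← ih]
    have : (psh (Prod.map id r) ∘ₗ insL v : LC F (ι × A) →ₗ[F] LC F (ι × A)) =
        insL (Prod.map id r v) ∘ₗ psh (Prod.map id r) := by
      refine Finsupp.lhom_ext fun t a => ?_
      simp only [LinearMap.comp_apply, insL_single, map_smul, psh_single, psh_insl]
    exact LinearMap.congr_fun this _

theorem psh_TL (r : A → A) (c : LC F (ι × A)) :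
    psh (Prod.map id r) (TL c) = TL (psh (Prod.map id r) c) := by
  have : (psh (Prod.map id r) ∘ₗ TL : LC F (ι × A) →ₗ[F] LC F (ι × A)) =
      TL ∘ₗ psh (Prod.map id r) := by
    refine Finsupp.lhom_ext fun t a => ?_
    simp only [LinearMap.comp_apply, TL_single, map_smul, psh_single, psh_Tl]
  exact LinearMap.congr_fun this c

end Ins

section Rot

variable {F : Type*} [CommRing F] {V W : Type*}

/-- `1 - r`. -/
noncomputable def tau (r : V → V) : LC F V →ₗ[F] LC F V := LinearMap.id - psh r

/-- The norm `1 + r + ... + r^(q-1)`. -/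
noncomputable def sig (q : ℕ) (r : V → V) : LC F V →ₗ[F] LC F V :=
  ∑ j ∈ Finset.range q, (psh r) ^ j

/-- alternately the norm and the difference -/
noncomputable def rho (q : ℕ) (r : V → V) (k : ℕ) : LC F V →ₗ[F] LC F V :=
  if Even k then sig q r else tau r

theorem bdy_pow (r : V → V) (j : ℕ) (c : LC F V) :
    bdy (((psh r : LC F V →ₗ[F] LC F V) ^ j) c) = ((psh r : LC F V →ₗ[F] LC F V) ^ j) (bdy c) := by
  induction j generalizing c with
  | zero => simp
  | succ j ih => rw [pow_succ, Module.End.mul_apply, Module.End.mul_apply, ih, bdy_psh]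

theorem bdy_sig (q : ℕ) (r : V → V) (c : LC F V) : bdy (sig q r c) = sig q r (bdy c) := by
  simp only [sig, LinearMap.sum_apply, map_sum, bdy_pow]

theorem bdy_tau (r : V → V) (c : LC F V) : bdy (tau r c) = tau r (bdy c) := by
  simp only [tau, LinearMap.sub_apply, LinearMap.id_apply, map_sub, bdy_psh]

theorem bdy_rho (q : ℕ) (r : V → V) (k : ℕ) (c : LC F V) :
    bdy (rho q r k c) = rho q r k (bdy c) := by
  unfold rho
  split_ifs
  · exact bdy_sig q r c
  · exact bdy_tau r c

theorem psh_pow (r : V → V) (j : ℕ) :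
    (psh r : LC F V →ₗ[F] LC F V) ^ j = psh (r^[j]) := by
  induction j with
  | zero =>
    refine Finsupp.lhom_ext fun t a => ?_
    simp
  | succ j ih =>
    rw [pow_succ, ih]
    refine Finsupp.lhom_ext fun t a => ?_
    simp

theorem psh_pow_eq_one {q : ℕ} {r : V → V} (hr : r^[q] = id) :
    (psh r : LC F V →ₗ[F] LC F V) ^ q = 1 := by
  rw [psh_pow, hr]
  refine Finsupp.lhom_ext fun t a => ?_
  simp

theorem tau_mul_sig {q : ℕ} {r : V → V} (hr : r^[q] = id) :
    (tau r * sig q r : Module.End F (LC F V)) = 0 := by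
  have h := mul_neg_geom_sum (psh r : Module.End F (LC F V)) q
  have e : (psh r : Module.End F (LC F V)) ^ q = 1 := psh_pow_eq_one hr
  rw [e, sub_self] at h
  exact h

theorem sig_mul_tau {q : ℕ} {r : V → V} (hr : r^[q] = id) :
    (sig q r * tau r : Module.End F (LC F V)) = 0 := by
  have h := geom_sum_mul_neg (psh r : Module.End F (LC F V)) q
  have e : (psh r : Module.End F (LC F V)) ^ q = 1 := psh_pow_eq_one hr
  rw [e, sub_self] at h
  exact h

theorem rho_rho {q : ℕ} {r : V → V} (hr : r^[q] = id) (k : ℕ) (c : LC F V) :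
    rho q r (k + 1) (rho q r k c) = 0 := by
  unfold rho
  by_cases hk : Even k
  · rw [if_pos hk, if_neg (Nat.not_even_iff_odd.2 hk.add_one)]
    exact LinearMap.congr_fun (tau_mul_sig hr) c
  · rw [if_neg hk, if_pos (Nat.not_even_iff_odd.1 hk).add_one]
    exact LinearMap.congr_fun (sig_mul_tau hr) c

theorem map_rho {q : ℕ} {r : V → V} {r' : W → W} (φ : LC F V →ₗ[F] LC F W)
    (h : ∀ c, φ (psh r c) = psh r' (φ c)) (k : ℕ) (c : LC F V) :
    φ (rho q r k c) = rho q r' k (φ c) := by
  have hp : ∀ j c, φ (((psh r : LC F V →ₗ[F] LC F V) ^ j) c) =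
      ((psh r' : LC F W →ₗ[F] LC F W) ^ j) (φ c) := by
    intro j
    induction j with
    | zero => intro c; simp
    | succ j ih => intro c; rw [pow_succ, pow_succ, Module.End.mul_apply, Module.End.mul_apply, ih, h]
  unfold rho
  split_ifs
  · simp only [sig, LinearMap.sum_apply, map_sum, hp]
  · simp only [tau, LinearMap.sub_apply, LinearMap.id_apply, map_sub, h]

end Rot

end Vale.Agent.P239.TF
end

section

/-! Exactness for free rotations and the non-existence of short equivariant systems of chains. -/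

namespace Vale.Agent.P239.TF

open Finsupp

variable {F : Type*} [CommRing F] {V : Type*} {q : ℕ} [NeZero q]

/-- lists of length `n` -/
def Ln (n : ℕ) (t : List V) : Prop := t.length = n

theorem bdy_mem_Ln {n : ℕ} {c : LC F V} (hc : c ∈ (On (Ln (n + 1)) : Submodule F (LC F V))) :
    bdy c ∈ (On (Ln n) : Submodule F (LC F V)) :=
  map_mem_of hc _ _ fun t ht => by
    rw [bdy_single, one_smul]
    exact On_mono (fun s hs => hs.1) (bl_mem Set.univ t n ⟨ht, fun _ _ => trivial⟩)

theorem psh_mem_Ln {W : Type*} {n : ℕ} (f : V → W) {c : LC F V}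
    (hc : c ∈ (On (Ln n) : Submodule F (LC F V))) :
    psh f c ∈ (On (Ln n) : Submodule F (LC F W)) :=
  psh_mem_On (fun t ht => by unfold Ln at ht ⊢; rw [List.length_map]; exact ht) hc

theorem pow_mem_Ln {n : ℕ} (r : V → V) (i : ℕ) {c : LC F V}
    (hc : c ∈ (On (Ln n) : Submodule F (LC F V))) :
    ((psh r : LC F V →ₗ[F] LC F V) ^ i) c ∈ (On (Ln n) : Submodule F (LC F V)) := by
  rw [psh_pow]; exact psh_mem_Ln _ hc

theorem On_zero_eq {c : LC F V} (hc : c ∈ (On (Ln 0) : Submodule F (LC F V))) :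
    ∃ a, c = single [] a := by
  refine ⟨c [], ?_⟩
  ext t
  by_cases ht : t = []
  · subst ht; simp
  · rw [Finsupp.single_eq_of_ne ht]
    by_contra h
    exact ht (List.length_eq_zero_iff.1 (hc t h))

/-- phase of a list -/
def hdp (h : V → ZMod q) : List V → ZMod q
  | [] => 0
  | x :: _ => h x

open Classical in
/-- part of a given phase -/
noncomputable def pj (h : V → ZMod q) (j : ZMod q) : LC F V →ₗ[F] LC F V :=
  Finsupp.lsum F fun t => if hdp h t = j then Finsupp.lsingle t else 0

open Classical in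
theorem pj_single (h : V → ZMod q) (j : ZMod q) (t : List V) (a : F) :
    pj h j (single t a) = if hdp h t = j then single t a else 0 := by
  simp only [pj, Finsupp.coe_lsum, Finsupp.sum_single_index, map_zero]
  split_ifs <;> simp

theorem sum_pj (h : V → ZMod q) (c : LC F V) : ∑ j, pj h j c = c := by
  classical
  have : (∑ j, pj h j : LC F V →ₗ[F] LC F V) = LinearMap.id := by
    refine Finsupp.lhom_ext fun t a => ?_
    simp only [LinearMap.sum_apply, pj_single, LinearMap.id_apply, Finset.sum_ite_eq,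
      Finset.mem_univ, if_true]
  rw [← LinearMap.sum_apply, this, LinearMap.id_apply]

theorem pj_pj_self (h : V → ZMod q) (j : ZMod q) (c : LC F V) : pj h j (pj h j c) = pj h j c := by
  have : (pj h j ∘ₗ pj h j : LC F V →ₗ[F] LC F V) = pj h j := by
    refine Finsupp.lhom_ext fun t a => ?_
    simp only [LinearMap.comp_apply, pj_single]
    split_ifs with h1
    · rw [pj_single, if_pos h1]
    · rw [map_zero]
  exact LinearMap.congr_fun this c

theorem pj_pj_ne (h : V → ZMod q) {i j : ZMod q} (hij : i ≠ j) (c : LC F V) :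
    pj h i (pj h j c) = 0 := by
  have : (pj h i ∘ₗ pj h j : LC F V →ₗ[F] LC F V) = 0 := by
    refine Finsupp.lhom_ext fun t a => ?_
    simp only [LinearMap.comp_apply, pj_single, LinearMap.zero_apply]
    split_ifs with h1
    · rw [pj_single, if_neg (by rw [h1]; exact hij.symm)]
    · rw [map_zero]
  exact LinearMap.congr_fun this c

theorem pj_mem_On (h : V → ZMod q) (j : ZMod q) {P : List V → Prop} {c : LC F V}
    (hc : c ∈ (On P : Submodule F (LC F V))) : pj h j c ∈ (On P : Submodule F (LC F V)) :=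
  map_mem_of hc _ _ fun t ht => by
    rw [pj_single]
    split_ifs
    · exact single_mem_On ht 1
    · exact Submodule.zero_mem _

theorem psh_pj {r : V → V} {h : V → ZMod q} (hh : ∀ v, h (r v) = h v + 1) (j : ZMod q) {n : ℕ}
    {c : LC F V} (hc : c ∈ (On (Ln (n + 1)) : Submodule F (LC F V))) :
    psh r (pj h j c) = pj h (j + 1) (psh r c) := by
  refine map_eq_of hc (psh r ∘ₗ pj h j : LC F V →ₗ[F] LC F V) (pj h (j + 1) ∘ₗ psh r)
    fun t ht => ?_
  simp only [LinearMap.comp_apply, pj_single, psh_single]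
  cases t with
  | nil => simp [Ln] at ht
  | cons x t =>
    have e : (hdp h ((x :: t).map r) = j + 1) ↔ hdp h (x :: t) = j := by
      simp only [List.map_cons, hdp, hh]
      exact add_left_inj 1
    by_cases h1 : hdp h (x :: t) = j
    · rw [if_pos h1, if_pos (e.2 h1), psh_single]
    · rw [if_neg h1, if_neg (fun h2 => h1 (e.1 h2)), map_zero]

theorem pow_pj {r : V → V} {h : V → ZMod q} (hh : ∀ v, h (r v) = h v + 1) (i : ℕ) (j : ZMod q)
    {n : ℕ} {c : LC F V} (hc : c ∈ (On (Ln (n + 1)) : Submodule F (LC F V))) :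
    ((psh r : LC F V →ₗ[F] LC F V) ^ i) (pj h j c) =
      pj h (j + i) (((psh r : LC F V →ₗ[F] LC F V) ^ i) c) := by
  induction i with
  | zero => simp
  | succ i ih =>
    rw [pow_succ', Module.End.mul_apply, Module.End.mul_apply, ih,
      psh_pj hh _ (pow_mem_Ln r i hc), Nat.cast_succ, add_assoc]

theorem sum_range_zmod {M : Type*} [AddCommMonoid M] (f : ZMod q → M) :
    ∑ i ∈ Finset.range q, f (i : ZMod q) = ∑ j, f j := by
  refine Finset.sum_nbij' (fun i => (i : ZMod q)) (fun j => j.val) ?_ ?_ ?_ ?_ ?_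
  · intro i _; exact Finset.mem_univ _
  · intro j _; exact Finset.mem_range.2 (ZMod.val_lt j)
  · intro i hi; exact ZMod.val_cast_of_lt (Finset.mem_range.1 hi)
  · intro j _; exact ZMod.natCast_zmod_val j
  · intro i _; rfl

theorem exact_tau {r : V → V} {h : V → ZMod q} (hh : ∀ v, h (r v) = h v + 1)
    {n : ℕ} {x : LC F V} (hx : x ∈ (On (Ln (n + 1)) : Submodule F (LC F V)))
    (h0 : tau r x = 0) : ∃ y ∈ (On (Ln (n + 1)) : Submodule F (LC F V)), x = sig q r y := by
  have h1 : psh r x = x := by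
    have : x - psh r x = 0 := h0
    exact (sub_eq_zero.1 this).symm
  have h2 : ∀ i : ℕ, ((psh r : LC F V →ₗ[F] LC F V) ^ i) x = x := by
    intro i
    induction i with
    | zero => simp
    | succ i ih => rw [pow_succ, Module.End.mul_apply, h1, ih]
  refine ⟨pj h 0 x, pj_mem_On h 0 hx, ?_⟩
  rw [sig, LinearMap.sum_apply]
  have h3 : ∀ i : ℕ, ((psh r : LC F V →ₗ[F] LC F V) ^ i) (pj h 0 x) = pj h (i : ZMod q) x := by
    intro i
    rw [pow_pj hh i 0 hx, h2, zero_add]
  simp only [h3]
  rw [sum_range_zmod (fun j => pj h j x), sum_pj]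

theorem exact_sig {r : V → V} {h : V → ZMod q} (hh : ∀ v, h (r v) = h v + 1) (hr : r^[q] = id)
    {n : ℕ} {x : LC F V} (hx : x ∈ (On (Ln (n + 1)) : Submodule F (LC F V)))
    (h0 : sig q r x = 0) : ∃ y ∈ (On (Ln (n + 1)) : Submodule F (LC F V)), x = tau r y := by
  classical
  let R : LC F V →ₗ[F] LC F V := psh r
  let a : ZMod q → ℕ := fun j => q - j.val
  let w : LC F V := ∑ j, (R ^ a j) (pj h j x)
  let y : LC F V := ∑ j, ∑ i ∈ Finset.range (a j), (R ^ i) (pj h j x)
  have hy : y ∈ (On (Ln (n + 1)) : Submodule F (LC F V)) :=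
    Submodule.sum_mem _ fun j _ => Submodule.sum_mem _ fun i _ => pow_mem_Ln r i (pj_mem_On h j hx)
  have hw : w ∈ (On (Ln (n + 1)) : Submodule F (LC F V)) :=
    Submodule.sum_mem _ fun j _ => pow_mem_Ln r _ (pj_mem_On h j hx)
  have hxy : x - w = tau r y := by
    have e1 : ∀ (m : ℕ) (c : LC F V), tau r (∑ i ∈ Finset.range m, (R ^ i) c) = c - (R ^ m) c := by
      intro m c
      have h := mul_neg_geom_sum (psh r : Module.End F (LC F V)) m
      have h' := LinearMap.congr_fun h c
      rw [Module.End.mul_apply, LinearMap.sum_apply] at h'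
      exact h'
    have e2 : tau r y = ∑ j, (pj h j x - (R ^ a j) (pj h j x)) := by
      simp only [y, map_sum (tau r) (fun j => ∑ i ∈ Finset.range (a j), (R ^ i) (pj h j x))]
      exact Finset.sum_congr rfl fun j _ => e1 _ _
    rw [e2, Finset.sum_sub_distrib, sum_pj]
  have hph : ∀ j, (R ^ a j) (pj h j x) = pj h 0 ((R ^ a j) x) := by
    intro j
    have := pow_pj (F := F) hh (a j) j hx
    rw [show j + ((a j : ℕ) : ZMod q) = 0 from ?_] at this
    · exact this
    · simp only [a]
      rw [Nat.cast_sub (ZMod.val_lt j).le, ZMod.natCast_self, ZMod.natCast_zmod_val]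
      ring
  have hw0 : pj h 0 w = w := by
    simp only [w, map_sum]
    refine Finset.sum_congr rfl fun j _ => ?_
    rw [hph, pj_pj_self]
  have hsw : sig q r w = 0 := by
    have e : w = x - tau r y := by rw [← hxy]; abel
    rw [e, map_sub, h0, zero_sub, neg_eq_zero]
    exact LinearMap.congr_fun (sig_mul_tau hr) y
  have hw1 : w = 0 := by
    have e1 : pj h 0 (sig q r w) = w := by
      rw [sig, LinearMap.sum_apply, map_sum]
      have e2 : ∀ i ∈ Finset.range q, i ≠ 0 →
          pj h 0 (((psh r : LC F V →ₗ[F] LC F V) ^ i) w) = 0 := by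
        intro i hi hi0
        rw [← hw0, pow_pj hh i 0 hw, zero_add]
        refine pj_pj_ne h ?_ _
        intro h'
        have := congrArg ZMod.val h'
        rw [ZMod.val_zero, ZMod.val_cast_of_lt (Finset.mem_range.1 hi)] at this
        exact hi0 this.symm
      rw [Finset.sum_eq_single 0 e2 (fun h' => absurd (Finset.mem_range.2 (NeZero.pos q)) h')]
      rw [pow_zero, Module.End.one_apply, hw0]
    rw [hsw, map_zero] at e1
    exact e1.symm
  refine ⟨y, hy, ?_⟩
  rw [← hxy, hw1, sub_zero]

theorem exact_rho {r : V → V} {h : V → ZMod q} (hh : ∀ v, h (r v) = h v + 1) (hr : r^[q] = id)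
    (k : ℕ) {n : ℕ} {x : LC F V} (hx : x ∈ (On (Ln (n + 1)) : Submodule F (LC F V)))
    (h0 : rho q r (k + 1) x = 0) :
    ∃ y ∈ (On (Ln (n + 1)) : Submodule F (LC F V)), x = rho q r k y := by
  unfold rho at *
  by_cases hk : Even k
  · rw [if_neg (Nat.not_even_iff_odd.2 hk.add_one)] at h0
    simp only [if_pos hk]
    exact exact_tau hh hx h0
  · rw [if_pos (Nat.not_even_iff_odd.1 hk).add_one] at h0
    simp only [if_neg hk]
    exact exact_sig hh hr hx h0

/-- There is no short equivariant system of chains. -/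
theorem no_seq [CharP F q] [Nontrivial F] {r : V → V} {h : V → ZMod q}
    (hh : ∀ v, h (r v) = h v + 1) (hr : r^[q] = id) (m : ℕ) (d : ℕ → LC F V)
    (hlen : ∀ k, k ≤ m → d k ∈ (On (Ln (k + 1)) : Submodule F (LC F V)))
    (h0 : bdy (d 0) = single [] 1)
    (hstep : ∀ k, k < m → bdy (d (k + 1)) = rho q r (k + 1) (d k)) (hm : d m = 0) : False := by
  have claim : ∀ j, j ≤ m → ∃ b b' : LC F V,
      b' ∈ (On (Ln (m - j + 1)) : Submodule F (LC F V)) ∧
      d (m - j) = bdy b + rho q r (m - j) b' := by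
    intro j
    induction j with
    | zero =>
      intro _
      refine ⟨0, 0, Submodule.zero_mem _, ?_⟩
      rw [Nat.sub_zero, hm, map_zero, map_zero, add_zero]
    | succ j ih =>
      intro hj
      obtain ⟨b, b', hb', hd⟩ := ih (by omega)
      obtain ⟨k, hk⟩ : ∃ k, k = m - (j + 1) := ⟨_, rfl⟩
      have hk1 : m - j = k + 1 := by omega
      rw [hk1] at hb' hd
      rw [← hk]
      have e1 := hstep k (by omega)
      rw [hd, map_add, bdy_bdy, zero_add, bdy_rho] at e1
      have e2 : rho q r (k + 1) (d k - bdy b') = 0 := by rw [map_sub, e1, sub_self]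
      obtain ⟨y, hy, hy'⟩ := exact_rho hh hr k
        (Submodule.sub_mem _ (hlen k (by omega)) (bdy_mem_Ln hb')) e2
      exact ⟨b', y, hy, by rw [← hy']; abel⟩
  obtain ⟨b, b', hb', hd⟩ := claim m le_rfl
  rw [Nat.sub_self] at hb' hd
  have e1 := congrArg bdy hd
  rw [h0, map_add, bdy_bdy, zero_add, bdy_rho] at e1
  obtain ⟨a, ha⟩ := On_zero_eq (bdy_mem_Ln hb')
  have e2 : ∀ i : ℕ, ((psh r : LC F V →ₗ[F] LC F V) ^ i) (single [] a) = single [] a := by
    intro i
    rw [psh_pow]; simp
  have e3 : rho q r 0 (single [] a : LC F V) = 0 := by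
    unfold rho
    rw [if_pos (Even.zero), sig, LinearMap.sum_apply]
    simp only [e2]
    rw [Finset.sum_const, Finset.card_range, ← Nat.cast_smul_eq_nsmul F, CharP.cast_eq_zero,
      zero_smul]
  rw [ha, e3] at e1
  have := congrArg (fun c : LC F V => c []) e1
  simp at this

end Vale.Agent.P239.TF
end

section

/-! Deck groups of contractible spaces over compact spaces are torsion free. -/

namespace Vale.Agent.P239.TF

open scoped Topology unitInterval Pointwise
open Set Filter Finsupp
open Vale.Agent.P239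

section Fill

variable {F : Type*} [CommRing F] {X : Type*} [TopologicalSpace X]

theorem exists_local {H : I × X → X} (hH : Continuous H) {U : X → Set X} (hU : ∀ x, U x ∈ 𝓝 x)
    (x : X) : ∃ V ∈ 𝓝 x, ∃ N₀ : ℕ, ∀ N, N₀ ≤ N → ∀ j, ∃ y, ∀ z ∈ V,
      H (gpt N j, z) ∈ U y ∧ H (gpt N (j + 1), z) ∈ U y := by
  classical
  have h1 : ∀ t : I, ∃ A : Set I, ∃ B : Set X, IsOpen A ∧ t ∈ A ∧ B ∈ 𝓝 x ∧
      ∀ s ∈ A, ∀ z ∈ B, H (s, z) ∈ U (H (t, x)) := by
    intro t
    have h2 : H ⁻¹' (U (H (t, x))) ∈ 𝓝 (t, x) := hH.continuousAt (hU _)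
    obtain ⟨A, B, hA, htA, hB, hxB, hAB⟩ := mem_nhds_prod_iff'.1 h2
    exact ⟨A, B, hA, htA, hB.mem_nhds hxB, fun s hs z hz => hAB ⟨hs, hz⟩⟩
  choose A B hA htA hB hAB using h1
  obtain ⟨s, hs⟩ := isCompact_univ.elim_finite_subcover A hA
    (fun t _ => mem_iUnion.2 ⟨t, htA t⟩)
  obtain ⟨δ, hδ, hball⟩ := lebesgue_number_lemma_of_metric (isCompact_univ (X := I))
    (c := fun t : s => A t) (fun t => hA t) (by
      intro t ht
      obtain ⟨i, hi, hti⟩ := mem_iUnion₂.1 (hs ht)
      exact mem_iUnion.2 ⟨⟨i, hi⟩, hti⟩)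
  have hev : ∀ᶠ N : ℕ in atTop, (1 : ℝ) / N < δ :=
    (tendsto_order.1 tendsto_one_div_atTop_nhds_zero_nat).2 δ hδ
  obtain ⟨N₀, hN₀⟩ := eventually_atTop.1 hev
  refine ⟨⋂ t ∈ s, B t, (biInter_finset_mem s).2 fun t _ => hB t, N₀, fun N hN j => ?_⟩
  obtain ⟨i, hi⟩ := hball (gpt N j) (mem_univ _)
  refine ⟨H (i, x), fun z hz => ?_⟩
  have hzB : z ∈ B i := mem_iInter₂.1 hz i i.2
  refine ⟨hAB _ _ (hi (Metric.mem_ball_self hδ)) z hzB, hAB _ _ (hi ?_) z hzB⟩
  exact (dist_gpt N j).trans_lt (hN₀ N hN)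

theorem exists_fill {H : I × X → X} (hH : Continuous H) (hH0 : ∀ x, H (0, x) = x) {y₀ : X}
    (hH1 : ∀ x, H (1, x) = y₀) {U : X → Set X} (hU : ∀ x, U x ∈ 𝓝 x) :
    ∃ V : X → Set X, (∀ x, V x ∈ 𝓝 x) ∧ ∀ (n : ℕ) (z : LC F X),
      z ∈ (On (Sm V n) : Submodule F (LC F X)) → bdy z = 0 →
      ∃ w ∈ (On (Sm U (n + 1)) : Submodule F (LC F X)), bdy w = z := by
  classical
  choose V hV N hN using exists_local hH hU
  refine ⟨V, hV, fun n z hz hbz => ?_⟩
  obtain ⟨N₁, hN₁⟩ : ∃ N₁ : ℕ, z ∈ (On (fun t => t.length = n ∧ ∃ x, N x ≤ N₁ ∧ ∀ y ∈ t, y ∈ V x) :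
      Submodule F (LC F X)) := by
    refine ⟨z.support.sup fun t => if h : z t ≠ 0 then N (hz t h).2.choose else 0, fun t ht => ?_⟩
    refine ⟨(hz t ht).1, (hz t ht).2.choose, ?_, (hz t ht).2.choose_spec⟩
    have := Finset.le_sup (f := fun t => if h : z t ≠ 0 then N (hz t h).2.choose else 0)
      (Finsupp.mem_support_iff.2 ht)
    simp only [dif_pos ht] at this
    exact this
  set n₁ := N₁ + 1 with hn₁
  let h : ℕ → X → X := fun j x => H (gpt n₁ j, x)
  have hsum : ∑ j ∈ Finset.range n₁, bdy (pr (h j) (h (j + 1)) z) =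
      psh (fun _ => y₀) z - z := by
    have e1 : ∀ j, bdy (pr (h j) (h (j + 1)) z) = psh (h (j + 1)) z - psh (h j) z := by
      intro j
      have := bdy_pr (h j) (h (j + 1)) z
      rwa [hbz, map_zero, add_zero] at this
    simp only [e1]
    rw [Finset.sum_range_sub (fun j => psh (h j) z)]
    have e2 : h n₁ = fun _ => y₀ := by
      funext x
      simp only [h]
      rw [gpt_self (by omega), hH1]
    have e3 : h 0 = fun x => x := by
      funext x
      simp only [h]
      rw [gpt_zero, hH0]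
    rw [e2, e3, psh_id]
  refine ⟨lcons y₀ (psh (fun _ => y₀) z) - ∑ j ∈ Finset.range n₁, pr (h j) (h (j + 1)) z,
    Submodule.sub_mem _ ?_ (Submodule.sum_mem _ fun j _ => ?_), ?_⟩
  · refine lcons_mem_On (P := fun t => t.length = n ∧ ∀ y ∈ t, y = y₀) ?_
      (psh_mem_On (fun t ht => ?_) hN₁)
    · rintro t ⟨h1, h2⟩
      refine ⟨by simp [h1], y₀, fun x hx => ?_⟩
      rcases List.mem_cons.1 hx with rfl | hx
      · exact mem_of_mem_nhds (hU _)
      · rw [h2 x hx]; exact mem_of_mem_nhds (hU _)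
    · refine ⟨by rw [List.length_map]; exact ht.1, fun y hy => ?_⟩
      obtain ⟨_, _, rfl⟩ := List.mem_map.1 hy
      rfl
  · refine map_mem_of hN₁ _ _ fun t ht => ?_
    obtain ⟨h1, x, hx, h2⟩ := ht
    obtain ⟨y, hy⟩ := hN x n₁ (by omega) j
    rw [pr_single, one_smul]
    exact On_mono (fun s hs => ⟨hs.1, y, hs.2⟩)
      (prl_mem (h j) (h (j + 1)) (fun z hz => (hy z hz).1) (fun z hz => (hy z hz).2) t n ⟨h1, h2⟩)
  · rw [map_sub, map_sum, hsum, bdy_lcons, bdy_psh, hbz, map_zero, map_zero]
    abel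

/-- Equivariant systems of small chains. -/
theorem exists_seq {H : I × X → X} (hH : Continuous H) (hH0 : ∀ x, H (0, x) = x) {y₀ : X}
    (hH1 : ∀ x, H (1, x) = y₀) {r : X → X} (hr : Continuous r) {q : ℕ} (hrq : r^[q] = id)
    (x₀ : X) (k : ℕ) : ∀ U : X → Set X, (∀ x, U x ∈ 𝓝 x) → ∃ c : ℕ → LC F X,
      (∀ i, i ≤ k → c i ∈ (On (Sm U (i + 1)) : Submodule F (LC F X))) ∧
      bdy (c 0) = single [] 1 ∧ ∀ i, i < k → bdy (c (i + 1)) = rho q r (i + 1) (c i) := by
  classical
  induction k with
  | zero =>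
    intro U hU
    refine ⟨fun _ => single [x₀] 1, fun i hi => ?_, ?_, fun i hi => absurd hi (by omega)⟩
    · obtain rfl : i = 0 := by omega
      refine single_mem_On ⟨rfl, x₀, fun x hx => ?_⟩ 1
      rw [List.mem_singleton] at hx
      rw [hx]; exact mem_of_mem_nhds (hU _)
    · rw [bdy_single, one_smul, bl, bl, map_zero, sub_zero]
  | succ k ih =>
    intro U hU
    obtain ⟨V, hV, hfill⟩ := exists_fill (F := F) hH hH0 hH1 hU
    let V' : X → Set X := fun x => U x ∩ ⋂ j ∈ Finset.range (q + 2), (r^[j]) ⁻¹' (V (r^[j] x))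
    have hV' : ∀ x, V' x ∈ 𝓝 x := fun x => inter_mem (hU x)
      ((biInter_finset_mem _).2 fun j _ => (hr.iterate j).continuousAt (hV _))
    obtain ⟨c, hc, hc0, hcs⟩ := ih V' hV'
    have hz1 : rho q r (k + 1) (c k) ∈ (On (Sm V (k + 1)) : Submodule F (LC F X)) := by
      have hj : ∀ j, j < q + 2 → psh (r^[j]) (c k) ∈ (On (Sm V (k + 1)) : Submodule F (LC F X)) := by
        intro j hj
        refine psh_mem_On ?_ (hc k le_rfl)
        rintro t ⟨h1, x, hx⟩
        refine ⟨by rw [List.length_map]; exact h1, r^[j] x, fun y hy => ?_⟩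
        obtain ⟨z, hz, rfl⟩ := List.mem_map.1 hy
        exact mem_iInter₂.1 (hx z hz).2 j (Finset.mem_range.2 hj)
      unfold rho
      split_ifs
      · rw [sig, LinearMap.sum_apply]
        refine Submodule.sum_mem _ fun j hj' => ?_
        rw [psh_pow]
        exact hj j (by have := Finset.mem_range.1 hj'; omega)
      · have e0 := hj 0 (by omega)
        have e1 := hj 1 (by omega)
        rw [Function.iterate_zero] at e0
        rw [Function.iterate_one] at e1
        have e2 : psh id (c k) = c k := psh_id (c k)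
        rw [e2] at e0
        exact Submodule.sub_mem _ e0 e1
    have hz2 : bdy (rho q r (k + 1) (c k)) = 0 := by
      rw [bdy_rho]
      cases k with
      | zero =>
        rw [hc0]
        unfold rho
        rw [if_neg (by decide), tau, LinearMap.sub_apply, LinearMap.id_apply, psh_single,
          List.map_nil, sub_self]
      | succ k => rw [hcs k (by omega), rho_rho hrq]
    obtain ⟨w, hw, hbw⟩ := hfill (k + 1) _ hz1 hz2
    refine ⟨Function.update c (k + 1) w, fun i hi => ?_, ?_, fun i hi => ?_⟩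
    · rcases Nat.lt_or_eq_of_le hi with hi | rfl
      · rw [Function.update_of_ne (by omega)]
        refine On_mono ?_ (hc i (by omega))
        rintro t ⟨h1, x, hx⟩
        exact ⟨h1, x, fun y hy => (hx y hy).1⟩
      · rw [Function.update_self]; exact hw
    · rw [Function.update_of_ne (by omega)]; exact hc0
    · rcases Nat.lt_or_eq_of_le (Nat.le_of_lt_succ hi) with hi | rfl
      · rw [Function.update_of_ne (by omega), Function.update_of_ne (by omega)]
        exact hcs i hi
      · rw [Function.update_self, Function.update_of_ne (by omega)]; exact hbw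

end Fill

section Label

variable {X Γ M : Type*} [TopologicalSpace X] [Group Γ] [MulAction Γ X] [TopologicalSpace M]

/-- phases on a group -/
theorem exists_phase (g : Γ) {q : ℕ} (hg : orderOf g = q) :
    ∃ φ : Γ → ZMod q, ∀ x, φ (g * x) = φ x + 1 := by
  classical
  let s : Setoid Γ := QuotientGroup.rightRel (Subgroup.zpowers g)
  have h1 : ∀ x : Γ, ∃ j : ℤ, x = g ^ j * (Quotient.out (Quotient.mk s x)) := by
    intro x
    have h2 : s.r (Quotient.out (Quotient.mk s x)) x := Quotient.mk_out x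
    have h3 := QuotientGroup.rightRel_apply.1 h2
    obtain ⟨j, hj⟩ := h3
    refine ⟨j, ?_⟩
    have : g ^ j = x * (Quotient.out (Quotient.mk s x))⁻¹ := hj
    rw [this, inv_mul_cancel_right]
  choose j hj using h1
  refine ⟨fun x => (j x : ZMod q), fun x => ?_⟩
  have h2 : (Quotient.mk s (g * x)) = Quotient.mk s x := by
    refine Quotient.sound ?_
    refine QuotientGroup.rightRel_apply.2 ?_
    rw [mul_inv_rev, ← mul_assoc, mul_inv_cancel, one_mul]
    exact Subgroup.inv_mem _ (Subgroup.mem_zpowers g)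
  have h3 : g ^ (j (g * x)) = g ^ (j x + 1) := by
    have e1 := hj (g * x)
    rw [h2] at e1
    have e2 := hj x
    have e3 : g ^ (j (g * x)) = g * x * (Quotient.out (Quotient.mk s x))⁻¹ :=
      eq_mul_inv_of_mul_eq e1.symm
    have e4 : g ^ (j x) = x * (Quotient.out (Quotient.mk s x))⁻¹ :=
      eq_mul_inv_of_mul_eq e2.symm
    rw [e3, add_comm, zpow_add, zpow_one, e4, mul_assoc]
  have h4 := (zpow_eq_zpow_iff_modEq).1 h3
  rw [hg] at h4
  have h5 := (ZMod.intCast_eq_intCast_iff _ _ _).2 h4
  change (j (g * x) : ZMod q) = (j x : ZMod q) + 1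
  rw [h5]; push_cast; rfl

theorem exists_label [CompactSpace M] [T2Space M] [LocallyCompactSpace X] {p : X → M}
    (hp : IsQuotientCoveringMap p Γ) {g : Γ} {q : ℕ} (hg : orderOf g = q) :
    ∃ (m : ℕ) (lab : X → Fin m × ZMod q), (∀ x, lab (g • x) = ((lab x).1, (lab x).2 + 1)) ∧
      ∀ x, ∃ U ∈ 𝓝 x, ∀ y ∈ U, ∀ z ∈ U, (lab y).1 = (lab z).1 → lab y = lab z := by
  classical
  have hcs : ContinuousConstSMul Γ X := hp.toContinuousConstSMul
  have hopen : IsOpenMap p := hp.isCoveringMap.isOpenMap
  have hpg : ∀ (γ : Γ) (x : X), p (γ • x) = p x := fun γ x =>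
    hp.apply_eq_iff_mem_orbit.2 ⟨γ, rfl⟩
  -- small open sets and compact sets inside
  have h1 : ∀ x : X, ∃ W : Set X, IsOpen W ∧ x ∈ W ∧
      ∀ γ : Γ, ∀ y ∈ W, γ • y ∈ W → γ = 1 := by
    intro x
    obtain ⟨U, hU, hU'⟩ := hp.disjoint x
    refine ⟨interior U, isOpen_interior, mem_interior_iff_mem_nhds.2 hU, fun γ y hy hγy => ?_⟩
    exact hU' γ ⟨γ • y, ⟨y, interior_subset hy, rfl⟩, interior_subset hγy⟩
  choose W hW hxW hWd using h1
  have h2 : ∀ x : X, ∃ K : Set X, IsCompact K ∧ x ∈ interior K ∧ K ⊆ W x := fun x =>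
    exists_compact_subset (hW x) (hxW x)
  choose K hK hxK hKW using h2
  obtain ⟨t, ht⟩ := isCompact_univ.elim_finite_subcover (fun x => p '' interior (K x))
    (fun x => hopen _ isOpen_interior) (by
      intro m _
      obtain ⟨x, rfl⟩ := hp.surjective m
      exact mem_iUnion.2 ⟨x, x, hxK x, rfl⟩)
  let e := t.equivFin
  let c : Fin t.card → X := fun i => (e.symm i : X)
  have h3 : ∀ μ : M, ∃ i : Fin t.card, μ ∈ p '' K (c i) := by
    intro μ
    obtain ⟨x, hx, hμ⟩ := mem_iUnion₂.1 (ht (mem_univ μ))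
    refine ⟨e ⟨x, hx⟩, ?_⟩
    simp only [c, Equiv.symm_apply_apply]
    exact image_mono interior_subset hμ
  choose idx hidx using h3
  have h4 : ∀ y : X, ∃ γ : Γ, γ⁻¹ • y ∈ K (c (idx (p y))) := by
    intro y
    obtain ⟨k, hk, hky⟩ := hidx (p y)
    obtain ⟨γ, hγ⟩ := hp.apply_eq_iff_mem_orbit.1 hky.symm
    refine ⟨γ, ?_⟩
    have h' : γ • k = y := hγ
    have h'' : γ⁻¹ • y = k := by rw [← h', inv_smul_smul]
    rw [h'']; exact hk
  choose γ hγ using h4
  have huniq : ∀ (i : Fin t.card) (y : X) (a b : Γ), a⁻¹ • y ∈ W (c i) → b⁻¹ • y ∈ W (c i) →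
      a = b := by
    intro i y a b ha hb
    have := hWd (c i) (b⁻¹ * a) (a⁻¹ • y) ha (by
      rw [smul_smul, mul_assoc, mul_inv_cancel, mul_one]; exact hb)
    rw [inv_mul_eq_one] at this
    exact this.symm
  obtain ⟨φ, hφ⟩ := exists_phase g hg
  refine ⟨t.card, fun y => (idx (p y), φ (γ y)), fun x => ?_, fun x => ?_⟩
  · have e1 : p (g • x) = p x := hpg g x
    have e2 : γ (g • x) = g * γ x := by
      refine huniq (idx (p x)) (g • x) _ _ ?_ ?_
      · have := hγ (g • x)
        rw [e1] at this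
        exact hKW _ this
      · rw [mul_inv_rev, smul_smul, inv_mul_cancel_right]
        exact hKW _ (hγ x)
    simp only [e1, e2, hφ]
  · -- local admissibility
    have hcont : Continuous p := hp.isCoveringMap.continuous
    have h5 : ∀ i : Fin t.card, ∃ U ∈ 𝓝 x, ∃ a : Γ, ∀ y ∈ U, idx (p y) = i → γ y = a := by
      intro i
      by_cases hi : p x ∈ p '' K (c i)
      · obtain ⟨k, hk, hkx⟩ := hi
        obtain ⟨a, ha⟩ := hp.apply_eq_iff_mem_orbit.1 hkx.symm
        have hax : a • k = x := ha
        refine ⟨(fun y => a⁻¹ • y) ⁻¹' (W (c i)), ?_, a, fun y hy hyi => ?_⟩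
        · refine (continuous_const_smul a⁻¹).continuousAt ((hW _).mem_nhds ?_)
          change a⁻¹ • x ∈ _
          rw [← hax, inv_smul_smul]; exact hKW _ hk
        · refine huniq i y _ _ ?_ hy
          have := hγ y
          rw [hyi] at this
          exact hKW _ this
      · have hcl : IsClosed (p '' K (c i)) := ((hK _).image hcont).isClosed
        refine ⟨p ⁻¹' (p '' K (c i))ᶜ, hcont.continuousAt (hcl.isOpen_compl.mem_nhds hi), 1,
          fun y hy hyi => ?_⟩
        exact absurd (hyi ▸ hidx (p y)) hy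
    choose U hU a ha using h5
    refine ⟨⋂ i, U i, iInter_mem.2 hU, fun y hy z hz hyz => ?_⟩
    have e1 := ha (idx (p y)) y (mem_iInter.1 hy _) rfl
    have hyz' : idx (p y) = idx (p z) := hyz
    have e2 := ha (idx (p y)) z (mem_iInter.1 hz _) hyz'.symm
    simp only [hyz', e1, e2]

end Label

section Main

variable {X Γ M : Type*} [TopologicalSpace X] [Group Γ] [MulAction Γ X] [TopologicalSpace M]

theorem no_prime_order [CompactSpace M] [T2Space M] [LocallyCompactSpace X] [ContractibleSpace X]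
    {p : X → M} (hp : IsQuotientCoveringMap p Γ) {g : Γ} {q : ℕ} [hq : Fact q.Prime]
    (hg : orderOf g = q) : False := by
  classical
  have hcs : ContinuousConstSMul Γ X := hp.toContinuousConstSMul
  obtain ⟨m, lab, hlab, hadm⟩ := exists_label hp hg
  choose U hU hUadm using hadm
  obtain ⟨y₀, ⟨Hm⟩⟩ := id_nullhomotopic X
  obtain ⟨x₀⟩ : Nonempty X := inferInstance
  have hrq : (fun x : X => g • x)^[q] = id := by
    rw [smul_iterate, ← hg, pow_orderOf_eq_one]
    funext x; simp
  obtain ⟨c, hc, hc0, hcs'⟩ := exists_seq (F := ZMod q) (H := Hm) Hm.continuous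
    (fun x => Hm.map_zero_left x) (fun x => Hm.map_one_left x) (continuous_const_smul g) hrq x₀ m
    U hU
  let r : Fin m × ZMod q → Fin m × ZMod q := Prod.map id (fun a => a + 1)
  have hr : r^[q] = id := by
    have e : (fun a : ZMod q => a + 1)^[q] = id := by
      funext a
      have : ∀ n : ℕ, (fun a : ZMod q => a + 1)^[n] a = a + n := by
        intro n
        induction n with
        | zero => simp
        | succ n ih => rw [Function.iterate_succ_apply', ih]; push_cast; ring
      rw [this, ZMod.natCast_self, add_zero]; rfl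
    simp only [r]
    rw [Prod.map_iterate, e, Function.iterate_id, Prod.map_id]
  let d : ℕ → LC (ZMod q) (Fin m × ZMod q) := fun k => TL (psh lab (c k))
  have hAdm : ∀ k, k ≤ m → psh lab (c k) ∈
      (On Adm : Submodule (ZMod q) (LC (ZMod q) (Fin m × ZMod q))) := by
    intro k hk
    refine psh_mem_On ?_ (hc k hk)
    rintro t ⟨-, x, hx⟩ a ha b hb hab
    obtain ⟨y, hy, rfl⟩ := List.mem_map.1 ha
    obtain ⟨z, hz, rfl⟩ := List.mem_map.1 hb
    exact hUadm x y (hx y hy) z (hx z hz) hab
  have hlen' : ∀ k, k ≤ m → psh lab (c k) ∈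
      (On (Ln (k + 1)) : Submodule (ZMod q) (LC (ZMod q) (Fin m × ZMod q))) := fun k hk =>
    psh_mem_Ln _ (On_mono (fun t ht => ht.1) (hc k hk))
  have hd : ∀ k, k ≤ m → d k ∈ (On (fun t => Srt t ∧ t.length = k + 1) :
      Submodule (ZMod q) (LC (ZMod q) (Fin m × ZMod q))) := fun k hk =>
    TL_mem (fun t ht => ht) (hlen' k hk)
  refine no_seq (q := q) (r := r) (h := fun v => v.2) (fun v => rfl) hr m d
    (fun k hk => On_mono (fun t ht => ht.2) (hd k hk)) ?_ (fun k hk => ?_) ?_
  · have e1 := bdy_TL (hAdm 0 (Nat.zero_le _))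
    rw [bdy_psh, hc0, psh_single, List.map_nil, TL_single, Tl, one_smul] at e1
    exact e1
  · have e1 := bdy_TL (hAdm (k + 1) hk)
    rw [bdy_psh, hcs' k hk] at e1
    have e2 : psh lab (rho q (fun x : X => g • x) (k + 1) (c k)) =
        rho q r (k + 1) (psh lab (c k)) := by
      refine map_rho (psh lab) (fun c => ?_) (k + 1) (c k)
      rw [psh_psh, psh_psh]
      have e0 : (fun x => lab (g • x)) = fun x => r (lab x) := by
        funext x
        rw [hlab]; rfl
      rw [e0]
    rw [e2] at e1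
    have e3 : TL (rho q r (k + 1) (psh lab (c k))) = rho q r (k + 1) (TL (psh lab (c k))) :=
      map_rho TL (fun c => (psh_TL _ c).symm) (k + 1) _
    rw [e3] at e1
    exact e1
  · have h1 := hd m le_rfl
    ext t
    rw [Finsupp.zero_apply]
    by_contra hne
    obtain ⟨h2, h3⟩ := h1 t hne
    have := h2.length_le
    rw [Fintype.card_fin] at this
    omega

/-- Torsion-freeness. -/
theorem torsion_free [CompactSpace M] [T2Space M] [LocallyCompactSpace X] [ContractibleSpace X]
    {p : X → M} (hp : IsQuotientCoveringMap p Γ) :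
    ∀ g : Γ, g ≠ 1 → ∀ n : ℕ, n ≠ 0 → g ^ n ≠ 1 := by
  intro g hg n hn hgn
  have h1 : orderOf g ≠ 1 := fun h => hg (orderOf_eq_one_iff.1 h)
  have h2 : orderOf g ≠ 0 := by
    rw [orderOf_ne_zero_iff]
    exact isOfFinOrder_iff_pow_eq_one.2 ⟨n, Nat.pos_of_ne_zero hn, hgn⟩
  obtain ⟨q, hq, hqd⟩ := Nat.exists_prime_and_dvd h1
  have : Fact q.Prime := ⟨hq⟩
  have h3 : orderOf (g ^ (orderOf g / q)) = q := orderOf_pow_orderOf_div h2 hqd
  exact no_prime_order hp h3

end Main

end Vale.Agent.P239.TF
end
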