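import Vale.Agent.P239.MathlibUsed

set_option linter.all false

section

/-!
Chains on lists (ordered, degenerate lists allowed, augmented by the empty list).
-/

namespace Vale.Agent.P239.M

section General

variable {k : Type*} [CommRing k] {X Y Z : Type*}

/-- Chains: finite formal combinations of lists. -/
abbrev Ch (k X : Type*) [CommRing k] := List X →₀ k

/-- Linear extension of a function on lists. -/
noncomputable abbrev ext {M : Type*} [AddCommGroup M] [Module k M] (u : List X → M) :
    Ch k X →ₗ[k] M := Finsupp.linearCombination k u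

/-- Cone with apex `x`. -/
noncomputable def cone (x : X) : Ch k X →ₗ[k] Ch k X := Finsupp.lmapDomain k k (List.cons x)

/-- Boundary of a list. -/
noncomputable def bdL (k : Type*) [CommRing k] : List X → Ch k X
  | [] => 0
  | x :: l => Finsupp.single l 1 - cone x (bdL k l)

/-- Boundary. -/
noncomputable def bd : Ch k X →ₗ[k] Ch k X := ext (bdL k)

/-- Push-forward. -/
noncomputable def pf (f : X → Y) : Ch k X →ₗ[k] Ch k Y := Finsupp.lmapDomain k k (List.map f)

/-- Prism of a list. -/
noncomputable def prL (k : Type*) [CommRing k] (f g : X → Y) : List X → Ch k Y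
  | [] => 0
  | x :: l => Finsupp.single (f x :: g x :: l.map g) 1 - cone (f x) (prL k f g l)

/-- Prism operator. -/
noncomputable def pr (f g : X → Y) : Ch k X →ₗ[k] Ch k Y := ext (prL k f g)

/-- all lists of the chain satisfy `P` -/
def Sup (P : List X → Prop) (c : Ch k X) : Prop := ∀ l ∈ c.support, P l

theorem cone_single (x : X) (l : List X) (r : k) :
    cone x (Finsupp.single l r) = Finsupp.single (x :: l) r := by
  simp [cone, Finsupp.lmapDomain_apply]

theorem bd_single (l : List X) (r : k) : bd (Finsupp.single l r) = r • bdL k l := by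
  simp [bd, Finsupp.linearCombination_single]

theorem pf_single (f : X → Y) (l : List X) (r : k) :
    pf f (Finsupp.single l r) = Finsupp.single (l.map f) r := by
  simp [pf, Finsupp.lmapDomain_apply]

theorem pr_single (f g : X → Y) (l : List X) (r : k) :
    pr f g (Finsupp.single l r) = r • prL k f g l := by
  simp [pr, Finsupp.linearCombination_single]

theorem bd_cone (x : X) (c : Ch k X) : bd (cone x c) = c - cone x (bd c) := by
  induction c using Finsupp.induction_linear with
  | zero => simp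
  | add a b ha hb => rw [map_add, map_add, ha, hb, map_add, map_add]; abel
  | single l r =>
    rw [cone_single, bd_single, bdL, bd_single, smul_sub, map_smul, Finsupp.smul_single,
      smul_eq_mul, mul_one]

theorem bd_bdL (l : List X) : bd (bdL k l) = 0 := by
  induction l with
  | nil => simp only [bdL, map_zero]
  | cons x l ih =>
    rw [bdL, map_sub, bd_cone, bd_single, ih, one_smul, map_zero, sub_zero, sub_self]

theorem bd_bd (c : Ch k X) : bd (bd c) = 0 := by
  induction c using Finsupp.induction_linear with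
  | zero => simp
  | add a b ha hb => rw [map_add, map_add, ha, hb, add_zero]
  | single l r => rw [bd_single, map_smul, bd_bdL, smul_zero]

theorem pf_cone (f : X → Y) (x : X) (c : Ch k X) : pf f (cone x c) = cone (f x) (pf f c) := by
  induction c using Finsupp.induction_linear with
  | zero => simp only [map_zero]
  | add a b ha hb => rw [map_add, map_add, ha, hb, map_add, map_add]
  | single l r => rw [cone_single, pf_single, pf_single, cone_single, List.map_cons]

theorem pf_bdL (f : X → Y) (l : List X) : pf f (bdL k l) = bdL k (l.map f) := by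
  induction l with
  | nil => simp [bdL]
  | cons x l ih => rw [bdL, map_sub, pf_single, pf_cone, ih, List.map_cons, bdL]

theorem bd_pf (f : X → Y) (c : Ch k X) : bd (pf f c) = pf f (bd c) := by
  induction c using Finsupp.induction_linear with
  | zero => simp
  | add a b ha hb => rw [map_add, map_add, ha, hb, map_add, map_add]
  | single l r =>
    rw [pf_single, bd_single, bd_single, map_smul, pf_bdL]

theorem bd_prL (f g : X → Y) (l : List X) : bd (prL k f g l) + pr f g (bdL k l) =
    Finsupp.single (l.map g) 1 - Finsupp.single (l.map f) 1 := by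
  have hpc : ∀ (x : X) (c : Ch k X), pr f g (cone x c) =
      cone (f x) (cone (g x) (pf g c)) - cone (f x) (pr f g c) := by
    intro x c
    induction c using Finsupp.induction_linear with
    | zero => simp
    | add a b ha hb => simp only [map_add, ha, hb]; abel
    | single l r =>
      rw [cone_single, pr_single, prL, pf_single, cone_single, cone_single, pr_single, smul_sub,
        map_smul, Finsupp.smul_single, smul_eq_mul, mul_one]
  induction l with
  | nil => simp only [prL, map_zero, bdL, add_zero, List.map_nil, sub_self]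
  | cons x l ih =>
    have ih' : bd (prL k f g l) = Finsupp.single (l.map g) 1 - Finsupp.single (l.map f) 1 -
      pr f g (bdL k l) := by rw [← ih]; abel
    have e1 : bd (prL k f g (x :: l)) = bdL k (f x :: g x :: l.map g) - (prL k f g l -
        cone (f x) (Finsupp.single (l.map g) 1 - Finsupp.single (l.map f) 1 -
          pr f g (bdL k l))) := by
      rw [prL, map_sub, bd_cone, ih', bd_single, one_smul]
    have e2 : pr f g (bdL k (x :: l)) = prL k f g l - (cone (f x) (cone (g x) (bdL k (l.map g))) -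
        cone (f x) (pr f g (bdL k l))) := by
      rw [bdL, map_sub, hpc, pr_single, one_smul, pf_bdL]
    rw [e1, e2, bdL, bdL]
    simp only [map_sub, cone_single, List.map_cons]
    abel

theorem bd_pr (f g : X → Y) (c : Ch k X) : bd (pr f g c) + pr f g (bd c) = pf g c - pf f c := by
  induction c using Finsupp.induction_linear with
  | zero => simp
  | add a b ha hb =>
    have : bd (pr f g (a + b)) + pr f g (bd (a + b)) = (bd (pr f g a) + pr f g (bd a)) +
      (bd (pr f g b) + pr f g (bd b)) := by simp only [map_add]; abel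
    rw [this, ha, hb, map_add, map_add]; abel
  | single l r =>
    rw [pr_single, bd_single, map_smul, map_smul, ← smul_add, bd_prL, pf_single, pf_single,
      smul_sub, Finsupp.smul_single, Finsupp.smul_single, smul_eq_mul, mul_one]

end General

end Vale.Agent.P239.M
end

section

/-!
Module M (manifold side): definitions and statements.
-/

namespace Vale.Agent.P239.M

open Metric Set

/-! ### Coning homotopy -/

section Htp

variable {k : Type*} [CommRing k] {X : Type*}

/-- auxiliary -/
noncomputable def htpN (ξ : List X → X) (Φ : List X → Ch k X) : ℕ → List X → Ch k X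
  | 0, _ => 0
  | n + 1, l => cone (ξ l) (Finsupp.single l 1 - Φ l - ext (htpN ξ Φ n) (bdL k l))

/-- Homotopy between the identity and `Φ`, obtained by coning at `ξ l`. -/
noncomputable def htp (ξ : List X → X) (Φ : List X → Ch k X) (l : List X) : Ch k X :=
  htpN ξ Φ l.length l

end Htp

/-! ### The splitting operator, cap products, kernels (mod 2) -/

section Sp

variable {X A : Type*} [AddCommGroup A]

/-- `sp B (x₀ … x_m) = ∑ i, B (x₀ … x_i) (x_i … x_m)`. -/
def sp : (List X → List X → A) → List X → A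
  | _, [] => 0
  | B, x :: l => B [x] (x :: l) + sp (fun p s => B (x :: p) s) l

/-- cap product of a list with a cochain: `∑ θ (front) • back`. -/
noncomputable def capS (θ : List X → ZMod 2) (l : List X) : Ch (ZMod 2) X :=
  sp (fun p s => Finsupp.single s (θ p)) l

/-- the other cap product: `∑ ω (back) • front`. -/
noncomputable def capL (ω : List X → ZMod 2) (l : List X) : Ch (ZMod 2) X :=
  sp (fun p s => Finsupp.single p (ω s)) l

open Classical in
/-- comparison with respect to the coordinate `c` -/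
noncomputable def hh (c : X → ℝ) (x y : X) : ZMod 2 := if c x ≤ c y then 1 else 0

/-- The one dimensional kernel. -/
noncomputable def K1 (c : X → ℝ) : List X → List X → ZMod 2
  | [x], [y, y'] => hh c x y + hh c x y'
  | [x, x'], [y] => hh c x y + hh c x' y
  | _, _ => 0

/-- The kernel for a list of coordinates. -/
noncomputable def Ker : List (X → ℝ) → List X → List X → ZMod 2
  | [], a, b => if a.length = 1 ∧ b.length = 1 then 1 else 0
  | c :: cs, a, b => sp (fun p s => sp (fun p' s' => K1 c p p' * Ker cs s s') b) a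

end Sp

/-! ### The box chain -/

section Box

variable {n : ℕ}

/-- sweeping in the direction `i`, from `-9` to `9`, in `N` steps. -/
noncomputable def swp (N : ℕ) (i : Fin n) (c : Ch (ZMod 2) (Fin n → ℝ)) :
    Ch (ZMod 2) (Fin n → ℝ) :=
  ∑ a ∈ Finset.range N, pr (fun y => Function.update y i (-9 + 18 * (a : ℝ) / N))
    (fun y => Function.update y i (-9 + 18 * ((a : ℝ) + 1) / N)) c

/-- box chain in some directions -/
noncomputable def boxL (N : ℕ) : List (Fin n) → Ch (ZMod 2) (Fin n → ℝ)
  | [] => Finsupp.single [0] 1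
  | i :: is => swp N i (boxL N is)

/-- The fundamental chain of the cube `[-9,9]^n`. -/
noncomputable def box (n N : ℕ) : Ch (ZMod 2) (Fin n → ℝ) := boxL N (List.finRange n)

/-- coordinates of `ℝ^n` -/
def crd (n : ℕ) : List ((Fin n → ℝ) → ℝ) := (List.finRange n).map fun i y => y i

/-- cubes -/
abbrev Q (n : ℕ) (r : ℝ) : Set (Fin n → ℝ) := closedBall 0 r

end Box

/-! ### Metric notions -/

section Metric

variable {X : Type*} [MetricSpace X]

/-- the list is `ε`-small -/
def Sm (ε : ℝ) (l : List X) : Prop := ∀ x ∈ l, ∀ y ∈ l, dist x y < ε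

/-- all entries are in `A` -/
def In {X : Type*} (A : Set X) (l : List X) : Prop := ∀ x ∈ l, x ∈ A

/-- the list stays at distance `≥ r` from `A` -/
def Far (r : ℝ) (A : Set X) (l : List X) : Prop := ∀ x ∈ l, ∀ z ∈ A, r ≤ dist x z

/-- Filling of small cycles. -/
def FillS (k X : Type*) [CommRing k] [MetricSpace X] : Prop :=
  ∀ A : Set X, IsCompact A → ∃ A' : Set X, IsCompact A' ∧ A ⊆ A' ∧ ∀ ε > 0, ∃ κ > 0,
    ∀ (n : ℕ) (c : Ch k X), bd c = 0 → Sup (fun l => l.length = n ∧ Sm κ l ∧ In A l) c →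
      ∃ e : Ch k X, bd e = c ∧ Sup (fun l => l.length = n + 1 ∧ Sm ε l ∧ In A' l) e

variable {n : ℕ}

/-- coordinate functions of the chart `β` -/
noncomputable def co (β : (Fin n → ℝ) → X) (i : Fin n) (x : X) : ℝ := Function.invFun β x i

/-- kernel of the chart `β` -/
noncomputable def KerC (β : (Fin n → ℝ) → X) : List X → List X → ZMod 2 :=
  Ker ((List.finRange n).map (co β))

/-- fundamental chain of the chart `β` -/
noncomputable def muC (β : (Fin n → ℝ) → X) (N : ℕ) : Ch (ZMod 2) X := pf β (box n N)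

open Classical in
/-- local degree of an `n`-chain at `x`, first version -/
noncomputable def dg (β : (Fin n → ℝ) → X) (c : Ch (ZMod 2) X) (x : X) : ZMod 2 :=
  ext (fun l => if In (β '' Q n 8) l then KerC β l [x] else 0) c

open Classical in
/-- local degree of an `n`-chain at `x`, second version -/
noncomputable def dg' (β : (Fin n → ℝ) → X) (c : Ch (ZMod 2) X) (x : X) : ZMod 2 :=
  ext (fun l => if In (β '' Q n 8) l then KerC β [x] l else 0) c

/-- Local uniqueness of `n`-chains. -/
def LD1S (β : (Fin n → ℝ) → X) : Prop :=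
  ∀ κ' > 0, ∃ κ > 0, ∀ c : Ch (ZMod 2) X,
    Sup (fun l => l.length = n + 1 ∧ Sm κ l ∧ In (β '' Q n 6) l) c →
    ∀ (L : Set X) (r : ℝ), κ' ≤ r → Sup (Far r L) (bd c) →
    (∀ y, (∃ z ∈ L, dist y z < r) → dg β c y = 0) →
    ∃ e cm : Ch (ZMod 2) X, c = bd e + cm ∧
      Sup (fun l => l.length = n + 2 ∧ Sm κ' l ∧ In (β '' Q n 7) l ∧
        ∀ x ∈ l, ∃ l' ∈ c.support, ∃ x' ∈ l', dist x x' < κ') e ∧
      Sup (fun l => l.length = n + 1 ∧ Sm κ' l ∧ In (β '' Q n 7) l ∧ Far (r - κ') L l ∧
        ∀ x ∈ l, ∃ l' ∈ c.support, ∃ x' ∈ l', dist x x' < κ') cm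

/-- Invariance of the local degree. -/
def InvS (β β' : (Fin n → ℝ) → X) : Prop :=
  ∃ N₀ : ℕ, ∀ N ≥ N₀, ∀ x ∈ β '' Q n 2 ∩ β' '' Q n 2,
    dg β' (muC β N) x = 1 ∧ dg' β' (muC β N) x = 1

/-- Existence of fundamental chains for a finite atlas. -/
def FundS {m : ℕ} (β : Fin m → (Fin n → ℝ) → X) : Prop :=
  ∃ η > 0, ∀ δ > 0, ∃ μ : Ch (ZMod 2) X, Sup (fun l => l.length = n + 1 ∧ Sm δ l) μ ∧
    Sup (fun l => ∀ a, Far η (β a '' Q n 1) l) (bd μ) ∧
    ∀ a, ∀ x ∈ β a '' Q n 2, (∃ b, ∃ z ∈ β b '' Q n 1, dist x z < η) →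
      dg (β a) μ x = 1 ∧ dg' (β a) μ x = 1

/-- Local cohomology (compact supports) in degree `q`. -/
def LCS (β : (Fin n → ℝ) → X) (q : ℕ) : Prop :=
  ∀ ρ > 0, ∃ ρ₁ > 0, ∀ κ > 0, ∃ κ' > 0, ∀ x ∈ β '' Q n 3, ∀ φ : List X → ZMod 2,
    (∀ b, Sm κ b → b.length = q + 2 → ext φ (bdL (ZMod 2) b) = 0) →
    (∀ b, Sm κ b → b.length = q + 1 → φ b ≠ 0 → ∀ y ∈ b, dist x y < ρ₁) →
    (q = n → ∃ N₀ : ℕ, ∀ N ≥ N₀, ext φ (muC β N) = 0) →
    ∃ ψ : List X → ZMod 2,
      (∀ b, Sm κ' b → b.length = q → ψ b ≠ 0 → ∀ y ∈ b, dist x y < ρ) ∧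
      (∀ b, Sm κ' b → b.length = q + 1 → ext ψ (bdL (ZMod 2) b) = φ b)

/-- The duality package on the compact set `N`: a local chain map from small lists to compactly
supported cochains, and fundamental chains. -/
def PkgS (n : ℕ) (N : Set X) : Prop :=
  ∃ η > 0, ∀ J ≤ n, ∀ ρ > 0, ∃ κ₀ > 0, ∃ κ₁ > 0, ∃ Θ : List X → List X → ZMod 2,
    (∀ b, Θ [] b = 0) ∧ (∀ a, Θ a [] = 0) ∧
    (∀ a b, Θ a b ≠ 0 → a.length + b.length = n + 2) ∧
    (∀ a, In N a → Sm κ₀ a → a.length ≤ J + 1 → ∀ b, Sm κ₁ b → Θ a b ≠ 0 →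
      ∀ x ∈ a, ∀ y ∈ b, dist x y < ρ) ∧
    (∀ a, In N a → Sm κ₀ a → a.length ≤ J + 1 → ∀ b, Sm κ₁ b →
      ext (Θ a) (bdL (ZMod 2) b) = ext (fun a' => Θ a' b) (bdL (ZMod 2) a)) ∧
    (∀ δ > 0, ∃ μ : Ch (ZMod 2) X, Sup (fun l => l.length = n + 1 ∧ Sm δ l) μ ∧
      Sup (Far η N) (bd μ) ∧ ∀ x ∈ N, ext (Θ [x]) μ = 1)

/-- Relative cycles of dimension `i` near infinity. -/
def RelS (X : Type*) [MetricSpace X] (i : ℕ) : Prop :=
  ∀ K : Set X, IsCompact K → ∃ K' N N' : Set X, IsCompact K' ∧ IsCompact N ∧ IsCompact N' ∧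
    K ⊆ K' ∧ K' ⊆ interior N ∧ N ⊆ N' ∧ ∀ ε > 0, ∃ κ > 0, ∀ v : Ch (ZMod 2) X,
      Sup (fun l => l.length = i + 1 ∧ Sm κ l ∧ In N l) v → Sup (In K'ᶜ) (bd v) →
      ∃ e cm : Ch (ZMod 2) X, v = bd e + cm ∧
        Sup (fun l => l.length = i + 2 ∧ Sm ε l ∧ In N' l) e ∧
        Sup (fun l => l.length = i + 1 ∧ Sm ε l ∧ In N' l ∧ In Kᶜ l) cm

/-- Cycles of dimension `i - 1` far from a compact set bound far from it. -/
def PushS (X : Type*) [MetricSpace X] (i : ℕ) : Prop :=
  ∀ K : Set X, IsCompact K → ∃ K' : Set X, IsCompact K' ∧ ∀ A : Set X, IsCompact A →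
    ∃ A' : Set X, IsCompact A' ∧ ∀ ε > 0, ∃ κ > 0, ∀ z : Ch (ZMod 2) X, bd z = 0 →
      Sup (fun l => l.length = i ∧ Sm κ l ∧ In A l ∧ In K'ᶜ l) z →
      ∃ c : Ch (ZMod 2) X, bd c = z ∧
        Sup (fun l => l.length = i + 1 ∧ Sm ε l ∧ In A' l ∧ In Kᶜ l) c

end Metric

/-! ### Coarse statements -/

section Coarse

variable {Γ : Type*} [Group Γ]

/-- all differences are in `S` -/
def SmG (S : Finset Γ) (l : List Γ) : Prop := ∀ x ∈ l, ∀ y ∈ l, x⁻¹ * y ∈ S

/-- Coarse acyclicity: small cycles (lists of length `i`) bound. -/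
def CFillS (k Γ : Type*) [CommRing k] [Group Γ] (i : ℕ) : Prop :=
  ∀ S : Finset Γ, ∃ R : Finset Γ, S ⊆ R ∧ ∀ z : Ch k Γ, bd z = 0 →
    Sup (fun l => l.length = i ∧ SmG S l) z →
    ∃ c : Ch k Γ, bd c = z ∧ Sup (fun l => l.length = i + 1 ∧ SmG R l) c

/-- Coarse acyclicity at infinity. -/
def CPushS (Γ : Type*) [Group Γ] (i : ℕ) : Prop :=
  ∀ S : Finset Γ, ∃ R : Finset Γ, S ⊆ R ∧ ∀ F : Finset Γ, ∃ F' : Finset Γ,
    ∀ z : Ch (ZMod 2) Γ, bd z = 0 →
    Sup (fun l => l.length = i ∧ SmG S l ∧ In {x | x ∉ F'} l) z →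
    ∃ c : Ch (ZMod 2) Γ, bd c = z ∧ Sup (fun l => l.length = i + 1 ∧ SmG R l ∧
      In {x | x ∉ F} l) c

/-- A finitely supported chain map up to dimension `i - 1` from `Γ`-lists to small lists of `X`. -/
def PsiS (k Γ X : Type*) [CommRing k] [Group Γ] [MetricSpace X] [MulAction Γ X] (i : ℕ) : Prop :=
  ∀ S : Finset Γ, ∃ C : Set X, IsCompact C ∧ ∀ (W : Finset Γ), ∀ κ > 0,
    ∃ ψ : List Γ → Ch k X, ψ [] = Finsupp.single [] 1 ∧
      ∀ a : List Γ, SmG S a → (∀ g ∈ a, g ∈ W) → a.length ≤ i →
        bd (ψ a) = ext ψ (bdL k a) ∧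
        Sup (fun l => l.length = a.length ∧ Sm κ l ∧ ∀ x ∈ l, ∀ g ∈ a, ∃ y ∈ C, x = g • y) (ψ a)

/-- The action is cocompact and proper. -/
structure CoAct (Γ X : Type*) [Group Γ] [TopologicalSpace X] [MulAction Γ X] : Prop where
  cont : ∀ g : Γ, Continuous fun x : X => g • x
  free : ∀ (g : Γ) (x : X), g • x = x → g = 1
  cocomp : ∃ B : Set X, IsCompact B ∧ ∀ x : X, ∃ g : Γ, ∃ y ∈ B, x = g • y
  proper : ∀ C D : Set X, IsCompact C → IsCompact D →
    {g : Γ | ∃ y ∈ C, g • y ∈ D}.Finite

end Coarse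

end Vale.Agent.P239.M
end

section

/-!
Module M1: supports of chains (`Sup` calculus) and the coning homotopy `htp`
(statements as in `M_Skel`; proofs by helper211 and helper653).
-/

namespace Vale.Agent.P239.M

section M1

variable {k : Type*} [CommRing k] {X Y : Type*} {P Q : List X → Prop} {c d : Ch k X}

namespace SupA

variable {M M' : Type*} [AddCommGroup M] [Module k M] [AddCommGroup M'] [Module k M']

theorem ext_single (u : List X → M) (l : List X) (r : k) :
    ext u (Finsupp.single l r) = r • u l := Finsupp.linearCombination_single k r l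

theorem map_ext (φ : M →ₗ[k] M') (u : List X → M) (c : Ch k X) :
    φ (ext u c) = ext (fun l => φ (u l)) c := by
  simp only [ext, Finsupp.linearCombination_apply, Finsupp.sum, map_sum, map_smul]

theorem ext_add (u v : List X → M) (c : Ch k X) :
    ext (fun l => u l + v l) c = ext u c + ext v c := by
  simp only [ext, Finsupp.linearCombination_apply, smul_add, Finsupp.sum_add]

theorem ext_neg (u : List X → M) (c : Ch k X) : ext (fun l => -u l) c = -ext u c := by
  simp only [ext, Finsupp.linearCombination_apply, smul_neg, Finsupp.sum_neg]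

theorem ext_sub (u v : List X → M) (c : Ch k X) :
    ext (fun l => u l - v l) c = ext u c - ext v c := by
  simp only [sub_eq_add_neg, ext_add, ext_neg]

theorem ext_self (c : Ch k X) : ext (fun l => Finsupp.single l (1 : k)) c = c := by
  induction c using Finsupp.induction_linear with
  | zero => simp
  | add a b ha hb => rw [map_add, ha, hb]
  | single l r => rw [ext_single, Finsupp.smul_single, smul_eq_mul, mul_one]

/-- A linear map between chains is the extension of its values on lists. -/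
theorem eq_ext' (φ : Ch k X →ₗ[k] Ch k Y) (c : Ch k X) :
    φ c = ext (fun l => φ (Finsupp.single l 1)) c := by
  induction c using Finsupp.induction_linear with
  | zero => simp only [map_zero]
  | add a b ha hb => rw [map_add, map_add, ha, hb]
  | single l r => rw [ext_single, ← map_smul, Finsupp.smul_single, smul_eq_mul, mul_one]

theorem mem_support_ext {u : List Y → Ch k X} {c : Ch k Y} {l : List X}
    (hl : l ∈ (ext u c).support) : ∃ l' ∈ c.support, l ∈ (u l').support := by
  classical
  by_contra h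
  push Not at h
  refine Finsupp.mem_support_iff.1 hl ?_
  rw [ext, Finsupp.linearCombination_apply, Finsupp.sum, Finsupp.finsetSum_apply]
  refine Finset.sum_eq_zero fun l' hl' => ?_
  rw [Finsupp.smul_apply, Finsupp.notMem_support_iff.1 (h l' hl'), smul_zero]

end SupA

open SupA

theorem Sup.mono (h : ∀ l, P l → Q l) (hc : Sup P c) : Sup Q c := fun l hl => h l (hc l hl)

theorem Sup.zero : Sup P (0 : Ch k X) := by intro l hl; simp at hl

theorem Sup.add (hc : Sup P c) (hd : Sup P d) : Sup P (c + d) := by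
  classical
  intro l hl
  rcases Finset.mem_union.1 (Finsupp.support_add hl) with h | h
  exacts [hc l h, hd l h]

theorem Sup.sub (hc : Sup P c) (hd : Sup P d) : Sup P (c - d) := by
  classical
  intro l hl
  rcases Finset.mem_union.1 (Finsupp.support_sub hl) with h | h
  exacts [hc l h, hd l h]

theorem Sup.single {l : List X} (r : k) (h : P l) : Sup P (Finsupp.single l r : Ch k X) := by
  intro l' hl'
  rw [Finset.mem_singleton.1 (Finsupp.support_single_subset hl')]
  exact h

theorem Sup.ext {R : List Y → Prop} {u : List X → Ch k Y} (hc : Sup P c)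
    (hu : ∀ l, P l → Sup R (u l)) : Sup R (ext u c) := by
  intro l hl
  obtain ⟨l', hl', hl''⟩ := mem_support_ext hl
  exact hu l' (hc l' hl') l hl''

theorem Sup.cone (x : X) (hc : Sup (fun l => P (x :: l)) c) : Sup P (cone x c) := by
  rw [eq_ext' (M.cone x)]
  exact hc.ext fun l hl => by rw [cone_single]; exact Sup.single 1 hl

theorem Sup.pf {R : List Y → Prop} (f : X → Y) (hc : Sup (fun l => R (l.map f)) c) :
    Sup R (pf f c) := by
  rw [eq_ext' (M.pf f)]
  exact hc.ext fun l hl => by rw [pf_single]; exact Sup.single 1 hl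

theorem ext_congr {A : Type*} [AddCommGroup A] [Module k A] {u v : List X → A} (hc : Sup P c)
    (h : ∀ l, P l → u l = v l) : ext u c = ext v c := by
  rw [ext, Finsupp.linearCombination_apply, Finsupp.linearCombination_apply]
  exact Finset.sum_congr rfl fun l hl => by simp only [h l (hc l hl)]

theorem ext_bdL {A : Type*} [AddCommGroup A] [Module k A] (u : List X → A) (c : Ch k X) :
    ext u (bd c) = ext (fun l => ext u (bdL k l)) c := map_ext (ext u) (bdL k) c

/-- faces -/
theorem sup_bdL (l : List X) :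
    Sup (fun l' => l'.Sublist l ∧ l'.length + 1 = l.length) (bdL k l) := by
  induction l with
  | nil => exact Sup.zero
  | cons x l ih =>
    rw [bdL]
    refine (Sup.single 1 ⟨List.sublist_cons_self x l, rfl⟩).sub (Sup.cone x ?_)
    refine Sup.mono (fun l' hl' => ?_) ih
    exact ⟨hl'.1.cons_cons x, by simp [hl'.2]⟩

theorem Sup.bd (h : ∀ l l', l'.Sublist l → l'.length + 1 = l.length → P l → Q l') (hc : Sup P c) :
    Sup Q (bd c) :=
  hc.ext fun l hl => Sup.mono (fun l' hl' => h l l' hl'.1 hl'.2 hl) (sup_bdL l)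

/-- restriction and boundary -/
theorem mem_bd_filter [DecidablePred P] {l : List X} (hl : l ∈ (bd (c.filter P)).support) {x : X}
    (hx : x ∈ l) (h : ∀ l' ∈ c.support, x ∈ l' → P l') : l ∈ (bd c).support := by
  by_contra hn
  have h0 : bd (c.filter P) l + bd (c.filter fun l => ¬ P l) l = 0 := by
    rw [← Finsupp.add_apply, ← map_add, Finsupp.filter_add_filter_not]
    exact Finsupp.notMem_support_iff.1 hn
  have h1 : l ∈ (bd (c.filter fun l => ¬ P l)).support := by
    rw [Finsupp.mem_support_iff]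
    intro h2
    rw [h2, add_zero] at h0
    exact Finsupp.mem_support_iff.1 hl h0
  obtain ⟨l', h2, h3⟩ := mem_support_ext h1
  have h4 := sup_bdL (k := k) l' l h3
  rw [Finsupp.support_filter, Finset.mem_filter] at h2
  exact h2.2 (h l' h2.1 (h4.1.subset hx))

theorem htp_nil (ξ : List X → X) (Φ : List X → Ch k X) : htp ξ Φ [] = 0 := rfl

theorem htp_of_ne (ξ : List X → X) (Φ : List X → Ch k X) {l : List X} (hl : l ≠ []) :
    htp ξ Φ l = cone (ξ l) (Finsupp.single l 1 - Φ l - ext (htp ξ Φ) (bdL k l)) := by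
  obtain ⟨x, l, rfl⟩ := List.exists_cons_of_ne_nil hl
  rw [htp, List.length_cons, htpN]
  congr 2
  refine ext_congr (sup_bdL (x :: l)) fun l' hl' => ?_
  have : l'.length = l.length := by have := hl'.2; simpa using this
  rw [htp, this]

theorem bd_htp (ξ : List X → X) (Φ : List X → Ch k X)
    (hP : ∀ l l', l'.Sublist l → P l → P l') (h0 : Φ [] = Finsupp.single [] 1)
    (hΦ : ∀ l, P l → bd (Φ l) = ext Φ (bdL k l)) (l : List X) (hl : P l) :
    bd (htp ξ Φ l) + ext (htp ξ Φ) (bdL k l) = Finsupp.single l 1 - Φ l := by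
  suffices H : ∀ n : ℕ, ∀ l : List X, l.length = n → P l →
      bd (htp ξ Φ l) + ext (htp ξ Φ) (bdL k l) = Finsupp.single l 1 - Φ l from
    H _ l rfl hl
  clear hl l
  intro n
  induction n with
  | zero =>
    intro l hn hl
    obtain rfl := List.eq_nil_of_length_eq_zero hn
    rw [htp_nil, h0, bdL, map_zero, map_zero, add_zero, sub_self]
  | succ n ih =>
    intro l hn hl
    have hne : l ≠ [] := by rintro rfl; simp at hn
    have key : bd (Finsupp.single l 1 - Φ l - ext (htp ξ Φ) (bdL k l)) = 0 := by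
      have hf : Sup (fun l' => l'.length = n ∧ P l') (bdL k l) :=
        Sup.mono (fun l' hl' => ⟨by have := hl'.2; omega, hP l l' hl'.1 hl⟩) (sup_bdL l)
      have h1 : bd (ext (htp ξ Φ) (bdL k l)) = bdL k l - ext Φ (bdL k l) := by
        rw [map_ext]
        have h2 : ext (fun l' => bd (htp ξ Φ l')) (bdL k l) =
            ext (fun l' => Finsupp.single l' 1 - Φ l' - ext (htp ξ Φ) (bdL k l')) (bdL k l) :=
          ext_congr hf fun l' hl' => by rw [← ih l' hl'.1 hl'.2]; abel
        rw [h2, ext_sub, ext_sub, ext_self, ← ext_bdL, bd_bdL, map_zero, sub_zero]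
      rw [map_sub, map_sub, bd_single, one_smul, hΦ l hl, h1]
      abel
    rw [htp_of_ne ξ Φ hne, bd_cone, key, map_zero, sub_zero]
    abel

theorem bd_htp_ext (ξ : List X → X) (Φ : List X → Ch k X)
    (hP : ∀ l l', l'.Sublist l → P l → P l') (h0 : Φ [] = Finsupp.single [] 1)
    (hΦ : ∀ l, P l → bd (Φ l) = ext Φ (bdL k l)) (hc : Sup P c) :
    bd (ext (htp ξ Φ) c) + ext (htp ξ Φ) (bd c) = c - ext Φ c := by
  rw [map_ext, ext_bdL, ← ext_add, ext_congr hc fun l hl => bd_htp ξ Φ hP h0 hΦ l hl, ext_sub,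
    ext_self]

theorem sup_htp (ξ : List X → X) (Φ : List X → Ch k X) (R : List X → Set X)
    (hP : ∀ l l', l'.Sublist l → P l → P l') (hR : ∀ l l', l'.Sublist l → R l' ⊆ R l)
    (hl : ∀ l, P l → ∀ x ∈ l, x ∈ R l) (hξ : ∀ l, l ≠ [] → P l → ξ l ∈ R l)
    (hΦ : ∀ l, P l → Sup (fun l' => l'.length = l.length ∧ In (R l) l') (Φ l)) (l : List X)
    (h : P l) : Sup (fun l' => l'.length = l.length + 1 ∧ In (R l) l') (htp ξ Φ l) := by
  suffices H : ∀ n : ℕ, ∀ l : List X, l.length = n → P l →
      Sup (fun l' => l'.length = l.length + 1 ∧ In (R l) l') (htp ξ Φ l) from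
    H _ l rfl h
  clear h l
  intro n
  induction n with
  | zero =>
    intro l hn _
    obtain rfl := List.eq_nil_of_length_eq_zero hn
    rw [htp_nil]
    exact Sup.zero
  | succ n ih =>
    intro l hn hPl
    have hne : l ≠ [] := by rintro rfl; simp at hn
    rw [htp_of_ne ξ Φ hne]
    have h1 : Sup (fun l' => l'.length = l.length ∧ In (R l) l')
        (Finsupp.single l 1 - Φ l - ext (htp ξ Φ) (bdL k l)) := by
      refine ((Sup.single 1 ⟨rfl, hl l hPl⟩).sub (hΦ l hPl)).sub
        ((sup_bdL l).ext fun l' hl' => ?_)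
      have h2 : l'.length = n := by have := hl'.2; omega
      refine Sup.mono (fun l'' hl'' => ⟨by omega, fun x hx => ?_⟩) (ih l' h2 (hP l l' hl'.1 hPl))
      exact hR l l' hl'.1 (hl''.2 x hx)
    refine Sup.cone _ (Sup.mono (fun l' hl' => ⟨by simp [hl'.1], fun x hx => ?_⟩) h1)
    rcases List.mem_cons.1 hx with rfl | hx
    · exact hξ l hne hPl
    · exact hl'.2 x hx

end M1

end Vale.Agent.P239.M
end

section

/-!
Module M2: the splitting operator `sp` and the cap products (mod 2), statements as in `M_Skel`.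
-/

namespace Vale.Agent.P239.M

/-! ### auxiliary facts -/

namespace SpA

open Finset

section ExtGen

variable {k : Type*} [CommRing k] {X : Type*} {M : Type*} [AddCommGroup M] [Module k M]

theorem ext_cone (u : List X → M) (x : X) (c : Ch k X) :
    ext u (cone x c) = ext (fun l => u (x :: l)) c := by
  rw [cone, Finsupp.lmapDomain_apply, Finsupp.linearCombination_mapDomain]
  rfl

theorem ext_single_const (r : k) (c : Ch k X) :
    ext (fun s => (Finsupp.single s r : Ch k X)) c = r • c := by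
  induction c using Finsupp.induction_linear with
  | zero => simp
  | add a b ha hb => rw [map_add, ha, hb, smul_add]
  | single l t =>
    rw [Finsupp.linearCombination_single, Finsupp.smul_single, Finsupp.smul_single, smul_eq_mul,
      smul_eq_mul, mul_comm]

theorem ext_bdL_nil (u : List X → M) : ext u (bdL k ([] : List X)) = 0 := by
  simp [bdL]

theorem ext_bdL_cons (u : List X → M) (x : X) (l : List X) :
    ext u (bdL k (x :: l)) = u l - ext (fun l' => u (x :: l')) (bdL k l) := by
  rw [bdL, map_sub, ext_cone, Finsupp.linearCombination_single, one_smul]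

theorem ext_add (u v : List X → M) (c : Ch k X) :
    ext (fun l => u l + v l) c = ext u c + ext v c := by
  simp only [ext, Finsupp.linearCombination_apply, smul_add]
  exact Finsupp.sum_add

theorem ext_zero (c : Ch k X) : ext (fun _ => (0 : M)) c = 0 := by
  simp [Finsupp.linearCombination_apply]

theorem ext_map {M' : Type*} [AddCommGroup M'] [Module k M'] (L : M →ₗ[k] M') (u : List X → M)
    (c : Ch k X) : ext (fun l => L (u l)) c = L (ext u c) := by
  simp only [ext, Finsupp.linearCombination_apply, map_finsuppSum, map_smul]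

theorem ext_sum {ι : Type*} (s : Finset ι) (u : ι → List X → M) (c : Ch k X) :
    ext (fun l => ∑ i ∈ s, u i l) c = ∑ i ∈ s, ext (u i) c := by
  classical
  induction s using Finset.induction_on with
  | empty => simp only [sum_empty, ext_zero]
  | insert i s hi ih =>
    simp only [Finset.sum_insert hi]
    rw [ext_add, ih]

/-- the extension only depends on the values on the support -/
theorem ext_cong {u v : List X → M} {c : Ch k X} (h : ∀ l ∈ c.support, u l = v l) :
    ext u c = ext v c := by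
  simp only [ext, Finsupp.linearCombination_apply, Finsupp.sum]
  exact Finset.sum_congr rfl fun l hl => by rw [h l hl]

theorem bdL_length (l : List X) : ∀ l' ∈ (bdL k l).support, l'.length + 1 = l.length := by
  classical
  induction l with
  | nil => intro l' hl'; simp [bdL] at hl'
  | cons x l ih =>
    intro l' hl'
    rw [bdL] at hl'
    rcases Finset.mem_union.1 (Finsupp.support_sub hl') with h | h
    · have h1 := Finsupp.support_single_subset h
      rw [Finset.mem_singleton] at h1
      rw [h1, List.length_cons]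
    · rw [cone, Finsupp.lmapDomain_apply] at h
      obtain ⟨l'', hl'', rfl⟩ := Finset.mem_image.1 (Finsupp.mapDomain_support h)
      rw [List.length_cons, ih l'' hl'', List.length_cons]

theorem ext_bdL_zero {u : List X → M} {l : List X}
    (h : ∀ l' : List X, l'.length + 1 = l.length → u l' = 0) : ext u (bdL k l) = 0 := by
  rw [← ext_zero (k := k) (M := M) (bdL k l)]
  exact ext_cong fun l' hl' => h l' (bdL_length l l' hl')

end ExtGen

section SpGen

variable {X A : Type*} [AddCommGroup A]

theorem sp_eq (B : List X → List X → A) (a : List X) :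
    sp B a = ∑ i ∈ range a.length, B (a.take (i + 1)) (a.drop i) := by
  induction a generalizing B with
  | nil => simp only [sp, List.length_nil, range_zero, List.take_nil, List.drop_nil, sum_const, card_empty, zero_nsmul]
  | cons x l ih =>
    rw [sp, ih, List.length_cons, Finset.sum_range_succ', add_comm]
    simp only [List.take_succ_cons, List.drop_succ_cons, List.take_zero, List.drop_zero]

theorem sp_nil (B : List X → List X → A) : sp B [] = 0 := rfl

theorem sp_cons (B : List X → List X → A) (x : X) (l : List X) :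
    sp B (x :: l) = B [x] (x :: l) + sp (fun p s => B (x :: p) s) l := rfl

theorem sp_add (B B' : List X → List X → A) (a : List X) :
    sp (fun p s => B p s + B' p s) a = sp B a + sp B' a := by
  simp only [sp_eq, Finset.sum_add_distrib]

theorem sp_map {A' : Type*} [AddCommGroup A'] (L : A →+ A') (B : List X → List X → A)
    (a : List X) : sp (fun p s => L (B p s)) a = L (sp B a) := by
  simp only [sp_eq, map_sum]

/-- `p` and `s` are the two parts of the list `a`, with one common entry -/
structure Cut (a p s : List X) : Prop where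
  pre : p <+: a
  suf : s <:+ a
  ne : p ≠ []
  ne' : s ≠ []
  len : p.length + s.length = a.length + 1
  split : ∃ q x r, a = q ++ x :: r ∧ p = q ++ [x] ∧ s = x :: r

theorem cut_take_drop (a : List X) {i : ℕ} (hi : i < a.length) :
    Cut a (a.take (i + 1)) (a.drop i) where
  pre := List.take_prefix _ _
  suf := List.drop_suffix _ _
  ne := by
    intro h
    have := congrArg List.length h
    rw [List.length_take, List.length_nil] at this
    omega
  ne' := by
    intro h
    have := congrArg List.length h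
    rw [List.length_drop, List.length_nil] at this
    omega
  len := by
    rw [List.length_take, List.length_drop]
    omega
  split := by
    refine ⟨a.take i, a[i], a.drop (i + 1), ?_, ?_, ?_⟩
    · rw [← List.drop_eq_getElem_cons hi, List.take_append_drop]
    · rw [List.take_append_getElem]
    · rw [← List.drop_eq_getElem_cons hi]

theorem sp_congr {B B' : List X → List X → A} {a : List X}
    (h : ∀ p s, Cut a p s → B p s = B' p s) : sp B a = sp B' a := by
  rw [sp_eq, sp_eq]
  exact Finset.sum_congr rfl fun i hi => h _ _ (cut_take_drop a (Finset.mem_range.1 hi))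

theorem sp_zero {B : List X → List X → A} {a : List X}
    (h : ∀ p s, Cut a p s → B p s = 0) : sp B a = 0 := by
  rw [sp_eq]
  exact Finset.sum_eq_zero fun i hi => h _ _ (cut_take_drop a (Finset.mem_range.1 hi))

theorem exists_of_sp_ne {B : List X → List X → A} {a : List X} (h : sp B a ≠ 0) :
    ∃ p s, Cut a p s ∧ B p s ≠ 0 := by
  by_contra hne
  push Not at hne
  exact h (sp_zero hne)

theorem sp_list_map {Y : Type*} (B : List Y → List Y → A) (f : X → Y) (a : List X) :
    sp B (a.map f) = sp (fun p s => B (p.map f) (s.map f)) a := by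
  simp only [sp_eq, List.length_map, List.map_take, List.map_drop]

end SpGen

section Two

variable {X A : Type*} [AddCommGroup A] [Module (ZMod 2) A]

theorem ext_bdL_cons2 (u : List X → A) (x : X) (l : List X) :
    ext u (bdL (ZMod 2) (x :: l)) = u l + ext (fun l' => u (x :: l')) (bdL (ZMod 2) l) := by
  rw [ext_bdL_cons, ZModModule.sub_eq_add]

theorem ext_sp_comm (B : List X → List X → List X → A) (b : List X) (z : Ch (ZMod 2) X) :
    ext (fun l => sp (B l) b) z = sp (fun p s => ext (fun l => B l p s) z) b := by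
  simp only [sp_eq]
  exact ext_sum _ _ z

theorem sup_sp {B : List X → List X → Ch (ZMod 2) X} {a : List X} {P : List X → Prop}
    (h : ∀ p s, Cut a p s → Sup P (B p s)) : Sup P (sp B a) := by
  classical
  intro l hl
  rw [sp_eq] at hl
  obtain ⟨i, hi, h2⟩ := Finset.mem_biUnion.1 (Finsupp.support_finsetSum hl)
  exact h _ _ (cut_take_drop a (Finset.mem_range.1 hi)) l h2

end Two

end SpA

open SpA

section M2

variable {X Y : Type*}

theorem ext_sp {A : Type*} [AddCommGroup A] [Module (ZMod 2) A] (B : List X → List X → A)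
    (a : List X) : ext (sp B) (bdL (ZMod 2) a) =
      sp (fun p s => ext (fun p' => B p' s) (bdL (ZMod 2) p) +
        ext (fun s' => B p s') (bdL (ZMod 2) s)) a + B [] a + B a [] := by
  induction a generalizing B with
  | nil => rw [ext_bdL_nil, sp_nil, zero_add, ZModModule.add_self]
  | cons x l ih =>
    rw [ext_bdL_cons2, sp_cons]
    have e1 : ext (fun l' => sp B (x :: l')) (bdL (ZMod 2) l) =
        ext (fun l' => B [x] (x :: l')) (bdL (ZMod 2) l) +
          ext (sp fun p s => B (x :: p) s) (bdL (ZMod 2) l) := by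
      rw [← ext_add]
      rfl
    have e2 : sp (fun p s => ext (fun p' => B p' s) (bdL (ZMod 2) (x :: p)) +
        ext (fun s' => B (x :: p) s') (bdL (ZMod 2) s)) l = sp B l +
        sp (fun p s => ext (fun p' => B (x :: p') s) (bdL (ZMod 2) p) +
        ext (fun s' => B (x :: p) s') (bdL (ZMod 2) s)) l := by
      rw [← sp_add]
      refine sp_congr fun p s _ => ?_
      rw [ext_bdL_cons2, add_assoc]
    have e3 : ext (fun p' => B p' (x :: l)) (bdL (ZMod 2) [x]) = B [] (x :: l) := by
      rw [ext_bdL_cons2, ext_bdL_nil, add_zero]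
    have e4 : ext (fun s' => B [x] s') (bdL (ZMod 2) (x :: l)) =
        B [x] l + ext (fun l' => B [x] (x :: l')) (bdL (ZMod 2) l) := ext_bdL_cons2 _ _ _
    rw [e1, ih, e2, e3, e4]
    have e5 : B [] (x :: l) + B [] (x :: l) = 0 := ZModModule.add_self _
    generalize B [] (x :: l) = b0 at *
    generalize sp (fun p s => ext (fun p' => B (x :: p') s) (bdL (ZMod 2) p) +
        ext (fun s' => B (x :: p) s') (bdL (ZMod 2) s)) l = b1
    generalize ext (fun l' => B [x] (x :: l')) (bdL (ZMod 2) l) = b2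
    calc sp B l + (b2 + (b1 + B [x] l + B (x :: l) []))
        = (b0 + b0) + sp B l + (b2 + (b1 + B [x] l + B (x :: l) [])) := by rw [e5, zero_add]
      _ = _ := by abel

theorem bd_capS (θ : List X → ZMod 2) (y : List X) : bd (capS θ y) =
    ext (capS θ) (bdL (ZMod 2) y) + capS (fun l => ext θ (bdL (ZMod 2) l)) y +
      Finsupp.single y (θ []) + Finsupp.single [] (θ y) := by
  have h := ext_sp (A := Ch (ZMod 2) X) (fun p s => Finsupp.single s (θ p)) y
  have e1 : sp (fun p s => ext (fun p' => (Finsupp.single s (θ p') : Ch (ZMod 2) X))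
      (bdL (ZMod 2) p) + ext (fun s' => (Finsupp.single s' (θ p) : Ch (ZMod 2) X))
      (bdL (ZMod 2) s)) y = capS (fun l => ext θ (bdL (ZMod 2) l)) y + bd (capS θ y) := by
    unfold capS
    rw [← LinearMap.toAddMonoidHom_coe (bd (k := ZMod 2) (X := X)), ← sp_map, ← sp_add]
    refine sp_congr fun p s _ => ?_
    congr 1
    · exact ext_map (Finsupp.lsingle s : ZMod 2 →ₗ[ZMod 2] Ch (ZMod 2) X) θ _
    · rw [LinearMap.toAddMonoidHom_coe, bd_single, ext_single_const]
  rw [e1] at h
  change ext (capS θ) (bdL (ZMod 2) y) = _ at h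
  have e3 : ∀ x : Ch (ZMod 2) X, x + x = 0 := fun x => ZModModule.add_self x
  rw [h]
  generalize capS (fun l => ext θ (bdL (ZMod 2) l)) y = b1
  calc bd (capS θ y) = (b1 + b1) + (Finsupp.single y (θ []) + Finsupp.single y (θ [])) +
        (Finsupp.single [] (θ y) + Finsupp.single [] (θ y)) + bd (capS θ y) := by
        simp only [e3, zero_add]
    _ = _ := by abel

theorem bd_capL (ω : List X → ZMod 2) (y : List X) : bd (capL ω y) =
    ext (capL ω) (bdL (ZMod 2) y) + capL (fun l => ext ω (bdL (ZMod 2) l)) y +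
      Finsupp.single [] (ω y) + Finsupp.single y (ω []) := by
  have h := ext_sp (A := Ch (ZMod 2) X) (fun p s => Finsupp.single p (ω s)) y
  have e1 : sp (fun p s => ext (fun p' => (Finsupp.single p' (ω s) : Ch (ZMod 2) X))
      (bdL (ZMod 2) p) + ext (fun s' => (Finsupp.single p (ω s') : Ch (ZMod 2) X))
      (bdL (ZMod 2) s)) y = bd (capL ω y) + capL (fun l => ext ω (bdL (ZMod 2) l)) y := by
    unfold capL
    rw [← LinearMap.toAddMonoidHom_coe (bd (k := ZMod 2) (X := X)), ← sp_map, ← sp_add]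
    refine sp_congr fun p s _ => ?_
    congr 1
    · rw [LinearMap.toAddMonoidHom_coe, bd_single, ext_single_const]
    · exact ext_map (Finsupp.lsingle p : ZMod 2 →ₗ[ZMod 2] Ch (ZMod 2) X) ω _
  rw [e1] at h
  change ext (capL ω) (bdL (ZMod 2) y) = _ at h
  have e3 : ∀ x : Ch (ZMod 2) X, x + x = 0 := fun x => ZModModule.add_self x
  rw [h]
  generalize capL (fun l => ext ω (bdL (ZMod 2) l)) y = b1
  calc bd (capL ω y) = (b1 + b1) + (Finsupp.single y (ω []) + Finsupp.single y (ω [])) +
        (Finsupp.single [] (ω y) + Finsupp.single [] (ω y)) + bd (capL ω y) := by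
        simp only [e3, zero_add]
    _ = _ := by abel

theorem bd_ext_capS (θ : List X → ZMod 2) (μ : Ch (ZMod 2) X) : bd (ext (capS θ) μ) =
    ext (capS θ) (bd μ) + ext (capS fun l => ext θ (bdL (ZMod 2) l)) μ + θ [] • μ +
      Finsupp.single [] (ext θ μ) := by
  rw [← ext_map bd (capS θ) μ]
  have h : (fun l : List X => bd (capS θ l)) = fun y => ((ext (capS θ) (bdL (ZMod 2) y) +
      capS (fun l => ext θ (bdL (ZMod 2) l)) y) + Finsupp.single y (θ [])) +
      Finsupp.single [] (θ y) := funext fun y => bd_capS θ y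
  rw [h, ext_add, ext_add, ext_add, ext_single_const]
  have h1 : ext (fun l => ext (capS θ) (bdL (ZMod 2) l)) μ = ext (capS θ) (bd μ) := by
    rw [bd]
    generalize (ext (capS θ) : Ch (ZMod 2) X →ₗ[ZMod 2] Ch (ZMod 2) X) = L
    exact ext_map L (bdL (ZMod 2)) μ
  have h2 := ext_map (Finsupp.lsingle ([] : List X) : ZMod 2 →ₗ[ZMod 2] Ch (ZMod 2) X) θ μ
  simp only [Finsupp.lsingle_apply] at h2
  rw [h1, h2]

theorem bd_ext_capL (ω : List X → ZMod 2) (μ : Ch (ZMod 2) X) : bd (ext (capL ω) μ) =
    ext (capL ω) (bd μ) + ext (capL fun l => ext ω (bdL (ZMod 2) l)) μ +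
      Finsupp.single [] (ext ω μ) + ω [] • μ := by
  rw [← ext_map bd (capL ω) μ]
  have h : (fun l : List X => bd (capL ω l)) = fun y => ((ext (capL ω) (bdL (ZMod 2) y) +
      capL (fun l => ext ω (bdL (ZMod 2) l)) y) + Finsupp.single [] (ω y)) +
      Finsupp.single y (ω []) := funext fun y => bd_capL ω y
  rw [h, ext_add, ext_add, ext_add, ext_single_const]
  have h1 : ext (fun l => ext (capL ω) (bdL (ZMod 2) l)) μ = ext (capL ω) (bd μ) := by
    rw [bd]
    generalize (ext (capL ω) : Ch (ZMod 2) X →ₗ[ZMod 2] Ch (ZMod 2) X) = L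
    exact ext_map L (bdL (ZMod 2)) μ
  have h2 := ext_map (Finsupp.lsingle ([] : List X) : ZMod 2 →ₗ[ZMod 2] Ch (ZMod 2) X) ω μ
  simp only [Finsupp.lsingle_apply] at h2
  rw [h1, h2]

/-- the lists of `capS θ y`: `p ++ x :: s = y` with `θ (p ++ [x]) ≠ 0`, list `x :: s` -/
theorem sup_capS (θ : List X → ZMod 2) (y : List X) :
    Sup (fun l => ∃ p x s, y = p ++ x :: s ∧ l = x :: s ∧ θ (p ++ [x]) ≠ 0) (capS θ y) := by
  classical
  refine sup_sp fun p s hc l hl => ?_
  have h1 := Finsupp.support_single_subset hl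
  rw [Finset.mem_singleton] at h1
  subst h1
  obtain ⟨q, x, r, e1, e2, e3⟩ := hc.split
  refine ⟨q, x, r, e1, e3, fun h0 => ?_⟩
  rw [e2, h0, Finsupp.single_zero] at hl
  simp at hl

theorem sup_capL (ω : List X → ZMod 2) (y : List X) :
    Sup (fun l => ∃ p x s, y = p ++ x :: s ∧ l = p ++ [x] ∧ ω (x :: s) ≠ 0) (capL ω y) := by
  classical
  refine sup_sp fun p s hc l hl => ?_
  have h1 := Finsupp.support_single_subset hl
  rw [Finset.mem_singleton] at h1
  subst h1
  obtain ⟨q, x, r, e1, e2, e3⟩ := hc.split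
  refine ⟨q, x, r, e1, e2, fun h0 => ?_⟩
  rw [e3, h0, Finsupp.single_zero] at hl
  simp at hl

/-- if `θ` lives on lists of length `q+1` only one term is left -/
theorem capS_eq (θ : List X → ZMod 2) (q : ℕ) (hθ : ∀ l, θ l ≠ 0 → l.length = q + 1)
    (y : List X) (hy : q < y.length) :
    capS θ y = Finsupp.single (y.drop q) (θ (y.take (q + 1))) := by
  unfold capS
  rw [sp_eq, Finset.sum_eq_single q]
  · intro i hi hne
    rw [Finset.mem_range] at hi
    have h : θ (y.take (i + 1)) = 0 := by
      by_contra h0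
      have h1 := hθ _ h0
      rw [List.length_take] at h1
      (clear * - hi hne h1; omega)
    rw [h, Finsupp.single_zero]
  · intro h
    exact absurd (Finset.mem_range.2 hy) h

theorem pf_capS (f : X → Y) (θ : List Y → ZMod 2) (y : List X) :
    pf f (capS (fun l => θ (l.map f)) y) = capS θ (y.map f) := by
  unfold capS
  rw [sp_list_map, ← LinearMap.toAddMonoidHom_coe (pf (k := ZMod 2) f), ← sp_map]
  refine sp_congr fun p s _ => ?_
  rw [LinearMap.toAddMonoidHom_coe, pf_single]

end M2

end Vale.Agent.P239.M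
end

section

/-!
Module M3: the kernels `K1` and `Ker` (mod 2), statements as in `M_Skel`.
-/

namespace Vale.Agent.P239.M

open SpA

variable {X Y : Type*}

/-! ### auxiliary facts -/

namespace KerA

theorem K1_nil_left (c : X → ℝ) (b : List X) : K1 c [] b = 0 := by
  cases b <;> rfl

theorem K1_nil_right (c : X → ℝ) (a : List X) : K1 c a [] = 0 := by
  rcases a with _ | ⟨x, _ | ⟨y, _ | ⟨z, a⟩⟩⟩ <;> rfl

theorem K1_length {c : X → ℝ} {a b : List X} (h : K1 c a b ≠ 0) :
    (a.length = 1 ∧ b.length = 2) ∨ (a.length = 2 ∧ b.length = 1) := by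
  rcases a with _ | ⟨x, _ | ⟨x', _ | ⟨x'', a⟩⟩⟩ <;>
  rcases b with _ | ⟨y, _ | ⟨y', _ | ⟨y'', b⟩⟩⟩ <;>
  first
  | exact absurd rfl h
  | simp

theorem K1_12 (c : X → ℝ) (x y y' : X) : K1 c [x] [y, y'] = hh c x y + hh c x y' := rfl

theorem K1_21 (c : X → ℝ) (x x' y : X) : K1 c [x, x'] [y] = hh c x y + hh c x' y := rfl

theorem K1_bd (c : X → ℝ) (a b : List X) :
    ext (fun a' => K1 c a' b) (bdL (ZMod 2) a) = ext (fun b' => K1 c a b') (bdL (ZMod 2) b) := by
  by_cases h : a.length + b.length = 4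
  · obtain ha | ha | ha | ha | ha : a.length = 0 ∨ a.length = 1 ∨ a.length = 2 ∨ a.length = 3 ∨
      a.length = 4 := by omega
    · rw [List.length_eq_zero_iff] at ha
      subst ha
      rw [ext_bdL_nil]
      symm
      exact ext_bdL_zero fun l _ => K1_nil_left c l
    · obtain ⟨x, rfl⟩ := List.length_eq_one_iff.1 ha
      obtain ⟨y, y', y'', rfl⟩ := List.length_eq_three.1 (show b.length = 3 by (clear * - h ha; omega))
      simp only [ext_bdL_cons2, K1_nil_left, ext_bdL_nil, K1_12]
      generalize hh c x y = p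
      generalize hh c x y' = q
      generalize hh c x y'' = r
      revert p q r
      decide
    · obtain ⟨x, x', rfl⟩ := List.length_eq_two.1 ha
      obtain ⟨y, y', rfl⟩ := List.length_eq_two.1 (show b.length = 2 by omega)
      simp only [ext_bdL_cons2, ext_bdL_nil, K1_12, K1_21]
      generalize hh c x y = p
      generalize hh c x y' = q
      generalize hh c x' y = r
      generalize hh c x' y' = s
      revert p q r s
      decide
    · obtain ⟨x, x', x'', rfl⟩ := List.length_eq_three.1 ha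
      obtain ⟨y, rfl⟩ := List.length_eq_one_iff.1 (show b.length = 1 by omega)
      simp only [ext_bdL_cons2, ext_bdL_nil, K1_nil_right, K1_21]
      generalize hh c x y = p
      generalize hh c x' y = q
      generalize hh c x'' y = r
      revert p q r
      decide
    · have hb : b = [] := by
        rw [← List.length_eq_zero_iff]
        omega
      subst hb
      rw [ext_bdL_nil]
      exact ext_bdL_zero fun l _ => K1_nil_right c l
  · rw [ext_bdL_zero, ext_bdL_zero]
    · intro b' hb'
      by_contra hne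
      have := K1_length hne
      omega
    · intro a' ha'
      by_contra hne
      have := K1_length hne
      omega

theorem Ker_nil (a b : List X) :
    Ker [] a b = if a.length = 1 ∧ b.length = 1 then 1 else 0 := rfl

theorem Ker_cons (c : X → ℝ) (cs : List (X → ℝ)) (a b : List X) :
    Ker (c :: cs) a b = sp (fun p s => sp (fun p' s' => K1 c p p' * Ker cs s s') b) a := rfl

/-- if all comparisons of the coordinate `c` are equal then the kernel vanishes -/
theorem K1_eq_zero {c : X → ℝ} {a b : List X} {r : ZMod 2}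
    (h : ∀ x ∈ a, ∀ y ∈ b, hh c x y = r) : K1 c a b = 0 := by
  have h2 : ∀ r : ZMod 2, r + r = 0 := by decide
  by_contra hne
  rcases K1_length hne with ⟨ha, hb⟩ | ⟨ha, hb⟩
  · obtain ⟨x, rfl⟩ := List.length_eq_one_iff.1 ha
    obtain ⟨y, y', rfl⟩ := List.length_eq_two.1 hb
    exact hne (by rw [K1_12, h x (by simp) y (by simp), h x (by simp) y' (by simp), h2])
  · obtain ⟨x, x', rfl⟩ := List.length_eq_two.1 ha
    obtain ⟨y, rfl⟩ := List.length_eq_one_iff.1 hb
    exact hne (by rw [K1_21, h x (by simp) y (by simp), h x' (by simp) y (by simp), h2])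

theorem K1_map (c : Y → ℝ) (f : X → Y) (a b : List X) :
    K1 c (a.map f) (b.map f) = K1 (fun x => c (f x)) a b := by
  rcases a with _ | ⟨x, _ | ⟨x', _ | ⟨x'', a⟩⟩⟩ <;>
  rcases b with _ | ⟨y, _ | ⟨y', _ | ⟨y'', b⟩⟩⟩ <;> rfl

end KerA

open KerA

section M3

theorem Ker_nil_left (cs : List (X → ℝ)) (b : List X) : Ker cs [] b = 0 := by
  cases cs with
  | nil => simp [Ker_nil]
  | cons c cs => rfl

theorem Ker_nil_right (cs : List (X → ℝ)) (a : List X) : Ker cs a [] = 0 := by
  cases cs with
  | nil => simp [Ker_nil]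
  | cons c cs =>
    rw [Ker_cons]
    exact sp_zero fun p s _ => rfl

/-- a nonzero value of the kernel comes from a splitting -/
theorem KerA.Ker_cons_ne {c : X → ℝ} {cs : List (X → ℝ)} {a b : List X} (h : Ker (c :: cs) a b ≠ 0) :
    ∃ p s p' s', Cut a p s ∧ Cut b p' s' ∧ K1 c p p' ≠ 0 ∧ Ker cs s s' ≠ 0 := by
  rw [Ker_cons] at h
  obtain ⟨p, s, h1, h2⟩ := exists_of_sp_ne h
  obtain ⟨p', s', h3, h4⟩ := exists_of_sp_ne h2
  exact ⟨p, s, p', s', h1, h3, left_ne_zero_of_mul h4, right_ne_zero_of_mul h4⟩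

theorem Ker_length (cs : List (X → ℝ)) (a b : List X) (h : Ker cs a b ≠ 0) :
    a.length + b.length = cs.length + 2 := by
  induction cs generalizing a b with
  | nil =>
    rw [Ker_nil] at h
    split_ifs at h with h1
    · rw [h1.1, h1.2, List.length_nil]
    · exact absurd rfl h
  | cons c cs ih =>
    obtain ⟨p, s, p', s', h1, h2, h3, h4⟩ := Ker_cons_ne h
    have e1 := ih _ _ h4
    have e2 := K1_length h3
    have e3 := h1.len
    have e4 := h2.len
    rw [List.length_cons]
    omega

/-- the kernel is a chain map to cochains -/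
theorem Ker_bd (cs : List (X → ℝ)) (a b : List X) :
    ext (fun a' => Ker cs a' b) (bdL (ZMod 2) a) =
      ext (fun b' => Ker cs a b') (bdL (ZMod 2) b) := by
  induction cs generalizing a b with
  | nil =>
    have h1 : ∀ a b : List X, ext (fun a' => Ker [] a' b) (bdL (ZMod 2) a) = 0 := by
      intro a b
      rcases a with _ | ⟨x, _ | ⟨x', _ | ⟨x'', a⟩⟩⟩
      · exact ext_bdL_nil _
      · rw [ext_bdL_cons2, ext_bdL_nil]
        simp [Ker_nil]
      · simp only [ext_bdL_cons2, ext_bdL_nil, Ker_nil]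
        by_cases hb : b.length = 1
        · simp only [hb, List.length_nil, List.length_cons]
          decide
        · simp [hb]
      · refine ext_bdL_zero fun l hl => ?_
        rw [Ker_nil, if_neg]
        simp only [List.length_cons] at hl
        omega
    have h2 : ∀ a b : List X, ext (fun b' => Ker [] a b') (bdL (ZMod 2) b) = 0 := by
      intro a b
      rw [← h1 b a]
      refine ext_cong fun l _ => ?_
      simp only [Ker_nil, and_comm]
    rw [h1, h2]
  | cons c cs ih =>
    have hD : ∀ p s : List X,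
        ext (sp fun p' s' => K1 c p p' * Ker cs s s') (bdL (ZMod 2) b) =
          sp (fun p' s' => ext (fun q => K1 c p q * Ker cs s s') (bdL (ZMod 2) p') +
            ext (fun r => K1 c p p' * Ker cs s r) (bdL (ZMod 2) s')) b := by
      intro p s
      rw [ext_sp, K1_nil_right, Ker_nil_right, zero_mul, mul_zero, add_zero, add_zero]
    have hB : ext (fun a' => Ker (c :: cs) a' b) (bdL (ZMod 2) a) =
        sp (fun p s => ext (fun p1 => sp (fun p' s' => K1 c p1 p' * Ker cs s s') b)
          (bdL (ZMod 2) p) + ext (fun s1 => sp (fun p' s' => K1 c p p' * Ker cs s1 s') b)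
          (bdL (ZMod 2) s)) a := by
      have h1 := ext_sp (fun p s => sp (fun p' s' => K1 c p p' * Ker cs s s') b) a
      have h2 : sp (fun p' s' => K1 c [] p' * Ker cs a s') b = 0 :=
        sp_zero fun p s _ => by rw [K1_nil_left, zero_mul]
      have h3 : sp (fun p' s' => K1 c a p' * Ker cs [] s') b = 0 :=
        sp_zero fun p s _ => by rw [Ker_nil_left, mul_zero]
      rw [h2, h3, add_zero, add_zero] at h1
      exact h1
    have hR : ext (fun b' => Ker (c :: cs) a b') (bdL (ZMod 2) b) =
        sp (fun p s => ext (sp fun p' s' => K1 c p p' * Ker cs s s') (bdL (ZMod 2) b)) a :=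
      ext_sp_comm (fun b' p s => sp (fun p' s' => K1 c p p' * Ker cs s s') b') a _
    rw [hB, hR]
    refine sp_congr fun p s _ => ?_
    rw [hD, ext_sp_comm (fun p1 p' s' => K1 c p1 p' * Ker cs s s') b,
      ext_sp_comm (fun s1 p' s' => K1 c p p' * Ker cs s1 s') b, ← sp_add]
    refine sp_congr fun p' s' _ => ?_
    have e1 : ∀ (u : List X → ZMod 2) (t : ZMod 2) (z : Ch (ZMod 2) X),
        ext (fun l => u l * t) z = ext u z * t := fun u t z => by
      have := ext_map (k := ZMod 2) (LinearMap.mulRight (ZMod 2) t) u z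
      simpa only [LinearMap.mulRight_apply] using this
    have e2 : ∀ (u : List X → ZMod 2) (t : ZMod 2) (z : Ch (ZMod 2) X),
        ext (fun l => t * u l) z = t * ext u z := fun u t z => by
      have := ext_map (k := ZMod 2) (LinearMap.mulLeft (ZMod 2) t) u z
      simpa only [LinearMap.mulLeft_apply] using this
    rw [e1 (fun p1 => K1 c p1 p'), e2 (fun s1 => Ker cs s1 s'), e1 (fun q => K1 c p q),
      e2 (fun r => Ker cs s r), K1_bd, ih]

theorem Ker_eq_zero (cs : List (X → ℝ)) (a b : List X) (c : X → ℝ) (hc : c ∈ cs)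
    (v : ZMod 2) (h : ∀ x ∈ a, ∀ y ∈ b, hh c x y = v) : Ker cs a b = 0 := by
  induction cs generalizing a b with
  | nil => simp at hc
  | cons c' cs ih =>
    by_contra hne
    obtain ⟨p, s, p', s', h1, h2, h3, h4⟩ := Ker_cons_ne hne
    rcases List.mem_cons.1 hc with rfl | hc
    · exact h3 (K1_eq_zero (r := v) fun x hx y hy => h x (h1.pre.subset hx) y (h2.pre.subset hy))
    · exact h4 (ih _ _ hc fun x hx y hy => h x (h1.suf.subset hx) y (h2.suf.subset hy))

/-- locality -/
theorem Ker_local (cs : List (X → ℝ)) (a b : List X) (h : Ker cs a b ≠ 0) (c : X → ℝ)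
    (hc : c ∈ cs) {κ κ' : ℝ} (ha : ∀ x ∈ a, ∀ x' ∈ a, |c x - c x'| ≤ κ)
    (hb : ∀ y ∈ b, ∀ y' ∈ b, |c y - c y'| ≤ κ') : ∀ x ∈ a, ∀ y ∈ b, |c x - c y| ≤ κ + κ' := by
  intro x hx y hy
  have h0 : ∃ x ∈ a, ∃ y ∈ b, c x ≤ c y := by
    by_contra hne
    push Not at hne
    refine h (Ker_eq_zero cs a b c hc 0 fun x hx y hy => ?_)
    unfold hh
    rw [if_neg (not_le.2 (hne x hx y hy))]
  have h1 : ∃ x ∈ a, ∃ y ∈ b, c y < c x := by
    by_contra hne
    push Not at hne
    refine h (Ker_eq_zero cs a b c hc 1 fun x hx y hy => ?_)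
    unfold hh
    rw [if_pos (hne x hx y hy)]
  obtain ⟨x1, hx1, y1, hy1, e1⟩ := h0
  obtain ⟨x2, hx2, y2, hy2, e2⟩ := h1
  have a1 := abs_le.1 (ha x hx x1 hx1)
  have a2 := abs_le.1 (ha x hx x2 hx2)
  have b1 := abs_le.1 (hb y hy y1 hy1)
  have b2 := abs_le.1 (hb y hy y2 hy2)
  rw [abs_le]
  constructor <;> linarith only [e1, a1, b1, e2, a2, b2]

/-- naturality -/
theorem Ker_comap (cs : List (Y → ℝ)) (f : X → Y) (a b : List X) :
    Ker cs (a.map f) (b.map f) = Ker (cs.map fun c x => c (f x)) a b := by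
  induction cs generalizing a b with
  | nil => simp [Ker_nil]
  | cons c cs ih =>
    rw [List.map_cons, Ker_cons, Ker_cons, sp_list_map]
    refine sp_congr fun p s _ => ?_
    rw [sp_list_map]
    refine sp_congr fun p' s' _ => ?_
    rw [K1_map, ih]

end M3

end Vale.Agent.P239.M
end

section

/-!
(M4) The box chain.
-/

namespace Vale.Agent.P239.M.Box

open Vale.Agent.P239.M Metric Set

section Calc

variable {X Y A : Type*}

theorem two_zero (a : ZMod 2) : a + a = 0 := by
  revert a; decide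

theorem sp_nil [AddCommGroup A] (B : List X → List X → A) : sp B [] = 0 := rfl

theorem sp_cons [AddCommGroup A] (B : List X → List X → A) (x : X) (l : List X) :
    sp B (x :: l) = B [x] (x :: l) + sp (fun p s => B (x :: p) s) l := rfl

theorem sp_zero [AddCommGroup A] {B : List X → List X → A} (h : ∀ p s, B p s = 0) (l : List X) :
    sp B l = 0 := by
  induction l generalizing B with
  | nil => rfl
  | cons x l ih => rw [sp_cons, h, zero_add]; exact ih fun p s => h _ _

theorem K1_left_short (c : X → ℝ) (x y : X) : K1 c [x] [y] = 0 := rfl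

theorem K1_long (c : X → ℝ) (x x' x'' : X) (l b : List X) : K1 c (x :: x' :: x'' :: l) b = 0 := by
  rcases b with _ | ⟨y, _ | ⟨y', _ | ⟨y'', b⟩⟩⟩ <;> rfl

theorem K1_long' (c : X → ℝ) (y y' y'' : X) (l a : List X) : K1 c a (y :: y' :: y'' :: l) = 0 := by
  rcases a with _ | ⟨y, _ | ⟨y', _ | ⟨y'', b⟩⟩⟩ <;> rfl

/-- kernel against one point, right slot -/
theorem Ker_cons_pt (c : X → ℝ) (cs : List (X → ℝ)) (x x' y : X) (a : List X) :
    Ker (c :: cs) (x :: x' :: a) [y] = (hh c x y + hh c x' y) * Ker cs (x' :: a) [y] := by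
  have hB : (fun p s => sp (fun p' s' => K1 c p p' * Ker cs s s') [y]) =
      fun p s => K1 c p [y] * Ker cs s [y] := by
    funext p s; rw [sp_cons, sp_nil, add_zero]
  have h1 : Ker (c :: cs) (x :: x' :: a) [y] =
      sp (fun p s => sp (fun p' s' => K1 c p p' * Ker cs s s') [y]) (x :: x' :: a) := rfl
  rw [h1, hB, sp_cons, sp_cons, K1_left_short, zero_mul, zero_add]
  have h2 : sp (fun p s => K1 c (x :: x' :: p) [y] * Ker cs s [y]) a = 0 := by
    cases a with
    | nil => rfl
    | cons z a =>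
      rw [sp_cons, K1_long, zero_mul, zero_add]
      exact sp_zero (fun p s => by rw [K1_long, zero_mul]) a
  rw [h2, add_zero]
  rfl

/-- kernel against one point, left slot -/
theorem Ker_pt_cons (c : X → ℝ) (cs : List (X → ℝ)) (x y y' : X) (b : List X) :
    Ker (c :: cs) [x] (y :: y' :: b) = (hh c x y + hh c x y') * Ker cs [x] (y' :: b) := by
  have h1 : Ker (c :: cs) [x] (y :: y' :: b) =
      sp (fun p s => sp (fun p' s' => K1 c p p' * Ker cs s s') (y :: y' :: b)) [x] := rfl
  rw [h1, sp_cons, sp_nil, add_zero, sp_cons, sp_cons, K1_left_short, zero_mul, zero_add]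
  have h2 : sp (fun p s => K1 c [x] (y :: y' :: p) * Ker cs [x] s) b = 0 := by
    cases b with
    | nil => rfl
    | cons z b =>
      rw [sp_cons, K1_long', zero_mul, zero_add]
      exact sp_zero (fun p s => by rw [K1_long', zero_mul]) b
  rw [h2, add_zero]
  rfl

theorem Ker_nil_left (cs : List (X → ℝ)) (b : List X) : Ker cs [] b = 0 := by
  cases cs with
  | nil => simp only [Ker, List.length_nil, zero_ne_one, false_and, ↓reduceIte]
  | cons c cs => rfl

theorem Ker_nil_right (cs : List (X → ℝ)) (a : List X) : Ker cs a [] = 0 := by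
  cases cs with
  | nil => simp [Ker]
  | cons c cs => exact sp_zero (fun p s => rfl) a

/-- the kernel only depends on the coordinates -/
theorem Ker_map_left (cs : List (X → ℝ)) (g : X → X) (hg : ∀ c ∈ cs, ∀ x, c (g x) = c x) (y : X) :
    ∀ l : List X, Ker cs (l.map g) [y] = Ker cs l [y] := by
  induction cs with
  | nil => intro l; simp [Ker]
  | cons c cs ih =>
    have ih' := ih fun c' hc' => hg c' (List.mem_cons_of_mem _ hc')
    have hc := hg c List.mem_cons_self
    intro l
    rcases l with _ | ⟨x, _ | ⟨x', l⟩⟩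
    · rfl
    · change sp _ _ = sp _ _
      simp only [sp, add_zero, K1_left_short, zero_mul, List.map]
    · rw [List.map_cons, List.map_cons, Ker_cons_pt, Ker_cons_pt, ← List.map_cons, ih']
      simp only [hh, hc]

theorem Ker_map_right (cs : List (X → ℝ)) (g : X → X) (hg : ∀ c ∈ cs, ∀ x, c (g x) = c x) (y : X) :
    ∀ l : List X, Ker cs [y] (l.map g) = Ker cs [y] l := by
  induction cs with
  | nil => intro l; simp [Ker]
  | cons c cs ih =>
    have ih' := ih fun c' hc' => hg c' (List.mem_cons_of_mem _ hc')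
    have hc := hg c List.mem_cons_self
    intro l
    rcases l with _ | ⟨x, _ | ⟨x', l⟩⟩
    · rfl
    · change sp _ _ = sp _ _
      simp only [sp, add_zero, K1_left_short, zero_mul, List.map]
    · rw [List.map_cons, List.map_cons, Ker_pt_cons, Ker_pt_cons, ← List.map_cons, ih']
      simp only [hh, hc]

end Calc

section SupCalc

variable {k : Type*} [CommRing k] {X Y : Type*} {P Q' : List X → Prop}

theorem sup_iff {c : Ch k X} : Sup P c ↔ ∀ l, ¬ P l → c l = 0 := by
  constructor
  · intro h l hl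
    by_contra hc
    exact hl (h l (Finsupp.mem_support_iff.2 hc))
  · intro h l hl
    by_contra hc
    exact Finsupp.mem_support_iff.1 hl (h l hc)

theorem sup_zero : Sup P (0 : Ch k X) := by
  rw [sup_iff]; intro l _; rfl

theorem sup_add {c d : Ch k X} (hc : Sup P c) (hd : Sup P d) : Sup P (c + d) := by
  rw [sup_iff] at *
  intro l hl
  rw [Finsupp.add_apply, hc l hl, hd l hl, add_zero]

theorem sup_neg {c : Ch k X} (hc : Sup P c) : Sup P (-c) := by
  rw [sup_iff] at *
  intro l hl
  rw [Finsupp.neg_apply, hc l hl, neg_zero]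

theorem sup_sub {c d : Ch k X} (hc : Sup P c) (hd : Sup P d) : Sup P (c - d) := by
  rw [sub_eq_add_neg]; exact sup_add hc (sup_neg hd)

theorem sup_smul {c : Ch k X} (r : k) (hc : Sup P c) : Sup P (r • c) := by
  rw [sup_iff] at *
  intro l hl
  rw [Finsupp.smul_apply, hc l hl, smul_zero]

theorem sup_sum {ι : Type*} {s : Finset ι} {f : ι → Ch k X} (h : ∀ i ∈ s, Sup P (f i)) :
    Sup P (∑ i ∈ s, f i) := by
  rw [sup_iff]
  intro l hl
  rw [Finsupp.finsetSum_apply]
  exact Finset.sum_eq_zero fun i hi => (sup_iff.1 (h i hi)) l hl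

theorem sup_single {l : List X} {r : k} (h : P l) : Sup P (Finsupp.single l r) := by
  classical
  rw [sup_iff]
  intro l' hl'
  rw [Finsupp.single_apply, if_neg]
  rintro rfl; exact hl' h

theorem sup_ext {Q' : List Y → Prop} {u : List X → Ch k Y} {c : Ch k X}
    (h : ∀ l ∈ c.support, Sup Q' (u l)) : Sup Q' (ext u c) := by
  rw [Finsupp.linearCombination_apply, Finsupp.sum]
  exact sup_sum fun l hl => sup_smul _ (h l hl)

theorem sup_cone {x : X} {c : Ch k X} (h : Sup (fun l => P (x :: l)) c) : Sup P (cone x c) := by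
  classical
  intro l hl
  have := Finsupp.mapDomain_support hl
  obtain ⟨l', hl', rfl⟩ := Finset.mem_image.1 this
  exact h l' hl'

theorem sup_pf {Q' : List Y → Prop} {f : X → Y} {c : Ch k X}
    (h : Sup (fun l => Q' (l.map f)) c) : Sup Q' (pf f c) := by
  classical
  intro l hl
  have := Finsupp.mapDomain_support hl
  obtain ⟨l', hl', rfl⟩ := Finset.mem_image.1 this
  exact h l' hl'

theorem sup_mono {c : Ch k X} (h : Sup P c) (hPQ : ∀ l, P l → Q' l) : Sup Q' c :=
  fun l hl => hPQ l (h l hl)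

/-- lists of a prism -/
theorem sup_prL (f g : X → Y) (l : List X) :
    Sup (fun l' => l'.length = l.length + 1 ∧ (∀ z ∈ l', ∃ x ∈ l, z = f x ∨ z = g x) ∧
      ∃ x ∈ l, ∃ t, l' = f x :: t) (prL k f g l) := by
  induction l with
  | nil => exact sup_zero
  | cons x l ih =>
    refine sup_sub (sup_single ⟨by simp, ?_, x, List.mem_cons_self, _, rfl⟩) (sup_cone ?_)
    · intro z hz
      rcases List.mem_cons.1 hz with rfl | hz
      · exact ⟨x, List.mem_cons_self, Or.inl rfl⟩
      rcases List.mem_cons.1 hz with rfl | hz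
      · exact ⟨x, List.mem_cons_self, Or.inr rfl⟩
      obtain ⟨w, hw, rfl⟩ := List.mem_map.1 hz
      exact ⟨w, List.mem_cons_of_mem _ hw, Or.inr rfl⟩
    · refine sup_mono ih ?_
      rintro l' ⟨h1, h2, -⟩
      refine ⟨by simp [h1], ?_, x, List.mem_cons_self, _, rfl⟩
      intro z hz
      rcases List.mem_cons.1 hz with rfl | hz
      · exact ⟨x, List.mem_cons_self, Or.inl rfl⟩
      · obtain ⟨w, hw, h⟩ := h2 z hz
        exact ⟨w, List.mem_cons_of_mem _ hw, h⟩

theorem sup_pr (f g : X → Y) (c : Ch k X) :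
    Sup (fun l' => ∃ l ∈ c.support, l'.length = l.length + 1 ∧
      (∀ z ∈ l', ∃ x ∈ l, z = f x ∨ z = g x)) (pr f g c) :=
  sup_ext fun l hl => sup_mono (sup_prL f g l) fun _ h => ⟨l, hl, h.1, h.2.1⟩

theorem ext_pr {M : Type*} [AddCommGroup M] [Module k M] (F : List Y → M) (f g : X → Y)
    (c : Ch k X) : ext F (pr f g c) = ext (fun l => ext F (prL k f g l)) c := by
  induction c using Finsupp.induction_linear with
  | zero => simp only [map_zero]
  | add a b ha hb => simp only [map_add, ha, hb]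
  | single l r =>
    rw [pr_single, map_smul, Finsupp.linearCombination_single]

theorem ext_cone {M : Type*} [AddCommGroup M] [Module k M] (F : List X → M) (x : X)
    (c : Ch k X) : ext F (cone x c) = ext (fun l => F (x :: l)) c := by
  induction c using Finsupp.induction_linear with
  | zero => simp
  | add a b ha hb => simp only [map_add, ha, hb]
  | single l r =>
    rw [cone_single, Finsupp.linearCombination_single, Finsupp.linearCombination_single]

theorem ext_eq_zero {M : Type*} [AddCommGroup M] [Module k M] {F : List X → M}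
    {c : Ch k X} (h : ∀ l ∈ c.support, F l = 0) : ext F c = 0 := by
  rw [Finsupp.linearCombination_apply, Finsupp.sum]
  exact Finset.sum_eq_zero fun l hl => by rw [h l hl, smul_zero]

theorem ext_mul (r : k) (F : List X → k) (c : Ch k X) :
    ext (fun l => r * F l) c = r * ext F c := by
  rw [Finsupp.linearCombination_apply, Finsupp.linearCombination_apply, Finsupp.sum,
    Finsupp.sum, Finset.mul_sum]
  refine Finset.sum_congr rfl fun l _ => ?_
  rw [smul_eq_mul, smul_eq_mul]; ring

end SupCalc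

section KerPrism

variable {X : Type*}

/-- evaluation of the kernel on a prism: right slot a point -/
theorem ext_Ker_prL (c : X → ℝ) (cs : List (X → ℝ)) (f g : X → X) (s t : ℝ)
    (hf : ∀ x, c (f x) = s) (hg : ∀ x, c (g x) = t) (hcs : ∀ c' ∈ cs, ∀ x, c' (g x) = c' x)
    (y : X) (l : List X) :
    ext (fun l => Ker (c :: cs) l [y]) (prL (ZMod 2) f g l) =
      ((if s ≤ c y then 1 else 0) + (if t ≤ c y then 1 else 0)) * Ker cs l [y] := by
  classical
  cases l with
  | nil => rw [Ker_nil_left, mul_zero, prL, map_zero]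
  | cons x l =>
    rw [prL, map_sub, Finsupp.linearCombination_single, one_smul, ext_cone]
    have h0 : ext (fun l => Ker (c :: cs) (f x :: l) [y]) (prL (ZMod 2) f g l) = 0 := by
      refine ext_eq_zero fun l' hl' => ?_
      obtain ⟨-, -, x', -, t', rfl⟩ := sup_prL f g l l' hl'
      rw [Ker_cons_pt]
      simp only [hh, hf, two_zero, zero_mul]
    rw [h0, sub_zero, Ker_cons_pt, ← List.map_cons, Ker_map_left cs g hcs]
    simp only [hh, hf, hg]

/-- evaluation of the kernel on a prism: left slot a point -/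
theorem ext_Ker_prL' (c : X → ℝ) (cs : List (X → ℝ)) (f g : X → X) (s t : ℝ)
    (hf : ∀ x, c (f x) = s) (hg : ∀ x, c (g x) = t) (hcs : ∀ c' ∈ cs, ∀ x, c' (g x) = c' x)
    (y : X) (l : List X) :
    ext (fun l => Ker (c :: cs) [y] l) (prL (ZMod 2) f g l) =
      ((if c y ≤ s then 1 else 0) + (if c y ≤ t then 1 else 0)) * Ker cs [y] l := by
  classical
  cases l with
  | nil => rw [Ker_nil_right, mul_zero, prL, map_zero]
  | cons x l =>
    rw [prL, map_sub, Finsupp.linearCombination_single, one_smul, ext_cone]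
    have h0 : ext (fun l => Ker (c :: cs) [y] (f x :: l)) (prL (ZMod 2) f g l) = 0 := by
      refine ext_eq_zero fun l' hl' => ?_
      obtain ⟨-, -, x', -, t', rfl⟩ := sup_prL f g l l' hl'
      rw [Ker_pt_cons]
      simp only [hh, hf, two_zero, zero_mul]
    rw [h0, sub_zero, Ker_pt_cons, ← List.map_cons, Ker_map_right cs g hcs]
    simp only [hh, hf, hg]

end KerPrism

section BoxLemmas

variable {n : ℕ}

/-- the partition points -/
noncomputable def tt (N a : ℕ) : ℝ := -9 + 18 * (a : ℝ) / N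

theorem tt_zero (N : ℕ) : tt N 0 = -9 := by simp [tt]

theorem tt_last {N : ℕ} (hN : 0 < N) : tt N N = 9 := by
  have : (N : ℝ) ≠ 0 := by positivity
  rw [tt, mul_div_assoc, div_self this]; norm_num

theorem abs_tt {N a : ℕ} (hN : 0 < N) (ha : a ≤ N) : |tt N a| ≤ 9 := by
  have hN' : (0 : ℝ) < N := by exact_mod_cast hN
  have ha' : (a : ℝ) ≤ N := by exact_mod_cast ha
  have h1 : 18 * (a : ℝ) / N ≤ 18 := by
    rw [div_le_iff₀ hN']; linarith only [ha']
  have h2 : 0 ≤ 18 * (a : ℝ) / N := by (clear * - hN; positivity)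
  rw [tt, abs_le]; constructor <;> linarith only [h1, h2]

theorem tt_succ {N a : ℕ} : tt N (a + 1) - tt N a = 18 / N := by
  rw [tt, tt]; push_cast; ring

theorem swp_eq (N : ℕ) (i : Fin n) (c : Ch (ZMod 2) (Fin n → ℝ)) :
    swp N i c = ∑ a ∈ Finset.range N, pr (fun y => Function.update y i (tt N a))
      (fun y => Function.update y i (tt N (a + 1))) c := by
  unfold swp tt
  push_cast
  rfl

theorem boxL_supp {N : ℕ} (hN : 0 < N) (is : List (Fin n)) :
    Sup (fun l => l.length = is.length + 1 ∧ (∀ x ∈ l, ∀ j, |x j| ≤ 9) ∧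
      ∀ x ∈ l, ∀ y ∈ l, ∀ j, |x j - y j| ≤ 18 / (N : ℝ)) (boxL N is) := by
  have hN' : (0 : ℝ) < N := by exact_mod_cast hN
  have hpos : (0 : ℝ) ≤ 18 / N := by positivity
  induction is with
  | nil =>
    refine sup_single ⟨rfl, ?_, ?_⟩
    · intro x hx j
      rw [List.mem_singleton.1 hx]; simp only [Pi.zero_apply, abs_zero, Nat.ofNat_nonneg]
    · intro x hx y hy j
      rw [List.mem_singleton.1 hx, List.mem_singleton.1 hy]
      simpa only [Pi.zero_apply, sub_self, abs_zero] using hpos
  | cons i is ih =>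
    rw [boxL, swp_eq]
    refine sup_sum fun a ha => sup_mono (sup_pr _ _ _) ?_
    have ha' : a < N := Finset.mem_range.1 ha
    rintro l' ⟨l, hl, hlen, hent⟩
    obtain ⟨h1, h2, h3⟩ := ih l hl
    -- description of the entries
    have key : ∀ z ∈ l', ∃ x ∈ l, ∃ b, (b = a ∨ b = a + 1) ∧
        z = Function.update x i (tt N b) := by
      intro z hz
      obtain ⟨x, hx, h | h⟩ := hent z hz
      · exact ⟨x, hx, a, Or.inl rfl, h⟩
      · exact ⟨x, hx, a + 1, Or.inr rfl, h⟩
    refine ⟨by rw [hlen, h1, List.length_cons], ?_, ?_⟩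
    · intro z hz j
      obtain ⟨x, hx, b, hb, rfl⟩ := key z hz
      by_cases hj : j = i
      · subst hj
        rw [Function.update_self]
        exact abs_tt hN (by omega)
      · rw [Function.update_of_ne hj]; exact h2 x hx j
    · intro z hz w hw j
      obtain ⟨x, hx, b, hb, rfl⟩ := key z hz
      obtain ⟨y, hy, d, hd, rfl⟩ := key w hw
      by_cases hj : j = i
      · subst hj
        rw [Function.update_self, Function.update_self]
        have e := @tt_succ N a
        rcases hb with rfl | rfl <;> rcases hd with rfl | rfl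
        · simpa only [sub_self, abs_zero, ge_iff_le] using hpos
        · rw [abs_sub_comm, e, abs_of_nonneg hpos]
        · rw [e, abs_of_nonneg hpos]
        · simpa only [sub_self, abs_zero, ge_iff_le] using hpos
      · rw [Function.update_of_ne hj, Function.update_of_ne hj]; exact h3 x hx y hy j

/-- (M4a) the lists of the box chain -/
theorem box_supp {N : ℕ} (hN : 0 < N) :
    Sup (fun l => l.length = n + 1 ∧ In (Q n 9) l ∧
      ∀ x ∈ l, ∀ y ∈ l, dist x y ≤ 18 / (N : ℝ)) (box n N) := by
  have hN' : (0 : ℝ) < N := by exact_mod_cast hN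
  refine sup_mono (boxL_supp hN _) ?_
  rintro l ⟨h1, h2, h3⟩
  refine ⟨by rw [h1, List.length_finRange], ?_, ?_⟩
  · intro x hx
    rw [mem_closedBall, dist_zero_right]
    exact (pi_norm_le_iff_of_nonneg (by norm_num)).2 fun j => by
      rw [Real.norm_eq_abs]; exact h2 x hx j
  · intro x hx y hy
    exact (dist_pi_le_iff (by positivity)).2 fun j => by
      rw [Real.dist_eq]; exact h3 x hx y hy j

theorem bd_swp {N : ℕ} (i : Fin n) (c : Ch (ZMod 2) (Fin n → ℝ)) :
    bd (swp N i c) = pf (fun y => Function.update y i (tt N N)) c -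
      pf (fun y => Function.update y i (tt N 0)) c -
      ∑ a ∈ Finset.range N, pr (fun y => Function.update y i (tt N a))
      (fun y => Function.update y i (tt N (a + 1))) (bd c) := by
  rw [swp_eq, map_sum]
  have h : ∀ a ∈ Finset.range N, bd (pr (fun y => Function.update y i (tt N a))
      (fun y => Function.update y i (tt N (a + 1))) c) =
      (pf (fun y => Function.update y i (tt N (a + 1))) c -
        pf (fun y => Function.update y i (tt N a)) c) -
      pr (fun y => Function.update y i (tt N a))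
      (fun y => Function.update y i (tt N (a + 1))) (bd c) := by
    intro a _
    rw [← bd_pr]; abel
  rw [Finset.sum_congr rfl h, Finset.sum_sub_distrib,
    Finset.sum_range_sub fun a => pf (fun y => Function.update y i (tt N a)) c]

theorem bd_boxL_supp {N : ℕ} (hN : 0 < N) (is : List (Fin n)) (hne : is ≠ []) (hnd : is.Nodup) :
    Sup (fun l => ∃ i ∈ is, (∀ x ∈ l, x i = -9) ∨ (∀ x ∈ l, x i = 9)) (bd (boxL N is)) := by
  induction is with
  | nil => exact absurd rfl hne
  | cons i is ih =>
    rw [boxL, bd_swp]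
    refine sup_sub (sup_sub (sup_pf ?_) (sup_pf ?_)) (sup_sum fun a ha => ?_)
    · intro l _
      refine ⟨i, List.mem_cons_self, Or.inr ?_⟩
      intro x hx
      obtain ⟨y, -, rfl⟩ := List.mem_map.1 hx
      rw [Function.update_self, tt_last hN]
    · intro l _
      refine ⟨i, List.mem_cons_self, Or.inl ?_⟩
      intro x hx
      obtain ⟨y, -, rfl⟩ := List.mem_map.1 hx
      rw [Function.update_self, tt_zero]
    · rcases is with _ | ⟨j, is⟩
      · have : bd (boxL N ([] : List (Fin n))) = Finsupp.single [] 1 := by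
          rw [boxL, bd_single, one_smul, bdL, bdL, map_zero, sub_zero]
        rw [this, pr_single, prL, smul_zero]
        exact sup_zero
      · have ih' := ih (by simp) (List.nodup_cons.1 hnd).2
        refine sup_mono (sup_pr _ _ _) ?_
        rintro l' ⟨l, hl, -, hent⟩
        obtain ⟨j', hj', h⟩ := ih' l hl
        have hji : j' ≠ i := by
          rintro rfl; exact (List.nodup_cons.1 hnd).1 hj'
        refine ⟨j', List.mem_cons_of_mem _ hj', ?_⟩
        refine h.imp (fun h z hz => ?_) (fun h z hz => ?_) <;>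
        · obtain ⟨x, hx, rfl | rfl⟩ := hent z hz <;>
          rw [Function.update_of_ne hji, h x hx]

/-- (M4b) the lists of the boundary of the box chain -/
theorem bd_box_supp {N : ℕ} (hN : 0 < N) (hn : n ≠ 0) :
    Sup (fun l => ∃ i : Fin n, (∀ x ∈ l, x i = -9) ∨ (∀ x ∈ l, x i = 9)) (bd (box n N)) := by
  refine sup_mono (bd_boxL_supp hN _ ?_ (List.nodup_finRange n)) ?_
  · intro h
    have := congrArg List.length h
    rw [List.length_finRange] at this
    exact hn this
  · rintro l ⟨i, -, h⟩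
    exact ⟨i, h⟩

theorem sum_tel (u : ℕ → ZMod 2) (N : ℕ) :
    ∑ a ∈ Finset.range N, (u a + u (a + 1)) = u 0 + u N := by
  induction N with
  | zero => simp [two_zero]
  | succ N ih =>
    rw [Finset.sum_range_succ, ih]
    have := two_zero (u N)
    calc u 0 + u N + (u N + u (N + 1)) = u 0 + (u N + u N) + u (N + 1) := by ring
      _ = _ := by rw [this, add_zero]

theorem ext_Ker_boxL {N : ℕ} (hN : 0 < N) {y : Fin n → ℝ} (hy : ∀ j, -9 ≤ y j ∧ y j < 9)
    (is : List (Fin n)) (hnd : is.Nodup) :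
    ext (fun l => Ker (is.map fun i y => y i) l [y]) (boxL N is) = 1 := by
  induction is with
  | nil => simp [boxL, Ker]
  | cons i is ih =>
    rw [boxL, swp_eq, map_sum]
    have hi : i ∉ is := (List.nodup_cons.1 hnd).1
    have h : ∀ a ∈ Finset.range N, ext (fun l => Ker ((i :: is).map fun i y => y i) l [y])
        (pr (fun y => Function.update y i (tt N a))
          (fun y => Function.update y i (tt N (a + 1))) (boxL N is)) =
        (if tt N a ≤ y i then 1 else 0) + (if tt N (a + 1) ≤ y i then 1 else 0) := by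
      intro a _
      rw [ext_pr]
      have h1 : ∀ l : List (Fin n → ℝ),
          ext (fun l => Ker ((i :: is).map fun i y => y i) l [y]) (prL (ZMod 2)
          (fun y => Function.update y i (tt N a))
          (fun y => Function.update y i (tt N (a + 1))) l) =
          ((if tt N a ≤ y i then 1 else 0) + (if tt N (a + 1) ≤ y i then 1 else 0)) *
            Ker (is.map fun i y => y i) l [y] := by
        intro l
        refine ext_Ker_prL (fun y : Fin n → ℝ => y i) _ _ _ _ _ (fun x => Function.update_self ..)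
          (fun x => Function.update_self ..) ?_ y l
        intro c' hc' x
        obtain ⟨j, hj, rfl⟩ := List.mem_map.1 hc'
        have : j ≠ i := by rintro rfl; exact hi hj
        exact Function.update_of_ne this _ _
      simp only [h1]
      rw [ext_mul, ih (List.nodup_cons.1 hnd).2, mul_one]
    rw [Finset.sum_congr rfl h, sum_tel fun a => if tt N a ≤ y i then 1 else 0, tt_zero,
      tt_last hN, if_pos (hy i).1, if_neg (not_le.2 (hy i).2), add_zero]

theorem ext_Ker_boxL' {N : ℕ} (hN : 0 < N) {y : Fin n → ℝ} (hy : ∀ j, -9 < y j ∧ y j ≤ 9)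
    (is : List (Fin n)) (hnd : is.Nodup) :
    ext (fun l => Ker (is.map fun i y => y i) [y] l) (boxL N is) = 1 := by
  induction is with
  | nil => simp [boxL, Ker]
  | cons i is ih =>
    rw [boxL, swp_eq, map_sum]
    have hi : i ∉ is := (List.nodup_cons.1 hnd).1
    have h : ∀ a ∈ Finset.range N, ext (fun l => Ker ((i :: is).map fun i y => y i) [y] l)
        (pr (fun y => Function.update y i (tt N a))
          (fun y => Function.update y i (tt N (a + 1))) (boxL N is)) =
        (if y i ≤ tt N a then 1 else 0) + (if y i ≤ tt N (a + 1) then 1 else 0) := by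
      intro a _
      rw [ext_pr]
      have h1 : ∀ l : List (Fin n → ℝ),
          ext (fun l => Ker ((i :: is).map fun i y => y i) [y] l) (prL (ZMod 2)
          (fun y => Function.update y i (tt N a))
          (fun y => Function.update y i (tt N (a + 1))) l) =
          ((if y i ≤ tt N a then 1 else 0) + (if y i ≤ tt N (a + 1) then 1 else 0)) *
            Ker (is.map fun i y => y i) [y] l := by
        intro l
        refine ext_Ker_prL' (fun y : Fin n → ℝ => y i) _ _ _ _ _ (fun x => Function.update_self ..)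
          (fun x => Function.update_self ..) ?_ y l
        intro c' hc' x
        obtain ⟨j, hj, rfl⟩ := List.mem_map.1 hc'
        have : j ≠ i := by rintro rfl; exact hi hj
        exact Function.update_of_ne this _ _
      simp only [h1]
      rw [ext_mul, ih (List.nodup_cons.1 hnd).2, mul_one]
    rw [Finset.sum_congr rfl h, sum_tel fun a => if y i ≤ tt N a then 1 else 0, tt_zero,
      tt_last hN, if_pos (hy i).2, if_neg (not_le.2 (hy i).1), zero_add]

theorem abs_le_of_mem_Q {x : Fin n → ℝ} {r : ℝ} (hx : x ∈ Q n r) (j : Fin n) : |x j| ≤ r := by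
  rw [mem_closedBall, dist_zero_right] at hx
  exact (norm_le_pi_norm x j).trans hx

/-- (M4c) the kernel of the box chain at a point -/
theorem Ker_box {N : ℕ} (hN : 0 < N) {x : Fin n → ℝ} (hx : x ∈ Q n 8) :
    ext (fun l => Ker (crd n) l [x]) (box n N) = 1 :=
  ext_Ker_boxL hN (fun j => by
    have := abs_le.1 (abs_le_of_mem_Q hx j); constructor <;> linarith only [this]) _ (List.nodup_finRange n)

theorem Ker_box' {N : ℕ} (hN : 0 < N) {x : Fin n → ℝ} (hx : x ∈ Q n 8) :
    ext (fun l => Ker (crd n) [x] l) (box n N) = 1 :=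
  ext_Ker_boxL' hN (fun j => by
    have := abs_le.1 (abs_le_of_mem_Q hx j); constructor <;> linarith only [this]) _ (List.nodup_finRange n)

end BoxLemmas

end Vale.Agent.P239.M.Box

namespace Vale.Agent.P239.M

theorem sup_box (n N : ℕ) (hN : 0 < N) : Sup (fun l => l.length = n + 1 ∧ In (Q n 9) l ∧
    ∀ u ∈ l, ∀ v ∈ l, dist u v ≤ 18 / N) (box n N) := Box.box_supp hN

theorem sup_bd_box (n N : ℕ) (hn : 0 < n) (hN : 0 < N) : Sup (fun l => ∃ i : Fin n,
    (∀ u ∈ l, u i = -9) ∨ (∀ u ∈ l, u i = 9)) (bd (box n N)) := Box.bd_box_supp hN hn.ne'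

theorem box_right (n N : ℕ) (hN : 0 < N) (x : Fin n → ℝ) (hx : x ∈ Q n 8) :
    ext (fun l => Ker (crd n) l [x]) (box n N) = 1 := Box.Ker_box hN hx

theorem box_left (n N : ℕ) (hN : 0 < N) (x : Fin n → ℝ) (hx : x ∈ Q n 8) :
    ext (fun l => Ker (crd n) [x] l) (box n N) = 1 := Box.Ker_box' hN hx

end Vale.Agent.P239.M
end

section

/-!
Block M6: charts.
-/

namespace Vale.Agent.P239.M

open Metric Set Topology

section M6

variable {X : Type*} [MetricSpace X] {n : ℕ} {β : (Fin n → ℝ) → X}

theorem Chart.ext_pf {k : Type*} [CommRing k] {X Y A : Type*} [AddCommGroup A] [Module k A] (f : X → Y)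
    (u : List Y → A) (c : Ch k X) : ext u (pf f c) = ext (fun l => u (l.map f)) c := by
  simp only [pf, Finsupp.lmapDomain_apply]
  rw [Finsupp.linearCombination_mapDomain]
  rfl

theorem Chart.isCompact_Q (n : ℕ) (r : ℝ) : IsCompact (Q n r) := isCompact_closedBall _ _

omit [MetricSpace X] in
theorem Chart.exists_map {A : Set (Fin n → ℝ)} {l : List X} (h : In (β '' A) l) :
    ∃ l' : List (Fin n → ℝ), In A l' ∧ l = l'.map β := by
  induction l with
  | nil => exact ⟨[], by intro x hx; simp at hx, rfl⟩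
  | cons x l ih =>
    obtain ⟨u, hu, rfl⟩ := h x (List.mem_cons_self)
    obtain ⟨l', hl', rfl⟩ := ih fun y hy => h y (List.mem_cons_of_mem _ hy)
    refine ⟨u :: l', ?_, rfl⟩
    intro y hy
    rcases List.mem_cons.1 hy with rfl | hy
    · exact hu
    · exact hl' y hy

omit [MetricSpace X] in
theorem Chart.in_map {A : Set (Fin n → ℝ)} {l : List (Fin n → ℝ)} (h : In A l) :
    In (β '' A) (l.map β) := by
  intro x hx
  obtain ⟨u, hu, rfl⟩ := List.mem_map.1 hx
  exact ⟨u, h u hu, rfl⟩

theorem chart_unif (hβ : IsOpenEmbedding β) (R : ℝ) {κ : ℝ} (hκ : 0 < κ) :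
    ∃ κ' > 0, ∀ u ∈ Q n R, ∀ v ∈ Q n R, dist u v < κ' → dist (β u) (β v) < κ := by
  have h := (Chart.isCompact_Q n R).uniformContinuousOn_of_continuous
    hβ.continuous.continuousOn
  obtain ⟨δ, hδ, h⟩ := Metric.uniformContinuousOn_iff.1 h κ hκ
  exact ⟨δ, hδ, fun u hu v hv => h u hu v hv⟩

theorem Chart.inv (hβ : IsOpenEmbedding β) (R : ℝ) {κ : ℝ} (hκ : 0 < κ) :
    ∃ κ' > 0, ∀ u ∈ Q n R, ∀ v ∈ Q n R, dist (β u) (β v) < κ' → dist u v < κ := by
  let K : Set ((Fin n → ℝ) × (Fin n → ℝ)) := (Q n R ×ˢ Q n R) ∩ {w | κ ≤ dist w.1 w.2}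
  have hK : IsCompact K := ((Chart.isCompact_Q n R).prod (Chart.isCompact_Q n R)).inter_right
    (isClosed_le continuous_const continuous_dist)
  have hf : Continuous fun w : (Fin n → ℝ) × (Fin n → ℝ) => dist (β w.1) (β w.2) :=
    (hβ.continuous.comp continuous_fst).dist (hβ.continuous.comp continuous_snd)
  rcases K.eq_empty_or_nonempty with hE | hN
  · refine ⟨1, one_pos, fun u hu v hv _ => ?_⟩
    by_contra hcon
    have : (u, v) ∈ K := ⟨⟨hu, hv⟩, not_lt.1 hcon⟩
    rw [hE] at this
    exact this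
  · obtain ⟨w, hw, hmin⟩ := hK.exists_isMinOn hN hf.continuousOn
    refine ⟨dist (β w.1) (β w.2), ?_, fun u hu v hv huv => ?_⟩
    · rw [gt_iff_lt, dist_pos]
      intro h
      have h1 : w.1 = w.2 := hβ.injective h
      have h2 : κ ≤ dist w.1 w.2 := hw.2
      rw [h1, dist_self] at h2
      linarith
    · by_contra hcon
      have : (u, v) ∈ K := ⟨⟨hu, hv⟩, not_lt.1 hcon⟩
      have h3 := hmin this
      simp only [mem_ofPred_eq] at h3
      linarith only [huv, h3]

theorem chart_mod (hβ : IsOpenEmbedding β) {r R : ℝ} (h : r < R) {κ : ℝ} (hκ : 0 < κ) :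
    ∃ κ' > 0, ∀ u ∈ Q n r, ∀ y : X, dist (β u) y < κ' → ∃ v ∈ Q n R, β v = y ∧ dist u v < κ := by
  obtain ⟨κ₁, h1, hinv⟩ := Chart.inv hβ R hκ
  have hsub : β '' Q n r ⊆ β '' ball 0 R := image_mono (closedBall_subset_ball h)
  obtain ⟨κ₂, h2, hth⟩ := ((Chart.isCompact_Q n r).image hβ.continuous).exists_thickening_subset_open
    (hβ.isOpenMap _ isOpen_ball) hsub
  refine ⟨min κ₁ κ₂, lt_min h1 h2, fun u hu y hy => ?_⟩
  have hy' : y ∈ thickening κ₂ (β '' Q n r) := by
    rw [mem_thickening_iff]
    exact ⟨β u, mem_image_of_mem _ hu, by rw [dist_comm]; exact hy.trans_le (min_le_right _ _)⟩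
  obtain ⟨v, hv, rfl⟩ := hth hy'
  have hv' : v ∈ Q n R := ball_subset_closedBall hv
  exact ⟨v, hv', rfl, hinv u (closedBall_subset_closedBall h.le hu) v hv'
    (hy.trans_le (min_le_left _ _))⟩

theorem co_apply (hβ : IsOpenEmbedding β) (i : Fin n) (u : Fin n → ℝ) : co β i (β u) = u i := by
  rw [co, Function.leftInverse_invFun hβ.injective u]

theorem KerC_map (hβ : IsOpenEmbedding β) (a b : List (Fin n → ℝ)) :
    KerC β (a.map β) (b.map β) = Ker (crd n) a b := by
  rw [KerC, Ker_comap, List.map_map, crd]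
  congr 1
  apply List.map_congr_left
  intro i _
  funext u
  exact co_apply hβ i u

theorem KerC_bd (_hβ : IsOpenEmbedding β) (a b : List X) :
    ext (fun a' => KerC β a' b) (bdL (ZMod 2) a) =
      ext (fun b' => KerC β a b') (bdL (ZMod 2) b) := Ker_bd _ a b

theorem Chart.mem_crd (i : Fin n) : (fun y : Fin n → ℝ => y i) ∈ crd n :=
  List.mem_map.2 ⟨i, List.mem_finRange i, rfl⟩

/-- coordinate locality -/
theorem Chart.Ker_crd_local {a b : List (Fin n → ℝ)} (h : Ker (crd n) a b ≠ 0) {κ κ' : ℝ}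
    (hκ : 0 ≤ κ + κ')
    (ha : ∀ x ∈ a, ∀ x' ∈ a, dist x x' ≤ κ) (hb : ∀ y ∈ b, ∀ y' ∈ b, dist y y' ≤ κ') :
    ∀ x ∈ a, ∀ y ∈ b, dist x y ≤ κ + κ' := by
  intro x hx y hy
  rw [dist_pi_le_iff hκ]
  intro i
  rw [Real.dist_eq]
  exact Ker_local (crd n) a b h _ (Chart.mem_crd i)
    (fun x hx x' hx' => by
      rw [← Real.dist_eq]; exact (dist_le_pi_dist x x' i).trans (ha x hx x' hx'))
    (fun y hy y' hy' => by
      rw [← Real.dist_eq]; exact (dist_le_pi_dist y y' i).trans (hb y hy y' hy')) x hx y hy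

/-- locality in the metric of `X` -/
theorem KerC_local (hβ : IsOpenEmbedding β) {κ : ℝ} (hκ : 0 < κ) : ∃ κ' > 0, ∀ a b : List X,
    Sm κ' a → Sm κ' b → In (β '' Q n 8) a → In (β '' Q n 8) b → KerC β a b ≠ 0 →
      ∀ x ∈ a, ∀ y ∈ b, dist x y < κ := by
  obtain ⟨κ₁, h1, hu⟩ := chart_unif hβ 8 hκ
  obtain ⟨κ₂, h2, hi⟩ := Chart.inv hβ 8 (half_pos (half_pos h1))
  refine ⟨κ₂, h2, fun a b ha hb hIa hIb hne => ?_⟩
  obtain ⟨a, hIa', rfl⟩ := Chart.exists_map hIa
  obtain ⟨b, hIb', rfl⟩ := Chart.exists_map hIb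
  rw [KerC_map hβ] at hne
  have hloc := Chart.Ker_crd_local hne (κ := κ₁ / 2 / 2) (κ' := κ₁ / 2 / 2) (by (clear * - h1; positivity))
    (fun x hx x' hx' => (hi x (hIa' x hx) x' (hIa' x' hx')
      (ha _ (List.mem_map_of_mem hx) _ (List.mem_map_of_mem hx'))).le)
    (fun x hx x' hx' => (hi x (hIb' x hx) x' (hIb' x' hx')
      (hb _ (List.mem_map_of_mem hx) _ (List.mem_map_of_mem hx'))).le)
  intro x hx y hy
  obtain ⟨u, hu', rfl⟩ := List.mem_map.1 hx
  obtain ⟨v, hv', rfl⟩ := List.mem_map.1 hy
  refine hu u (hIa' u hu') v (hIb' v hv') ?_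
  have := hloc u hu' v hv'
  (clear * - h1 this; linarith)

/-- fundamental chain of the chart -/
theorem sup_muC (hβ : IsOpenEmbedding β) {κ : ℝ} (hκ : 0 < κ) : ∃ N₀ : ℕ, ∀ N ≥ N₀,
    Sup (fun l => l.length = n + 1 ∧ Sm κ l ∧ In (β '' Q n 9) l) (muC β N) := by
  obtain ⟨κ₁, h1, hu⟩ := chart_unif hβ 9 hκ
  obtain ⟨N₁, hN₁⟩ := exists_nat_gt (18 / κ₁)
  refine ⟨N₁ + 1, fun N hN => ?_⟩
  have hN0 : 0 < N := by omega
  refine Sup.pf β ((sup_box n N hN0).mono ?_)
  rintro l ⟨hl, hI, hd⟩
  refine ⟨by rw [List.length_map, hl], ?_, Chart.in_map hI⟩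
  intro x hx y hy
  obtain ⟨u, hu', rfl⟩ := List.mem_map.1 hx
  obtain ⟨v, hv', rfl⟩ := List.mem_map.1 hy
  refine hu u (hI u hu') v (hI v hv') ((hd u hu' v hv').trans_lt ?_)
  have hNR : (0 : ℝ) < N := by exact_mod_cast hN0
  have hN1R : 18 / κ₁ < N := hN₁.trans (by exact_mod_cast (by omega : N₁ < N))
  rw [div_lt_iff₀ h1] at hN1R
  rw [div_lt_iff₀ hNR]
  linarith only [hN1R]

theorem sup_bd_muC (hβ : IsOpenEmbedding β) (hn : 0 < n) (N : ℕ) (hN : 0 < N) :
    Sup (fun l => ∃ i : Fin n, (∀ x ∈ l, co β i x = -9) ∨ (∀ x ∈ l, co β i x = 9))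
      (bd (muC β N)) := by
  rw [muC, bd_pf]
  refine Sup.pf β ((sup_bd_box n N hn hN).mono ?_)
  rintro l ⟨i, h | h⟩
  · refine ⟨i, Or.inl fun x hx => ?_⟩
    obtain ⟨u, hu, rfl⟩ := List.mem_map.1 hx
    rw [co_apply hβ, h u hu]
  · refine ⟨i, Or.inr fun x hx => ?_⟩
    obtain ⟨u, hu, rfl⟩ := List.mem_map.1 hx
    rw [co_apply hβ, h u hu]

theorem Chart.abs_le_of_mem_Q {r : ℝ} {u : Fin n → ℝ} (hu : u ∈ Q n r) (i : Fin n) : |u i| ≤ r := by
  have h := (dist_le_pi_dist u 0 i).trans (mem_closedBall.1 hu)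
  rwa [Real.dist_eq, Pi.zero_apply, sub_zero] at h

theorem bd_muC_far (hβ : IsOpenEmbedding β) (hn : 0 < n) (N : ℕ) (hN : 0 < N) :
    Sup (fun l => ∀ x ∈ l, x ∉ β '' Q n 8) (bd (muC β N)) := by
  refine (sup_bd_muC hβ hn N hN).mono ?_
  rintro l ⟨i, h⟩ x hx ⟨u, hu, rfl⟩
  have h8 := abs_le.1 (Chart.abs_le_of_mem_Q hu i)
  rcases h with h | h
  · have := h _ hx
    rw [co_apply hβ] at this
    linarith only [h8, this]
  · have := h _ hx
    rw [co_apply hβ] at this
    linarith only [h8, this]

theorem muC_right (hβ : IsOpenEmbedding β) (N : ℕ) (hN : 0 < N) (x : X)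
    (hx : x ∈ β '' Q n 8) : ext (fun l => KerC β l [x]) (muC β N) = 1 := by
  obtain ⟨u, hu, rfl⟩ := hx
  rw [muC, Chart.ext_pf, ← box_right n N hN u hu]
  congr 1
  have : (fun l : List (Fin n → ℝ) => KerC β (l.map β) [β u]) =
      fun l => Ker (crd n) l [u] := by
    funext l
    exact KerC_map hβ l [u]
  rw [this]

theorem muC_left (hβ : IsOpenEmbedding β) (N : ℕ) (hN : 0 < N) (x : X)
    (hx : x ∈ β '' Q n 8) : ext (fun l => KerC β [x] l) (muC β N) = 1 := by
  obtain ⟨u, hu, rfl⟩ := hx
  rw [muC, Chart.ext_pf, ← box_left n N hN u hu]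
  congr 1
  have : (fun l : List (Fin n → ℝ) => KerC β [β u] (l.map β)) =
      fun l => Ker (crd n) [u] l := by
    funext l
    exact KerC_map hβ [u] l
  rw [this]

theorem dg_muC (hβ : IsOpenEmbedding β) : ∃ N₀ : ℕ, ∀ N ≥ N₀, ∀ x ∈ β '' Q n 7,
    dg β (muC β N) x = 1 ∧ dg' β (muC β N) x = 1 := by
  classical
  refine ⟨19, fun N hN x hx => ?_⟩
  obtain ⟨u, hu, rfl⟩ := hx
  have hN0 : 0 < N := by omega
  have hu8 : u ∈ Q n 8 := closedBall_subset_closedBall (by norm_num) hu
  have hNR : (18 : ℝ) / N < 1 := by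
    have : (18 : ℝ) < N := by exact_mod_cast (by omega : 18 < N)
    rw [div_lt_one (by linarith only [this])]; exact this
  have hne : ∀ l : List (Fin n → ℝ), (∀ v ∈ l, ∀ w ∈ l, dist v w ≤ 18 / N) → ¬ In (Q n 8) l →
      Ker (crd n) l [u] = 0 ∧ Ker (crd n) [u] l = 0 := by
    intro l hd hI
    obtain ⟨v, hv, hv8⟩ : ∃ v ∈ l, v ∉ Q n 8 := by
      by_contra hcon
      push Not at hcon
      exact hI hcon
    have hfar : 18 / (N : ℝ) + 0 < dist v u := by
      rw [mem_closedBall, not_le] at hv8
      have h1 := mem_closedBall.1 hu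
      have := dist_triangle v u 0
      linarith only [hNR, hv8, h1, this]
    constructor
    · by_contra h0
      have := Chart.Ker_crd_local h0 (κ := 18 / N) (κ' := 0) (by (clear * - hN; positivity)) hd
        (by intro y hy y' hy'; rw [List.mem_singleton.1 hy, List.mem_singleton.1 hy', dist_self])
        v hv u (by simp)
      linarith only [hfar, this]
    · by_contra h0
      have := Chart.Ker_crd_local h0 (κ := 0) (κ' := 18 / N) (by (clear * - hN; positivity))
        (by intro y hy y' hy'; rw [List.mem_singleton.1 hy, List.mem_singleton.1 hy', dist_self])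
        hd u (by simp) v hv
      rw [dist_comm] at this
      linarith only [hfar, this]
  constructor
  · rw [dg, muC, Chart.ext_pf, ← box_right n N hN0 u hu8]
    refine ext_congr (sup_box n N hN0) ?_
    rintro l ⟨-, -, hd⟩
    split_ifs with hI
    · exact KerC_map hβ l [u]
    · exact (hne l hd fun h => hI (Chart.in_map h)).1.symm
  · rw [dg', muC, Chart.ext_pf, ← box_left n N hN0 u hu8]
    refine ext_congr (sup_box n N hN0) ?_
    rintro l ⟨-, -, hd⟩
    split_ifs with hI
    · exact KerC_map hβ [u] l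
    · exact (hne l hd fun h => hI (Chart.in_map h)).2.symm

/-- boundaries have degree zero -/
theorem dg_bd (hβ : IsOpenEmbedding β) : ∃ κ > 0, ∀ e : Ch (ZMod 2) X, Sup (Sm κ) e →
    ∀ x ∈ β '' Q n 7, dg β (bd e) x = 0 ∧ dg' β (bd e) x = 0 := by
  classical
  obtain ⟨κ₁, h1, hmod⟩ := chart_mod hβ (show (15 / 2 : ℝ) < 8 by norm_num) one_pos
  obtain ⟨κ₂, h2, hi⟩ := Chart.inv hβ 8 (show (0 : ℝ) < 1 / 4 by norm_num)
  refine ⟨min κ₁ κ₂, lt_min h1 h2, fun e he x hx => ?_⟩
  obtain ⟨u, hu, rfl⟩ := hx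
  have hu7 := mem_closedBall.1 hu
  -- a list which is not contained in the big box has no face seeing `u`
  have hout : ∀ t : List X, Sm (min κ₁ κ₂) t → ¬ In (β '' Q n 8) t → ∀ l : List X,
      l.Sublist t → In (β '' Q n 8) l → KerC β l [β u] = 0 ∧ KerC β [β u] l = 0 := by
    intro t ht hIt l hl hIl
    obtain ⟨l, hIl', rfl⟩ := Chart.exists_map hIl
    have hd : ∀ v ∈ l, ∀ w ∈ l, dist v w ≤ 1 / 4 := fun v hv w hw =>
      (hi v (hIl' v hv) w (hIl' w hw) ((ht _ (hl.subset (List.mem_map_of_mem hv)) _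
        (hl.subset (List.mem_map_of_mem hw))).trans_le (min_le_right _ _))).le
    have hs : ∀ y ∈ [u], ∀ y' ∈ [u], dist y y' ≤ 0 := by
      intro y hy y' hy'
      rw [List.mem_singleton.1 hy, List.mem_singleton.1 hy', dist_self]
    -- entries near `u` would force the whole list into the box
    have hcon : ∀ v ∈ l, dist v u ≤ 1 / 4 → False := by
      intro v hv hvu
      apply hIt
      intro y hy
      have hv2 : v ∈ Q n (15 / 2) := by
        rw [mem_closedBall]
        have := dist_triangle v u 0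
        linarith only [this, hvu, hu7]
      obtain ⟨w, hw, hwy, -⟩ := hmod v hv2 y ((ht _ (hl.subset (List.mem_map_of_mem hv)) y hy).trans_le
        (min_le_left _ _))
      exact ⟨w, hw, hwy⟩
    rw [← List.map_singleton, KerC_map hβ, KerC_map hβ]
    rcases l with _ | ⟨v, l⟩
    · exact ⟨Ker_nil_left _ _, Ker_nil_right _ _⟩
    · constructor
      · by_contra h0
        have := Chart.Ker_crd_local h0 (κ := 1 / 4) (κ' := 0) (by norm_num) hd hs v
          List.mem_cons_self u (by simp)
        exact hcon v List.mem_cons_self (by linarith only [this])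
      · by_contra h0
        have := Chart.Ker_crd_local h0 (κ := 0) (κ' := 1 / 4) (by norm_num) hs hd u (by simp) v
          List.mem_cons_self
        exact hcon v List.mem_cons_self (by rw [dist_comm]; linarith only [this])
  have hface : ∀ (t : List X) (P : List X → ZMod 2) , (∀ l, l.Sublist t → P l = 0) →
      ext P (bdL (ZMod 2) t) = 0 := by
    intro t P hP
    have h := ext_congr (v := fun _ : List X => (0 : ZMod 2)) (sup_bdL (k := ZMod 2) t)
      (u := P) (fun l hl => hP l hl.1)
    rw [h]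
    simp [Finsupp.linearCombination_apply]
  have hsing : bdL (ZMod 2) [β u] = Finsupp.single [] 1 := by
    simp only [bdL, map_zero, sub_zero]
  constructor
  · rw [dg, ext_bdL]
    have h := ext_congr (v := fun _ : List X => (0 : ZMod 2)) he (u := fun t =>
      ext (fun l => if In (β '' Q n 8) l then KerC β l [β u] else 0) (bdL (ZMod 2) t)) ?_
    · rw [h]; simp [Finsupp.linearCombination_apply]
    intro t ht
    by_cases hI : In (β '' Q n 8) t
    · have h1 : ext (fun l => if In (β '' Q n 8) l then KerC β l [β u] else 0)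
          (bdL (ZMod 2) t) = ext (fun l => KerC β l [β u]) (bdL (ZMod 2) t) :=
        ext_congr (sup_bdL (k := ZMod 2) t) fun l hl =>
          if_pos fun x hx => hI x (hl.1.subset hx)
      simp only [h1]
      rw [KerC_bd hβ, hsing, Finsupp.linearCombination_single, one_smul]
      exact Ker_nil_right _ _
    · refine hface t _ fun l hl => ?_
      split_ifs with hIl
      · exact (hout t ht hI l hl hIl).1
      · rfl
  · rw [dg', ext_bdL]
    have h := ext_congr (v := fun _ : List X => (0 : ZMod 2)) he (u := fun t =>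
      ext (fun l => if In (β '' Q n 8) l then KerC β [β u] l else 0) (bdL (ZMod 2) t)) ?_
    · rw [h]; simp [Finsupp.linearCombination_apply]
    intro t ht
    by_cases hI : In (β '' Q n 8) t
    · have h1 : ext (fun l => if In (β '' Q n 8) l then KerC β [β u] l else 0)
          (bdL (ZMod 2) t) = ext (fun l => KerC β [β u] l) (bdL (ZMod 2) t) :=
        ext_congr (sup_bdL (k := ZMod 2) t) fun l hl =>
          if_pos fun x hx => hI x (hl.1.subset hx)
      simp only [h1]
      rw [← KerC_bd hβ [β u] t, hsing, Finsupp.linearCombination_single, one_smul]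
      exact Ker_nil_left _ _
    · refine hface t _ fun l hl => ?_
      split_ifs with hIl
      · exact (hout t ht hI l hl hIl).2
      · rfl

/-- the degree only sees lists near `x` -/
theorem dg_far (hβ : IsOpenEmbedding β) {ρ : ℝ} (hρ : 0 < ρ) : ∃ κ > 0,
    ∀ c : Ch (ZMod 2) X, ∀ x ∈ β '' Q n 7,
      Sup (fun l => Sm κ l ∧ ∃ y ∈ l, ρ ≤ dist x y) c → dg β c x = 0 ∧ dg' β c x = 0 := by
  classical
  obtain ⟨κ, hκ, hloc⟩ := KerC_local hβ hρ
  refine ⟨κ, hκ, fun c x hx hc => ?_⟩
  have hx8 : In (β '' Q n 8) [x] := by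
    intro y hy
    rw [List.mem_singleton.1 hy]
    exact image_mono (closedBall_subset_closedBall (by norm_num)) hx
  have hxs : Sm κ [x] := by
    intro y hy z hz
    rw [List.mem_singleton.1 hy, List.mem_singleton.1 hz, dist_self]; exact hκ
  constructor
  · have h := ext_congr (v := fun _ : List X => (0 : ZMod 2)) hc (u := fun l =>
      if In (β '' Q n 8) l then KerC β l [x] else 0) ?_
    · rw [dg, h]; simp [Finsupp.linearCombination_apply]
    rintro l ⟨hs, y, hy, hρy⟩
    split_ifs with hI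
    · by_contra h0
      have := hloc l [x] hs hxs hI hx8 h0 y hy x (by simp)
      rw [dist_comm] at this
      linarith only [hρy, this]
    · rfl
  · have h := ext_congr (v := fun _ : List X => (0 : ZMod 2)) hc (u := fun l =>
      if In (β '' Q n 8) l then KerC β [x] l else 0) ?_
    · rw [dg', h]; simp [Finsupp.linearCombination_apply]
    rintro l ⟨hs, y, hy, hρy⟩
    split_ifs with hI
    · by_contra h0
      have := hloc [x] l hxs hs hx8 hI h0 x (by simp) y hy
      linarith only [hρy, this]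
    · rfl

end M6

end Vale.Agent.P239.M
end

section

/-!
Module M, block M5: filling of small cycles in a contractible metric space, and in balls of
normed spaces.
-/

namespace Vale.Agent.P239.M.Fill

open Vale.Agent.P239.M Metric Set

section SupLemmas

variable {k : Type*} [CommRing k] {X Y : Type*}

theorem sup_add' {P : List X → Prop} {a b : Ch k X} (ha : Sup P a) (hb : Sup P b) :
    Sup P (a + b) := by
  classical
  intro l hl
  rcases Finset.mem_union.1 (Finsupp.support_add hl) with h | h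
  · exact ha l h
  · exact hb l h

theorem sup_zero' {P : List X → Prop} : Sup P (0 : Ch k X) := by
  intro l hl; simp at hl

theorem sup_neg' {P : List X → Prop} {a : Ch k X} (ha : Sup P a) : Sup P (-a) := by
  intro l hl; rw [Finsupp.support_neg] at hl; exact ha l hl

theorem sup_sub' {P : List X → Prop} {a b : Ch k X} (ha : Sup P a) (hb : Sup P b) :
    Sup P (a - b) := by
  rw [sub_eq_add_neg]; exact sup_add' ha (sup_neg' hb)

theorem sup_smul' {P : List X → Prop} {a : Ch k X} (r : k) (ha : Sup P a) :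
    Sup P (r • a) := fun l hl => ha l (Finsupp.support_smul hl)

theorem sup_sum' {ι : Type*} {P : List X → Prop} (s : Finset ι) (f : ι → Ch k X)
    (h : ∀ i ∈ s, Sup P (f i)) : Sup P (∑ i ∈ s, f i) := by
  classical
  induction s using Finset.induction_on with
  | empty => simpa using sup_zero'
  | insert a s ha ih =>
    rw [Finset.sum_insert ha]
    exact sup_add' (h a (Finset.mem_insert_self _ _))
      (ih fun i hi => h i (Finset.mem_insert_of_mem hi))

theorem sup_single' {P : List X → Prop} {l : List X} (r : k) (h : P l) :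
    Sup P (Finsupp.single l r) := by
  intro m hm
  have := Finsupp.support_single_subset hm
  rw [Finset.mem_singleton] at this
  rw [this]; exact h

theorem sup_mono' {P Q : List X → Prop} {a : Ch k X} (h : ∀ l, P l → Q l) (ha : Sup P a) :
    Sup Q a := fun l hl => h l (ha l hl)

/-- support of the image under a linear map -/
theorem sup_lin' {Q : List Y → Prop} (T : Ch k X →ₗ[k] Ch k Y) (c : Ch k X)
    (h : ∀ l ∈ c.support, Sup Q (T (Finsupp.single l 1))) : Sup Q (T c) := by
  have : T c = ∑ l ∈ c.support, c l • T (Finsupp.single l 1) := by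
    conv_lhs => rw [← Finsupp.sum_single c]
    rw [Finsupp.sum, map_sum]
    refine Finset.sum_congr rfl fun l _ => ?_
    rw [← map_smul, Finsupp.smul_single, smul_eq_mul, mul_one]
  rw [this]
  exact sup_sum' _ _ fun l hl => sup_smul' _ (h l hl)

theorem sup_cone' {P Q : List X → Prop} (x : X) {c : Ch k X} (hc : Sup P c)
    (h : ∀ l, P l → Q (x :: l)) : Sup Q (cone x c) :=
  sup_lin' _ _ fun l hl => by rw [cone_single]; exact sup_single' _ (h l (hc l hl))

/-- the lists of a prism -/
theorem sup_prL' (f g : X → Y) (l : List X) :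
    Sup (fun m => m.length = l.length + 1 ∧ ∀ y ∈ m, ∃ x ∈ l, y = f x ∨ y = g x)
      (prL k f g l) := by
  induction l with
  | nil => exact sup_zero'
  | cons x l ih =>
    rw [prL]
    refine sup_sub' (sup_single' _ ⟨by simp, ?_⟩) (sup_cone' _ ih fun m hm => ⟨by simp [hm.1], ?_⟩)
    · intro y hy
      rcases List.mem_cons.1 hy with rfl | hy
      · exact ⟨x, by simp, Or.inl rfl⟩
      rcases List.mem_cons.1 hy with rfl | hy
      · exact ⟨x, by simp, Or.inr rfl⟩
      · obtain ⟨z, hz, rfl⟩ := List.mem_map.1 hy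
        exact ⟨z, List.mem_cons_of_mem _ hz, Or.inr rfl⟩
    · intro y hy
      rcases List.mem_cons.1 hy with rfl | hy
      · exact ⟨x, by simp, Or.inl rfl⟩
      · obtain ⟨z, hz, h⟩ := hm.2 y hy
        exact ⟨z, List.mem_cons_of_mem _ hz, h⟩

end SupLemmas

section Op

variable (k : Type*) [CommRing k] {X : Type*}

/-- the homotopy operator of `h`, in `N` steps -/
noncomputable def DN (h : ℝ → X → X) (N : ℕ) : Ch k X →ₗ[k] Ch k X :=
  ∑ a ∈ Finset.range N, pr (h ((a : ℝ) / N)) (h (((a : ℝ) + 1) / N))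

/-- the filling operator -/
noncomputable def fil (h : ℝ → X → X) (x₀ : X) (N : ℕ) : Ch k X →ₗ[k] Ch k X :=
  (cone x₀).comp (pf (h 1)) - DN k h N

variable {k}

theorem DN_apply (h : ℝ → X → X) (N : ℕ) (c : Ch k X) :
    DN k h N c = ∑ a ∈ Finset.range N, pr (h ((a : ℝ) / N)) (h (((a : ℝ) + 1) / N)) c := by
  rw [DN, LinearMap.sum_apply]

theorem fil_apply (h : ℝ → X → X) (x₀ : X) (N : ℕ) (c : Ch k X) :
    fil k h x₀ N c = cone x₀ (pf (h 1) c) - DN k h N c := rfl

theorem bd_DN (h : ℝ → X → X) {N : ℕ} (hN : 0 < N) (c : Ch k X) :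
    bd (DN k h N c) + DN k h N (bd c) = pf (h 1) c - pf (h 0) c := by
  have hN' : (N : ℝ) ≠ 0 := by exact_mod_cast hN.ne'
  rw [DN_apply, DN_apply, map_sum, ← Finset.sum_add_distrib]
  have : ∀ a ∈ Finset.range N, bd (pr (h ((a : ℝ) / N)) (h (((a : ℝ) + 1) / N)) c) +
      pr (h ((a : ℝ) / N)) (h (((a : ℝ) + 1) / N)) (bd c) =
      pf (h (((a + 1 : ℕ) : ℝ) / N)) c - pf (h ((a : ℝ) / N)) c := by
    intro a _
    rw [bd_pr]; push_cast; rfl
  rw [Finset.sum_congr rfl this, Finset.sum_range_sub (fun a : ℕ => pf (h ((a : ℝ) / N)) c)]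
  simp only [div_self hN', CharP.cast_eq_zero, zero_div]

theorem pf_id' (c : Ch k X) : pf (id : X → X) c = c := by
  induction c using Finsupp.induction_linear with
  | zero => simp
  | add a b ha hb => rw [map_add, ha, hb]
  | single l r => rw [pf_single, List.map_id]

theorem bd_fil {h : ℝ → X → X} {x₀ : X} {N : ℕ} (hN : 0 < N) (h0 : h 0 = id) (c : Ch k X) :
    bd (fil k h x₀ N c) + fil k h x₀ N (bd c) = c := by
  have e1 := bd_DN (k := k) h hN c
  rw [h0, pf_id'] at e1
  rw [fil_apply, fil_apply, map_sub, bd_cone, bd_pf]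
  have e2 : bd (DN k h N c) = pf (h 1) c - c - DN k h N (bd c) := by rw [← e1]; abel
  rw [e2]; abel

/-- support of the filling operator -/
theorem sup_fil {h : ℝ → X → X} {x₀ : X} {N : ℕ} (h1 : h 1 = fun _ => x₀) (l : List X)
    (Q : List X → Prop) (hQ : Q (x₀ :: l.map fun _ => x₀))
    (hP : ∀ a < N, ∀ m : List X, m.length = l.length + 1 →
      (∀ y ∈ m, ∃ x ∈ l, y = h ((a : ℝ) / N) x ∨ y = h (((a : ℝ) + 1) / N) x) → Q m) :
    Sup Q (fil k h x₀ N (Finsupp.single l 1)) := by
  rw [fil_apply, h1, pf_single, cone_single, DN_apply]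
  refine sup_sub' (sup_single' _ hQ) (sup_sum' _ _ fun a ha => ?_)
  rw [pr_single, one_smul]
  exact sup_mono' (fun m hm => hP a (Finset.mem_range.1 ha) m hm.1 hm.2) (sup_prL' _ _ l)

end Op

section Top

variable {k : Type*} [CommRing k] {X : Type*} [MetricSpace X]

theorem exists_htpy [ContractibleSpace X] : ∃ (x₀ : X) (h : ℝ → X → X),
    Continuous (fun p : ℝ × X => h p.1 p.2) ∧ h 0 = id ∧ h 1 = fun _ => x₀ := by
  obtain ⟨x₀, ⟨H⟩⟩ := id_nullhomotopic X
  refine ⟨x₀, fun t x => H (projIcc 0 1 zero_le_one t, x), ?_, ?_, ?_⟩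
  · exact H.continuous.comp ((continuous_projIcc.comp continuous_fst).prodMk continuous_snd)
  · funext x
    have : projIcc (0 : ℝ) 1 zero_le_one 0 = 0 := projIcc_left zero_le_one
    show H (projIcc (0 : ℝ) 1 zero_le_one 0, x) = x
    rw [this]
    simp
  · funext x
    have : projIcc (0 : ℝ) 1 zero_le_one 1 = 1 := projIcc_right zero_le_one
    show H (projIcc (0 : ℝ) 1 zero_le_one 1, x) = x₀
    rw [this]
    simp

/-- uniform continuity of the homotopy in small steps -/
theorem unif {h : ℝ → X → X} (hh : Continuous (fun p : ℝ × X => h p.1 p.2)) {A : Set X}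
    (hA : IsCompact A) {ε : ℝ} (hε : 0 < ε) : ∃ κ > 0, ∃ N₀ : ℕ, ∀ N ≥ N₀, 0 < N → ∀ a < N,
      ∀ x ∈ A, ∀ y ∈ A, dist x y < κ → ∀ s t : ℝ,
        (s = (a : ℝ) / N ∨ s = ((a : ℝ) + 1) / N) → (t = (a : ℝ) / N ∨ t = ((a : ℝ) + 1) / N) →
        dist (h s x) (h t y) < ε := by
  have hK : IsCompact (Icc (0 : ℝ) 1 ×ˢ A) := isCompact_Icc.prod hA
  have hu := hK.uniformContinuousOn_of_continuous hh.continuousOn
  rw [Metric.uniformContinuousOn_iff] at hu
  obtain ⟨κ, hκ, hu⟩ := hu ε hε
  obtain ⟨N₀, hN₀⟩ := exists_nat_gt (1 / κ)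
  refine ⟨κ, hκ, N₀, fun N hN hN0 a ha x hx y hy hxy s t hs ht => ?_⟩
  have hN' : (0 : ℝ) < N := by exact_mod_cast hN0
  have ha' : (a : ℝ) + 1 ≤ N := by exact_mod_cast ha
  have hκN : 1 / (N : ℝ) < κ := by
    rw [div_lt_iff₀ hN']
    have : (1 / κ) < N := hN₀.trans_le (by exact_mod_cast hN)
    rwa [div_lt_iff₀ hκ, mul_comm] at this
  have h1 : (a : ℝ) / N ∈ Icc (0 : ℝ) 1 :=
    ⟨by (clear * - hN0; positivity), by rw [div_le_one hN']; linarith only [ha']⟩
  have h2 : ((a : ℝ) + 1) / N ∈ Icc (0 : ℝ) 1 :=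
    ⟨by (clear * - hN0; positivity), by rw [div_le_one hN']; exact ha'⟩
  have h3 : ((a : ℝ) + 1) / N - (a : ℝ) / N = 1 / N := by field_simp; ring
  have hs' : s ∈ Icc (0 : ℝ) 1 := by rcases hs with rfl | rfl <;> assumption
  have ht' : t ∈ Icc (0 : ℝ) 1 := by rcases ht with rfl | rfl <;> assumption
  have hst : dist s t < κ := by
    rw [Real.dist_eq]
    have h4 : (0 : ℝ) < 1 / N := by positivity
    rcases hs with rfl | rfl <;> rcases ht with rfl | rfl
    · simpa only [sub_self, abs_zero, gt_iff_lt] using hκ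
    · rw [abs_sub_comm, h3, abs_of_pos h4]; exact hκN
    · rw [h3, abs_of_pos h4]; exact hκN
    · simpa only [sub_self, abs_zero, gt_iff_lt] using hκ
  refine hu (s, x) ⟨hs', hx⟩ (t, y) ⟨ht', hy⟩ ?_
  rw [Prod.dist_eq]
  exact max_lt hst hxy

/-- The filling operator on a compact set. -/
theorem exists_op [ContractibleSpace X] {A : Set X} (hA : IsCompact A) :
    ∃ A' : Set X, IsCompact A' ∧ A ⊆ A' ∧ ∀ ε > 0, ∃ κ > 0, ∃ T : Ch k X →ₗ[k] Ch k X,
      (∀ c, bd (T c) + T (bd c) = c) ∧ ∀ l, Sm κ l → In A l →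
        Sup (fun m => m.length = l.length + 1 ∧ Sm ε m ∧ In A' m)
          (T (Finsupp.single l 1)) := by
  obtain ⟨x₀, h, hh, h0, h1⟩ := exists_htpy (X := X)
  have hK : IsCompact (Icc (0 : ℝ) 1 ×ˢ A) := isCompact_Icc.prod hA
  refine ⟨insert x₀ ((fun p : ℝ × X => h p.1 p.2) '' (Icc (0 : ℝ) 1 ×ˢ A)),
    (hK.image hh).insert _, ?_, fun ε hε => ?_⟩
  · intro x hx
    right
    exact ⟨(0, x), ⟨⟨le_rfl, zero_le_one⟩, hx⟩, by simp [h0]⟩
  · obtain ⟨κ, hκ, N₀, hu⟩ := unif hh hA hε
    refine ⟨κ, hκ, fil k h x₀ (N₀ + 1), fun c => bd_fil (Nat.succ_pos _) h0 c, fun l hl hlA => ?_⟩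
    refine sup_fil h1 l _ ⟨by simp, ?_, ?_⟩ fun a ha m hm hm' => ⟨hm, ?_, ?_⟩
    · have hx : ∀ x ∈ (x₀ :: l.map fun _ => x₀), x = x₀ := by
        intro x hx
        rcases List.mem_cons.1 hx with rfl | hx
        · rfl
        · obtain ⟨y, -, rfl⟩ := List.mem_map.1 hx
          rfl
      intro x hx' y hy'
      rw [hx x hx', hx y hy', dist_self]
      exact hε
    · intro x hx
      left
      rcases List.mem_cons.1 hx with rfl | hx
      · rfl
      · obtain ⟨y, -, rfl⟩ := List.mem_map.1 hx
        rfl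
    · intro y hy z hz
      obtain ⟨x, hx, hyx⟩ := hm' y hy
      obtain ⟨x', hx', hzx⟩ := hm' z hz
      have hd := hu (N₀ + 1) (Nat.le_succ _) (Nat.succ_pos _) a ha x (hlA x hx) x' (hlA x' hx')
        (hl x hx x' hx')
      rcases hyx with rfl | rfl <;> rcases hzx with rfl | rfl
      · exact hd _ _ (Or.inl rfl) (Or.inl rfl)
      · exact hd _ _ (Or.inl rfl) (Or.inr rfl)
      · exact hd _ _ (Or.inr rfl) (Or.inl rfl)
      · exact hd _ _ (Or.inr rfl) (Or.inr rfl)
    · intro y hy
      right
      obtain ⟨x, hx, hyx⟩ := hm' y hy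
      have hN' : (0 : ℝ) < ((N₀ + 1 : ℕ) : ℝ) := by exact_mod_cast Nat.succ_pos _
      have ha' : (a : ℝ) + 1 ≤ ((N₀ + 1 : ℕ) : ℝ) := by exact_mod_cast ha
      rcases hyx with rfl | rfl
      · exact ⟨(_, x), ⟨⟨by (clear * -; positivity), by rw [div_le_one hN']; linarith only [ha']⟩, hlA x hx⟩, rfl⟩
      · exact ⟨(_, x), ⟨⟨by (clear * -; positivity), by rw [div_le_one hN']; exact ha'⟩, hlA x hx⟩, rfl⟩

/-- **(M5)** -/
theorem fillS [ContractibleSpace X] : FillS k X := by
  intro A hA
  obtain ⟨A', hA', hAA', H⟩ := exists_op (k := k) hA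
  refine ⟨A', hA', hAA', fun ε hε => ?_⟩
  obtain ⟨κ, hκ, T, hT, hT'⟩ := H ε hε
  refine ⟨κ, hκ, fun n c hc hs => ⟨T c, ?_, ?_⟩⟩
  · have := hT c
    rwa [hc, map_zero, add_zero] at this
  · refine sup_lin' T c fun l hl => ?_
    obtain ⟨h1, h2, h3⟩ := hs l hl
    rw [← h1]
    exact hT' l h2 h3

end Top

section Ball

variable {k : Type*} [CommRing k] {E : Type*} [NormedAddCommGroup E] [NormedSpace ℝ E]

/-- **(M5')** filling in balls -/
theorem fill_ball {u : E} {r δ ε : ℝ} (hr : 0 ≤ r) (hε : 0 < ε) (hδ : δ < ε) {n : ℕ}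
    {c : Ch k E} (hc : bd c = 0)
    (hs : Sup (fun l => l.length = n ∧ Sm δ l ∧ In (closedBall u r) l) c) :
    ∃ e : Ch k E, bd e = c ∧
      Sup (fun l => l.length = n + 1 ∧ Sm ε l ∧ In (closedBall u r) l) e := by
  set h : ℝ → E → E := fun t x => x + t • (u - x) with hh
  have h0 : h 0 = id := by funext x; simp [hh]
  have h1 : h 1 = fun _ => u := by funext x; simp [hh]
  obtain ⟨N, hN⟩ := exists_nat_gt (r / (ε - δ))
  have hed : 0 < ε - δ := by linarith only [hδ]
  have hN0 : 0 < N + 1 := Nat.succ_pos _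
  have hN' : (0 : ℝ) < ((N + 1 : ℕ) : ℝ) := by exact_mod_cast hN0
  have hrN : r / ((N + 1 : ℕ) : ℝ) ≤ ε - δ := by
    rw [div_le_iff₀ hN']
    rw [div_lt_iff₀ hed] at hN
    push_cast
    linarith only [hN, hδ]
  -- the estimates
  have hd : ∀ (s t : ℝ), 0 ≤ s → s ≤ 1 → 0 ≤ t → t ≤ 1 → |s - t| ≤ 1 / ((N + 1 : ℕ) : ℝ) →
      ∀ x ∈ closedBall u r, ∀ y ∈ closedBall u r, dist (h s x) (h t y) ≤ dist x y + (ε - δ) := by
    intro s t hs0 hs1 ht0 ht1 hst x hx y hy
    have e1 : h s x - h t y = (1 - s) • (x - y) + (t - s) • (y - u) := by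
      simp only [hh, smul_sub, sub_smul, one_smul]; abel
    rw [dist_eq_norm, e1]
    refine (norm_add_le _ _).trans ?_
    rw [norm_smul, norm_smul, Real.norm_eq_abs, Real.norm_eq_abs, abs_of_nonneg (by linarith only [hs1]),
      ← dist_eq_norm, ← dist_eq_norm]
    have h2 : (1 - s) * dist x y ≤ dist x y := by
      have := @dist_nonneg _ _ x y
      linarith only [mul_nonneg (sub_nonneg.2 hs0) (sub_nonneg.2 this)]
    have h3 : |t - s| * dist y u ≤ ε - δ := by
      have h4 : dist y u ≤ r := hy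
      have h5 : |t - s| ≤ 1 / ((N + 1 : ℕ) : ℝ) := by rw [abs_sub_comm]; exact hst
      calc |t - s| * dist y u ≤ (1 / ((N + 1 : ℕ) : ℝ)) * r :=
            mul_le_mul h5 h4 dist_nonneg (by positivity)
        _ = r / ((N + 1 : ℕ) : ℝ) := by ring
        _ ≤ ε - δ := hrN
    linarith only [h2, h3]
  have hb : ∀ s : ℝ, 0 ≤ s → s ≤ 1 → ∀ x ∈ closedBall u r, h s x ∈ closedBall u r := by
    intro s hs0 hs1 x hx
    have e1 : h s x - u = (1 - s) • (x - u) := by
      simp only [hh, smul_sub, sub_smul, one_smul]; abel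
    rw [mem_closedBall, dist_eq_norm, e1, norm_smul, Real.norm_eq_abs,
      abs_of_nonneg (by linarith only [hs1]), ← dist_eq_norm]
    have h4 : dist x u ≤ r := hx
    have := @dist_nonneg _ _ x u
    nlinarith only [h4, hs0, this]
  refine ⟨fil k h u (N + 1) c, ?_, sup_lin' _ c fun l hl => ?_⟩
  · have := bd_fil (k := k) (x₀ := u) hN0 h0 c
    rwa [hc, map_zero, add_zero] at this
  obtain ⟨hl1, hl2, hl3⟩ := hs l hl
  have hall : ∀ x ∈ (u :: l.map fun _ => u), x = u := by
    intro x hx
    rcases List.mem_cons.1 hx with rfl | hx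
    · rfl
    · obtain ⟨y, -, rfl⟩ := List.mem_map.1 hx
      rfl
  refine sup_fil h1 l _ ⟨by simp [hl1], ?_, ?_⟩ fun a ha m hm hm' => ⟨by rw [hm, hl1], ?_, ?_⟩
  · intro x hx y hy
    rw [hall x hx, hall y hy, dist_self]
    exact hε
  · intro x hx
    rw [hall x hx]
    exact mem_closedBall_self hr
  · have ha' : (a : ℝ) + 1 ≤ ((N + 1 : ℕ) : ℝ) := by exact_mod_cast ha
    have b1 : (0 : ℝ) ≤ (a : ℝ) / ((N + 1 : ℕ) : ℝ) := by (clear * -; positivity)
    have b2 : (a : ℝ) / ((N + 1 : ℕ) : ℝ) ≤ 1 := by rw [div_le_one hN']; linarith only [ha']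
    have b3 : (0 : ℝ) ≤ ((a : ℝ) + 1) / ((N + 1 : ℕ) : ℝ) := by (clear * -; positivity)
    have b4 : ((a : ℝ) + 1) / ((N + 1 : ℕ) : ℝ) ≤ 1 := by rw [div_le_one hN']; exact ha'
    have b5 : ((a : ℝ) + 1) / ((N + 1 : ℕ) : ℝ) - (a : ℝ) / ((N + 1 : ℕ) : ℝ) =
      1 / ((N + 1 : ℕ) : ℝ) := by rw [← sub_div]; congr 1; ring
    have b6 : (0 : ℝ) < 1 / ((N + 1 : ℕ) : ℝ) := by positivity
    intro y hy z hz
    obtain ⟨x, hx, hyx⟩ := hm' y hy
    obtain ⟨x', hx', hzx⟩ := hm' z hz
    have hxx := hl2 x hx x' hx'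
    rcases hyx with rfl | rfl <;> rcases hzx with rfl | rfl
    · refine (hd _ _ b1 b2 b1 b2 ?_ x (hl3 x hx) x' (hl3 x' hx')).trans_lt (by linarith only [hxx])
      rw [sub_self, abs_zero]; exact b6.le
    · refine (hd _ _ b1 b2 b3 b4 ?_ x (hl3 x hx) x' (hl3 x' hx')).trans_lt (by linarith only [hxx])
      rw [abs_sub_comm, b5, abs_of_pos b6]
    · refine (hd _ _ b3 b4 b1 b2 ?_ x (hl3 x hx) x' (hl3 x' hx')).trans_lt (by linarith only [hxx])
      rw [b5, abs_of_pos b6]
    · refine (hd _ _ b3 b4 b3 b4 ?_ x (hl3 x hx) x' (hl3 x' hx')).trans_lt (by linarith only [hxx])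
      rw [sub_self, abs_zero]; exact b6.le
  · have ha' : (a : ℝ) + 1 ≤ ((N + 1 : ℕ) : ℝ) := by exact_mod_cast ha
    intro y hy
    obtain ⟨x, hx, hyx⟩ := hm' y hy
    rcases hyx with rfl | rfl
    · exact hb _ (by (clear * -; positivity)) (by rw [div_le_one hN']; linarith only [ha']) x (hl3 x hx)
    · exact hb _ (by (clear * -; positivity)) (by rw [div_le_one hN']; exact ha') x (hl3 x hx)

end Ball

end Vale.Agent.P239.M.Fill

namespace Vale.Agent.P239.M

open Metric Set

/-- **(M5)**, verbatim form of the skeleton -/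
theorem fillS (k : Type*) [CommRing k] (X : Type*) [MetricSpace X] [ContractibleSpace X] :
    FillS k X := Fill.fillS

/-- **(M5')**, verbatim form of the skeleton -/
theorem fill_ball {n : ℕ} (k : Type*) [CommRing k] (u : Fin n → ℝ) (r : ℝ) (hr : 0 ≤ r) (δ ε : ℝ)
    (hδ : 0 < δ) (h : δ < ε) (m : ℕ) (c : Ch k (Fin n → ℝ)) (hc : bd c = 0)
    (hs : Sup (fun l => l.length = m ∧ Sm δ l ∧ In (closedBall u r) l) c) :
    ∃ e : Ch k (Fin n → ℝ), bd e = c ∧
      Sup (fun l => l.length = m + 1 ∧ Sm ε l ∧ In (closedBall u r) l) e :=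
  Fill.fill_ball hr (hδ.trans h) h hc hs

end Vale.Agent.P239.M
end
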