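import Vale.Agent.P239.Bdl.B11

set_option linter.all false

section

/-!
Module M, block M12: auxiliary lemmas on list chains (own copies, namespace `Rel`).
-/

namespace Vale.Agent.P239.M.Rel

open Vale.Agent.P239.M

section Gen

variable {k : Type*} [CommRing k] {X Y Z : Type*}

theorem ext_def {M : Type*} [AddCommGroup M] [Module k M] (u : List X → M) (c : Ch k X) :
    ext u c = c.sum fun l r => r • u l := rfl

theorem ext_congr {M : Type*} [AddCommGroup M] [Module k M] {u v : List X → M} {c : Ch k X}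
    (h : ∀ l ∈ c.support, u l = v l) : ext u c = ext v c := by
  rw [ext_def, ext_def]
  exact Finset.sum_congr rfl fun l hl => by simp only [h l hl]

theorem ext_single {M : Type*} [AddCommGroup M] [Module k M] (u : List X → M) (l : List X)
    (r : k) : ext u (Finsupp.single l r) = r • u l := by
  simp [Finsupp.linearCombination_single]

theorem map_ext {M N : Type*} [AddCommGroup M] [Module k M] [AddCommGroup N] [Module k N]
    (f : M →ₗ[k] N) (u : List X → M) (c : Ch k X) : f (ext u c) = ext (fun l => f (u l)) c := by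
  rw [ext_def, ext_def, Finsupp.sum, map_sum]
  exact Finset.sum_congr rfl fun l _ => by rw [map_smul]

theorem ext_ext {M : Type*} [AddCommGroup M] [Module k M] (v : List Y → M) (u : List X → Ch k Y)
    (c : Ch k X) : ext v (ext u c) = ext (fun l => ext v (u l)) c :=
  map_ext (ext v) u c

theorem ext_add_fun {M : Type*} [AddCommGroup M] [Module k M] (u v : List X → M) (c : Ch k X) :
    ext (fun l => u l + v l) c = ext u c + ext v c := by
  rw [ext_def, ext_def, ext_def, ← Finsupp.sum_add]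
  exact Finset.sum_congr rfl fun l _ => by simp only [smul_add]

theorem ext_sub_fun {M : Type*} [AddCommGroup M] [Module k M] (u v : List X → M) (c : Ch k X) :
    ext (fun l => u l - v l) c = ext u c - ext v c := by
  rw [ext_def, ext_def, ext_def, ← Finsupp.sum_sub]
  exact Finset.sum_congr rfl fun l _ => by simp only [smul_sub]

theorem ext_zero_fun {M : Type*} [AddCommGroup M] [Module k M] (c : Ch k X) :
    ext (fun _ : List X => (0 : M)) c = 0 := by
  rw [ext_def]; exact Finset.sum_eq_zero fun l _ => by simp only [smul_zero]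

/-- exchanging two sums -/
theorem ext_swap {M : Type*} [AddCommGroup M] [Module k M] (u : List X → List Y → M)
    (c : Ch k X) (d : Ch k Y) :
    ext (fun l => ext (u l) d) c = ext (fun m => ext (fun l => u l m) c) d := by
  simp only [ext_def, Finsupp.sum, Finset.smul_sum]
  rw [Finset.sum_comm]
  exact Finset.sum_congr rfl fun l _ => Finset.sum_congr rfl fun m _ => smul_comm _ _ _

theorem bd_eq_ext (c : Ch k X) : bd c = ext (bdL k) c := rfl

/-! #### supports -/

theorem sup_zero (P : List X → Prop) : Sup P (0 : Ch k X) := by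
  intro l hl; simp at hl

theorem sup_single {P : List X → Prop} {l : List X} (h : P l) (r : k) :
    Sup P (Finsupp.single l r) := by
  intro m hm
  have := Finsupp.support_single_subset hm
  rw [Finset.mem_singleton] at this
  rw [this]; exact h

theorem sup_add {P : List X → Prop} {c d : Ch k X} (hc : Sup P c) (hd : Sup P d) :
    Sup P (c + d) := by
  classical
  intro l hl
  rcases Finset.mem_union.1 (Finsupp.support_add hl) with h | h
  · exact hc l h
  · exact hd l h

theorem sup_neg {P : List X → Prop} {c : Ch k X} (hc : Sup P c) : Sup P (-c) := by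
  intro l hl
  rw [Finsupp.support_neg] at hl
  exact hc l hl

theorem sup_sub {P : List X → Prop} {c d : Ch k X} (hc : Sup P c) (hd : Sup P d) :
    Sup P (c - d) := by
  rw [sub_eq_add_neg]; exact sup_add hc (sup_neg hd)

theorem sup_smul {P : List X → Prop} {c : Ch k X} (r : k) (hc : Sup P c) : Sup P (r • c) := by
  intro l hl
  exact hc l (Finsupp.support_smul hl)

theorem sup_sum {ι : Type*} {P : List X → Prop} {s : Finset ι} {c : ι → Ch k X}
    (h : ∀ i ∈ s, Sup P (c i)) : Sup P (∑ i ∈ s, c i) := by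
  classical
  induction s using Finset.induction_on with
  | empty => rw [Finset.sum_empty]; exact sup_zero P
  | insert a s ha ih =>
    rw [Finset.sum_insert ha]
    exact sup_add (h a (Finset.mem_insert_self _ _))
      (ih fun i hi => h i (Finset.mem_insert_of_mem hi))

theorem sup_ext {P : List Y → Prop} {u : List X → Ch k Y} {c : Ch k X}
    (h : ∀ l ∈ c.support, Sup P (u l)) : Sup P (ext u c) := by
  rw [ext_def]
  exact sup_sum fun l hl => sup_smul _ (h l hl)

theorem sup_mono {P Q : List X → Prop} {c : Ch k X} (h : ∀ l, P l → Q l) (hc : Sup P c) :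
    Sup Q c := fun l hl => h l (hc l hl)

theorem sup_cone {P : List X → Prop} {x : X} {c : Ch k X} (h : Sup (fun l => P (x :: l)) c) :
    Sup P (cone x c) := by
  classical
  intro l hl
  rw [cone, Finsupp.lmapDomain_apply] at hl
  have := Finsupp.mapDomain_support hl
  rw [Finset.mem_image] at this
  obtain ⟨m, hm, rfl⟩ := this
  exact h m hm

theorem sup_bdL (l : List X) :
    Sup (fun m => m.Sublist l ∧ m.length + 1 = l.length) (bdL k l) := by
  induction l with
  | nil => rw [bdL]; exact sup_zero _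
  | cons x l ih =>
    rw [bdL]
    refine sup_sub (sup_single ⟨List.sublist_cons_self _ _, by simp⟩ 1) (sup_cone ?_)
    intro m hm
    obtain ⟨h1, h2⟩ := ih m hm
    exact ⟨List.Sublist.cons_cons x h1, by simp [h2]⟩

/-- every list of `bd c` is a face of a list of `c` -/
theorem sup_bd (c : Ch k X) :
    Sup (fun m => ∃ l ∈ c.support, m.Sublist l ∧ m.length + 1 = l.length) (bd c) := by
  rw [bd_eq_ext]
  refine sup_ext fun l hl => ?_
  exact sup_mono (fun m hm => ⟨l, hl, hm⟩) (sup_bdL l)

theorem sup_prL (f g : X → Y) (l : List X) :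
    Sup (fun m => m.length = l.length + 1 ∧ ∀ y ∈ m, ∃ x ∈ l, y = f x ∨ y = g x)
      (prL k f g l) := by
  induction l with
  | nil => rw [prL]; exact sup_zero _
  | cons x l ih =>
    rw [prL]
    have h1 : Sup (fun m => m.length = (x :: l).length + 1 ∧
        ∀ y ∈ m, ∃ z ∈ x :: l, y = f z ∨ y = g z)
        (Finsupp.single (f x :: g x :: l.map g) (1 : k)) := by
      refine sup_single ⟨by simp, ?_⟩ 1
      intro y hy
      simp only [List.mem_cons, List.mem_map] at hy
      rcases hy with rfl | rfl | ⟨z, hz, rfl⟩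
      · exact ⟨x, by simp, Or.inl rfl⟩
      · exact ⟨x, by simp, Or.inr rfl⟩
      · exact ⟨z, by simp [hz], Or.inr rfl⟩
    refine sup_sub h1 (sup_cone ?_)
    intro m hm
    obtain ⟨h1, h2⟩ := ih m hm
    refine ⟨by simp [h1], fun y hy => ?_⟩
    rw [List.mem_cons] at hy
    rcases hy with rfl | hy
    · exact ⟨x, by simp, Or.inl rfl⟩
    · obtain ⟨z, hz, h⟩ := h2 y hy
      exact ⟨z, by simp [hz], h⟩

/-! #### the coning homotopy -/

variable (ξ : List X → X) (Φ : List X → Ch k X)

theorem htp_succ (l : List X) {m : ℕ} (hm : l.length = m + 1) :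
    htp ξ Φ l = cone (ξ l) (Finsupp.single l 1 - Φ l - ext (htp ξ Φ) (bdL k l)) := by
  rw [htp, hm, htpN]
  congr 2
  refine ext_congr fun l' hl' => ?_
  have := (sup_bdL l l' hl').2
  rw [htp]
  congr 1
  omega

theorem htp_nil : htp ξ Φ ([] : List X) = 0 := rfl

variable {ξ Φ}

theorem bd_htp {P : List X → Prop} (hP : ∀ l l', P l → l'.Sublist l → P l')
    (h0 : Φ [] = Finsupp.single [] 1) (hΦ : ∀ l, P l → bd (Φ l) = ext Φ (bdL k l)) :
    ∀ (m : ℕ) (l : List X), l.length = m → P l →
      bd (htp ξ Φ l) + ext (htp ξ Φ) (bdL k l) = Finsupp.single l 1 - Φ l := by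
  intro m
  induction m with
  | zero =>
    intro l hl _
    rw [List.length_eq_zero_iff] at hl
    subst hl
    rw [htp_nil, h0, bdL]; simp
  | succ m ih =>
    intro l hl hPl
    have e1 : bd (ext (htp ξ Φ) (bdL k l)) = bdL k l - ext Φ (bdL k l) := by
      rw [bd_eq_ext, ext_ext]
      have : ext (fun l' => ext (bdL k) (htp ξ Φ l')) (bdL k l) =
          ext (fun l' => Finsupp.single l' 1 - Φ l' - ext (htp ξ Φ) (bdL k l')) (bdL k l) := by
        refine ext_congr fun l' hl' => ?_
        obtain ⟨hs, hlen⟩ := sup_bdL l l' hl'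
        have := ih l' (by omega) (hP l l' hPl hs)
        rw [← this, bd_eq_ext]; abel
      rw [this, ext_sub_fun, ext_sub_fun]
      have e2 : ext (fun l' => Finsupp.single l' (1 : k)) (bdL k l) = bdL k l := by
        rw [ext_def]; simp
      have e3 : ext (fun l' => ext (htp ξ Φ) (bdL k l')) (bdL k l) = 0 := by
        rw [← ext_ext, ← bd_eq_ext, bd_bdL, map_zero]
      rw [e2, e3, sub_zero]
    rw [htp_succ ξ Φ l hl, bd_cone]
    have e4 : bd (Finsupp.single l 1 - Φ l - ext (htp ξ Φ) (bdL k l)) = 0 := by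
      rw [map_sub, map_sub, bd_single, one_smul, hΦ l hPl, e1]; abel
    rw [e4, map_zero, sub_zero]; abel

theorem sup_htp {P : List X → Prop} (hP : ∀ l l', P l → l'.Sublist l → P l')
    {R : List X → Set X} (hR : ∀ l l', l'.Sublist l → R l' ⊆ R l) (hl : ∀ l, ∀ x ∈ l, x ∈ R l)
    (hξ : ∀ l, l ≠ [] → ξ l ∈ R l)
    (hΦ : ∀ l, P l → Sup (fun m => m.length = l.length ∧ ∀ x ∈ m, x ∈ R l) (Φ l)) :
    ∀ (m : ℕ) (l : List X), l.length = m → P l →
      Sup (fun m => m.length = l.length + 1 ∧ ∀ x ∈ m, x ∈ R l) (htp ξ Φ l) := by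
  intro m
  induction m with
  | zero =>
    intro l hl _
    rw [List.length_eq_zero_iff] at hl
    subst hl
    rw [htp_nil]; exact sup_zero _
  | succ m ih =>
    intro l hlen hPl
    have hne : l ≠ [] := by rintro rfl; simp at hlen
    rw [htp_succ ξ Φ l hlen]
    refine sup_cone ?_
    have key : Sup (fun m => m.length = l.length ∧ ∀ x ∈ m, x ∈ R l)
        (Finsupp.single l 1 - Φ l - ext (htp ξ Φ) (bdL k l)) := by
      refine sup_sub (sup_sub (sup_single ⟨rfl, hl l⟩ 1) (hΦ l hPl)) (sup_ext fun l' hl' => ?_)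
      obtain ⟨hs, hlen'⟩ := sup_bdL l l' hl'
      refine sup_mono ?_ (ih l' (by omega) (hP l l' hPl hs))
      rintro m ⟨h1, h2⟩
      exact ⟨by omega, fun x hx => hR l l' hs (h2 x hx)⟩
    refine sup_mono ?_ key
    rintro m ⟨h1, h2⟩
    refine ⟨by simp [h1], fun x hx => ?_⟩
    rw [List.mem_cons] at hx
    rcases hx with rfl | hx
    · exact hξ l hne
    · exact h2 x hx

end Gen

end Vale.Agent.P239.M.Rel
end

section

/-!
Module M, block M12: the splitting operator and the cap product (own copies, namespace `Rel`).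
-/

namespace Vale.Agent.P239.M.Rel

open Vale.Agent.P239.M

section Sp

variable {X A B : Type*} [AddCommGroup A] [AddCommGroup B]

theorem sp_nil (F : List X → List X → A) : sp F [] = 0 := rfl

theorem sp_cons (F : List X → List X → A) (x : X) (l : List X) :
    sp F (x :: l) = F [x] (x :: l) + sp (fun p s => F (x :: p) s) l := rfl

/-- `p, s` is a splitting of `l` (with common middle vertex). -/
def Spl (l p s : List X) : Prop :=
  ∃ (a b : List X) (x : X), l = a ++ x :: b ∧ p = a ++ [x] ∧ s = x :: b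

theorem sp_congr {F G : List X → List X → A} : ∀ {l : List X},
    (∀ p s, Spl l p s → F p s = G p s) → sp F l = sp G l := by
  intro l
  induction l generalizing F G with
  | nil => intro _; rfl
  | cons x l ih =>
    intro h
    rw [sp_cons, sp_cons, h [x] (x :: l) ⟨[], l, x, rfl, rfl, rfl⟩]
    congr 1
    refine ih fun p s hs => ?_
    obtain ⟨a, b, y, rfl, rfl, rfl⟩ := hs
    exact h _ _ ⟨x :: a, b, y, rfl, rfl, rfl⟩

theorem sp_add (F G : List X → List X → A) (l : List X) :
    sp (fun p s => F p s + G p s) l = sp F l + sp G l := by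
  induction l generalizing F G with
  | nil => simp [sp_nil]
  | cons x l ih => rw [sp_cons, sp_cons, sp_cons, ih]; abel

theorem sp_map (f : A →+ B) (F : List X → List X → A) (l : List X) :
    f (sp F l) = sp (fun p s => f (F p s)) l := by
  induction l generalizing F with
  | nil => rw [sp_nil, sp_nil, map_zero]
  | cons x l ih => rw [sp_cons, sp_cons, map_add, ih]

theorem sp_zero (l : List X) : sp (fun _ _ => (0 : A)) l = 0 := by
  induction l with
  | nil => rfl
  | cons x l ih => rw [sp_cons, ih, add_zero]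

theorem Spl.sublist_left {l p s : List X} (h : Spl l p s) : p.Sublist l := by
  obtain ⟨a, b, x, rfl, rfl, rfl⟩ := h
  exact List.Sublist.append (List.Sublist.refl a)
    (by rw [List.singleton_sublist]; exact List.mem_cons_self)

theorem Spl.sublist_right {l p s : List X} (h : Spl l p s) : s.Sublist l := by
  obtain ⟨a, b, x, rfl, rfl, rfl⟩ := h
  exact List.sublist_append_right _ _

theorem Spl.length {l p s : List X} (h : Spl l p s) : p.length + s.length = l.length + 1 := by
  obtain ⟨a, b, x, rfl, rfl, rfl⟩ := h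
  simp only [List.length_append, List.length_cons, List.length_nil, zero_add]; omega

theorem Spl.mid {l p s : List X} (h : Spl l p s) : ∃ x, x ∈ p ∧ x ∈ s := by
  obtain ⟨a, b, x, rfl, rfl, rfl⟩ := h
  exact ⟨x, by simp, by simp⟩

variable [Module (ZMod 2) A]

theorem two_zero (a : A) : a + a = 0 := by
  have h : ((1 : ZMod 2) + 1) • a = 0 := by
    rw [show (1 : ZMod 2) + 1 = 0 from rfl, zero_smul]
  rwa [add_smul, one_smul] at h

/-- Leibniz rule for the splitting operator. -/
theorem ext_sp_bdL (F : List X → List X → A) (l : List X) :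
    ext (sp F) (bdL (ZMod 2) l) =
      sp (fun p s => ext (fun p' => F p' s) (bdL (ZMod 2) p) +
        ext (fun s' => F p s') (bdL (ZMod 2) s)) l + F [] l + F l [] := by
  induction l generalizing F with
  | nil => rw [bdL, map_zero, sp_nil, zero_add, two_zero]
  | cons x l ih =>
    have hc : ∀ (u : List X → A) (c : Ch (ZMod 2) X),
        ext u (cone x c) = ext (fun l => u (x :: l)) c := by
      intro u c
      induction c using Finsupp.induction_linear with
      | zero => simp
      | add a b ha hb => rw [map_add, map_add, ha, hb, map_add]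
      | single l r => rw [cone_single, ext_single, ext_single]
    have hcons : ∀ (u : List X → A) (m : List X), ext u (bdL (ZMod 2) (x :: m)) =
        u m + ext (fun l => u (x :: l)) (bdL (ZMod 2) m) := by
      intro u m
      rw [bdL, map_sub, ext_single, one_smul, hc, sub_eq_add_neg,
        neg_eq_of_add_eq_zero_left (two_zero _)]
    rw [hcons, sp_cons]
    have e1 : ext (fun l => sp F (x :: l)) (bdL (ZMod 2) l) =
        ext (fun m => F [x] (x :: m)) (bdL (ZMod 2) l) +
          ext (sp fun p s => F (x :: p) s) (bdL (ZMod 2) l) := by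
      rw [← ext_add_fun]; rfl
    rw [e1, ih]
    have e2 : sp (fun p s => ext (fun p' => F p' s) (bdL (ZMod 2) (x :: p)) +
          ext (fun s' => F (x :: p) s') (bdL (ZMod 2) s)) l =
        sp F l + sp (fun p s => ext (fun p' => F (x :: p') s) (bdL (ZMod 2) p) +
          ext (fun s' => F (x :: p) s') (bdL (ZMod 2) s)) l := by
      rw [← sp_add]
      refine sp_congr fun p s _ => ?_
      rw [hcons]; abel
    rw [e2]
    have e3 : ext (fun p' => F p' (x :: l)) (bdL (ZMod 2) [x]) = F [] (x :: l) := by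
      rw [hcons, bdL, map_zero, add_zero]
    have e4 : ext (fun s' => F [x] s') (bdL (ZMod 2) (x :: l)) =
        F [x] l + ext (fun s' => F [x] (x :: s')) (bdL (ZMod 2) l) := hcons _ _
    rw [e3, e4]
    have := two_zero (F [] (x :: l))
    have h2 : F [] (x :: l) + (F [x] l + ext (fun s' => F [x] (x :: s')) (bdL (ZMod 2) l)) +
        (sp F l + sp (fun p s => ext (fun p' => F (x :: p') s) (bdL (ZMod 2) p) +
          ext (fun s' => F (x :: p) s') (bdL (ZMod 2) s)) l) + F [] (x :: l) + F (x :: l) [] =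
        (F [] (x :: l) + F [] (x :: l)) + (F [x] l +
          ext (fun s' => F [x] (x :: s')) (bdL (ZMod 2) l) +
        (sp F l + sp (fun p s => ext (fun p' => F (x :: p') s) (bdL (ZMod 2) p) +
          ext (fun s' => F (x :: p) s') (bdL (ZMod 2) s)) l) + F (x :: l) []) := by abel
    rw [h2, this]
    abel

end Sp

section Cap

variable {X : Type*}

theorem capS_def (θ : List X → ZMod 2) (l : List X) :
    capS θ l = sp (fun p s => Finsupp.single s (θ p)) l := rfl

theorem capS_congr {θ θ' : List X → ZMod 2} {l : List X}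
    (h : ∀ p s, Spl l p s → θ p = θ' p) : capS θ l = capS θ' l := by
  rw [capS_def, capS_def]
  exact sp_congr fun p s hs => by rw [h p s hs]

theorem capS_zero (l : List X) : capS (fun _ => 0) l = 0 := by
  rw [capS_def]
  simp only [Finsupp.single_zero]
  exact sp_zero l

theorem bd_capS (θ : List X → ZMod 2) (l : List X) :
    bd (capS θ l) = ext (capS θ) (bdL (ZMod 2) l) +
      capS (fun p => ext θ (bdL (ZMod 2) p)) l + Finsupp.single l (θ []) +
      Finsupp.single [] (θ l) := by
  have h := ext_sp_bdL (A := Ch (ZMod 2) X) (fun p s => Finsupp.single s (θ p)) l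
  have e0 : ext (sp fun p s => Finsupp.single s (θ p)) (bdL (ZMod 2) l) =
    ext (capS θ) (bdL (ZMod 2) l) := rfl
  have e1 : ∀ p s : List X, ext (fun p' => Finsupp.single s (θ p')) (bdL (ZMod 2) p) =
      (Finsupp.single s (ext θ (bdL (ZMod 2) p)) : Ch (ZMod 2) X) := by
    intro p s
    exact (map_ext (Finsupp.lsingle s) θ _).symm
  have e2 : ∀ p s : List X, ext (fun s' => Finsupp.single s' (θ p)) (bdL (ZMod 2) s) =
      (θ p • bdL (ZMod 2) s : Ch (ZMod 2) X) := by
    intro p s
    rw [ext_def, Finsupp.sum]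
    conv_rhs => rw [← Finsupp.sum_single (bdL (ZMod 2) s), Finsupp.sum, Finset.smul_sum]
    refine Finset.sum_congr rfl fun l _ => ?_
    rw [Finsupp.smul_single, Finsupp.smul_single, smul_eq_mul, smul_eq_mul, mul_comm]
  have e3 : sp (fun p s => ext (fun p' => Finsupp.single s (θ p')) (bdL (ZMod 2) p) +
      ext (fun s' => Finsupp.single s' (θ p)) (bdL (ZMod 2) s)) l =
      capS (fun p => ext θ (bdL (ZMod 2) p)) l + bd (capS θ l) := by
    have e4 : bd (capS θ l) = sp (fun p s => (θ p • bdL (ZMod 2) s : Ch (ZMod 2) X)) l := by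
      rw [capS_def]
      have := sp_map (bd (k := ZMod 2) (X := X)).toAddMonoidHom
        (fun p s => Finsupp.single s (θ p)) l
      simp only [LinearMap.toAddMonoidHom_coe] at this
      rw [this]
      exact sp_congr fun p s _ => by rw [bd_single]
    rw [e4, capS_def, ← sp_add]
    exact sp_congr fun p s _ => by rw [e1, e2]
  rw [e0] at h
  rw [h, e3]
  have := two_zero (capS (fun p => ext θ (bdL (ZMod 2) p)) l)
  have t2 := two_zero (Finsupp.single l (θ []) : Ch (ZMod 2) X)
  have t3 := two_zero (Finsupp.single [] (θ l) : Ch (ZMod 2) X)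
  calc bd (capS θ l) = bd (capS θ l) + 0 + 0 + 0 := by simp
    _ = bd (capS θ l) + (capS (fun p => ext θ (bdL (ZMod 2) p)) l +
          capS (fun p => ext θ (bdL (ZMod 2) p)) l) +
          (Finsupp.single l (θ []) + Finsupp.single l (θ [])) +
          (Finsupp.single [] (θ l) + Finsupp.single [] (θ l)) := by rw [this, t2, t3]
    _ = _ := by abel

/-- `bd` of the cap product of a chain with a cochain. -/
theorem bd_ext_capS (θ : List X → ZMod 2) (c : Ch (ZMod 2) X) (h0 : θ [] = 0) :
    bd (ext (capS θ) c) = ext (capS θ) (bd c) +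
      ext (capS fun p => ext θ (bdL (ZMod 2) p)) c + Finsupp.single [] (ext θ c) := by
  rw [map_ext (bd (k := ZMod 2) (X := X)) (capS θ) c, bd_eq_ext c, ext_ext]
  have e : ext (fun l => bd (capS θ l)) c = ext (fun l => (ext (capS θ) (bdL (ZMod 2) l) +
      capS (fun p => ext θ (bdL (ZMod 2) p)) l) + Finsupp.single [] (θ l)) c := by
    refine ext_congr fun l _ => ?_
    rw [bd_capS, h0, Finsupp.single_zero, add_zero]
  rw [e, ext_add_fun, ext_add_fun]
  congr 1
  exact (map_ext (Finsupp.lsingle []) θ c).symm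

theorem ext_sp {Y A : Type*} [AddCommGroup A] [Module (ZMod 2) A]
    (F : List Y → List X → List X → A) (v : Ch (ZMod 2) Y) (l : List X) :
    ext (fun a => sp (F a) l) v = sp (fun p s => ext (fun a => F a p s) v) l := by
  induction l generalizing F with
  | nil => simp only [sp_nil]; exact ext_zero_fun v
  | cons x l ih =>
    simp only [sp_cons]
    rw [ext_add_fun, ih]

theorem sup_sp {P : List X → Prop} {F : List X → List X → Ch (ZMod 2) X} {l : List X}
    (h : ∀ p s, Spl l p s → Sup P (F p s)) : Sup P (sp F l) := by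
  induction l generalizing F with
  | nil => exact sup_zero _
  | cons x l ih =>
    rw [sp_cons]
    refine sup_add (h _ _ ⟨[], l, x, rfl, rfl, rfl⟩) (ih ?_)
    rintro p s ⟨a, b, y, rfl, rfl, rfl⟩
    exact h _ _ ⟨x :: a, b, y, rfl, rfl, rfl⟩

/-- linearity in the cochain -/
theorem ext_capS_ext {Y : Type*} (Θ : List Y → List X → ZMod 2) (v : Ch (ZMod 2) Y)
    (c : Ch (ZMod 2) X) :
    ext (fun a => ext (capS (Θ a)) c) v = ext (capS fun b => ext (fun a => Θ a b) v) c := by
  rw [ext_swap]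
  refine ext_congr fun l _ => ?_
  simp only [capS_def]
  rw [ext_sp]
  refine sp_congr fun p s _ => ?_
  exact (map_ext (Finsupp.lsingle s) (fun a => Θ a p) v).symm

/-- lists of a cap product -/
theorem sup_capS {P : List X → Prop} {θ : List X → ZMod 2} {l : List X}
    (h : ∀ p s, Spl l p s → θ p ≠ 0 → P s) : Sup P (capS θ l) := by
  rw [capS_def]
  refine sup_sp fun p s hs => ?_
  by_cases h0 : θ p = 0
  · rw [h0, Finsupp.single_zero]; exact sup_zero _
  · exact sup_single (h p s hs h0) _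

end Cap

end Vale.Agent.P239.M.Rel
end

section

/-!
Module M, block M12: the homotopy operator of a contraction.
-/

namespace Vale.Agent.P239.M.Rel

open Vale.Agent.P239.M Metric Set

section DN

variable {k : Type*} [CommRing k] {X : Type*}

/-- the times -/
noncomputable def tt (M a : ℕ) : unitInterval := Set.projIcc 0 1 zero_le_one ((a : ℝ) / M)

theorem tt_zero (M : ℕ) : tt M 0 = 0 := by
  rw [tt, Nat.cast_zero, zero_div, Set.projIcc_left]; rfl

theorem tt_self {M : ℕ} (hM : 0 < M) : tt M M = 1 := by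
  rw [tt, div_self (by positivity), Set.projIcc_right]; rfl

theorem dist_tt (M a : ℕ) : dist (tt M a) (tt M (a + 1)) ≤ 1 / M := by
  have h := (LipschitzWith.projIcc (zero_le_one' ℝ)).dist_le_mul ((a : ℝ) / M) (((a + 1 : ℕ) : ℝ) / M)
  rw [NNReal.coe_one, one_mul] at h
  refine h.trans ?_
  rw [Real.dist_eq, ← sub_div, Nat.cast_add, Nat.cast_one]
  rw [show (a : ℝ) - (a + 1) = -1 by ring, abs_div, abs_neg, abs_one, abs_of_nonneg (by positivity)]

/-- subdivided homotopy operator -/
noncomputable def DN (H : unitInterval × X → X) (M : ℕ) : Ch k X →ₗ[k] Ch k X :=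
  ∑ a ∈ Finset.range M, pr (fun x => H (tt M a, x)) (fun x => H (tt M (a + 1), x))

theorem pf_id (c : Ch k X) : pf (fun x : X => x) c = c := by
  induction c using Finsupp.induction_linear with
  | zero => simp
  | add a b ha hb => rw [map_add, ha, hb]
  | single l r => rw [pf_single, List.map_id']

theorem bd_DN (H : unitInterval × X → X) {M : ℕ} (hM : 0 < M) (h0 : ∀ x, H (0, x) = x)
    (c : Ch k X) :
    bd (DN H M c) + DN H M (bd c) = pf (fun x => H (1, x)) c - c := by
  have e : ∀ c : Ch k X, DN H M c = ∑ a ∈ Finset.range M,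
      pr (fun x => H (tt M a, x)) (fun x => H (tt M (a + 1), x)) c := by
    intro c
    rw [DN, LinearMap.sum_apply]
  rw [e, e, map_sum, ← Finset.sum_add_distrib]
  simp only [bd_pr]
  rw [Finset.sum_range_sub (fun a => pf (fun x => H (tt M a, x)) c), tt_self hM, tt_zero]
  congr 1
  have : (fun x : X => H (0, x)) = fun x => x := funext h0
  rw [this, pf_id]

theorem sup_DN {P : List X → Prop} (H : unitInterval × X → X) (M : ℕ) (l : List X)
    (h : ∀ a < M, Sup P (prL k (fun x => H (tt M a, x)) (fun x => H (tt M (a + 1), x)) l)) :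
    Sup P (DN H M (Finsupp.single l (1 : k))) := by
  rw [DN, LinearMap.sum_apply]
  refine sup_sum fun a ha => ?_
  rw [pr_single, one_smul]
  exact h a (Finset.mem_range.1 ha)

/-- small lists stay small -/
theorem exists_mesh [MetricSpace X] (H : unitInterval × X → X) (hH : Continuous H) {K : Set X}
    (hK : IsCompact K) {κ : ℝ} (hκ : 0 < κ) :
    ∃ M : ℕ, 0 < M ∧ ∃ δ > 0, ∀ l : List X, In K l → Sm δ l → ∀ a < M,
      Sup (fun m => m.length = l.length + 1 ∧ Sm κ m ∧ In (H '' (univ ×ˢ K)) m)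
        (prL k (fun x => H (tt M a, x)) (fun x => H (tt M (a + 1), x)) l) := by
  have hu : UniformContinuousOn H (univ ×ˢ K) :=
    (isCompact_univ.prod hK).uniformContinuousOn_of_continuous hH.continuousOn
  rw [Metric.uniformContinuousOn_iff] at hu
  obtain ⟨δ, hδ, h⟩ := hu κ hκ
  obtain ⟨M, hM⟩ := exists_nat_gt (1 / δ)
  have hM0 : 0 < M := by
    have : (0 : ℝ) < M := lt_trans (by (clear * - hδ; positivity)) hM
    exact_mod_cast this
  refine ⟨M, hM0, δ, hδ, fun l hl hs a _ => ?_⟩
  have hd : dist (tt M a) (tt M (a + 1)) < δ := by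
    refine (dist_tt M a).trans_lt ?_
    rw [div_lt_iff₀ (by (clear * - hM0; positivity))]
    rw [div_lt_iff₀ hδ] at hM
    linarith only [hM]
  refine sup_mono ?_ (sup_prL _ _ l)
  rintro m ⟨h1, h2⟩
  refine ⟨h1, ?_, ?_⟩
  · intro y hy y' hy'
    obtain ⟨x, hx, hyx⟩ := h2 y hy
    obtain ⟨x', hx', hyx'⟩ := h2 y' hy'
    have hm : ∀ t : unitInterval, ∀ x ∈ l, (t, x) ∈ (univ ×ˢ K : Set (unitInterval × X)) :=
      fun t x hx => ⟨mem_univ _, hl x hx⟩
    have hxx := hs x hx x' hx'
    rcases hyx with rfl | rfl <;> rcases hyx' with rfl | rfl <;>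
      refine h _ (hm _ x hx) _ (hm _ x' hx') ?_ <;>
      rw [Prod.dist_eq, max_lt_iff] <;> refine ⟨?_, hxx⟩
    · rw [dist_self]; exact hδ
    · exact hd
    · rw [dist_comm]; exact hd
    · rw [dist_self]; exact hδ
  · intro y hy
    obtain ⟨x, hx, hyx⟩ := h2 y hy
    rcases hyx with rfl | rfl
    · exact ⟨(_, x), ⟨mem_univ _, hl x hx⟩, rfl⟩
    · exact ⟨(_, x), ⟨mem_univ _, hl x hx⟩, rfl⟩

/-- Restriction lemma. -/
theorem mem_bd_of_filter {c : Ch k X} {P : List X → Prop} [DecidablePred P] {l : List X}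
    (hl : l ∈ (bd (c.filter P)).support) {x : X} (hx : x ∈ l)
    (h : ∀ l' ∈ c.support, x ∈ l' → P l') : l ∈ (bd c).support := by
  have e : bd c = bd (c.filter P) + bd (c.filter fun l => ¬ P l) := by
    rw [← map_add, Finsupp.filter_add_filter_not]
  have h0 : (bd (c.filter fun l => ¬ P l)) l = 0 := by
    by_contra hne
    have hm : l ∈ (bd (c.filter fun l => ¬ P l)).support := Finsupp.mem_support_iff.2 hne
    obtain ⟨l', hl', hs, _⟩ := sup_bd _ l hm
    rw [Finsupp.support_filter, Finset.mem_filter] at hl'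
    exact hl'.2 (h l' hl'.1 (hs.subset hx))
  rw [Finsupp.mem_support_iff, e, Finsupp.add_apply, h0, add_zero]
  exact Finsupp.mem_support_iff.1 hl

end DN

end Vale.Agent.P239.M.Rel
end

section

/-!
Module M, block M12: relative cycles near infinity (`RelS`).
-/

namespace Vale.Agent.P239.M.Rel

open Vale.Agent.P239.M Metric Set

section Eta

variable {X : Type*} (H : unitInterval × X → X) (M : ℕ) (x₀ : X) (th : List X → ZMod 2)

/-- the primitive of `th` -/
noncomputable def et (l : List X) : ZMod 2 :=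
  ext th (cone x₀ (pf (fun x => H (1, x)) (Finsupp.single l (1 : ZMod 2)))) +
    ext th (DN H M (Finsupp.single l (1 : ZMod 2)))

theorem ext_et (c : Ch (ZMod 2) X) : ext (et H M x₀ th) c =
    ext th (cone x₀ (pf (fun x => H (1, x)) c)) + ext th (DN H M c) := by
  have e := map_ext (k := ZMod 2) (M := Ch (ZMod 2) X) (N := ZMod 2)
    ((ext th).comp ((cone x₀).comp (pf fun x => H (1, x))) + (ext th).comp (DN H M))
    (fun l => Finsupp.single l 1) c
  have e2 : ext (fun l' => Finsupp.single l' (1 : ZMod 2)) c = c := by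
    rw [ext_def]; simp
  rw [e2] at e
  exact e.symm

theorem ext_et_bdL (hM : 0 < M) (h0 : ∀ x, H (0, x) = x) (l : List X)
    (hd : Sup (fun b => ext th (bdL (ZMod 2) b) = 0)
      (cone x₀ (pf (fun x => H (1, x)) (Finsupp.single l (1 : ZMod 2)))))
    (hd' : Sup (fun b => ext th (bdL (ZMod 2) b) = 0) (DN H M (Finsupp.single l (1 : ZMod 2)))) :
    ext (et H M x₀ th) (bdL (ZMod 2) l) = th l := by
  have hz : ∀ c : Ch (ZMod 2) X, Sup (fun b => ext th (bdL (ZMod 2) b) = 0) c →
      ext th (bd c) = 0 := by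
    intro c hc
    rw [bd_eq_ext, ext_ext]
    rw [ext_congr (v := fun _ => 0) (fun l hl => hc l hl), ext_zero_fun]
  have hbl : bdL (ZMod 2) l = bd (Finsupp.single l 1) := by rw [bd_single, one_smul]
  have e1 : cone x₀ (pf (fun x => H (1, x)) (bdL (ZMod 2) l)) =
      pf (fun x => H (1, x)) (Finsupp.single l 1) -
        bd (cone x₀ (pf (fun x => H (1, x)) (Finsupp.single l 1))) := by
    rw [hbl, ← bd_pf, bd_cone, sub_sub_cancel]
  have e2 : DN H M (bdL (ZMod 2) l) = pf (fun x => H (1, x)) (Finsupp.single l 1) -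
      Finsupp.single l 1 - bd (DN H M (Finsupp.single l 1)) := by
    rw [← bd_DN H hM h0, hbl]; abel
  rw [ext_et, e1, e2, map_sub, map_sub, map_sub, hz _ hd, hz _ hd', sub_zero, sub_zero,
    ext_single, one_smul, sub_eq_add_neg, ← add_assoc, two_zero, zero_add]
  exact neg_eq_of_add_eq_zero_left (two_zero _)

theorem et_eq_zero {m : ℕ} (hth : ∀ b, th b ≠ 0 → b.length = m) {l : List X}
    (hl : l.length + 1 ≠ m) : et H M x₀ th l = 0 := by
  have hz : ∀ c : Ch (ZMod 2) X, Sup (fun b => b.length = l.length + 1) c → ext th c = 0 := by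
    intro c hc
    rw [ext_congr (v := fun _ => 0) (fun b hb => ?_), ext_zero_fun]
    by_contra h
    exact hl ((hc b hb).symm.trans (hth b h))
  rw [et, hz, hz, add_zero]
  · exact sup_DN H M l fun a _ => sup_mono (fun m hm => hm.1) (sup_prL _ _ l)
  · rw [pf_single, cone_single]
    exact sup_single (by simp) 1

end Eta

variable {X : Type*} [MetricSpace X]

theorem relS [LocallyCompactSpace X] {n i : ℕ} (hi : 1 ≤ i) (hin : i < n)
    (H : unitInterval × X → X) (hH : Continuous H) (h0 : ∀ x, H (0, x) = x) (x₀ : X)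
    (h1 : ∀ x, H (1, x) = x₀) (hP : ∀ N : Set X, IsCompact N → PkgS n N) : RelS X i := by
  classical
  intro K hK
  obtain ⟨r1, hr1, hK1⟩ := hK.exists_isCompact_cthickening
  set K1 := cthickening r1 K with hK1def
  set K0 := H '' (univ ×ˢ K1) ∪ {x₀} with hK0def
  have hK0 : IsCompact K0 :=
    ((isCompact_univ.prod hK1).image hH).union isCompact_singleton
  have hK1K0 : K1 ⊆ K0 := fun x hx => Or.inl ⟨(0, x), ⟨mem_univ _, hx⟩, h0 x⟩
  have hKK1 : K ⊆ K1 := self_subset_cthickening K
  obtain ⟨r2, hr2, hK'⟩ := hK0.exists_isCompact_cthickening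
  set K' := cthickening r2 K0 with hK'def
  have hK0K' : K0 ⊆ K' := self_subset_cthickening K0
  obtain ⟨r3, hr3, hN⟩ := hK'.exists_isCompact_cthickening
  set N := cthickening r3 K' with hNdef
  have hK'N : K' ⊆ N := self_subset_cthickening K'
  obtain ⟨r4, hr4, hN'⟩ := hN.exists_isCompact_cthickening
  set N' := cthickening r4 N with hN'def
  have hNN' : N ⊆ N' := self_subset_cthickening N
  refine ⟨K', N, N', hK', hN, hN', (hKK1.trans hK1K0).trans hK0K', ?_, hNN', ?_⟩
  · exact (self_subset_thickening hr3 K').trans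
      (interior_maximal (thickening_subset_cthickening r3 K') isOpen_thickening)
  intro ε hε
  obtain ⟨η, hη, hJ⟩ := hP N hN
  set ρ := min (min (min η (r2 / 4)) (r4 / 4)) (ε / 8) with hρdef
  have hρ : 0 < ρ := by
    rw [hρdef]; refine lt_min (lt_min (lt_min hη (by (clear * - hr2; positivity))) (by (clear * - hr4; positivity))) (by (clear * - hε; positivity))
  have hρη : ρ ≤ η := (min_le_left _ _).trans ((min_le_left _ _).trans (min_le_left _ _))
  have hρ2 : ρ ≤ r2 / 4 := (min_le_left _ _).trans ((min_le_left _ _).trans (min_le_right _ _))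
  have hρ4 : ρ ≤ r4 / 4 := (min_le_left _ _).trans (min_le_right _ _)
  have hρε : ρ ≤ ε / 8 := min_le_right _ _
  obtain ⟨κ₀, hκ₀, κ₁, hκ₁, Θ, hΘ0, hΘ0', hlen, hloc, hch, hμ⟩ := hJ i hin.le ρ hρ
  obtain ⟨M, hM, δ₀, hδ₀, hmesh⟩ := exists_mesh (k := ZMod 2) H hH hK1 hκ₁
  set δ := min (min δ₀ κ₁) (min ρ r1) with hδdef
  have hδ : 0 < δ := lt_min (lt_min hδ₀ hκ₁) (lt_min hρ hr1)
  have hδδ₀ : δ ≤ δ₀ := (min_le_left _ _).trans (min_le_left _ _)
  have hδκ₁ : δ ≤ κ₁ := (min_le_left _ _).trans (min_le_right _ _)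
  have hδρ : δ ≤ ρ := (min_le_right _ _).trans (min_le_left _ _)
  have hδr1 : δ ≤ r1 := (min_le_right _ _).trans (min_le_right _ _)
  obtain ⟨μ, hμs, hμb, hμ1⟩ := hμ δ hδ
  refine ⟨min κ₀ ρ, lt_min hκ₀ hρ, fun v hv hbv => ?_⟩
  -- sublists
  have smSub : ∀ {r : ℝ} {l l' : List X}, Sm r l → l'.Sublist l → Sm r l' :=
    fun h hs x hx y hy => h x (hs.subset hx) y (hs.subset hy)
  have smMono : ∀ {r r' : ℝ} {l : List X}, Sm r l → r ≤ r' → Sm r' l :=
    fun h hr x hx y hy => (h x hx y hy).trans_le hr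
  have inSub : ∀ {A : Set X} {l l' : List X}, In A l → l'.Sublist l → In A l' :=
    fun h hs x hx => h x (hs.subset hx)
  -- the class of lists
  set P : List X → Prop := fun l => In N l ∧ Sm κ₀ l ∧ l.length ≤ i + 1 with hPdef
  have hPsub : ∀ l l', P l → l'.Sublist l → P l' := fun l l' h hs =>
    ⟨inSub h.1 hs, smSub h.2.1 hs, hs.length_le.trans h.2.2⟩
  -- the chain map
  set Φ : List X → Ch (ZMod 2) X := fun l =>
    ext (capS (Θ l)) μ + (if l = [] then Finsupp.single [] 1 else 0) with hΦdef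
  have hΘnil : ext (capS (Θ [])) μ = 0 := by
    rw [ext_congr (v := fun _ => 0) (fun l _ => ?_), ext_zero_fun]
    rw [show Θ [] = fun _ => 0 from funext hΘ0, capS_zero]
  have hΦnil : Φ [] = Finsupp.single [] 1 := by
    simp only [hΦdef, hΘnil, if_true, zero_add]
  have hfar : ∀ l ∈ (bd μ).support, ∀ p, p.Sublist l → ∀ a, P a → Θ a p = 0 := by
    intro l hl p hp a ha
    by_contra hne
    have hane : a ≠ [] := by rintro rfl; exact hne (hΘ0 p)
    have hpne : p ≠ [] := by rintro rfl; exact hne (hΘ0' a)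
    obtain ⟨x, hx⟩ := List.exists_mem_of_ne_nil a hane
    obtain ⟨y, hy⟩ := List.exists_mem_of_ne_nil p hpne
    obtain ⟨l', hl', hs, _⟩ := sup_bd μ l hl
    have hps : Sm κ₁ p := smMono (smSub (hμs l' hl').2 (hp.trans hs)) hδκ₁
    have h1 := hloc a ha.1 ha.2.1 ha.2.2 p hps hne x hx y hy
    have h2 := hμb l hl y (hp.subset hy) x (ha.1 x hx)
    rw [dist_comm] at h2
    linarith only [hρη, h1, h2]
  have hΦ : ∀ l, P l → bd (Φ l) = ext Φ (bdL (ZMod 2) l) := by
    intro l hl
    have e1 : bd (if l = [] then (Finsupp.single [] 1 : Ch (ZMod 2) X) else 0) = 0 := by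
      split_ifs
      · rw [bd_single, bdL, smul_zero]
      · exact map_zero _
    have e2 : ext (capS (Θ l)) (bd μ) = 0 := by
      rw [ext_congr (v := fun _ => 0) (fun l' hl' => ?_), ext_zero_fun]
      rw [← capS_zero l']
      exact capS_congr fun p s hs => hfar l' hl' p hs.sublist_left l hl
    have e3 : ext (capS fun p => ext (Θ l) (bdL (ZMod 2) p)) μ =
        ext (fun a => ext (capS (Θ a)) μ) (bdL (ZMod 2) l) := by
      rw [ext_capS_ext]
      refine ext_congr fun l' hl' => capS_congr fun p s hs => ?_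
      exact hch l hl.1 hl.2.1 hl.2.2 p (smMono (smSub (hμs l' hl').2 hs.sublist_left) hδκ₁)
    have e4 : (Finsupp.single [] (ext (Θ l) μ) : Ch (ZMod 2) X) =
        ext (fun a => if a = [] then (Finsupp.single [] 1 : Ch (ZMod 2) X) else 0)
          (bdL (ZMod 2) l) := by
      have hlen0 : l.length ≠ 1 → ext (Θ l) μ = 0 := by
        intro hl1
        rw [ext_congr (v := fun _ => 0) (fun l' hl' => ?_), ext_zero_fun]
        by_contra hne
        have := hlen l l' hne
        have := (hμs l' hl').1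
        omega
      match l, hl, hlen0 with
      | [], _, hlen0 => rw [hlen0 (by simp), bdL, map_zero, Finsupp.single_zero]
      | [x], hl, _ =>
        rw [hμ1 x (hl.1 x (by simp)), bdL, bdL, map_zero, sub_zero, ext_single, one_smul,
          if_pos rfl]
      | x :: y :: l, _, hlen0 =>
        rw [hlen0 (by simp), Finsupp.single_zero,
          ext_congr (v := fun _ => 0) (fun a ha => ?_), ext_zero_fun]
        rw [if_neg]
        rintro rfl
        have := (sup_bdL _ _ ha).2
        simp at this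
    rw [show Φ l = ext (capS (Θ l)) μ + (if l = [] then Finsupp.single [] 1 else 0) from rfl,
      map_add, e1, add_zero, bd_ext_capS _ _ (hΘ0' l), e2, zero_add, e3, e4, ← ext_add_fun]
  -- the neighbourhoods
  set R : List X → Set X := fun l => {y | ∃ x ∈ l, dist x y < 2 * ρ} with hRdef
  have hRmono : ∀ l l' : List X, l'.Sublist l → R l' ⊆ R l := by
    rintro l l' hs y ⟨x, hx, hxy⟩
    exact ⟨x, hs.subset hx, hxy⟩
  have hRself : ∀ l : List X, ∀ x ∈ l, x ∈ R l := fun l x hx =>
    ⟨x, hx, by rw [dist_self]; (clear * - hη hr2 hr4 hε; positivity)⟩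
  set ξ : List X → X := fun l => l.headD x₀ with hξdef
  have hξ : ∀ l : List X, l ≠ [] → ξ l ∈ R l := by
    intro l hl
    cases l with
    | nil => exact absurd rfl hl
    | cons x l => exact hRself _ _ (by simp [hξdef])
  have hΦs : ∀ l, P l → Sup (fun m => m.length = l.length ∧ ∀ x ∈ m, x ∈ R l) (Φ l) := by
    intro l hl
    refine sup_add (sup_ext fun l' hl' => sup_capS fun p s hs hne => ?_) ?_
    · obtain ⟨hl1, hl2⟩ := hμs l' hl'
      have h2 := hlen l p hne
      have h3 := hs.length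
      refine ⟨by omega, fun y hy => ?_⟩
      have hlne : l ≠ [] := by rintro rfl; exact hne (hΘ0 p)
      obtain ⟨x, hx⟩ := List.exists_mem_of_ne_nil l hlne
      obtain ⟨z, hzp, hzs⟩ := hs.mid
      have h4 := hloc l hl.1 hl.2.1 hl.2.2 p (smMono (smSub hl2 hs.sublist_left) hδκ₁) hne
        x hx z hzp
      have h5 := hl2 z (hs.sublist_right.subset hzs) y (hs.sublist_right.subset hy)
      refine ⟨x, hx, ?_⟩
      have := dist_triangle x z y
      linarith only [hδρ, h4, h5, this]
    · split_ifs with h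
      · subst h
        exact sup_single ⟨rfl, by simp⟩ 1
      · exact sup_zero _
  have hHs := fun l hl => sup_htp (ξ := ξ) hPsub hRmono hRself hξ hΦs l.length l rfl hl
  have hHb := fun l hl => bd_htp (ξ := ξ) hPsub hΦnil hΦ l.length l rfl hl
  -- `v` lies in the class
  have hvP : ∀ l ∈ v.support, P l := fun l hl =>
    ⟨(hv l hl).2.2, smMono (hv l hl).2.1 (min_le_left _ _), (hv l hl).1.le⟩
  -- the cochain
  set th : List X → ZMod 2 := fun b => ext (fun a => Θ a b) v with hthdef
  have hth_ex : ∀ b, th b ≠ 0 → ∃ a ∈ v.support, Θ a b ≠ 0 := by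
    intro b hb
    by_contra hcon
    push Not at hcon
    apply hb
    show ext (fun a => Θ a b) v = 0
    rw [ext_congr (v := fun _ => 0) hcon, ext_zero_fun]
  have hth_len : ∀ b, th b ≠ 0 → b.length = n + 1 - i := by
    intro b hb
    obtain ⟨a, ha, hab⟩ := hth_ex b hb
    have := hlen a b hab
    have := (hv a ha).1
    omega
  have hth_d : ∀ b, Sm κ₁ b → In K0 b → ext th (bdL (ZMod 2) b) = 0 := by
    intro b hbs hbK
    have e1 : ext th (bdL (ZMod 2) b) = ext (fun a => ext (Θ a) (bdL (ZMod 2) b)) v :=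
      (ext_swap (fun a b => Θ a b) v (bdL (ZMod 2) b)).symm
    have e2 : ext (fun a => ext (Θ a) (bdL (ZMod 2) b)) v =
        ext (fun a => ext (fun a' => Θ a' b) (bdL (ZMod 2) a)) v :=
      ext_congr fun a ha => hch a (hvP a ha).1 (hvP a ha).2.1 (hvP a ha).2.2 b hbs
    rw [e1, e2, ← ext_ext, ← bd_eq_ext, ext_congr (v := fun _ => 0) (fun a ha => ?_),
      ext_zero_fun]
    by_contra hne
    have hane : a ≠ [] := by rintro rfl; exact hne (hΘ0 b)
    have hbne : b ≠ [] := by rintro rfl; exact hne (hΘ0' a)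
    obtain ⟨x, hx⟩ := List.exists_mem_of_ne_nil a hane
    obtain ⟨y, hy⟩ := List.exists_mem_of_ne_nil b hbne
    obtain ⟨a', ha', hs, _⟩ := sup_bd v a ha
    have hPa : P a := hPsub a' a (hvP a' ha') hs
    have h2 := hloc a hPa.1 hPa.2.1 hPa.2.2 b hbs hne x hx y hy
    refine hbv a ha x hx ?_
    exact mem_cthickening_of_dist_le x y r2 K0 (hbK y hy) (by linarith only [hρ, hρ2, h2])
  -- primitive
  set eta := et H M x₀ th with hetadef
  have heta : ∀ l, In K1 l → Sm δ l → ext eta (bdL (ZMod 2) l) = th l := by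
    intro l hl hs
    refine ext_et_bdL H M x₀ th hM h0 l ?_ ?_
    · rw [pf_single, cone_single]
      refine sup_single (hth_d _ ?_ ?_) 1
      · intro x hx y hy
        have hall : ∀ z ∈ x₀ :: l.map (fun x => H (1, x)), z = x₀ := by
          intro z hz
          rw [List.mem_cons, List.mem_map] at hz
          rcases hz with rfl | ⟨w, _, rfl⟩
          · rfl
          · exact h1 w
        rw [hall x hx, hall y hy, dist_self]; exact hκ₁
      · intro z hz
        rw [List.mem_cons, List.mem_map] at hz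
        rcases hz with rfl | ⟨w, _, rfl⟩
        · exact Or.inr rfl
        · rw [h1 w]; exact Or.inr rfl
    · refine sup_DN H M l fun a ha => sup_mono ?_ (hmesh l hl (smMono hs hδδ₀) a ha)
      rintro m ⟨_, h2, h3⟩
      exact hth_d m h2 fun z hz => Or.inl (h3 z hz)
  have heta_len : ∀ l, eta l ≠ 0 → l.length = n - i := by
    intro l hl
    by_contra hne
    exact hl (et_eq_zero H M x₀ th hth_len (by omega))
  have heta_nil : eta [] = 0 := by
    by_contra hne
    have := heta_len _ hne
    simp at this; omega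
  -- the two parts of `μ`
  set μ1 := μ.filter (In K1) with hμ1def
  set μ2 := μ.filter (fun l => ¬ In K1 l) with hμ2def
  have hμ12 : μ = μ1 + μ2 := (Finsupp.filter_add_filter_not _ _).symm
  have hμ1s : ∀ l ∈ μ1.support, l ∈ μ.support ∧ In K1 l := by
    intro l hl
    rw [hμ1def, Finsupp.support_filter, Finset.mem_filter] at hl
    exact hl
  have hμ2s : ∀ l ∈ μ2.support, l ∈ μ.support ∧ ¬ In K1 l := by
    intro l hl
    rw [hμ2def, Finsupp.support_filter, Finset.mem_filter] at hl
    exact hl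
  have key1 : ext Φ v = ext (capS th) μ := by
    rw [← ext_capS_ext]
    refine ext_congr fun l hl => ?_
    have : l ≠ [] := by
      rintro rfl
      have := (hv _ hl).1
      simp at this
    simp only [hΦdef, if_neg this, add_zero]
  have key2 : ext (capS th) μ1 = ext (capS fun p => ext eta (bdL (ZMod 2) p)) μ1 := by
    refine ext_congr fun l hl => capS_congr fun p s hs => ?_
    obtain ⟨hl1, hl2⟩ := hμ1s l hl
    exact (heta p (inSub hl2 hs.sublist_left) (smSub (hμs l hl1).2 hs.sublist_left)).symm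
  have key3 : ext eta μ1 = 0 := by
    rw [ext_congr (v := fun _ => 0) (fun l hl => ?_), ext_zero_fun]
    by_contra hne
    have := heta_len l hne
    have := (hμs l (hμ1s l hl).1).1
    omega
  have key4 : ext (capS th) μ1 = bd (ext (capS eta) μ1) + ext (capS eta) (bd μ1) := by
    rw [key2, bd_ext_capS _ _ heta_nil, key3, Finsupp.single_zero, add_zero]
    have := two_zero (ext (capS eta) (bd μ1))
    calc _ = ext (capS fun p => ext eta (bdL (ZMod 2) p)) μ1 + 0 := by rw [add_zero]
      _ = ext (capS fun p => ext eta (bdL (ZMod 2) p)) μ1 +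
          (ext (capS eta) (bd μ1) + ext (capS eta) (bd μ1)) := by rw [this]
      _ = _ := by abel
  have key5 : v = ext Φ v + bd (ext (htp ξ Φ) v) + ext (htp ξ Φ) (bd v) := by
    have e1 : ext (fun l => bd (htp ξ Φ l) + ext (htp ξ Φ) (bdL (ZMod 2) l)) v =
        ext (fun l => Finsupp.single l (1 : ZMod 2) - Φ l) v :=
      ext_congr fun l hl => hHb l (hvP l hl)
    have e2 : ext (fun l' => Finsupp.single l' (1 : ZMod 2)) v = v := by
      rw [ext_def]; simp
    rw [ext_add_fun, ext_sub_fun, e2] at e1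
    rw [map_ext (bd (k := ZMod 2) (X := X)) (htp ξ Φ) v, bd_eq_ext v, ext_ext, add_assoc, e1]
    abel
  refine ⟨ext (capS eta) μ1 + ext (htp ξ Φ) v,
    ext (capS eta) (bd μ1) + ext (capS th) μ2 + ext (htp ξ Φ) (bd v), ?_, ?_, ?_⟩
  · have hsplit : ext (capS th) μ = ext (capS th) μ1 + ext (capS th) μ2 := by
      conv_lhs => rw [hμ12]
      exact map_add _ _ _
    conv_lhs => rw [key5, key1, hsplit, key4]
    rw [map_add]; abel
  · refine sup_add (sup_ext fun l hl => sup_capS fun p s hs hne => ?_) (sup_ext fun l hl => ?_)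
    · obtain ⟨hl1, hl2⟩ := hμ1s l hl
      have e1 := heta_len p hne
      have e2 := hs.length
      have e3 := (hμs l hl1).1
      refine ⟨by omega, smMono (smSub (hμs l hl1).2 hs.sublist_right) (by linarith only [hρ, hρε, hδρ]), ?_⟩
      exact fun x hx => hNN' (hK'N (hK0K' (hK1K0 (hl2 x (hs.sublist_right.subset hx)))))
    · refine sup_mono ?_ (hHs l (hvP l hl))
      rintro m ⟨hm1, hm2⟩
      refine ⟨by rw [hm1, (hv l hl).1], ?_, ?_⟩
      · intro y hy y' hy'
        obtain ⟨x, hx, hxy⟩ := hm2 y hy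
        obtain ⟨x', hx', hxy'⟩ := hm2 y' hy'
        have h3 := (hv l hl).2.1 x hx x' hx'
        have h4 : dist x x' < ρ := h3.trans_le (min_le_right _ _)
        have := dist_triangle4 y x x' y'
        rw [dist_comm y x] at this
        linarith only [hρ, hρε, hxy, hxy', h4, this]
      · intro y hy
        obtain ⟨x, hx, hxy⟩ := hm2 y hy
        refine mem_cthickening_of_dist_le y x r4 N ((hv l hl).2.2 x hx) ?_
        rw [dist_comm]; linarith only [hρ, hρ4, hxy]
  · refine sup_add (sup_add (sup_ext fun l hl => sup_capS fun p s hs hne => ?_)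
      (sup_ext fun l hl => sup_capS fun p s hs hne => ?_)) (sup_ext fun l hl => ?_)
    · obtain ⟨l', hl', hsl, hlen'⟩ := sup_bd μ1 l hl
      obtain ⟨hl1, hl2⟩ := hμ1s l' hl'
      have e1 := heta_len p hne
      have e2 := hs.length
      have e3 := (hμs l' hl1).1
      have hss := hs.sublist_right.trans hsl
      refine ⟨by omega, smMono (smSub (hμs l' hl1).2 hss) (by linarith only [hρ, hρε, hδρ]), ?_, ?_⟩
      · exact fun x hx => hNN' (hK'N (hK0K' (hK1K0 (hl2 x (hss.subset hx)))))
      · intro x hx hxK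
        have hxl : x ∈ l := hs.sublist_right.subset hx
        have hmem : l ∈ (bd μ).support := by
          refine mem_bd_of_filter (P := In K1) hl hxl fun l'' hl'' hx'' y hy => ?_
          refine mem_cthickening_of_dist_le y x r1 K hxK ?_
          exact ((hμs l'' hl'').2 y hy x hx'').le.trans hδr1
        have := hμb l hmem x hxl x (hK'N (hK0K' (hK1K0 (hKK1 hxK))))
        rw [dist_self] at this
        linarith only [hη, this]
    · obtain ⟨hl1, hl2⟩ := hμ2s l hl
      have e1 := hth_len p hne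
      have e2 := hs.length
      have e3 := (hμs l hl1).1
      have hsm := (hμs l hl1).2
      refine ⟨by omega, smMono (smSub hsm hs.sublist_right) (by linarith only [hρ, hρε, hδρ]), ?_, ?_⟩
      · intro y hy
        obtain ⟨a, ha, hab⟩ := hth_ex p hne
        have hane : a ≠ [] := by rintro rfl; exact hab (hΘ0 p)
        obtain ⟨x, hx⟩ := List.exists_mem_of_ne_nil a hane
        obtain ⟨z, hzp, hzs⟩ := hs.mid
        have hPa := hvP a ha
        have h4 := hloc a hPa.1 hPa.2.1 hPa.2.2 p (smMono (smSub hsm hs.sublist_left) hδκ₁) hab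
          x hx z hzp
        have h5 := hsm z (hs.sublist_right.subset hzs) y (hs.sublist_right.subset hy)
        refine mem_cthickening_of_dist_le y x r4 N (hPa.1 x hx) ?_
        have := dist_triangle x z y
        rw [dist_comm]; linarith only [hρ, hρ4, hδρ, h4, h5, this]
      · intro y hy hyK
        apply hl2
        intro u hu
        refine mem_cthickening_of_dist_le u y r1 K hyK ?_
        exact (hsm u hu y (hs.sublist_right.subset hy)).le.trans hδr1
    · obtain ⟨l', hl', hsl, hlen'⟩ := sup_bd v l hl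
      have hPl := hPsub l' l (hvP l' hl') hsl
      refine sup_mono ?_ (hHs l hPl)
      rintro m ⟨hm1, hm2⟩
      have e3 := (hv l' hl').1
      refine ⟨by omega, ?_, ?_, ?_⟩
      · intro y hy y' hy'
        obtain ⟨x, hx, hxy⟩ := hm2 y hy
        obtain ⟨x', hx', hxy'⟩ := hm2 y' hy'
        have h3 := (hv l' hl').2.1 x (hsl.subset hx) x' (hsl.subset hx')
        have h4 : dist x x' < ρ := h3.trans_le (min_le_right _ _)
        have := dist_triangle4 y x x' y'
        rw [dist_comm y x] at this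
        linarith only [hρ, hρε, hxy, hxy', h4, this]
      · intro y hy
        obtain ⟨x, hx, hxy⟩ := hm2 y hy
        refine mem_cthickening_of_dist_le y x r4 N (hPl.1 x hx) ?_
        rw [dist_comm]; linarith only [hρ, hρ4, hxy]
      · intro y hy hyK
        obtain ⟨x, hx, hxy⟩ := hm2 y hy
        refine hbv l hl x hx ?_
        exact mem_cthickening_of_dist_le x y r2 K0 (hK1K0 (hKK1 hyK)) (by linarith only [hρ, hρ2, hxy])

end Vale.Agent.P239.M.Rel

namespace Vale.Agent.P239.M

/-- (M12), statement of the skeleton. -/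
theorem relS {X : Type*} [MetricSpace X] {n : ℕ} [LocallyCompactSpace X] [ContractibleSpace X]
    (hP : ∀ N : Set X, IsCompact N → PkgS n N) (i : ℕ) (hi : 1 ≤ i) (hin : i < n) :
    RelS X i := by
  obtain ⟨x₀, ⟨h⟩⟩ := id_nullhomotopic X
  exact Rel.relS hi hin (fun p => h p) h.continuous (fun x => h.apply_zero x) x₀
    (fun x => h.apply_one x) hP

end Vale.Agent.P239.M
end

section

/-!
Module M, block M13: cycles far from a compact set bound far from it.
-/

namespace Vale.Agent.P239.M

open Metric Set Topology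

section Push

variable {X : Type*} [MetricSpace X]

private theorem push_leb {K' N : Set X} (hK' : IsCompact K') (h : K' ⊆ interior N) :
    ∃ r > 0, ∀ x ∈ K', ∀ y, dist x y < r → y ∈ N := by
  obtain ⟨r, hr, hsub⟩ := hK'.exists_thickening_subset_open isOpen_interior h
  refine ⟨r, hr, fun x hx y hy => interior_subset (hsub ?_)⟩
  rw [mem_thickening_iff]
  exact ⟨x, hx, by rwa [dist_comm]⟩

/-- file `M_Push.lean` -/
theorem pushS (i : ℕ) (hi : 1 ≤ i) (hF : FillS (ZMod 2) X) (hR : RelS X i) : PushS X i := by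
  classical
  intro K hK
  obtain ⟨K', N, N', hK'c, hNc, hN'c, hKK', hK'N, hNN', hRel⟩ := hR K hK
  refine ⟨K', hK'c, fun A hA => ?_⟩
  obtain ⟨A1, hA1c, hAA1, hFill⟩ := hF A hA
  refine ⟨A1 ∪ N', hA1c.union hN'c, fun ε hε => ?_⟩
  obtain ⟨κR, hκR, hrel⟩ := hRel ε hε
  obtain ⟨r, hr, hleb⟩ := push_leb hK'c hK'N
  obtain ⟨κ, hκ, hfill⟩ := hFill (min (min κR r) ε) (lt_min (lt_min hκR hr) hε)
  refine ⟨κ, hκ, fun z hz hzs => ?_⟩
  obtain ⟨c, hcz, hcs⟩ := hfill i z hz (hzs.mono fun l hl => ⟨hl.1, hl.2.1, hl.2.2.1⟩)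
  have hsmall : ∀ l ∈ c.support, ∀ x ∈ l, x ∈ K' → In N l := by
    intro l hl x hx hxK y hy
    have h1 := (hcs l hl).2.1 x hx y hy
    exact hleb x hxK y (lt_of_lt_of_le h1 ((min_le_left _ _).trans (min_le_right _ _)))
  set v : Ch (ZMod 2) X := c.filter (In N) with hv
  set w : Ch (ZMod 2) X := c.filter (fun l => ¬ In N l) with hw
  have hvw : v + w = c := Finsupp.filter_add_filter_not c _
  have hvs : Sup (fun l => l.length = i + 1 ∧ Sm κR l ∧ In N l) v := by
    intro l hl
    rw [hv, Finsupp.support_filter, Finset.mem_filter] at hl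
    have h1 := hcs l hl.1
    exact ⟨h1.1, fun x hx y hy => lt_of_lt_of_le (h1.2.1 x hx y hy)
      ((min_le_left _ _).trans (min_le_left _ _)), hl.2⟩
  have hbv : Sup (In K'ᶜ) (bd v) := by
    intro l hl x hx hxK
    have h1 : l ∈ (bd c).support :=
      mem_bd_filter (P := In N) hl hx fun l' hl' hx' => hsmall l' hl' x hx' hxK
    rw [hcz] at h1
    exact (hzs l h1).2.2.2 x hx hxK
  obtain ⟨e, cm, hve, hes, hcms⟩ := hrel v hvs hbv
  refine ⟨w + cm, ?_, ?_⟩
  · have h1 : bd v = bd cm := by
      rw [hve, map_add, bd_bd, zero_add]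
    have h2 : bd v + bd w = z := by rw [← map_add, hvw, hcz]
    rw [map_add, ← h1, add_comm, h2]
  · refine Sup.add ?_ (hcms.mono fun l hl => ⟨hl.1, hl.2.1, fun x hx => Or.inr (hl.2.2.1 x hx),
      hl.2.2.2⟩)
    intro l hl
    rw [hw, Finsupp.support_filter, Finset.mem_filter] at hl
    have h1 := hcs l hl.1
    refine ⟨h1.1, fun x hx y hy => lt_of_lt_of_le (h1.2.1 x hx y hy) (min_le_right _ _),
      fun x hx => Or.inl (h1.2.2 x hx), fun x hx hxK => hl.2 (hsmall l hl.1 x hx (hKK' hxK))⟩

end Push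

end Vale.Agent.P239.M
end

section

/-!
Block M14: the chain map `ψ` from small lists of the group to small lists of the space.
-/

namespace Vale.Agent.P239.M

open Metric Set Topology

section Psi

variable {Γ X : Type*} [Group Γ] [MetricSpace X] [MulAction Γ X]

/-- the translates of `A` by the elements of `T` -/
private def psiTA (T : Finset Γ) (A : Set X) : Set X := ⋃ g ∈ T, (fun x => g • x) '' A

private theorem psiTA_compact (hact : CoAct Γ X) (T : Finset Γ) {A : Set X} (hA : IsCompact A) :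
    IsCompact (psiTA T A) :=
  T.isCompact_biUnion fun g _ => hA.image (hact.cont g)

private theorem mem_psiTA {T : Finset Γ} {A : Set X} {g : Γ} (hg : g ∈ T) {x : X} (hx : x ∈ A) :
    g • x ∈ psiTA T A := by
  simp only [psiTA, mem_iUnion]
  exact ⟨g, hg, x, hx, rfl⟩

/-- uniform continuity of finitely many elements on a compact set -/
private theorem psi_unif (f : Γ → Γ) (hact : CoAct Γ X) {A : Set X} (hA : IsCompact A)
    (W : Finset Γ) {ε : ℝ} (hε : 0 < ε) :
    ∃ δ > 0, ∀ g ∈ W, ∀ x ∈ A, ∀ y ∈ A, dist x y < δ → dist (f g • x) (f g • y) < ε := by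
  classical
  induction W using Finset.induction_on with
  | empty => exact ⟨1, one_pos, by simp only [Finset.notMem_empty, IsEmpty.forall_iff, implies_true]⟩
  | insert g W hg ih =>
    obtain ⟨δ, hδ, h⟩ := ih
    have hu := hA.uniformContinuousOn_of_continuous (hact.cont (f g)).continuousOn
    rw [Metric.uniformContinuousOn_iff] at hu
    obtain ⟨δ', hδ', h'⟩ := hu ε hε
    refine ⟨min δ δ', lt_min hδ hδ', fun g' hg' x hx y hy hxy => ?_⟩
    rcases Finset.mem_insert.1 hg' with rfl | hg'
    · exact h' x hx y hy (hxy.trans_le (min_le_right _ _))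
    · exact h g' hg' x hx y hy (hxy.trans_le (min_le_left _ _))

private theorem psi_pf_pf {k : Type*} [CommRing k] (f g : X → X) (h : ∀ x, f (g x) = x)
    (c : Ch k X) : pf f (pf g c) = c := by
  induction c using Finsupp.induction_linear with
  | zero => simp
  | add a b ha hb => rw [map_add, map_add, ha, hb]
  | single l r =>
    rw [pf_single, pf_single, List.map_map]
    congr 1
    conv_rhs => rw [← List.map_id l]
    exact List.map_congr_left fun x _ => h x

private theorem psi_sm_map {X Y : Type*} [MetricSpace X] [MetricSpace Y] {f : X → Y} {A : Set X}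
    {δ ε : ℝ} (h : ∀ x ∈ A, ∀ y ∈ A, dist x y < δ → dist (f x) (f y) < ε) {l : List X}
    (hl : Sm δ l) (hA : In A l) : Sm ε (l.map f) := by
  intro x hx y hy
  obtain ⟨x', hx', rfl⟩ := List.mem_map.1 hx
  obtain ⟨y', hy', rfl⟩ := List.mem_map.1 hy
  exact h x' (hA x' hx') y' (hA y' hy') (hl x' hx' y' hy')

theorem psiS (k : Type*) [CommRing k] [Nonempty X] (hact : CoAct Γ X) (hF : FillS k X) (i : ℕ) :
    PsiS k Γ X i := by
  classical
  induction i with
  | zero =>
    intro S
    refine ⟨∅, isCompact_empty, fun W κ hκ => ⟨fun _ => Finsupp.single [] 1, rfl, ?_⟩⟩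
    intro a _ _ ha
    have ha' : a = [] := List.length_eq_zero_iff.1 (Nat.le_zero.1 ha)
    subst ha'
    refine ⟨?_, ?_⟩
    · rw [bd_single]
      simp [bdL]
    · exact Sup.single 1 ⟨rfl, fun x hx => by simp at hx, fun x hx => by simp at hx⟩
  | succ i ih =>
    intro S
    obtain ⟨C, hC, hψ⟩ := ih S
    obtain ⟨A', hA', -, hfill⟩ := hF (psiTA S C) (psiTA_compact hact S hC)
    refine ⟨C ∪ psiTA S A', hC.union (psiTA_compact hact S hA'), fun W κ hκ => ?_⟩
    obtain ⟨ε, hε, hεu⟩ := psi_unif (fun g => g) hact hA' W hκ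
    obtain ⟨κ₁, hκ₁, hfill₁⟩ := hfill ε hε
    obtain ⟨κ₂, hκ₂, hκ₂u⟩ := psi_unif (fun g => g⁻¹) hact
      (psiTA_compact hact W (psiTA_compact hact S hC)) W hκ₁
    obtain ⟨ψ, hψ0, hψa⟩ := hψ W (min κ κ₂) (lt_min hκ hκ₂)
    -- filling for one list of length `i + 1`
    have hone : ∀ a : List Γ, SmG S a → (∀ g ∈ a, g ∈ W) → a.length = i + 1 →
        ∃ e : Ch k X, bd e = ext ψ (bdL k a) ∧
          Sup (fun l => l.length = a.length ∧ Sm κ l ∧
            ∀ x ∈ l, ∀ g ∈ a, ∃ y ∈ C ∪ psiTA S A', x = g • y) e := by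
      intro a haS haW ha
      obtain ⟨g, a', rfl⟩ : ∃ g a', a = g :: a' := by
        cases a with
        | nil => simp at ha
        | cons g a' => exact ⟨g, a', rfl⟩
      have hg : g ∈ g :: a' := List.mem_cons_self
      have hface : Sup (fun l' : List Γ => SmG S l' ∧ (∀ g ∈ l', g ∈ W) ∧ l'.length = i ∧
          ∀ g' ∈ l', g' ∈ g :: a') (bdL k (g :: a')) := by
        refine (sup_bdL (g :: a')).mono fun l hl => ?_
        obtain ⟨h1, h2⟩ := hl
        exact ⟨fun x hx y hy => haS x (h1.subset hx) y (h1.subset hy),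
          fun x hx => haW x (h1.subset hx), by omega, fun x hx => h1.subset hx⟩
      set c : Ch k X := ext ψ (bdL k (g :: a')) with hc
      have hbdc : bd c = 0 := by
        have h1 : bd c = ext (fun l => bd (ψ l)) (bdL k (g :: a')) := by
          rw [hc]
          simp only [ext, Finsupp.linearCombination_apply, Finsupp.sum, map_sum, map_smul]
        rw [h1, ext_congr hface (v := fun l => ext ψ (bdL k l))
          (fun l hl => (hψa l hl.1 hl.2.1 hl.2.2.1.le).1), ← ext_bdL, bd_bdL, map_zero]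
      have hsupc : Sup (fun l => l.length = i ∧ Sm κ₂ l ∧ ∀ x ∈ l, g⁻¹ • x ∈ psiTA S C) c := by
        refine Sup.ext hface fun l hl => ?_
        obtain ⟨hl1, hl2, hl3, hl4⟩ := hl
        refine (hψa l hl1 hl2 hl3.le).2.mono fun l' hl' => ?_
        obtain ⟨h1, h2, h3⟩ := hl'
        refine ⟨h1.trans hl3, fun x hx y hy => (h2 x hx y hy).trans_le (min_le_right _ _), ?_⟩
        intro x hx
        have hne : l ≠ [] := by
          rintro rfl
          rw [List.length_nil, List.length_eq_zero_iff] at h1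
          rw [h1] at hx
          simp at hx
        obtain ⟨g', hg'⟩ := List.exists_mem_of_ne_nil l hne
        obtain ⟨y, hy, rfl⟩ := h3 x hx g' hg'
        rw [smul_smul]
        exact mem_psiTA (haS g hg g' (hl4 g' hg')) hy
      have hsupc' : Sup (fun l => l.length = i ∧ Sm κ₁ l ∧ In (psiTA S C) l)
          (pf (fun x => g⁻¹ • x) c) := by
        refine Sup.pf _ (hsupc.mono fun l hl => ?_)
        obtain ⟨h1, h2, h3⟩ := hl
        refine ⟨by rw [List.length_map, h1], ?_, ?_⟩
        · refine psi_sm_map (A := psiTA W (psiTA S C)) (hκ₂u g (haW g hg)) h2 fun x hx => ?_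
          have := mem_psiTA (haW g hg) (h3 x hx)
          rwa [smul_inv_smul] at this
        · intro x hx
          obtain ⟨x', hx', rfl⟩ := List.mem_map.1 hx
          exact h3 x' hx'
      obtain ⟨e, he, hesup⟩ := hfill₁ i (pf (fun x => g⁻¹ • x) c)
        (by rw [bd_pf, hbdc, map_zero]) hsupc'
      refine ⟨pf (fun x => g • x) e, ?_, ?_⟩
      · rw [bd_pf, he]
        exact psi_pf_pf _ _ (fun x => smul_inv_smul g x) c
      · refine Sup.pf _ (hesup.mono fun l hl => ?_)
        obtain ⟨h1, h2, h3⟩ := hl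
        refine ⟨by rw [List.length_map, h1, ha], psi_sm_map (hεu g (haW g hg)) h2 h3, ?_⟩
        intro x hx g' hg'
        obtain ⟨y, hy, rfl⟩ := List.mem_map.1 hx
        refine ⟨(g'⁻¹ * g) • y, Or.inr (mem_psiTA (haS g' hg' g hg) (h3 y hy)), ?_⟩
        rw [smul_smul, mul_inv_cancel_left]
    choose! e he hesup using hone
    refine ⟨fun a => if a.length ≤ i then ψ a else e a, by simp only [List.length_nil, zero_le, ↓reduceIte, hψ0], ?_⟩
    intro a haS haW ha
    have hext : ext (fun a => if a.length ≤ i then ψ a else e a) (bdL k a) = ext ψ (bdL k a) := by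
      refine ext_congr (sup_bdL a) fun l hl => ?_
      rw [if_pos (by have := hl.2; omega)]
    rw [hext]
    by_cases hai : a.length ≤ i
    · simp only [if_pos hai]
      obtain ⟨h1, h2⟩ := hψa a haS haW hai
      refine ⟨h1, h2.mono fun l hl => ⟨hl.1, fun x hx y hy =>
        (hl.2.1 x hx y hy).trans_le (min_le_left _ _), fun x hx g hg => ?_⟩⟩
      obtain ⟨y, hy, hxy⟩ := hl.2.2 x hx g hg
      exact ⟨y, Or.inl hy, hxy⟩
    · simp only [if_neg hai]
      have hai' : a.length = i + 1 := by omega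
      exact ⟨he a haS haW hai', hesup a haS haW hai'⟩

end Psi

end Vale.Agent.P239.M
end

section

/-!
Module M, block M15: from the space to the group (coarse filling and coarse pushing).
-/

namespace Vale.Agent.P239.M

open Metric Set Topology

section CPush

variable {Γ X : Type*} [Group Γ] [MetricSpace X] [MulAction Γ X]

omit [Group Γ] in
private theorem cpush_pos (s : Finset Γ) (f : Γ → ℝ) (hf : ∀ g, 0 < f g) :
    ∃ ε > 0, ∀ g ∈ s, ε ≤ f g := by
  classical
  induction s using Finset.induction_on with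
  | empty => exact ⟨1, one_pos, by simp only [Finset.notMem_empty, IsEmpty.forall_iff, implies_true]⟩
  | insert a s _ ih =>
    obtain ⟨ε, hε, h⟩ := ih
    refine ⟨min ε (f a), lt_min hε (hf a), fun g hg => ?_⟩
    rcases Finset.mem_insert.1 hg with rfl | hg
    · exact min_le_right _ _
    · exact (min_le_left _ _).trans (h g hg)

/-- Lebesgue number. -/
theorem cpush_leb [LocallyCompactSpace X] (hact : CoAct Γ X) {B : Set X} (hB : IsCompact B)
    (gam : X → Γ) (hg : ∀ x, ∃ y ∈ B, x = gam x • y) :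
    ∃ T₀ : Finset Γ, ∀ A : Set X, IsCompact A → ∃ ε > 0, ∀ x ∈ A, ∀ y : X, dist x y < ε →
      (gam x)⁻¹ * gam y ∈ T₀ := by
  classical
  obtain ⟨D, hD, hBD⟩ := exists_compact_superset hB
  have hfin := hact.proper B D hB hD
  refine ⟨hfin.toFinset, fun A hA => ?_⟩
  have hfinA := hact.proper B A hB hA
  have key : ∀ g : Γ, ∃ ε > 0, ∀ x ∈ A ∩ (fun y => g⁻¹ • y) ⁻¹' B, ∀ y, dist x y < ε →
      g⁻¹ • y ∈ interior D := by
    intro g
    have hK : IsCompact (A ∩ (fun y => g⁻¹ • y) ⁻¹' B) :=
      hA.inter_right (hB.isClosed.preimage (hact.cont g⁻¹))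
    have hV : IsOpen ((fun y : X => g⁻¹ • y) ⁻¹' interior D) :=
      isOpen_interior.preimage (hact.cont g⁻¹)
    have hKV : A ∩ (fun y => g⁻¹ • y) ⁻¹' B ⊆ (fun y : X => g⁻¹ • y) ⁻¹' interior D :=
      fun x hx => hBD hx.2
    obtain ⟨δ, hδ, h⟩ := hK.exists_thickening_subset_open hV hKV
    refine ⟨δ, hδ, fun x hx y hy => h ?_⟩
    rw [mem_thickening_iff]
    exact ⟨x, hx, by rwa [dist_comm]⟩
  choose f hf0 hf using key
  obtain ⟨ε, hε, h⟩ := cpush_pos hfinA.toFinset f hf0
  refine ⟨ε, hε, fun x hx y hy => ?_⟩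
  obtain ⟨b, hb, hxb⟩ := hg x
  obtain ⟨b', hb', hyb⟩ := hg y
  have h1 : (gam x)⁻¹ • x = b := by
    conv_lhs => rw [hxb]
    rw [smul_smul]
    conv_lhs => rw [← hxb]
    rw [inv_mul_cancel, one_smul]
  have hgA : gam x ∈ hfinA.toFinset := by
    rw [Set.Finite.mem_toFinset]
    exact ⟨b, hb, by rw [← hxb]; exact hx⟩
  have h2 := hf (gam x) x ⟨hx, by show (gam x)⁻¹ • x ∈ B; rw [h1]; exact hb⟩ y
    (hy.trans_le (h _ hgA))
  rw [Set.Finite.mem_toFinset]
  refine ⟨b', hb', ?_⟩
  rw [mul_smul, ← hyb]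
  exact interior_subset h2

/-- The common part. -/
theorem cpush_core {k : Type*} [CommRing k] (gam : X → Γ) (S T : Finset Γ) (h1 : 1 ∈ T)
    (C : Set X) (hT : ∀ (g : Γ) (x : X), (∃ y ∈ C, x = g • y) → g⁻¹ * gam x ∈ T) (i : ℕ)
    (W : Finset Γ) (κ : ℝ) (ψ : List Γ → Ch k X) (h0 : ψ [] = Finsupp.single [] 1)
    (hψ : ∀ a : List Γ, SmG S a → (∀ g ∈ a, g ∈ W) → a.length ≤ i →
        bd (ψ a) = ext ψ (bdL k a) ∧
        Sup (fun l => l.length = a.length ∧ Sm κ l ∧ ∀ x ∈ l, ∀ g ∈ a, ∃ y ∈ C, x = g • y) (ψ a))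
    (z : Ch k Γ) (hz : bd z = 0)
    (hs : Sup (fun l => l.length = i ∧ SmG S l ∧ ∀ g ∈ l, g ∈ W) z) :
    bd (ext ψ z) = 0 ∧
    Sup (fun l => l.length = i ∧ Sm κ l ∧ ∀ x ∈ l, ∃ a ∈ z.support, ∃ g ∈ a,
      ∃ y ∈ C, x = g • y) (ext ψ z) ∧
    ∃ c : Ch k Γ, bd c = z - pf gam (ext ψ z) ∧
      Sup (fun l => l.length = i + 1 ∧ ∃ a ∈ z.support, ∀ h ∈ l, ∃ g ∈ a, g⁻¹ * h ∈ T) c := by
  classical
  have hs' : Sup (fun l => l ∈ z.support ∧ l.length = i ∧ SmG S l ∧ ∀ g ∈ l, g ∈ W) z :=
    fun l hl => ⟨hl, hs l hl⟩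
  set P : List Γ → Prop := fun l => SmG S l ∧ (∀ g ∈ l, g ∈ W) ∧ l.length ≤ i with hPdef
  have hP : ∀ l l', l'.Sublist l → P l → P l' := fun l l' h hl =>
    ⟨fun x hx y hy => hl.1 x (h.subset hx) y (h.subset hy), fun g hg => hl.2.1 g (h.subset hg),
      h.length_le.trans hl.2.2⟩
  set Φ : List Γ → Ch k Γ := fun l => pf gam (ψ l) with hΦdef
  have hΦ0 : Φ [] = Finsupp.single [] 1 := by
    rw [hΦdef]; simp only; rw [h0, pf_single, List.map_nil]
  have hpe : ∀ c : Ch k Γ, pf gam (ext ψ c) = ext Φ c := fun c => by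
    rw [Finsupp.apply_linearCombination]; rfl
  have hΦ : ∀ l, P l → bd (Φ l) = ext Φ (bdL k l) := fun l hl => by
    rw [← hpe, ← (hψ l hl.1 hl.2.1 hl.2.2).1, ← bd_pf]
  have hzP : Sup P z := hs.mono fun l hl => ⟨hl.2.1, hl.2.2, hl.1.le⟩
  refine ⟨?_, ?_, ext (htp (fun l => l.headD 1) Φ) z, ?_, ?_⟩
  · have e1 : bd (ext ψ z) = ext (fun l => bd (ψ l)) z := by
      rw [Finsupp.apply_linearCombination]; rfl
    rw [e1, ext_congr hzP (v := fun l => ext ψ (bdL k l))
      (fun l hl => (hψ l hl.1 hl.2.1 hl.2.2).1), ← ext_bdL, hz, map_zero]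
  · refine hs'.ext fun a ha => ((hψ a ha.2.2.1 ha.2.2.2 ha.2.1.le).2).mono ?_
    rintro l ⟨hl1, hl2, hl3⟩
    refine ⟨hl1.trans ha.2.1, hl2, fun x hx => ?_⟩
    have hne : a ≠ [] := by
      rintro rfl
      rw [List.length_nil, List.length_eq_zero_iff] at hl1
      rw [hl1] at hx; simp at hx
    obtain ⟨g, hg⟩ := List.exists_mem_of_ne_nil a hne
    exact ⟨a, ha.1, g, hg, hl3 x hx g hg⟩
  · have := bd_htp_ext (fun l => l.headD 1) Φ hP hΦ0 hΦ hzP
    rw [hz, map_zero, add_zero] at this
    rw [this, hpe]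
  · refine hs'.ext fun a ha => ?_
    have hRm : ∀ l l' : List Γ, l'.Sublist l → {h : Γ | ∃ g ∈ l', g⁻¹ * h ∈ T} ⊆
        {h : Γ | ∃ g ∈ l, g⁻¹ * h ∈ T} := by
      rintro l l' h x ⟨g, hg, hx⟩
      exact ⟨g, h.subset hg, hx⟩
    have := sup_htp (P := P) (fun l => l.headD 1) Φ (fun l => {h : Γ | ∃ g ∈ l, g⁻¹ * h ∈ T}) hP hRm
      (fun l _ x hx => ⟨x, hx, by rw [inv_mul_cancel]; exact h1⟩)
      (fun l hl _ => ⟨l.headD 1, by
        cases l with
        | nil => exact absurd rfl hl
        | cons x l => simp, by rw [inv_mul_cancel]; exact h1⟩)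
      (fun l hl => by
        refine Sup.pf gam (((hψ l hl.1 hl.2.1 hl.2.2).2).mono ?_)
        rintro l' ⟨h1', _, h3⟩
        refine ⟨by rw [List.length_map]; exact h1', fun h hh => ?_⟩
        obtain ⟨x, hx, rfl⟩ := List.mem_map.1 hh
        have hne : l ≠ [] := by
          rintro rfl
          rw [List.length_nil, List.length_eq_zero_iff] at h1'
          rw [h1'] at hx; simp at hx
        obtain ⟨g, hg⟩ := List.exists_mem_of_ne_nil l hne
        exact ⟨g, hg, hT g x (h3 x hx g hg)⟩)
      a ⟨ha.2.2.1, ha.2.2.2, ha.2.1.le⟩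
    exact this.mono fun l hl => ⟨by rw [hl.1, ha.2.1], a, ha.1, hl.2⟩

open Pointwise in
/-- file `M_CPush.lean` -/
theorem cfillS (k : Type*) [CommRing k] [LocallyCompactSpace X] (hact : CoAct Γ X)
    (hF : FillS k X) (i : ℕ) (hP : PsiS k Γ X i) : CFillS k Γ i := by
  classical
  intro S
  obtain ⟨C, hC, hCψ⟩ := hP S
  obtain ⟨B, hB, hcov⟩ := hact.cocomp
  choose gam hgam using hcov
  obtain ⟨T₀, hT₀⟩ := cpush_leb hact hB gam hgam
  have hTfin := hact.proper B C hB hC
  set T : Finset Γ := insert 1 hTfin.toFinset with hTdef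
  have h1T : (1 : Γ) ∈ T := Finset.mem_insert_self _ _
  have hT : ∀ (g : Γ) (x : X), (∃ y ∈ C, x = g • y) → g⁻¹ * gam x ∈ T := by
    rintro g x ⟨y, hy, hxy⟩
    refine Finset.mem_insert_of_mem ?_
    rw [Set.Finite.mem_toFinset]
    obtain ⟨b, hb, hxb⟩ := hgam x
    refine ⟨b, hb, ?_⟩
    rw [mul_smul, ← hxb, hxy, inv_smul_smul]
    exact hy
  refine ⟨S ∪ (T⁻¹ * S * T ∪ T₀), Finset.subset_union_left, fun z hz hs => ?_⟩
  set W : Finset Γ := z.support.biUnion fun l => l.toFinset with hW
  have hsW : Sup (fun l => l.length = i ∧ SmG S l ∧ ∀ g ∈ l, g ∈ W) z := fun l hl =>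
    ⟨(hs l hl).1, (hs l hl).2, fun g hg => by
      rw [hW, Finset.mem_biUnion]; exact ⟨l, hl, List.mem_toFinset.2 hg⟩⟩
  have hA : IsCompact (⋃ g ∈ W, (fun x : X => g • x) '' C) :=
    W.isCompact_biUnion fun g _ => hC.image (hact.cont g)
  obtain ⟨A', hA', -, hfill⟩ := hF _ hA
  obtain ⟨ε, hε, hleb⟩ := hT₀ A' hA'
  obtain ⟨κ, hκ, hfill⟩ := hfill ε hε
  obtain ⟨ψ, h0, hψ⟩ := hCψ W κ hκ
  obtain ⟨hb, hsup, c, hc, hcs⟩ := cpush_core gam S T h1T C hT i W κ ψ h0 hψ z hz hsW
  obtain ⟨e, he, hes⟩ := hfill i (ext ψ z) hb (hsup.mono fun l hl => ⟨hl.1, hl.2.1, fun x hx => by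
    obtain ⟨a, ha, g, hg, y, hy, rfl⟩ := hl.2.2 x hx
    exact mem_biUnion ((hsW a ha).2.2 g hg) ⟨y, hy, rfl⟩⟩)
  refine ⟨c + pf gam e, ?_, ?_⟩
  · rw [map_add, hc, bd_pf, he, sub_add_cancel]
  · refine Sup.add (fun l hl => ?_) (Sup.pf gam (hes.mono ?_))
    · obtain ⟨hl1, a, ha, hl2⟩ := hcs l hl
      refine ⟨hl1, fun x hx y hy => ?_⟩
      obtain ⟨g, hg, hgx⟩ := hl2 x hx
      obtain ⟨g', hg', hgy⟩ := hl2 y hy
      refine Finset.mem_union_right _ (Finset.mem_union_left _ ?_)
      have : x⁻¹ * y = (g⁻¹ * x)⁻¹ * (g⁻¹ * g') * (g'⁻¹ * y) := by group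
      rw [this]
      exact Finset.mul_mem_mul (Finset.mul_mem_mul (Finset.inv_mem_inv hgx)
        ((hs a ha).2 g hg g' hg')) hgy
    · rintro l ⟨hl1, hl2, hl3⟩
      refine ⟨by rw [List.length_map]; exact hl1, fun x hx y hy => ?_⟩
      obtain ⟨x, hx', rfl⟩ := List.mem_map.1 hx
      obtain ⟨y, hy', rfl⟩ := List.mem_map.1 hy
      exact Finset.mem_union_right _ (Finset.mem_union_right _
        (hleb x (hl3 x hx') y (hl2 x hx' y hy')))

open Pointwise in
theorem cpushS [LocallyCompactSpace X] (hact : CoAct Γ X) (i : ℕ) (hP : PsiS (ZMod 2) Γ X i)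
    (hR : PushS X i) : CPushS Γ i := by
  classical
  intro S
  obtain ⟨C, hC, hCψ⟩ := hP S
  obtain ⟨B, hB, hcov⟩ := hact.cocomp
  choose gam hgam using hcov
  obtain ⟨T₀, hT₀⟩ := cpush_leb hact hB gam hgam
  have hTfin := hact.proper B C hB hC
  set T : Finset Γ := insert 1 hTfin.toFinset with hTdef
  have h1T : (1 : Γ) ∈ T := Finset.mem_insert_self _ _
  have hT : ∀ (g : Γ) (x : X), (∃ y ∈ C, x = g • y) → g⁻¹ * gam x ∈ T := by
    rintro g x ⟨y, hy, hxy⟩
    refine Finset.mem_insert_of_mem ?_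
    rw [Set.Finite.mem_toFinset]
    obtain ⟨b, hb, hxb⟩ := hgam x
    refine ⟨b, hb, ?_⟩
    rw [mul_smul, ← hxb, hxy, inv_smul_smul]
    exact hy
  refine ⟨S ∪ (T⁻¹ * S * T ∪ T₀), Finset.subset_union_left, fun F => ?_⟩
  have hK : IsCompact (⋃ g ∈ F, (fun x : X => g • x) '' B) :=
    F.isCompact_biUnion fun g _ => hB.image (hact.cont g)
  obtain ⟨K', hK', hpush⟩ := hR _ hK
  have hfin' := hact.proper C K' hC hK'
  refine ⟨F * T⁻¹ ∪ hfin'.toFinset, fun z hz hs => ?_⟩
  set W : Finset Γ := z.support.biUnion fun l => l.toFinset with hW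
  have hsW : Sup (fun l => l.length = i ∧ SmG S l ∧ ∀ g ∈ l, g ∈ W) z := fun l hl =>
    ⟨(hs l hl).1, (hs l hl).2.1, fun g hg => by
      rw [hW, Finset.mem_biUnion]; exact ⟨l, hl, List.mem_toFinset.2 hg⟩⟩
  have hA : IsCompact (⋃ g ∈ W, (fun x : X => g • x) '' C) :=
    W.isCompact_biUnion fun g _ => hC.image (hact.cont g)
  obtain ⟨A', hA', hpush⟩ := hpush _ hA
  obtain ⟨ε, hε, hleb⟩ := hT₀ A' hA'
  obtain ⟨κ, hκ, hpush⟩ := hpush ε hε
  obtain ⟨ψ, h0, hψ⟩ := hCψ W κ hκ
  obtain ⟨hb, hsup, c, hc, hcs⟩ := cpush_core gam S T h1T C hT i W κ ψ h0 hψ z hz hsW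
  obtain ⟨e, he, hes⟩ := hpush (ext ψ z) hb (hsup.mono fun l hl => ⟨hl.1, hl.2.1, fun x hx => by
    obtain ⟨a, ha, g, hg, y, hy, rfl⟩ := hl.2.2 x hx
    exact mem_biUnion ((hsW a ha).2.2 g hg) ⟨y, hy, rfl⟩, fun x hx => by
    obtain ⟨a, ha, g, hg, y, hy, rfl⟩ := hl.2.2 x hx
    intro hK
    refine (hs a ha).2.2 g hg (Finset.mem_union_right _ ?_)
    rw [Set.Finite.mem_toFinset]
    exact ⟨y, hy, hK⟩⟩)
  refine ⟨c + pf gam e, ?_, ?_⟩
  · rw [map_add, hc, bd_pf, he, sub_add_cancel]
  · refine Sup.add (fun l hl => ?_) (Sup.pf gam (hes.mono ?_))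
    · obtain ⟨hl1, a, ha, hl2⟩ := hcs l hl
      refine ⟨hl1, fun x hx y hy => ?_, fun x hx => ?_⟩
      · obtain ⟨g, hg, hgx⟩ := hl2 x hx
        obtain ⟨g', hg', hgy⟩ := hl2 y hy
        refine Finset.mem_union_right _ (Finset.mem_union_left _ ?_)
        have : x⁻¹ * y = (g⁻¹ * x)⁻¹ * (g⁻¹ * g') * (g'⁻¹ * y) := by group
        rw [this]
        exact Finset.mul_mem_mul (Finset.mul_mem_mul (Finset.inv_mem_inv hgx)
          ((hs a ha).2.1 g hg g' hg')) hgy
      · obtain ⟨g, hg, hgx⟩ := hl2 x hx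
        intro hxF
        refine (hs a ha).2.2 g hg (Finset.mem_union_left _ ?_)
        have : g = x * (g⁻¹ * x)⁻¹ := by group
        rw [this]
        exact Finset.mul_mem_mul hxF (Finset.inv_mem_inv hgx)
    · rintro l ⟨hl1, hl2, hl3, hl4⟩
      refine ⟨by rw [List.length_map]; exact hl1, fun x hx y hy => ?_, fun x hx => ?_⟩
      · obtain ⟨x, hx', rfl⟩ := List.mem_map.1 hx
        obtain ⟨y, hy', rfl⟩ := List.mem_map.1 hy
        exact Finset.mem_union_right _ (Finset.mem_union_right _
          (hleb x (hl3 x hx') y (hl2 x hx' y hy')))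
      · obtain ⟨x, hx', rfl⟩ := List.mem_map.1 hx
        intro hxF
        obtain ⟨b, hb, hxb⟩ := hgam x
        refine hl4 x hx' (mem_biUnion (show gam x ∈ (F : Set Γ) from hxF) ⟨b, hb, ?_⟩)
        exact hxb.symm

end CPush

end Vale.Agent.P239.M
end
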