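import Vale.Agent.P239.Bdl.B11

set_option linter.all false

section

/-!
Block M7: local uniqueness of `n`-chains.
-/

namespace Vale.Agent.P239.M

open Metric Set Topology

namespace LD

section Alg

variable {X A : Type*}

theorem ext_comm [AddCommGroup A] [Module (ZMod 2) A] (F : List X → List X → A)
    (c d : Ch (ZMod 2) X) :
    ext (fun y => ext (fun a => F a y) c) d = ext (fun a => ext (fun y => F a y) d) c := by
  simp only [Finsupp.linearCombination_apply, Finsupp.sum, Finset.smul_sum]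
  rw [Finset.sum_comm]
  exact Finset.sum_congr rfl fun a _ => Finset.sum_congr rfl fun y _ => smul_comm _ _ _

theorem ext_add'' [AddCommGroup A] [Module (ZMod 2) A] (u v : List X → A) (c : Ch (ZMod 2) X) :
    ext (fun l => u l + v l) c = ext u c + ext v c := by
  simp only [Finsupp.linearCombination_apply, Finsupp.sum, smul_add, Finset.sum_add_distrib]

theorem ext_zero'' [AddCommGroup A] [Module (ZMod 2) A] (c : Ch (ZMod 2) X) :
    ext (fun _ => (0 : A)) c = 0 := by
  simp only [Finsupp.linearCombination_apply, Finsupp.sum, smul_zero, Finset.sum_const_zero]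

theorem sp_ext [AddCommGroup A] [Module (ZMod 2) A] (B : List X → List X → List X → A)
    (c : Ch (ZMod 2) X) (y : List X) :
    sp (fun p s => ext (fun a => B a p s) c) y = ext (fun a => sp (B a) y) c := by
  induction y generalizing B with
  | nil => simp only [sp, ext_zero'']
  | cons x l ih =>
    simp only [sp]
    rw [ext_add'', ih (fun a p s => B a (x :: p) s)]

theorem capS_ext (K : List X → List X → ZMod 2) (c : Ch (ZMod 2) X) (y : List X) :
    capS (fun l => ext (fun a => K a l) c) y = ext (fun a => capS (K a) y) c := by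
  unfold capS
  rw [← sp_ext (fun a p s => (Finsupp.single s (K a p) : Ch (ZMod 2) X))]
  congr 1
  funext p s
  simp only [Finsupp.linearCombination_apply, Finsupp.sum, smul_eq_mul]
  rw [Finsupp.single_finsetSum]
  exact Finset.sum_congr rfl fun a _ => by rw [Finsupp.smul_single, smul_eq_mul]

theorem capS_zero (y : List X) : capS (fun _ => (0 : ZMod 2)) y = 0 := by
  unfold capS
  induction y with
  | nil => rfl
  | cons x l ih =>
    simp only [Finsupp.single_zero, sp, zero_add] at ih ⊢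
    exact ih

theorem sup_false {P : List X → Prop} {c : Ch (ZMod 2) X} (h : Sup P c) (hP : ∀ l, ¬ P l) :
    c = 0 := by
  rw [← Finsupp.support_eq_empty, Finset.eq_empty_iff_forall_notMem]
  exact fun l hl => hP l (h l hl)

end Alg

variable {X : Type*} {n : ℕ} {β : (Fin n → ℝ) → X}

/-- the chain map -/
noncomputable def Phi (β : (Fin n → ℝ) → X) (N : ℕ) : List X → Ch (ZMod 2) X
  | [] => Finsupp.single [] 1
  | x :: a => ext (capS (KerC β (x :: a))) (muC β N)

theorem KerC_length {a b : List X} (h : KerC β a b ≠ 0) : a.length + b.length = n + 2 := by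
  have := Ker_length _ a b h
  rwa [List.length_map, List.length_finRange] at this

variable [MetricSpace X]

omit [MetricSpace X] in
theorem sup_muC_len (n N : ℕ) (β : (Fin n → ℝ) → X) (hN : 0 < N) :
    Sup (fun l => ∃ l₀ : List (Fin n → ℝ), l = l₀.map β ∧ l₀.length = n + 1 ∧ In (Q n 9) l₀ ∧
      ∀ u ∈ l₀, ∀ v ∈ l₀, dist u v ≤ 18 / N) (muC β N) :=
  Sup.pf β ((sup_box n N hN).mono fun l hl => ⟨l, rfl, hl⟩)

/-- chain map property -/
theorem bd_Phi (hβ : IsOpenEmbedding β) (hn : 0 < n) {N : ℕ} (hN : 0 < N) (a : List X)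
    (ha : In (β '' Q n 8) a) : bd (Phi β N a) = ext (Phi β N) (bdL (ZMod 2) a) := by
  cases a with
  | nil => simp only [Phi, bd_single, bdL, smul_zero, map_zero]
  | cons x a =>
    show bd (ext (capS (KerC β (x :: a))) (muC β N)) = _
    rw [bd_ext_capS]
    -- the boundary of `muC` does not contribute
    have h1 : ext (capS (KerC β (x :: a))) (bd (muC β N)) = 0 := by
      rw [ext_congr (u := capS (KerC β (x :: a))) (v := fun _ => 0) (sup_bd_muC hβ hn N hN) ?_,
        ext_zero'']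
      rintro y ⟨i, hy⟩
      refine sup_false (sup_capS (KerC β (x :: a)) y) ?_
      rintro l ⟨p, z, s, rfl, -, hne⟩
      apply hne
      have hmem : co β i ∈ (List.finRange n).map (co β) :=
        List.mem_map.2 ⟨i, List.mem_finRange i, rfl⟩
      have hle : ∀ w ∈ x :: a, |co β i w| ≤ 8 := by
        intro w hw
        obtain ⟨u, hu, rfl⟩ := ha w hw
        rw [co_apply hβ]
        exact Chart.abs_le_of_mem_Q hu i
      rcases hy with hy | hy
      · refine Ker_eq_zero _ _ _ _ hmem 0 fun w hw v hv => ?_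
        have h9 := hy v (by simp only [List.mem_append, List.mem_cons,
          List.not_mem_nil, or_false] at hv ⊢; (clear * - hv; tauto))
        have h8 := abs_le.1 (hle w hw)
        rw [hh, if_neg]
        rw [h9]; linarith only [h8]
      · refine Ker_eq_zero _ _ _ _ hmem 1 fun w hw v hv => ?_
        have h9 := hy v (by simp only [List.mem_append, List.mem_cons,
          List.not_mem_nil, or_false] at hv ⊢; (clear * - hv; tauto))
        have h8 := abs_le.1 (hle w hw)
        rw [hh, if_pos]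
        rw [h9]; linarith only [h8]
    have h2 : KerC β (x :: a) [] = 0 := Ker_nil_right _ _
    have h3 : ext (capS fun l => ext (KerC β (x :: a)) (bdL (ZMod 2) l)) (muC β N) =
        ext (fun a' => ext (capS (KerC β a')) (muC β N)) (bdL (ZMod 2) (x :: a)) := by
      have e1 : (capS fun l => ext (KerC β (x :: a)) (bdL (ZMod 2) l)) =
          fun y => ext (fun a' => capS (KerC β a') y) (bdL (ZMod 2) (x :: a)) := by
        funext y
        rw [← capS_ext (KerC β)]
        congr 1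
        funext l
        exact (KerC_bd hβ (x :: a) l).symm
      rw [e1, ext_comm]
    rw [h1, h2, h3, zero_smul, add_zero, zero_add]
    cases a with
    | nil =>
      have e2 : bdL (ZMod 2) [x] = Finsupp.single [] 1 := by
        simp [bdL]
      rw [e2, muC_left hβ N hN x (ha x (List.mem_cons_self)), Finsupp.linearCombination_single,
        Finsupp.linearCombination_single, one_smul, one_smul]
      have e3 : KerC β ([] : List X) = fun _ => 0 := by
        funext l
        exact Ker_nil_left _ _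
      have e4 : capS (KerC β ([] : List X)) = fun _ => 0 := by
        funext y
        rw [e3, capS_zero]
      rw [e4, ext_zero'', zero_add]
      rfl
    | cons x' a =>
      have e2 : ext (KerC β (x :: x' :: a)) (muC β N) = 0 := by
        rw [ext_congr (u := KerC β (x :: x' :: a)) (v := fun _ => 0) (sup_muC_len n N β hN) ?_,
          ext_zero'']
        rintro y ⟨l₀, rfl, hl₀, -, -⟩
        by_contra hne
        have := KerC_length hne
        rw [List.length_map, hl₀] at this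
        simp only [List.length_cons] at this
        omega
      rw [e2, Finsupp.single_zero, add_zero]
      refine ext_congr (sup_bdL (x :: x' :: a)) ?_
      rintro l ⟨-, hl⟩
      cases l with
      | nil => simp at hl
      | cons z l => rfl

/-- supports -/
theorem sup_Phi (hβ : IsOpenEmbedding β) {κ₂ : ℝ} (hκ₂ : 0 < κ₂) : ∃ κ > 0, ∃ N > 0,
    ∀ a : List X, Sm κ a → In (β '' Q n 6) a →
      Sup (fun l' => l'.length = a.length ∧
        In {x | x ∈ β '' Q n 7 ∧ ∃ y ∈ a, dist x y < κ₂} l') (Phi β N a) ∧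
      (a.length = n + 1 → Sup (fun l' => Sm κ₂ l') (Phi β N a)) := by
  obtain ⟨κ₃, h3, hu⟩ := chart_unif hβ 7 hκ₂
  set κ₄ := min κ₃ 1 with hκ₄
  have h4 : 0 < κ₄ := lt_min h3 one_pos
  obtain ⟨κ, hκ, hi⟩ := Chart.inv hβ 6 (half_pos h4)
  obtain ⟨N₁, hN₁⟩ := exists_nat_gt (18 / (κ₄ / 4))
  have hN0 : 0 < N₁ + 1 := Nat.succ_pos _
  have hNR : (0 : ℝ) < ((N₁ + 1 : ℕ) : ℝ) := by exact_mod_cast hN0
  have hN : 18 / ((N₁ + 1 : ℕ) : ℝ) < κ₄ / 4 := by
    have h44 : 0 < κ₄ / 4 := by (clear * - h3; positivity)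
    rw [div_lt_iff₀ h44] at hN₁
    rw [div_lt_iff₀ hNR]
    push_cast
    linarith only [h44, hN₁]
  refine ⟨κ, hκ, N₁ + 1, hN0, fun a ha haI => ?_⟩
  cases a with
  | nil =>
    refine ⟨Sup.single _ ⟨rfl, by intro x hx; simp at hx⟩, fun h => ?_⟩
    simp at h
  | cons x a =>
    obtain ⟨a₀, ha₀, he⟩ := Chart.exists_map haI
    rw [he] at ha ⊢
    -- the description of the lists in the support
    have key : Sup (fun l' => l'.length = a₀.length ∧ ∃ l₁ : List (Fin n → ℝ), l' = l₁.map β ∧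
        (∀ u ∈ l₁, ∀ v ∈ l₁, dist u v ≤ 18 / ((N₁ + 1 : ℕ) : ℝ)) ∧
        ∀ u ∈ l₁, ∀ v ∈ a₀, dist u v < κ₄) (Phi β (N₁ + 1) (x :: a)) := by
      show Sup _ (ext (capS (KerC β (x :: a))) (muC β (N₁ + 1)))
      rw [he]
      refine Sup.ext (sup_muC_len n (N₁ + 1) β hN0) ?_
      rintro y ⟨l₀, rfl, hl₀, hQ, hd⟩
      have e1 : capS (KerC β (a₀.map β)) (l₀.map β) =
          pf β (capS (Ker (crd n) a₀) l₀) := by
        rw [← pf_capS]
        congr 2
        funext m
        exact KerC_map hβ a₀ m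
      rw [e1]
      refine Sup.pf β ((sup_capS _ _).mono ?_)
      rintro l ⟨p, z, s, rfl, rfl, hne⟩
      have hlen := Ker_length _ _ _ hne
      have hloc := Chart.Ker_crd_local hne (κ := κ₄ / 2) (κ' := 18 / ((N₁ + 1 : ℕ) : ℝ))
        (by (clear * - h3; positivity))
        (fun u hu' v hv' => (hi u (ha₀ u hu') v (ha₀ v hv')
          (ha _ (List.mem_map_of_mem hu') _ (List.mem_map_of_mem hv'))).le)
        (fun u hu' v hv' => hd u (by
          simp only [List.mem_append, List.mem_cons,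
            List.not_mem_nil, or_false] at hu' ⊢; (clear * - hu'; tauto)) v (by
          simp only [List.mem_append, List.mem_cons,
            List.not_mem_nil, or_false] at hv' ⊢; (clear * - hv'; tauto)))
      refine ⟨?_, z :: s, rfl, fun u hu' v hv' => hd u (by
          simp only [List.mem_append, List.mem_cons] at hu' ⊢; (clear * - hu'; tauto)) v (by
          simp only [List.mem_append, List.mem_cons] at hv' ⊢; (clear * - hv'; tauto)), fun u hu' v hv' => ?_⟩
      · simp only [List.length_append, List.length_cons, List.length_nil, List.length_map, crd,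
          List.length_finRange] at hlen hl₀ ⊢
        omega
      · have d1 := hloc v hv' z (by simp)
        have d2 := hd u (by simp only [List.mem_append, List.mem_cons] at hu' ⊢; (clear * - hu'; tauto)) z (by simp)
        have := dist_triangle u z v
        rw [dist_comm z v] at this
        linarith only [this, d2, d1, hN]
    have hQ7 : ∀ u : Fin n → ℝ, (∃ v ∈ a₀, dist u v < κ₄) → u ∈ Q n 7 := by
      rintro u ⟨v, hv, huv⟩
      have h6 : dist v 0 ≤ 6 := ha₀ v hv
      have h1 : κ₄ ≤ 1 := min_le_right _ _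
      have := dist_triangle u v 0
      exact mem_closedBall.2 (by linarith only [huv, h6, h1, this])
    obtain ⟨v₀, hv₀⟩ : ∃ v₀, v₀ ∈ a₀ := by
      cases a₀ with
      | nil => simp at he
      | cons v₀ a₀ => exact ⟨v₀, List.mem_cons_self⟩
    rw [← he]
    constructor
    · refine key.mono ?_
      rintro l ⟨hl, l₁, rfl, hs, hd⟩
      refine ⟨by rw [hl, he, List.length_map], ?_⟩
      intro y hy
      obtain ⟨u, hu', rfl⟩ := List.mem_map.1 hy
      have hu7 := hQ7 u ⟨v₀, hv₀, hd u hu' v₀ hv₀⟩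
      refine ⟨⟨u, hu7, rfl⟩, β v₀, by rw [he]; exact List.mem_map_of_mem hv₀, ?_⟩
      exact hu u hu7 v₀ (closedBall_subset_closedBall (by norm_num) (ha₀ v₀ hv₀))
        ((hd u hu' v₀ hv₀).trans_le (min_le_left _ _))
    · intro _
      refine key.mono ?_
      rintro l ⟨hl, l₁, rfl, hs, hd⟩ y hy y' hy'
      obtain ⟨u, hu', rfl⟩ := List.mem_map.1 hy
      obtain ⟨v, hv', rfl⟩ := List.mem_map.1 hy'
      refine hu u (hQ7 u ⟨v₀, hv₀, hd u hu' v₀ hv₀⟩) v (hQ7 v ⟨v₀, hv₀, hd v hv' v₀ hv₀⟩)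
        ((hs u hu' v hv').trans_lt ?_)
      have : κ₄ ≤ κ₃ := min_le_left _ _
      linarith only [h3, hN, this]

omit [MetricSpace X] in
/-- the image of a chain of dimension `n` -/
theorem sup_Phi_dg {N : ℕ} (hN : 0 < N) {c : Ch (ZMod 2) X}
    (hc : Sup (fun l => l.length = n + 1 ∧ In (β '' Q n 8) l) c) :
    Sup (fun l => ∃ z l', l = z :: l' ∧ dg β c z ≠ 0) (ext (Phi β N) c) := by
  have e1 : ext (Phi β N) c = ext (fun a => ext (capS (KerC β a)) (muC β N)) c := by
    refine ext_congr hc ?_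
    rintro l ⟨hl, -⟩
    cases l with
    | nil => simp at hl
    | cons x l => rfl
  rw [e1, ← ext_comm (fun a y => capS (KerC β a) y)]
  refine Sup.ext (sup_muC_len n N β hN) ?_
  rintro y ⟨l₀, hy, hl₀, -, -⟩
  have hlen : y.length = n + 1 := by rw [hy, List.length_map, hl₀]
  cases y with
  | nil => simp at hlen
  | cons z y =>
    have e2 : ext (fun a => capS (KerC β a) (z :: y)) c =
        Finsupp.single (z :: y) (dg β c z) := by
      have e3 : ext (fun a => capS (KerC β a) (z :: y)) c =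
          ext (fun a => Finsupp.single (z :: y) (KerC β a [z])) c := by
        refine ext_congr hc ?_
        rintro a ⟨ha, -⟩
        rw [capS_eq (KerC β a) 0 (fun l hl => by
          have := KerC_length hl
          omega) (z :: y) (by simp only [List.length_cons, lt_add_iff_pos_left, Order.lt_add_one_iff, zero_le])]
        rfl
      rw [e3]
      have e4 : dg β c z = ext (fun a => KerC β a [z]) c := by
        unfold dg
        refine ext_congr hc ?_
        rintro a ⟨-, ha⟩
        rw [if_pos ha]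
      rw [e4]
      simp only [Finsupp.linearCombination_apply, Finsupp.sum, smul_eq_mul]
      rw [Finsupp.single_finsetSum]
      exact Finset.sum_congr rfl fun a _ => by rw [Finsupp.smul_single, smul_eq_mul]
    rw [e2]
    by_cases h0 : dg β c z = 0
    · rw [h0, Finsupp.single_zero]
      exact Sup.zero
    · exact Sup.single _ ⟨z, y, rfl, h0⟩

end LD

variable {X : Type*} [MetricSpace X] {n : ℕ}

/-- **(M7)** -/
theorem ld1S (hn : 0 < n) {β : (Fin n → ℝ) → X} (hβ : IsOpenEmbedding β) : LD1S β := by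
  intro κ' hκ'
  have h4 : 0 < κ' / 4 := by (clear * - hκ'; positivity)
  obtain ⟨κ₀, hκ₀, N, hN, hΦ⟩ := LD.sup_Phi hβ h4
  refine ⟨min κ₀ (κ' / 4), lt_min hκ₀ h4, fun c hc L r hr hL hdg => ?_⟩
  set P : List X → Prop := fun l => Sm κ₀ l ∧ Sm (κ' / 4) l ∧ In (β '' Q n 6) l with hPdef
  have h68 : β '' Q n 6 ⊆ β '' Q n 8 :=
    image_mono (closedBall_subset_closedBall (by norm_num))
  have h67 : β '' Q n 6 ⊆ β '' Q n 7 :=
    image_mono (closedBall_subset_closedBall (by norm_num))
  have hPsub : ∀ l l' : List X, l'.Sublist l → P l → P l' := by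
    rintro l l' h ⟨h1, h2, h3⟩
    exact ⟨fun x hx y hy => h1 x (h.subset hx) y (h.subset hy),
      fun x hx y hy => h2 x (h.subset hx) y (h.subset hy), fun x hx => h3 x (h.subset hx)⟩
  have hcP : Sup (fun l => P l ∧ l.length = n + 1 ∧ l ∈ c.support) c := by
    intro l hl
    obtain ⟨h1, h2, h3⟩ := hc l hl
    exact ⟨⟨fun x hx y hy => (h2 x hx y hy).trans_le (min_le_left _ _),
      fun x hx y hy => (h2 x hx y hy).trans_le (min_le_right _ _), h3⟩, h1, hl⟩
  set ξ : List X → X := fun l => l.headD (β 0) with hξ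
  have hchain : ∀ l, P l → bd (LD.Phi β N l) = ext (LD.Phi β N) (bdL (ZMod 2) l) :=
    fun l hl => LD.bd_Phi hβ hn hN l fun x hx => h68 (hl.2.2 x hx)
  set R : List X → Set X := fun l => {x | x ∈ β '' Q n 7 ∧ ∃ y ∈ l, dist x y < κ' / 4} with hR
  have hself : ∀ l, P l → ∀ x ∈ l, x ∈ R l := fun l hl x hx =>
    ⟨h67 (hl.2.2 x hx), x, hx, by rw [dist_self]; exact h4⟩
  have hH : ∀ l, P l → Sup (fun l' => l'.length = l.length + 1 ∧ In (R l) l')
      (htp ξ (LD.Phi β N) l) := by
    refine fun l hl => sup_htp ξ (LD.Phi β N) R hPsub ?_ hself ?_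
      (fun l hl => (hΦ l hl.1 hl.2.2).1) l hl
    · rintro l l' h x ⟨h1, y, hy, hxy⟩
      exact ⟨h1, y, h.subset hy, hxy⟩
    · intro l hne hl
      cases l with
      | nil => exact absurd rfl hne
      | cons x l => exact hself _ hl x (List.mem_cons_self)
  have hid := bd_htp_ext ξ (LD.Phi β N) hPsub rfl hchain (hcP.mono (fun l hl => hl.1))
  have hsmall : ∀ l l', P l → In (R l) l' → Sm κ' l' := by
    rintro l l' ⟨-, hl, -⟩ h x hx y hy
    obtain ⟨-, x', hx', hxx⟩ := h x hx
    obtain ⟨-, y', hy', hyy⟩ := h y hy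
    have h1 := dist_triangle4 x x' y' y
    have h2 := hl x' hx' y' hy'
    rw [dist_comm y' y] at h1
    linarith only [hκ', hxx, hyy, h1, h2]
  have hbd : Sup (fun l' => P l' ∧ l'.length = n ∧ ∃ l ∈ c.support, l'.Sublist l) (bd c) := by
    refine Sup.bd ?_ hcP
    rintro l l' hs hlen ⟨h1, h2, h3⟩
    exact ⟨hPsub l l' hs h1, by omega, l, h3, hs⟩
  refine ⟨ext (htp ξ (LD.Phi β N)) c,
    ext (LD.Phi β N) c + ext (htp ξ (LD.Phi β N)) (bd c), ?_, ?_, ?_⟩
  · calc c = (c - ext (LD.Phi β N) c) + ext (LD.Phi β N) c := by abel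
      _ = _ := by rw [← hid]; abel
  · refine Sup.ext hcP ?_
    rintro l ⟨hl, hlen, hlc⟩
    refine Sup.mono ?_ (hH l hl)
    rintro l' ⟨h1, h2⟩
    refine ⟨by omega, hsmall l l' hl h2, fun x hx => (h2 x hx).1, fun x hx => ?_⟩
    obtain ⟨-, y, hy, hxy⟩ := h2 x hx
    exact ⟨l, hlc, y, hy, by linarith only [hxy, hκ']⟩
  · refine Sup.add ?_ ?_
    · have hA : Sup (fun l => l.length = n + 1 ∧ Sm (κ' / 4) l ∧ In (β '' Q n 7) l ∧
          ∀ x ∈ l, ∃ l' ∈ c.support, ∃ x' ∈ l', dist x x' < κ') (ext (LD.Phi β N) c) := by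
        refine Sup.ext hcP ?_
        rintro l ⟨hl, hlen, hlc⟩
        obtain ⟨hA1, hA2⟩ := hΦ l hl.1 hl.2.2
        intro l' hl'
        obtain ⟨h1, h2⟩ := hA1 l' hl'
        refine ⟨by omega, hA2 hlen l' hl', fun x hx => (h2 x hx).1, fun x hx => ?_⟩
        obtain ⟨-, y, hy, hxy⟩ := h2 x hx
        exact ⟨l, hlc, y, hy, by linarith only [hxy, hκ']⟩
      have hB := LD.sup_Phi_dg (β := β) (n := n) hN (c := c)
        (fun l hl => ⟨(hc l hl).1, fun x hx => h68 ((hc l hl).2.2 x hx)⟩)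
      intro l hl
      obtain ⟨h1, h2, h3, h5⟩ := hA l hl
      obtain ⟨z, l', rfl, hz⟩ := hB l hl
      refine ⟨h1, fun x hx y hy => (h2 x hx y hy).trans (by linarith only [hκ']), h3, ?_, h5⟩
      intro x hx w hw
      have h6 : r ≤ dist z w := by
        by_contra hcon
        exact hz (hdg z ⟨w, hw, not_le.1 hcon⟩)
      have h7 := h2 z (List.mem_cons_self) x hx
      have h8 := dist_triangle z x w
      linarith only [hκ', h6, h7, h8]
    · intro l hl
      obtain ⟨m, ⟨⟨hm1, hm2, m', hm', hmm⟩, hmL⟩, h1, h2⟩ : ∃ m : List X,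
          ((P m ∧ m.length = n ∧ ∃ l ∈ c.support, m.Sublist l) ∧ Far r L m) ∧
          l.length = m.length + 1 ∧ In (R m) l := by
        have := Sup.ext (R := fun l => ∃ m : List X,
          ((P m ∧ m.length = n ∧ ∃ l ∈ c.support, m.Sublist l) ∧ Far r L m) ∧
          l.length = m.length + 1 ∧ In (R m) l) (c := bd c)
          (P := fun m => (P m ∧ m.length = n ∧ ∃ l ∈ c.support, m.Sublist l) ∧ Far r L m)
          (u := htp ξ (LD.Phi β N)) (fun m hm => ⟨hbd m hm, hL m hm⟩) (fun m hm l hl => by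
            exact ⟨m, hm, hH m hm.1.1 l hl⟩)
        exact this l hl
      refine ⟨by omega, hsmall m l hm1 h2, fun x hx => (h2 x hx).1, ?_, fun x hx => ?_⟩
      · intro x hx w hw
        obtain ⟨-, y, hy, hxy⟩ := h2 x hx
        have h6 := hmL y hy w hw
        have h8 := dist_triangle y x w
        rw [dist_comm y x] at h8
        linarith only [h8, h6, hxy, hκ']
      · obtain ⟨-, y, hy, hxy⟩ := h2 x hx
        exact ⟨m', hm', y, hmm.subset hy, by linarith only [hκ', hxy]⟩

end Vale.Agent.P239.M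
end

section

/-!
Block M8: invariance of the local degree.
-/

namespace Vale.Agent.P239.M

open Metric Set Topology

section Inv

variable {X : Type*} [MetricSpace X] {n : ℕ}

omit [MetricSpace X] in
theorem inv_dg_add (β : (Fin n → ℝ) → X) (c d : Ch (ZMod 2) X) (x : X) :
    dg β (c + d) x = dg β c x + dg β d x := by
  unfold dg; rw [map_add]

omit [MetricSpace X] in
theorem inv_dg'_add (β : (Fin n → ℝ) → X) (c d : Ch (ZMod 2) X) (x : X) :
    dg' β (c + d) x = dg' β c x + dg' β d x := by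
  unfold dg'; rw [map_add]

open Classical in
/-- cutting a small chain to a ball does not change the degree at the centre -/
theorem inv_cut {β : (Fin n → ℝ) → X} (hβ : IsOpenEmbedding β) {ρ : ℝ} (hρ : 0 < ρ) :
    ∃ κ > 0, ∀ c : Ch (ZMod 2) X, Sup (Sm κ) c → ∀ x ∈ β '' Q n 7,
      dg β (c.filter (In (ball x ρ))) x = dg β c x ∧
      dg' β (c.filter (In (ball x ρ))) x = dg' β c x := by
  obtain ⟨κ, hκ, h⟩ := dg_far hβ hρ
  refine ⟨κ, hκ, fun c hc x hx => ?_⟩
  have h1 := h (c.filter (fun l => ¬ In (ball x ρ) l)) x hx (by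
    intro l hl
    rw [Finsupp.support_filter, Finset.mem_filter] at hl
    refine ⟨hc l hl.1, ?_⟩
    have h2 := hl.2
    unfold In at h2
    push Not at h2
    obtain ⟨y, hy, hyb⟩ := h2
    refine ⟨y, hy, ?_⟩
    rw [mem_ball, dist_comm] at hyb
    exact not_lt.1 hyb)
  have e := Finsupp.filter_add_filter_not c (In (ball x ρ))
  constructor
  · have h3 := inv_dg_add β (c.filter (In (ball x ρ))) (c.filter (fun l => ¬ In (ball x ρ) l)) x
    rw [e, h1.1, add_zero] at h3
    exact h3.symm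
  · have h3 := inv_dg'_add β (c.filter (In (ball x ρ))) (c.filter (fun l => ¬ In (ball x ρ) l)) x
    rw [e, h1.2, add_zero] at h3
    exact h3.symm

open Classical in
theorem inv_bdfar {c : Ch (ZMod 2) X} {x : X} {ρ : ℝ} (hc : Sup (Sm (ρ / 4)) c)
    (hb : Sup (fun l => ∀ y ∈ l, ρ / 4 ≤ dist y x) (bd c)) :
    Sup (Far (ρ / 4) {x}) (bd (c.filter (In (ball x (ρ / 2))))) := by
  intro l hl y hy z hz
  rw [mem_singleton_iff] at hz
  subst hz
  by_contra hlt
  rw [not_le] at hlt
  have h1 : l ∈ (bd c).support := mem_bd_filter hl hy (fun l' hl' hyl' w hw => by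
    rw [mem_ball]
    have h2 := hc l' hl' w hw y hyl'
    have h3 := dist_triangle w y z
    linarith only [hlt, h2, h3])
  exact absurd (hb l h1 y hy) (not_le.2 hlt)

/-- the degree does not change along short steps -/
theorem inv_step (hn : 0 < n) {β : (Fin n → ℝ) → X} (hβ : IsOpenEmbedding β) {ρ : ℝ}
    (hρ : 0 < ρ) : ∃ κ > 0, ∀ (c : Ch (ZMod 2) X) (x : X),
      Sup (fun l => l.length = n + 1 ∧ Sm κ l ∧ In (ball x (ρ / 2)) l) c →
      ball x ρ ⊆ β '' Q n 8 → Sup (Far (ρ / 4) {x}) (bd c) →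
      ∀ y y' : X, dist y x < ρ / 8 → dist y' x < ρ / 8 → dist y y' < κ →
        dg β c y = dg β c y' := by
  obtain ⟨κ, hκ, hloc⟩ := KerC_local hβ (show (0 : ℝ) < ρ / 8 by linarith only [hρ])
  refine ⟨κ, hκ, fun c x hc hball hbd y y' hy hy' hyy => ?_⟩
  have hIn : ∀ l : List X, In (ball x (ρ / 2)) l → In (β '' Q n 8) l := fun l hl w hw =>
    hball (ball_subset_ball (by linarith only [hρ]) (hl w hw))
  have e1 : ∀ z : X, dg β c z = ext (fun l => KerC β l [z]) c := by
    intro z
    unfold dg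
    refine ext_congr hc fun l hl => ?_
    rw [if_pos (hIn l hl.2.2)]
  have e2 : ext (fun a' => KerC β a' [y, y']) (bd c) = dg β c y' - dg β c y := by
    rw [ext_bdL, e1, e1]
    have e3 : ∀ l : List X, ext (fun a' => KerC β a' [y, y']) (bdL (ZMod 2) l) =
        KerC β l [y'] - KerC β l [y] := by
      intro l
      rw [KerC_bd hβ]
      simp [bdL, cone_single, Finsupp.linearCombination_single]
    rw [show (fun l => ext (fun a' => KerC β a' [y, y']) (bdL (ZMod 2) l)) =
      fun l => KerC β l [y'] - KerC β l [y] from funext e3]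
    rw [Finsupp.linearCombination_apply, Finsupp.linearCombination_apply,
      Finsupp.linearCombination_apply, ← Finsupp.sum_sub]
    refine Finsupp.sum_congr fun l _ => ?_
    rw [smul_sub]
  have e4 : ext (fun a' => KerC β a' [y, y']) (bd c) = 0 := by
    have hsup : Sup (fun l' : List X => l'.length = n ∧ Sm κ l' ∧ In (ball x (ρ / 2)) l')
        (bd c) := by
      refine Sup.bd (fun l l' hs hlen hl => ⟨by omega, fun a ha b hb =>
        hl.2.1 a (hs.subset ha) b (hs.subset hb), fun a ha => hl.2.2 a (hs.subset ha)⟩) hc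
    rw [Finsupp.linearCombination_apply]
    refine Finset.sum_eq_zero fun l hl => ?_
    dsimp only
    obtain ⟨hlen, hsm, hin⟩ := hsup l hl
    have hfar := hbd l hl
    suffices h0 : KerC β l [y, y'] = 0 by rw [h0, smul_zero]
    by_contra hne
    have hlne : l ≠ [] := by
      intro h; rw [h] at hlen; simp at hlen; omega
    obtain ⟨w, hw⟩ := List.exists_mem_of_ne_nil l hlne
    have hsm2 : Sm κ [y, y'] := by
      intro a ha b hb
      simp only [List.mem_cons, List.not_mem_nil, or_false] at ha hb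
      rcases ha with rfl | rfl <;> rcases hb with rfl | rfl
      · rw [dist_self]; exact hκ
      · exact hyy
      · rw [dist_comm]; exact hyy
      · rw [dist_self]; exact hκ
    have hin2 : In (β '' Q n 8) [y, y'] := by
      intro a ha
      simp only [List.mem_cons, List.not_mem_nil, or_false] at ha
      rcases ha with rfl | rfl
      · exact hball (by rw [mem_ball]; linarith only [hy, hρ])
      · exact hball (by rw [mem_ball]; linarith only [hρ, hy'])
    have h1 := hloc l [y, y'] hsm hsm2 (hIn l hin) hin2 hne w hw y (by simp)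
    have h2 := hfar w hw x (mem_singleton x)
    have h3 := dist_triangle w y x
    linarith only [h3, h2, h1, hy]
  rw [e4] at e2
  exact (sub_eq_zero.1 e2.symm).symm

/-- the degree is constant on a small coordinate ball -/
theorem inv_cell (hn : 0 < n) {β : (Fin n → ℝ) → X} (hβ : IsOpenEmbedding β) {ρ : ℝ}
    (hρ : 0 < ρ) : ∃ r > 0, ∃ κ > 0, ∀ (c : Ch (ZMod 2) X), ∀ x ∈ β '' Q n 2,
      Sup (fun l => l.length = n + 1 ∧ Sm κ l ∧ In (ball x (ρ / 2)) l) c →
      ball x ρ ⊆ β '' Q n 8 → Sup (Far (ρ / 4) {x}) (bd c) →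
      ∀ y : X, dist y x < r → dg β c y = dg β c x := by
  obtain ⟨κ, hκ, hstep⟩ := inv_step hn hβ hρ
  obtain ⟨s', hs', hunif⟩ := chart_unif hβ 3 (show (0 : ℝ) < ρ / 8 by linarith only [hρ])
  have hs : 0 < min (s' / 2) 1 := lt_min (by linarith only [hs']) one_pos
  obtain ⟨r, hr, hmod⟩ := chart_mod hβ (show (2 : ℝ) < 3 by norm_num) hs
  refine ⟨r, hr, κ, hκ, fun c x hx hc hball hbd y hy => ?_⟩
  obtain ⟨u, hu, rfl⟩ := hx
  obtain ⟨v, hv, rfl, huv⟩ := hmod u hu y (by rw [dist_comm]; exact hy)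
  have hnear : ∀ w ∈ closedBall u (min (s' / 2) 1), dist (β w) (β u) < ρ / 8 := by
    intro w hw
    rw [mem_closedBall] at hw
    have h1 : dist w u ≤ 1 := hw.trans (min_le_right _ _)
    have h2 : dist w u ≤ s' / 2 := hw.trans (min_le_left _ _)
    refine hunif w ?_ u ?_ (by linarith only [hs', h2])
    · rw [mem_closedBall] at hu ⊢
      have := dist_triangle w u 0
      linarith only [hu, h1, this]
    · rw [mem_closedBall] at hu ⊢
      linarith only [hu]
  have hcont : ContinuousOn (fun w => dg β c (β w)) (closedBall u (min (s' / 2) 1)) := by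
    intro w hw
    have h1 : ∀ᶠ w' in 𝓝 w, dist (β w') (β w) < κ := by
      have := (hβ.continuous.continuousAt (x := w)).eventually (ball_mem_nhds (β w) hκ)
      exact this
    have h2 : ∀ᶠ w' in 𝓝[closedBall u (min (s' / 2) 1)] w,
        dg β c (β w') = dg β c (β w) := by
      filter_upwards [nhdsWithin_le_nhds h1, self_mem_nhdsWithin] with w' h3 h4
      exact hstep c (β u) hc hball hbd (β w') (β w) (hnear w' h4) (hnear w hw) h3
    exact (continuousWithinAt_const (b := dg β c (β w))).congr_of_eventuallyEq h2 rfl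
  have hpre : IsPreconnected (closedBall u (min (s' / 2) 1)) :=
    (convex_closedBall u _).isPreconnected
  refine hpre.constant hcont (x := v) (y := u) ?_ (mem_closedBall_self hs.le)
  rw [mem_closedBall, dist_comm]
  exact huv.le

/-- a chain of degree zero is homologous to a chain far from the centre -/
theorem inv_zero (hn : 0 < n) {β : (Fin n → ℝ) → X} (hβ : IsOpenEmbedding β) (hL : LD1S β)
    {ρ : ℝ} (hρ : 0 < ρ) : ∃ r > 0, ∀ κ' > 0, ∃ κ > 0, ∀ (c : Ch (ZMod 2) X), ∀ x ∈ β '' Q n 2,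
      Sup (fun l => l.length = n + 1 ∧ Sm κ l ∧ In (ball x (ρ / 2)) l) c →
      ball x ρ ⊆ β '' Q n 6 → Sup (Far (ρ / 4) {x}) (bd c) → dg β c x = 0 →
      ∃ e cm : Ch (ZMod 2) X, c = bd e + cm ∧ Sup (Sm κ') e ∧
        Sup (fun l => Sm κ' l ∧ ∃ y ∈ l, r ≤ dist x y) cm := by
  obtain ⟨r, hr, κ₁, hκ₁, hcell⟩ := inv_cell hn hβ hρ
  have hr1 : 0 < min r (ρ / 4) := lt_min hr (by linarith only [hρ])
  refine ⟨min r (ρ / 4) / 2, by linarith only [hr1], fun κ' hκ' => ?_⟩
  have hκ2 : 0 < min κ' (min r (ρ / 4) / 2) := lt_min hκ' (by linarith only [hr1])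
  obtain ⟨κ₂, hκ₂, hld⟩ := hL _ hκ2
  refine ⟨min κ₁ κ₂, lt_min hκ₁ hκ₂, fun c x hx hc hball hbd h0 => ?_⟩
  have hball8 : ball x ρ ⊆ β '' Q n 8 := hball.trans
    (image_mono (closedBall_subset_closedBall (by norm_num)))
  have hc1 : Sup (fun l => l.length = n + 1 ∧ Sm κ₁ l ∧ In (ball x (ρ / 2)) l) c :=
    Sup.mono (fun l hl => ⟨hl.1, fun a ha b hb => (hl.2.1 a ha b hb).trans_le (min_le_left _ _),
      hl.2.2⟩) hc
  have hc2 : Sup (fun l => l.length = n + 1 ∧ Sm κ₂ l ∧ In (β '' Q n 6) l) c :=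
    Sup.mono (fun l hl => ⟨hl.1, fun a ha b hb => (hl.2.1 a ha b hb).trans_le (min_le_right _ _),
      fun a ha => hball (ball_subset_ball (by linarith only [hρ]) (hl.2.2 a ha))⟩) hc
  have hfar : Sup (Far (min r (ρ / 4)) {x}) (bd c) :=
    Sup.mono (fun l hl a ha z hz => (min_le_right _ _).trans (hl a ha z hz)) hbd
  obtain ⟨e, cm, hce, he, hcm⟩ := hld c hc2 {x} (min r (ρ / 4))
    ((min_le_right _ _).trans (by linarith only [hr1])) hfar (by
      rintro y ⟨z, hz, hyz⟩
      rw [mem_singleton_iff] at hz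
      subst hz
      rw [hcell c z hx hc1 hball8 hbd y (hyz.trans_le (min_le_left _ _)), h0])
  refine ⟨e, cm, hce, Sup.mono (fun l hl a ha b hb =>
    (hl.2.1 a ha b hb).trans_le (min_le_left _ _)) he, Sup.mono (fun l hl => ?_) hcm⟩
  refine ⟨fun a ha b hb => (hl.2.1 a ha b hb).trans_le (min_le_left _ _), ?_⟩
  have hlne : l ≠ [] := by
    intro h; have := hl.1; rw [h] at this; simp at this
  obtain ⟨w, hw⟩ := List.exists_mem_of_ne_nil l hlne
  refine ⟨w, hw, ?_⟩
  have h1 := hl.2.2.2.1 w hw x (mem_singleton x)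
  have h2 : min κ' (min r (ρ / 4) / 2) ≤ min r (ρ / 4) / 2 := min_le_right _ _
  rw [dist_comm]
  linarith only [h2, h1]

/-- file `M_Inv.lean` -/
theorem invS (hn : 0 < n) {β β' : (Fin n → ℝ) → X} (hβ : IsOpenEmbedding β)
    (hβ' : IsOpenEmbedding β') (hL : LD1S β') : InvS β β' := by
  classical
  obtain ⟨ρ₁, hρ₁, hm1⟩ := chart_mod hβ (show (2 : ℝ) < 3 by norm_num) one_pos
  obtain ⟨ρ₂, hρ₂, hm2⟩ := chart_mod hβ' (show (2 : ℝ) < 3 by norm_num) one_pos
  obtain ⟨ρ, hρ, hρ1, hρ2⟩ : ∃ ρ > 0, ρ ≤ ρ₁ ∧ ρ ≤ ρ₂ :=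
    ⟨min ρ₁ ρ₂, lt_min hρ₁ hρ₂, min_le_left _ _, min_le_right _ _⟩
  obtain ⟨r, hr, hzero⟩ := inv_zero hn hβ' hL hρ
  obtain ⟨k1, hk1, hb1⟩ := dg_bd hβ
  obtain ⟨k2, hk2, hb2⟩ := dg_bd hβ'
  obtain ⟨k3, hk3, hf1⟩ := dg_far hβ hr
  obtain ⟨k4, hk4, hf2⟩ := dg_far hβ' hr
  obtain ⟨k, hk, hkk1, hkk2, hkk3, hkk4⟩ : ∃ k > 0, k ≤ k1 ∧ k ≤ k2 ∧ k ≤ k3 ∧ k ≤ k4 :=
    ⟨min (min k1 k2) (min k3 k4), lt_min (lt_min hk1 hk2) (lt_min hk3 hk4),
      (min_le_left _ _).trans (min_le_left _ _), (min_le_left _ _).trans (min_le_right _ _),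
      (min_le_right _ _).trans (min_le_left _ _), (min_le_right _ _).trans (min_le_right _ _)⟩
  obtain ⟨κ₀, hκ₀, hz⟩ := hzero k hk
  obtain ⟨q1, hq1, hcut1⟩ := inv_cut hβ (show (0 : ℝ) < ρ / 2 by (clear * - hρ; linarith))
  obtain ⟨q2, hq2, hcut2⟩ := inv_cut hβ' (show (0 : ℝ) < ρ / 2 by linarith only [hρ])
  obtain ⟨κ, hκ, hκa, hκb, hκc, hκd⟩ : ∃ κ > 0, κ ≤ κ₀ ∧ κ ≤ q1 ∧ κ ≤ q2 ∧ κ ≤ ρ / 4 :=
    ⟨min (min κ₀ q1) (min q2 (ρ / 4)), lt_min (lt_min hκ₀ hq1) (lt_min hq2 (by linarith only [hρ])),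
      (min_le_left _ _).trans (min_le_left _ _), (min_le_left _ _).trans (min_le_right _ _),
      (min_le_right _ _).trans (min_le_left _ _), (min_le_right _ _).trans (min_le_right _ _)⟩
  obtain ⟨N1, hN1⟩ := sup_muC hβ hκ
  obtain ⟨N2, hN2⟩ := sup_muC hβ' hκ
  obtain ⟨N3, hN3⟩ := dg_muC hβ
  obtain ⟨N4, hN4⟩ := dg_muC hβ'
  refine ⟨max 1 (max (max N1 N2) (max N3 N4)), fun N hN x hx => ?_⟩
  have hN0 : 0 < N := lt_of_lt_of_le one_pos ((le_max_left _ _).trans hN)
  have hN' := (le_max_right _ _).trans hN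
  have hn1 : N1 ≤ N := ((le_max_left _ _).trans (le_max_left _ _)).trans hN'
  have hn2 : N2 ≤ N := ((le_max_right _ _).trans (le_max_left _ _)).trans hN'
  have hn3 : N3 ≤ N := ((le_max_left _ _).trans (le_max_right _ _)).trans hN'
  have hn4 : N4 ≤ N := ((le_max_right _ _).trans (le_max_right _ _)).trans hN'
  have hsmono : ∀ {a b : ℝ} {l : List X}, a ≤ b → Sm a l → Sm b l := fun hab h x hx y hy =>
    (h x hx y hy).trans_le hab
  have hx7 : x ∈ β '' Q n 7 := image_mono (closedBall_subset_closedBall (by norm_num)) hx.1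
  have hx7' : x ∈ β' '' Q n 7 := image_mono (closedBall_subset_closedBall (by norm_num)) hx.2
  have hbx : ball x ρ ⊆ β '' Q n 8 := by
    intro y hy
    obtain ⟨u, hu, hux⟩ := hx.1
    obtain ⟨v, hv, hvy, _⟩ := hm1 u hu y (by
      rw [hux, dist_comm]; exact (mem_ball.1 hy).trans_le hρ1)
    exact ⟨v, closedBall_subset_closedBall (by norm_num) hv, hvy⟩
  have hbx' : ball x ρ ⊆ β' '' Q n 6 := by
    intro y hy
    obtain ⟨u, hu, hux⟩ := hx.2
    obtain ⟨v, hv, hvy, _⟩ := hm2 u hu y (by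
      rw [hux, dist_comm]; exact (mem_ball.1 hy).trans_le hρ2)
    exact ⟨v, closedBall_subset_closedBall (by norm_num) hv, hvy⟩
  have hbx8 : ball x ρ ⊆ β' '' Q n 8 := hbx'.trans
    (image_mono (closedBall_subset_closedBall (by norm_num)))
  set c : Ch (ZMod 2) X := (muC β N).filter (In (ball x (ρ / 2))) with hcdef
  set c' : Ch (ZMod 2) X := (muC β' N).filter (In (ball x (ρ / 2))) with hcdef'
  have hmu := hN1 N hn1
  have hmu' := hN2 N hn2
  -- supports
  have hgen : ∀ μ : Ch (ZMod 2) X, Sup (fun l => l.length = n + 1 ∧ Sm κ l) μ →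
      Sup (fun l => l.length = n + 1 ∧ Sm κ₀ l ∧ In (ball x (ρ / 2)) l)
        (μ.filter (In (ball x (ρ / 2)))) := by
    intro μ hμ l hl
    rw [Finsupp.support_filter, Finset.mem_filter] at hl
    exact ⟨(hμ l hl.1).1, hsmono hκa (hμ l hl.1).2, hl.2⟩
  have hcs := hgen (muC β N) (Sup.mono (fun l hl => ⟨hl.1, hl.2.1⟩) hmu)
  have hcs' := hgen (muC β' N) (Sup.mono (fun l hl => ⟨hl.1, hl.2.1⟩) hmu')
  -- boundaries
  have hcb : Sup (Far (ρ / 4) {x}) (bd c) := by
    refine inv_bdfar (Sup.mono (fun l hl => hsmono hκd hl.2.1) hmu) ?_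
    refine Sup.mono (fun l hl y hy => ?_) (bd_muC_far hβ hn N hN0)
    by_contra hlt
    rw [not_le] at hlt
    exact hl y hy (hbx (mem_ball.2 (by linarith only [hκ, hκd, hlt])))
  have hcb' : Sup (Far (ρ / 4) {x}) (bd c') := by
    refine inv_bdfar (Sup.mono (fun l hl => hsmono hκd hl.2.1) hmu') ?_
    refine Sup.mono (fun l hl y hy => ?_) (bd_muC_far hβ' hn N hN0)
    by_contra hlt
    rw [not_le] at hlt
    exact hl y hy (hbx8 (mem_ball.2 (by linarith only [hlt, hκd, hκ])))
  -- degrees of the cut chains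
  have hd1 := hcut1 (muC β N) (Sup.mono (fun l hl => hsmono hκb hl.2.1) hmu) x hx7
  have hd2 := hcut2 (muC β N) (Sup.mono (fun l hl => hsmono hκc hl.2.1) hmu) x hx7'
  have hd3 := hcut2 (muC β' N) (Sup.mono (fun l hl => hsmono hκc hl.2.1) hmu') x hx7'
  have hone := hN3 N hn3 x hx7
  have hone' := hN4 N hn4 x hx7'
  -- first degree
  have hfirst : dg β' c x = 1 := by
    by_contra hne
    have h0 : dg β' c x = 0 := by
      rcases (show ∀ z : ZMod 2, z = 0 ∨ z = 1 by decide) (dg β' c x) with h | h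
      · exact h
      · exact absurd h hne
    obtain ⟨e, cm, hce, he, hcm⟩ := hz c x hx.2 hcs hbx' hcb h0
    have h1 : dg β c x = 0 := by
      rw [hce, inv_dg_add, (hb1 e (Sup.mono (fun l hl => hsmono hkk1 hl) he) x hx7).1,
        (hf1 cm x hx7 (Sup.mono (fun l hl => ⟨hsmono hkk3 hl.1, hl.2⟩) hcm)).1, add_zero]
    rw [hd1.1, hone.1] at h1
    exact one_ne_zero h1
  -- second degree
  have hcc : Sup (fun l => l.length = n + 1 ∧ Sm κ₀ l ∧ In (ball x (ρ / 2)) l) (c + c') :=
    Sup.add hcs hcs'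
  have hccb : Sup (Far (ρ / 4) {x}) (bd (c + c')) := by
    rw [map_add]; exact Sup.add hcb hcb'
  have hcc0 : dg β' (c + c') x = 0 := by
    rw [inv_dg_add, hfirst, hd3.1, hone'.1]; decide
  obtain ⟨e, cm, hce, he, hcm⟩ := hz (c + c') x hx.2 hcc hbx' hccb hcc0
  have hsecond : dg' β' (c + c') x = 0 := by
    rw [hce, inv_dg'_add, (hb2 e (Sup.mono (fun l hl => hsmono hkk2 hl) he) x hx7').2,
      (hf2 cm x hx7' (Sup.mono (fun l hl => ⟨hsmono hkk4 hl.1, hl.2⟩) hcm)).2, add_zero]
  rw [inv_dg'_add, hd3.2, hone'.2] at hsecond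
  refine ⟨?_, ?_⟩
  · rw [← hd2.1]; exact hfirst
  · rw [← hd2.2]
    have h2 : ∀ z : ZMod 2, z + 1 = 0 → z = 1 := by decide
    exact h2 _ hsecond

end Inv

end Vale.Agent.P239.M
end

section

/-!
Module M, block M9: fundamental chains of a finite atlas.
-/

namespace Vale.Agent.P239.M

open Metric Set Topology
open scoped unitInterval

section Fund

variable {X : Type*}

theorem fund_min {m : ℕ} (f : Fin m → ℝ) (hf : ∀ a, 0 < f a) : ∃ κ > 0, ∀ a, κ ≤ f a := by
  classical
  have key : ∀ s : Finset (Fin m), ∃ κ > 0, ∀ a ∈ s, κ ≤ f a := by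
    intro s
    induction s using Finset.induction_on with
    | empty => exact ⟨1, one_pos, fun a ha => by simp at ha⟩
    | insert b s _ ih =>
      obtain ⟨κ, hκ, h⟩ := ih
      refine ⟨min κ (f b), lt_min hκ (hf b), fun a ha => ?_⟩
      rcases Finset.mem_insert.1 ha with rfl | ha
      · exact min_le_right _ _
      · exact (min_le_left _ _).trans (h a ha)
  obtain ⟨κ, hκ, h⟩ := key Finset.univ
  exact ⟨κ, hκ, fun a => h a (Finset.mem_univ a)⟩

theorem fund_max {m : ℕ} (f : Fin m → ℕ) : ∃ N, ∀ a, f a ≤ N :=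
  ⟨∑ a, f a, fun a => Finset.single_le_sum (f := f) (fun _ _ => Nat.zero_le _) (Finset.mem_univ a)⟩

theorem fund_self (v : Ch (ZMod 2) X) : v + v = 0 := by
  ext l
  have : ∀ z : ZMod 2, z + z = 0 := by decide
  simp only [Finsupp.coe_add, Pi.add_apply, this, Finsupp.coe_zero, Pi.zero_apply]

theorem fund_sup_filter {P R : List X → Prop} [DecidablePred R] {c : Ch (ZMod 2) X}
    (hc : Sup P c) : Sup (fun l => P l ∧ R l) (c.filter R) := by
  intro l hl
  rw [Finsupp.support_filter, Finset.mem_filter] at hl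
  exact ⟨hc l hl.1, hl.2⟩

variable [MetricSpace X] {n : ℕ}

theorem fund_sm {δ ε : ℝ} (h : δ ≤ ε) {l l' : List X} (hs : l'.Sublist l) (hl : Sm δ l) :
    Sm ε l' :=
  fun x hx y hy => (hl x (hs.subset hx) y (hs.subset hy)).trans_le h

omit [MetricSpace X] in
theorem fund_dg_add (β : (Fin n → ℝ) → X) (c d : Ch (ZMod 2) X) (x : X) :
    dg β (c + d) x = dg β c x + dg β d x := by
  unfold dg
  exact map_add _ _ _

omit [MetricSpace X] in
theorem fund_dg'_add (β : (Fin n → ℝ) → X) (c d : Ch (ZMod 2) X) (x : X) :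
    dg' β (c + d) x = dg' β c x + dg' β d x := by
  unfold dg'
  exact map_add _ _ _

/-- the inductive statement -/
def FundP {m : ℕ} (β : Fin m → (Fin n → ℝ) → X) (s : Set (Fin m)) : Prop :=
  ∃ η > 0, ∀ δ > 0, ∃ μ : Ch (ZMod 2) X, Sup (fun l => l.length = n + 1 ∧ Sm δ l) μ ∧
    Sup (fun l => ∀ a ∈ s, Far η (β a '' Q n 1) l) (bd μ) ∧
    ∀ a, ∀ x ∈ β a '' Q n 2, (∃ b ∈ s, ∃ z ∈ β b '' Q n 1, dist x z < η) →
      dg (β a) μ x = 1 ∧ dg' (β a) μ x = 1

omit [MetricSpace X] in
theorem fund_Q {r R : ℝ} (h : r ≤ R) (β : (Fin n → ℝ) → X) : β '' Q n r ⊆ β '' Q n R :=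
  Set.image_mono (closedBall_subset_closedBall h)

theorem fund_near {β : (Fin n → ℝ) → X} (hβ : IsOpenEmbedding β) {r R : ℝ} (h : r < R) :
    ∃ ρ > 0, ∀ x ∈ β '' Q n r, ∀ y, dist x y < ρ → y ∈ β '' Q n R := by
  obtain ⟨ρ, hρ, H⟩ := chart_mod hβ h one_pos
  refine ⟨ρ, hρ, ?_⟩
  rintro x ⟨u, hu, rfl⟩ y hy
  obtain ⟨v, hv, hvy, _⟩ := H u hu y hy
  exact ⟨v, hv, hvy⟩

theorem fund_step (hn : 0 < n) {m : ℕ} (β : Fin m → (Fin n → ℝ) → X)
    (hβ : ∀ a, IsOpenEmbedding (β a)) (hL : ∀ a, LD1S (β a)) (hI : ∀ a b, InvS (β a) (β b))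
    (j : Fin m) (s : Set (Fin m)) (ih : FundP β s) : FundP β (insert j s) := by
  classical
  obtain ⟨η, hη, H⟩ := ih
  obtain ⟨h1, hh1, Hh1⟩ := fund_near (hβ j) (show (1 : ℝ) < 2 by norm_num)
  obtain ⟨h, hh, h4η, h4h1⟩ : ∃ h > 0, 4 * h ≤ η ∧ 4 * h ≤ h1 :=
    ⟨min (η / 4) (h1 / 4), lt_min (by positivity) (by positivity),
      by linarith only [min_le_left (η / 4) (h1 / 4)], by linarith only [min_le_right (η / 4) (h1 / 4)]⟩
  have hB : ∀ x b, b ∈ β j '' Q n 1 → dist x b < 3 * h → x ∈ β j '' Q n 2 := by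
    intro x b hb hx
    refine Hh1 b hb x ?_
    rw [dist_comm]
    linarith only [hh, h4h1, hx]
  refine ⟨h, hh, fun δ hδ => ?_⟩
  obtain ⟨ρ0, hρ0, Hρ0⟩ := fund_near (hβ j) (show (2 : ℝ) < 6 by norm_num)
  obtain ⟨κ1, hκ1, Hκ1⟩ := dg_far (hβ j) hρ0
  have hh2 : 0 < h / 2 := by positivity
  choose κb hκb Hκb using fun a => dg_bd (hβ a)
  choose κf hκf Hκf using fun a => dg_far (hβ a) hh2
  obtain ⟨k1, hk1, Hk1⟩ := fund_min κb hκb
  obtain ⟨k2, hk2, Hk2⟩ := fund_min κf hκf
  obtain ⟨κ', hκ', hκδ, hκh, hκb', hκf'⟩ : ∃ κ' > 0, κ' ≤ δ ∧ κ' ≤ h / 2 ∧ κ' ≤ k1 ∧ κ' ≤ k2 :=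
    ⟨min (min δ (h / 2)) (min k1 k2), lt_min (lt_min hδ hh2) (lt_min hk1 hk2),
      (min_le_left _ _).trans (min_le_left _ _), (min_le_left _ _).trans (min_le_right _ _),
      (min_le_right _ _).trans (min_le_left _ _), (min_le_right _ _).trans (min_le_right _ _)⟩
  obtain ⟨κL, hκL, HL⟩ := hL j κ' hκ'
  obtain ⟨κ, hκ, hκκL, hκκ', hκκ1, hκρ⟩ : ∃ κ > 0, κ ≤ κL ∧ κ ≤ κ' ∧ κ ≤ κ1 ∧ κ ≤ ρ0 :=
    ⟨min (min κL κ') (min κ1 ρ0), lt_min (lt_min hκL hκ') (lt_min hκ1 hρ0),
      (min_le_left _ _).trans (min_le_left _ _), (min_le_left _ _).trans (min_le_right _ _),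
      (min_le_right _ _).trans (min_le_left _ _), (min_le_right _ _).trans (min_le_right _ _)⟩
  obtain ⟨μ', hμ1, hμ2, hμ3⟩ := H κ hκ
  obtain ⟨N1, HN1⟩ := sup_muC (hβ j) hκ
  obtain ⟨N2, HN2⟩ := dg_muC (hβ j)
  choose N3 HN3 using fun a => hI j a
  obtain ⟨N4, HN4⟩ := fund_max N3
  set N := N1 + N2 + N4 + 1 with hN
  have hM1 := HN1 N (by omega)
  have hM2 := HN2 N (by omega)
  have hM3 : ∀ a, ∀ x ∈ β j '' Q n 2 ∩ β a '' Q n 2,
      dg (β a) (muC (β j) N) x = 1 ∧ dg' (β a) (muC (β j) N) x = 1 := fun a =>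
    HN3 a N ((HN4 a).trans (by omega))
  have hM4 := bd_muC_far (hβ j) hn N (by omega)
  set M := muC (β j) N with hMdef
  -- the sum and its two parts
  have hs1 : Sup (fun l => l.length = n + 1 ∧ Sm κ l) (μ' + M) :=
    Sup.add hμ1 (Sup.mono (fun l hl => ⟨hl.1, hl.2.1⟩) hM1)
  set c : Ch (ZMod 2) X := (μ' + M).filter (In (β j '' Q n 6)) with hc
  set s' : Ch (ZMod 2) X := (μ' + M).filter (fun l => ¬ In (β j '' Q n 6) l) with hs'
  have hcs : c + s' = μ' + M := Finsupp.filter_add_filter_not _ _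
  have hc1 : Sup (fun l => (l.length = n + 1 ∧ Sm κ l) ∧ In (β j '' Q n 6) l) c :=
    fund_sup_filter hs1
  have hs'1 : Sup (fun l => (l.length = n + 1 ∧ Sm κ l) ∧ ¬ In (β j '' Q n 6) l) s' :=
    fund_sup_filter hs1
  set A : Set X := {z | ∃ b ∈ s, z ∈ β b '' Q n 1} with hA
  set L : Set X := {z | (∃ a ∈ A, dist z a ≤ 2 * h) ∧ ∃ b ∈ β j '' Q n 1, dist z b ≤ 2 * h} with hLdef
  -- small lists meeting the `2`-cube are inside the `6`-cube
  have hin : ∀ l : List X, Sm κ l → ∀ x ∈ l, x ∈ β j '' Q n 2 → In (β j '' Q n 6) l :=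
    fun l hl x hx hx2 y hy => Hρ0 x hx2 y ((hl x hx y hy).trans_le hκρ)
  have hbdc : Sup (Far h L) (bd c) := by
    intro l hl x hx z hz
    by_contra hlt
    push Not at hlt
    obtain ⟨⟨a, ha, hza⟩, b, hb, hzb⟩ := hz
    have hxB : x ∈ β j '' Q n 2 := hB x b hb (by linarith only [hlt, hzb, dist_triangle x z b])
    have hl' : l ∈ (bd (μ' + M)).support := by
      refine mem_bd_filter hl hx ?_
      intro l' hl' hxl'
      exact hin l' (hs1 l' hl').2 x hxl' hxB
    rw [map_add] at hl'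
    rcases Finset.mem_union.1 (Finsupp.support_add hl') with h5 | h5
    · obtain ⟨b0, hb0, ha0⟩ := ha
      have := hμ2 l h5 b0 hb0 x hx a ha0
      linarith only [h4η, hκ', hκh, hlt, hza, this, dist_triangle x z a]
    · exact hM4 l h5 x hx (fund_Q (by norm_num) _ hxB)
  have hdeg : ∀ y, (∃ z ∈ L, dist y z < h) → dg (β j) c y = 0 := by
    rintro y ⟨z, ⟨⟨a, ⟨b0, hb0, ha0⟩, hza⟩, b, hb, hzb⟩, hyz⟩
    have hyB : y ∈ β j '' Q n 2 := hB y b hb (by linarith only [hyz, hzb, dist_triangle y z b])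
    have e1 : dg (β j) μ' y = 1 :=
      (hμ3 j y hyB ⟨b0, hb0, a, ha0, by linarith only [h4η, hκ', hκh, hyz, hza, dist_triangle y z a]⟩).1
    have e2 : dg (β j) M y = 1 := (hM2 y (fund_Q (by norm_num) _ hyB)).1
    have e3 : dg (β j) s' y = 0 := by
      refine (Hκ1 s' y (fund_Q (by norm_num) _ hyB) ?_).1
      refine Sup.mono (fun l hl => ⟨fund_sm hκκ1 (List.Sublist.refl l) hl.1.2, ?_⟩) hs'1
      have h6 := hl.2
      unfold In at h6
      push Not at h6
      obtain ⟨y', hy', hy6⟩ := h6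
      refine ⟨y', hy', ?_⟩
      by_contra h7
      push Not at h7
      exact hy6 (Hρ0 y hyB y' h7)
    have e4 := congrArg (fun v => dg (β j) v y) hcs
    simp only [fund_dg_add, e1, e2, e3, add_zero] at e4
    rw [e4]
    decide
  obtain ⟨e, cm, hce, he, hcm⟩ := HL c
    (Sup.mono (fun l hl => ⟨hl.1.1, fund_sm hκκL (List.Sublist.refl l) hl.1.2, hl.2⟩) hc1)
    L h (by linarith only [hκh, hκ']) hbdc hdeg
  set R : List X → Prop := fun l => ∀ x ∈ l, ∀ a ∈ A, 2 * h - κ' < dist x a with hR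
  set c1 : Ch (ZMod 2) X := cm.filter R with hc1def
  set c2 : Ch (ZMod 2) X := cm.filter (fun l => ¬ R l) with hc2def
  have hc12 : c1 + c2 = cm := Finsupp.filter_add_filter_not _ _
  have hc1' : Sup (fun l => (l.length = n + 1 ∧ Sm κ' l) ∧ R l) c1 :=
    fund_sup_filter (Sup.mono (fun l hl => ⟨hl.1, hl.2.1⟩) hcm)
  have hc2' : Sup (fun l => (l.length = n + 1 ∧ Sm κ' l) ∧
      ∀ x ∈ l, ∀ b ∈ β j '' Q n 1, 2 * h < dist x b) c2 := by
    intro l hl
    rw [hc2def, Finsupp.support_filter, Finset.mem_filter] at hl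
    obtain ⟨hl1, hl2⟩ := hl
    obtain ⟨g1, g2, g3, g4, g5⟩ := hcm l hl1
    refine ⟨⟨g1, g2⟩, fun y hy b hb => ?_⟩
    by_contra h7
    push Not at h7
    rw [hR] at hl2
    push Not at hl2
    obtain ⟨x0, hx0, a, ha, hxa⟩ := hl2
    have h8 : dist y x0 < κ' := g2 y hy x0 hx0
    have h9 : y ∈ L := ⟨⟨a, ha, by linarith only [hxa, h8, dist_triangle y x0 a]⟩, b, hb, h7⟩
    have h10 := g4 y hy y h9
    rw [dist_self] at h10
    linarith only [hκ', hκh, h10]
  have hne : ∀ l : List X, l.length = n + 1 → ∃ y, y ∈ l := by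
    intro l hl
    cases l with
    | nil => simp at hl
    | cons y l => exact ⟨y, by simp⟩
  have hμ'' : μ' + bd e + c1 = M + s' + c2 := by
    have f1 : bd e + c1 + c2 + s' = μ' + M := by
      rw [← hcs, hce, ← hc12, add_assoc (bd e)]
    have f2 := fund_self μ'
    have f3 := fund_self s'
    have f4 := fund_self c2
    calc μ' + bd e + c1 = μ' + (bd e + c1 + c2 + s') + (s' + c2) := by
          have : μ' + (bd e + c1 + c2 + s') + (s' + c2) =
              μ' + bd e + c1 + ((s' + s') + (c2 + c2)) := by abel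
          rw [this, f3, f4, add_zero, add_zero]
      _ = (μ' + μ') + M + s' + c2 := by rw [f1]; abel
      _ = M + s' + c2 := by rw [f2, zero_add]
  refine ⟨μ' + bd e + c1, ?_, ?_, ?_⟩
  · refine Sup.add (Sup.add ?_ ?_) ?_
    · exact Sup.mono (fun l hl => ⟨hl.1, fund_sm (hκκ'.trans hκδ) (List.Sublist.refl l) hl.2⟩) hμ1
    · refine Sup.bd (P := fun l => l.length = n + 2 ∧ Sm κ' l) ?_
        (Sup.mono (fun l hl => ⟨hl.1, hl.2.1⟩) he)
      intro l l' hs hlen hl
      exact ⟨by have := hl.1; omega, fund_sm hκδ hs hl.2⟩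
    · exact Sup.mono (fun l hl => ⟨hl.1.1, fund_sm hκδ (List.Sublist.refl l) hl.1.2⟩) hc1'
  · have hold : Sup (fun l => ∀ a ∈ s, Far h (β a '' Q n 1) l) (bd (μ' + bd e + c1)) := by
      rw [map_add, map_add, bd_bd, add_zero]
      refine Sup.add ?_ ?_
      · exact Sup.mono (fun l hl a ha x hx z hz => by have := hl a ha x hx z hz; linarith only [h4η, hκ', hκh, this]) hμ2
      · refine Sup.bd (P := R) ?_ (Sup.mono (fun l hl => hl.2) hc1')
        intro l l' hs _ hl a ha x hx z hz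
        have := hl x (hs.subset hx) z ⟨a, ha, hz⟩
        linarith only [hκ', hκh, this]
    have hnew : Sup (fun l => Far h (β j '' Q n 1) l) (bd (μ' + bd e + c1)) := by
      rw [hμ'', map_add, map_add]
      refine Sup.add (Sup.add ?_ ?_) ?_
      · intro l hl x hx b hb
        by_contra h7
        push Not at h7
        exact hM4 l hl x hx (fund_Q (by norm_num) _ (hB x b hb (by linarith only [h7, hκh, hκ'])))
      · refine Sup.bd ?_ hs'1
        intro l l' hs _ hl x hx b hb
        by_contra h7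
        push Not at h7
        exact hl.2 (hin l hl.1.2 x (hs.subset hx) (hB x b hb (by linarith only [hκ', hκh, h7])))
      · refine Sup.bd ?_ hc2'
        intro l l' hs _ hl x hx b hb
        have := hl.2 x (hs.subset hx) b hb
        linarith only [hκ', hκh, this]
    intro l hl a ha
    rcases Set.mem_insert_iff.1 ha with rfl | ha
    · exact hnew l hl
    · exact hold l hl a ha
  · intro a x hxa hx
    have hx7 : x ∈ β a '' Q n 7 := fund_Q (by norm_num) _ hxa
    obtain ⟨b, hb, z, hz, hxz⟩ := hx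
    rcases Set.mem_insert_iff.1 hb with rfl | hb
    · have hxB : x ∈ β b '' Q n 2 := hB x z hz (by linarith only [hκ', hκh, hxz])
      have e1 := hM3 a x ⟨hxB, hxa⟩
      have e2 := Hκf a s' x hx7 (by
        refine Sup.mono (fun l hl => ⟨fund_sm (hκκ'.trans (hκf'.trans (Hk2 a)))
          (List.Sublist.refl l) hl.1.2, ?_⟩) hs'1
        obtain ⟨y, hy⟩ := hne l hl.1.1
        refine ⟨y, hy, ?_⟩
        by_contra h7
        push Not at h7
        refine hl.2 (hin l hl.1.2 y hy (hB y z hz ?_))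
        have := dist_triangle y x z
        rw [dist_comm y x] at this
        linarith only [this, h7, hxz, hκh, hκ'])
      have e3 := Hκf a c2 x hx7 (by
        refine Sup.mono (fun l hl => ⟨fund_sm (hκf'.trans (Hk2 a))
          (List.Sublist.refl l) hl.1.2, ?_⟩) hc2'
        obtain ⟨y, hy⟩ := hne l hl.1.1
        refine ⟨y, hy, ?_⟩
        have h8 := hl.2 y hy z hz
        have := dist_triangle y x z
        rw [dist_comm y x] at this
        linarith only [this, h8, hxz, hκh, hκ'])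
      rw [hμ'']
      constructor
      · rw [fund_dg_add, fund_dg_add, e1.1, e2.1, e3.1, add_zero, add_zero]
      · rw [fund_dg'_add, fund_dg'_add, e1.2, e2.2, e3.2, add_zero, add_zero]
    · have e1 := hμ3 a x hxa ⟨b, hb, z, hz, by linarith only [h4η, hκ', hκh, hxz]⟩
      have e2 := Hκb a e (Sup.mono (fun l hl => fund_sm (hκb'.trans (Hk1 a))
        (List.Sublist.refl l) hl.2.1) he) x hx7
      have e3 := Hκf a c1 x hx7 (by
        refine Sup.mono (fun l hl => ⟨fund_sm (hκf'.trans (Hk2 a))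
          (List.Sublist.refl l) hl.1.2, ?_⟩) hc1'
        obtain ⟨y, hy⟩ := hne l hl.1.1
        refine ⟨y, hy, ?_⟩
        have h8 := hl.2 y hy z ⟨b, hb, hz⟩
        have := dist_triangle y x z
        rw [dist_comm y x] at this
        linarith only [hκh, hxz, h8, this])
      constructor
      · rw [fund_dg_add, fund_dg_add, e1.1, e2.1, e3.1, add_zero, add_zero]
      · rw [fund_dg'_add, fund_dg'_add, e1.2, e2.2, e3.2, add_zero, add_zero]

/-- file `M_Fund.lean` -/
theorem fundS (hn : 0 < n) {m : ℕ} (β : Fin m → (Fin n → ℝ) → X)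
    (hβ : ∀ a, IsOpenEmbedding (β a)) (hL : ∀ a, LD1S (β a)) (hI : ∀ a b, InvS (β a) (β b)) :
    FundS β := by
  classical
  have key : ∀ s : Finset (Fin m), FundP β (s : Set (Fin m)) := by
    intro s
    induction s using Finset.induction_on with
    | empty =>
      refine ⟨1, one_pos, fun δ _ => ⟨0, Sup.zero, by rw [map_zero]; exact Sup.zero, ?_⟩⟩
      rintro a x _ ⟨b, hb, _⟩
      simp at hb
    | insert j s _ ih =>
      rw [Finset.coe_insert]
      exact fund_step hn β hβ hL hI j s ih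
  obtain ⟨η, hη, H⟩ := key Finset.univ
  refine ⟨η, hη, fun δ hδ => ?_⟩
  obtain ⟨μ, h1, h2, h3⟩ := H δ hδ
  refine ⟨μ, h1, Sup.mono (fun l hl a => hl a (by simp only [Finset.coe_univ, mem_univ])) h2, fun a x hx hb => h3 a x hx ?_⟩
  obtain ⟨b, z, hz, hxz⟩ := hb
  exact ⟨b, by simp only [Finset.coe_univ, mem_univ], z, hz, hxz⟩

end Fund

end Vale.Agent.P239.M
end

section

/-!
Module M, block M10: local cohomology (compact supports) of a chart.
-/

namespace Vale.Agent.P239.M

open Metric Set Topology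

section LCAlg

variable {X Y : Type*}

private theorem lc_ext_ext {A : Type*} [AddCommGroup A] [Module (ZMod 2) A] (u : List Y → A)
    (v : List X → Ch (ZMod 2) Y) (c : Ch (ZMod 2) X) :
    ext u (ext v c) = ext (fun l => ext u (v l)) c := by
  induction c using Finsupp.induction_linear with
  | zero => simp
  | add a b ha hb => rw [map_add, map_add, ha, hb, map_add]
  | single l r => simp [Finsupp.linearCombination_single]

private theorem lc_ext_pf {A : Type*} [AddCommGroup A] [Module (ZMod 2) A] (u : List Y → A)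
    (f : X → Y) (c : Ch (ZMod 2) X) : ext u (pf f c) = ext (fun l => u (l.map f)) c := by
  induction c using Finsupp.induction_linear with
  | zero => simp
  | add a b ha hb => rw [map_add, map_add, ha, hb, map_add]
  | single l r => rw [pf_single]; simp [Finsupp.linearCombination_single]

private theorem lc_pf_ext (f : X → Y) {Z : Type*} (v : List Z → Ch (ZMod 2) X)
    (c : Ch (ZMod 2) Z) : pf f (ext v c) = ext (fun l => pf f (v l)) c := by
  induction c using Finsupp.induction_linear with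
  | zero => simp
  | add a b ha hb => rw [map_add, map_add, ha, hb, map_add]
  | single l r => simp only [Finsupp.linearCombination_single, map_smul]

private theorem lc_ext_add {A : Type*} [AddCommGroup A] [Module (ZMod 2) A] (u v : List X → A)
    (c : Ch (ZMod 2) X) : ext (fun l => u l + v l) c = ext u c + ext v c := by
  induction c using Finsupp.induction_linear with
  | zero => simp
  | add a b ha hb => rw [map_add, map_add, map_add, ha, hb]; abel
  | single l r => simp [Finsupp.linearCombination_single]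

private theorem lc_ext_zero {A : Type*} [AddCommGroup A] [Module (ZMod 2) A]
    (c : Ch (ZMod 2) X) : ext (fun _ => (0 : A)) c = 0 := by
  induction c using Finsupp.induction_linear with
  | zero => simp only [map_zero]
  | add a b ha hb => rw [map_add, ha, hb, add_zero]
  | single l r => simp [Finsupp.linearCombination_single]

private theorem lc_ext_smul {A : Type*} [AddCommGroup A] [Module (ZMod 2) A] (r : ZMod 2)
    (u : List X → A) (c : Ch (ZMod 2) X) : ext (fun l => r • u l) c = r • ext u c := by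
  induction c using Finsupp.induction_linear with
  | zero => simp
  | add a b ha hb => rw [map_add, map_add, ha, hb, smul_add]
  | single l s =>
    simp only [Finsupp.linearCombination_single]
    rw [smul_comm]

private theorem lc_swap {A : Type*} [AddCommGroup A] [Module (ZMod 2) A]
    (f : List X → List Y → A) (c : Ch (ZMod 2) X) (d : Ch (ZMod 2) Y) :
    ext (fun a => ext (fun b => f a b) d) c = ext (fun b => ext (fun a => f a b) c) d := by
  induction c using Finsupp.induction_linear with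
  | zero => simp only [map_zero, lc_ext_zero]
  | add a b ha hb =>
    rw [map_add, ha, hb, ← lc_ext_add]
    simp only [map_add]
  | single l r =>
    simp only [Finsupp.linearCombination_single]
    rw [lc_ext_smul]

private theorem lc_sp_add {A : Type*} [AddCommGroup A] (B B' : List X → List X → A)
    (l : List X) : sp (fun p s => B p s + B' p s) l = sp B l + sp B' l := by
  induction l generalizing B B' with
  | nil => simp [sp]
  | cons x l ih =>
    simp only [sp]
    rw [ih (fun p s => B (x :: p) s) (fun p s => B' (x :: p) s)]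
    abel

private theorem lc_sp_lin {A A' : Type*} [AddCommGroup A] [AddCommGroup A'] (L : A →+ A')
    (B : List X → List X → A) (l : List X) : L (sp B l) = sp (fun p s => L (B p s)) l := by
  induction l generalizing B with
  | nil => simp [sp]
  | cons x l ih =>
    simp only [sp]
    rw [map_add, ih (fun p s => B (x :: p) s)]

private theorem lc_sp_zero {A : Type*} [AddCommGroup A] (l : List X) :
    sp (fun _ _ => (0 : A)) l = 0 := by
  induction l with
  | nil => simp [sp]
  | cons x l ih =>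
    simp only [sp]
    rw [ih, add_zero]

/-- duality of the two cap products -/
private theorem lc_dual (θ ω : List X → ZMod 2) (y : List X) :
    ext θ (capL ω y) = ext ω (capS θ y) := by
  have h1 := lc_sp_lin (ext θ).toAddMonoidHom (fun p s => Finsupp.single p (ω s)) y
  have h2 := lc_sp_lin (ext ω).toAddMonoidHom (fun p s => Finsupp.single s (θ p)) y
  have e1 : ext θ (capL ω y) = sp (fun p s => ω s • θ p) y := by
    refine h1.trans ?_
    congr 1
    funext p s
    exact Finsupp.linearCombination_single _ _ _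
  have e2 : ext ω (capS θ y) = sp (fun p s => θ p • ω s) y := by
    refine h2.trans ?_
    congr 1
    funext p s
    exact Finsupp.linearCombination_single _ _ _
  rw [e1, e2]
  congr 1
  funext p s
  rw [smul_eq_mul, smul_eq_mul, mul_comm]

private theorem lc_capL_ext (f : List X → List Y → ZMod 2) (d : Ch (ZMod 2) Y) (y : List X) :
    capL (fun l => ext (fun b => f l b) d) y = ext (fun b => capL (fun l => f l b) y) d := by
  induction d using Finsupp.induction_linear with
  | zero =>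
    simp only [map_zero]
    unfold capL
    simp only [Finsupp.single_zero]
    exact lc_sp_zero y
  | add a b ha hb =>
    rw [map_add, ← ha, ← hb]
    simp only [map_add]
    unfold capL
    simp only [Finsupp.single_add]
    rw [lc_sp_add]
  | single b r =>
    simp only [Finsupp.linearCombination_single]
    unfold capL
    have h := lc_sp_lin (A := Ch (ZMod 2) X) (DistribSMul.toAddMonoidHom (Ch (ZMod 2) X) r)
      (fun p s => Finsupp.single p (f s b)) y
    refine Eq.trans ?_ h.symm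
    congr 1
    funext p s
    simp

private theorem lc_eq_zero {c : Ch (ZMod 2) X} (h : Sup (fun _ => False) c) : c = 0 := by
  rw [← Finsupp.support_eq_empty, Finset.eq_empty_iff_forall_notMem]
  exact fun l hl => h l hl

private theorem lc_capS_zero (θ : List X → ZMod 2) (y : List X)
    (h : ∀ p x s, y = p ++ x :: s → θ (p ++ [x]) = 0) : capS θ y = 0 :=
  lc_eq_zero ((sup_capS θ y).mono fun _ ⟨p, x, s, h1, _, h2⟩ => h2 (h p x s h1))

private theorem lc_capL_zero (ω : List X → ZMod 2) (y : List X)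
    (h : ∀ p x s, y = p ++ x :: s → ω (x :: s) = 0) : capL ω y = 0 :=
  lc_eq_zero ((sup_capL ω y).mono fun _ ⟨p, x, s, h1, _, h2⟩ => h2 (h p x s h1))

private theorem lc_ext_eq_zero {A : Type*} [AddCommGroup A] [Module (ZMod 2) A]
    {P : List X → Prop} {u : List X → A} {c : Ch (ZMod 2) X} (hc : Sup P c)
    (h : ∀ l, P l → u l = 0) : ext u c = 0 := by
  rw [ext_congr (v := fun _ => (0 : A)) hc h, lc_ext_zero]

end LCAlg

section LCPhi

variable {X : Type*} [MetricSpace X] {n : ℕ} {β : (Fin n → ℝ) → X}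

open Classical in
/-- cap product with the kernel of a list -/
noncomputable def lcPhi (β : (Fin n → ℝ) → X) (N : ℕ) (t : List X) : Ch (ZMod 2) X :=
  if t = [] then Finsupp.single [] 1 else ext (capL fun s => KerC β s t) (muC β N)

omit [MetricSpace X] in
theorem lcPhi_nil (N : ℕ) : lcPhi β N [] = Finsupp.single [] 1 := if_pos rfl

omit [MetricSpace X] in
theorem lcPhi_of_ne (N : ℕ) {t : List X} (ht : t ≠ []) :
    lcPhi β N t = ext (capL fun s => KerC β s t) (muC β N) := if_neg ht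

omit [MetricSpace X] in
private theorem lc_muC_length (N : ℕ) (hN : 0 < N) :
    Sup (fun l => l.length = n + 1) (muC β N) :=
  Sup.pf β ((sup_box n N hN).mono fun l h => by rw [List.length_map]; exact h.1)

private theorem lc_co_mem (hβ : IsOpenEmbedding β) {r : ℝ} {y : X} (hy : y ∈ β '' Q n r)
    (i : Fin n) : |co β i y| ≤ r := by
  obtain ⟨u, hu, rfl⟩ := hy
  rw [co_apply hβ]
  have h1 : ‖u‖ ≤ r := by simpa only [mem_closedBall, dist_zero_right] using hu
  exact (norm_le_pi_norm u i).trans h1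

private theorem lc_KerC_edge (hβ : IsOpenEmbedding β) {t : List X} (ht : In (β '' Q n 8) t)
    {l : List X} (h : ∃ i : Fin n, (∀ x ∈ l, co β i x = -9) ∨ ∀ x ∈ l, co β i x = 9) :
    KerC β l t = 0 := by
  obtain ⟨i, h⟩ := h
  rcases h with h | h
  · refine Ker_eq_zero _ _ _ (co β i) (List.mem_map.2 ⟨i, List.mem_finRange i, rfl⟩) 1
      fun x hx y hy => ?_
    unfold hh
    rw [if_pos]
    rw [h x hx]
    have := abs_le.1 (lc_co_mem hβ (ht y hy) i)
    linarith only [this]
  · refine Ker_eq_zero _ _ _ (co β i) (List.mem_map.2 ⟨i, List.mem_finRange i, rfl⟩) 0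
      fun x hx y hy => ?_
    unfold hh
    rw [if_neg]
    rw [h x hx]
    have := abs_le.1 (lc_co_mem hβ (ht y hy) i)
    linarith only [this]

theorem bd_lcPhi (hn : 0 < n) (hβ : IsOpenEmbedding β) {N : ℕ} (hN : 0 < N) (t : List X)
    (ht : In (β '' Q n 8) t) : bd (lcPhi β N t) = ext (lcPhi β N) (bdL (ZMod 2) t) := by
  rcases t with _ | ⟨x, t⟩
  · rw [lcPhi_nil, bd_single]
    simp [bdL]
  rw [lcPhi_of_ne N (List.cons_ne_nil x t), bd_ext_capL]
  have h1 : ext (capL fun s => KerC β s (x :: t)) (bd (muC β N)) = 0 := by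
    refine lc_ext_eq_zero (sup_bd_muC hβ hn N hN) fun l hl => lc_capL_zero _ _ ?_
    intro p y s hy
    refine lc_KerC_edge hβ ht ?_
    obtain ⟨i, hi⟩ := hl
    refine ⟨i, hi.imp (fun h z hz => h z ?_) fun h z hz => h z ?_⟩ <;>
    · rw [hy]
      exact List.mem_append_right _ hz
  have h4 : KerC β [] (x :: t) = 0 := Ker_nil_left _ _
  have h2 : ext (capL fun l => ext (fun s => KerC β s (x :: t)) (bdL (ZMod 2) l)) (muC β N) =
      ext (fun b => ext (capL fun l => KerC β l b) (muC β N)) (bdL (ZMod 2) (x :: t)) := by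
    rw [← lc_swap (fun l b => capL (fun l => KerC β l b) l)]
    refine congrFun (congrArg _ ?_) _
    congr 1
    funext y
    rw [← lc_capL_ext]
    congr 1
    funext l
    exact KerC_bd hβ l (x :: t)
  rw [h1, h2, h4, zero_smul, add_zero, zero_add]
  rcases t with _ | ⟨x', t⟩
  · have h5 : bdL (ZMod 2) [x] = Finsupp.single [] 1 := by simp [bdL]
    rw [h5, Finsupp.linearCombination_single, Finsupp.linearCombination_single, one_smul, one_smul,
      lcPhi_nil, muC_right hβ N hN x (ht x (List.mem_cons_self ..))]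
    have h6 : ext (capL fun l => KerC β l []) (muC β N) = 0 := by
      have : (fun l => KerC β l []) = fun _ => (0 : ZMod 2) := by
        funext l
        exact Ker_nil_right _ _
      rw [this]
      have h7 : capL (fun _ : List X => (0 : ZMod 2)) = fun _ => 0 := by
        funext y
        exact lc_capL_zero _ _ fun _ _ _ _ => rfl
      rw [h7, lc_ext_zero]
    rw [h6, zero_add]
  · have h5 : ext (fun s => KerC β s (x :: x' :: t)) (muC β N) = 0 := by
      refine lc_ext_eq_zero (lc_muC_length N hN) fun l hl => ?_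
      by_contra hne
      have h6 := Ker_length _ _ _ hne
      simp only [List.length_cons, List.length_map, List.length_finRange] at h6
      omega
    rw [h5, Finsupp.single_zero, add_zero]
    refine ext_congr (sup_bdL _) fun b hb => ?_
    rw [lcPhi_of_ne]
    rintro rfl
    have := hb.2
    simp only [List.length_nil, zero_add, List.length_cons, Nat.right_eq_add, Nat.add_eq_zero_iff, List.length_eq_zero_iff, one_ne_zero, and_false] at this

/-- the lists of `lcPhi β N t` are near `t` -/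
theorem sup_lcPhi (hβ : IsOpenEmbedding β) {κ₃ : ℝ} (hκ : 0 < κ₃) : ∃ k > 0,
    ∀ N : ℕ, 0 < N → Sup (fun l => Sm k l ∧ In (β '' Q n 9) l) (muC β N) →
    ∀ t : List X, Sm k t → In (β '' Q n 6) t →
      Sup (fun l => l.length = t.length ∧ In {y | ∃ x ∈ t, dist x y < κ₃} l) (lcPhi β N t) := by
  obtain ⟨k1, hk1, h1⟩ := KerC_local hβ (κ := κ₃ / 2) (by linarith only [hκ])
  obtain ⟨k2, hk2, h2⟩ := chart_mod hβ (r := 9) (R := 10) (by norm_num) (κ := 1 / 2) (by norm_num)
  refine ⟨min k1 (min k2 (κ₃ / 2)), lt_min hk1 (lt_min hk2 (by linarith only [hκ])), ?_⟩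
  intro N hN hμ t ht ht6
  rcases t with _ | ⟨x, t⟩
  · rw [lcPhi_nil]
    refine Sup.single _ ⟨rfl, ?_⟩
    intro y hy
    simp at hy
  rw [lcPhi_of_ne N (List.cons_ne_nil x t)]
  have hμ' : Sup (fun l => l.length = n + 1 ∧ Sm (min k1 (min k2 (κ₃ / 2))) l ∧
      In (β '' Q n 9) l) (muC β N) := fun l hl => ⟨lc_muC_length N hN l hl, hμ l hl⟩
  refine Sup.ext hμ' fun y hy => (sup_capL _ y).mono ?_
  rintro l ⟨p, z, s, hys, hl, hK⟩
  obtain ⟨hy1, hy2, hy3⟩ := hy
  have hsub : ∀ w ∈ z :: s, w ∈ y := fun w hw => by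
    rw [hys]
    exact List.mem_append_right _ hw
  have hsubl : ∀ w ∈ l, w ∈ y := fun w hw => by
    rw [hl] at hw
    rw [hys]
    rcases List.mem_append.1 hw with h | h
    · exact List.mem_append_left _ h
    · rw [List.mem_singleton] at h
      rw [h]
      exact List.mem_append_right _ (List.mem_cons_self ..)
  -- coordinates
  have hc9 : ∀ w ∈ y, ∀ w' ∈ y, ∀ i : Fin n, |co β i w - co β i w'| ≤ 1 / 2 := by
    intro w hw w' hw' i
    obtain ⟨a, ha, rfl⟩ := hy3 w hw
    obtain ⟨v, -, rfl, hv2⟩ := h2 a ha w' (lt_of_lt_of_le (hy2 _ hw _ hw')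
      ((min_le_right _ _).trans (min_le_left _ _)))
    rw [co_apply hβ, co_apply hβ]
    have h5 := dist_le_pi_dist a v i
    rw [Real.dist_eq] at h5
    linarith only [hv2, h5]
  have hct : ∀ w ∈ x :: t, ∀ w' ∈ x :: t, ∀ i : Fin n, |co β i w - co β i w'| ≤ 1 / 2 := by
    intro w hw w' hw' i
    obtain ⟨a, ha, rfl⟩ := ht6 w hw
    obtain ⟨v, -, rfl, hv2⟩ := h2 a (closedBall_subset_closedBall (by norm_num) ha) w'
      (lt_of_lt_of_le (ht _ hw _ hw') ((min_le_right _ _).trans (min_le_left _ _)))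
    rw [co_apply hβ, co_apply hβ]
    have h5 := dist_le_pi_dist a v i
    rw [Real.dist_eq] at h5
    linarith only [hv2, h5]
  have hx6 := ht6 x (List.mem_cons_self ..)
  have h8 : In (β '' Q n 8) (z :: s) := by
    intro w hw
    obtain ⟨a, ha, rfl⟩ := hy3 w (hsub w hw)
    refine ⟨a, ?_, rfl⟩
    rw [mem_closedBall_zero_iff, pi_norm_le_iff_of_nonneg (by norm_num)]
    intro i
    have h5 := Ker_local _ _ _ hK (co β i) (List.mem_map.2 ⟨i, List.mem_finRange i, rfl⟩)
      (fun w hw w' hw' => hc9 w (hsub w hw) w' (hsub w' hw') i)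
      (fun w hw w' hw' => hct w hw w' hw' i) _ hw x (List.mem_cons_self ..)
    rw [co_apply hβ] at h5
    have h6 := lc_co_mem hβ hx6 i
    rw [Real.norm_eq_abs]
    have h7 := abs_sub_abs_le_abs_sub (a i) (co β i x)
    linarith only [h5, h6, h7]
  have hloc := h1 (z :: s) (x :: t)
    (fun w hw w' hw' => lt_of_lt_of_le (hy2 w (hsub w hw) w' (hsub w' hw')) (min_le_left _ _))
    (fun w hw w' hw' => lt_of_lt_of_le (ht w hw w' hw') (min_le_left _ _)) h8
    (fun w hw => image_mono (closedBall_subset_closedBall (by norm_num)) (ht6 w hw)) hK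
  refine ⟨?_, fun w hw => ⟨x, List.mem_cons_self .., ?_⟩⟩
  · have h5 := Ker_length _ _ _ hK
    rw [hys] at hy1
    rw [hl]
    simp only [List.length_cons, List.length_map, List.length_finRange, List.length_append,
      List.length_nil] at h5 hy1 ⊢
    omega
  · have h5 := hloc z (List.mem_cons_self ..) x (List.mem_cons_self ..)
    have h6 : dist w z < κ₃ / 2 := lt_of_lt_of_le (hy2 w (hsubl w hw) z
      (hsub z (List.mem_cons_self ..))) ((min_le_right _ _).trans (min_le_right _ _))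
    calc dist x w = dist w x := dist_comm _ _
      _ ≤ dist w z + dist z x := dist_triangle _ _ _
      _ < κ₃ / 2 + κ₃ / 2 := add_lt_add h6 h5
      _ = κ₃ := by ring

end LCPhi

section LCMain

variable {X : Type*} [MetricSpace X] {n : ℕ}

/-- cochains cut to one length -/
private theorem lc_cut {X : Type*} {φ : List X → ZMod 2} {q : ℕ} {P : List X → Prop}
    (h : ∀ b, P b → b.length = q + 2 → ext φ (bdL (ZMod 2) b) = 0) (l : List X) (hl : P l) :
    ext (fun b => if b.length = q + 1 then φ b else 0) (bdL (ZMod 2) l) = 0 := by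
  by_cases hq : l.length = q + 2
  · rw [ext_congr (v := φ) (sup_bdL l) fun b hb => if_pos (by have := hb.2; omega)]
    exact h l hl hq
  · refine lc_ext_eq_zero (sup_bdL l) fun b hb => if_neg ?_
    have := hb.2
    omega

private theorem lc_sm_map {β : (Fin n → ℝ) → X} {k κ δ : ℝ}
    (H : ∀ u ∈ Q n 9, ∀ v ∈ Q n 9, dist u v < k → dist (β u) (β v) < κ) (hδ : δ < k)
    {y : List (Fin n → ℝ)} (h9 : In (Q n 9) y) (hy : ∀ a ∈ y, ∀ b ∈ y, dist a b ≤ δ) :
    Sm κ (y.map β) := by
  intro a ha b hb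
  obtain ⟨a', ha', rfl⟩ := List.mem_map.1 ha
  obtain ⟨b', hb', rfl⟩ := List.mem_map.1 hb
  exact H a' (h9 a' ha') b' (h9 b' hb') ((hy a' ha' b' hb').trans_lt hδ)

theorem lcS (hn : 0 < n) {β : (Fin n → ℝ) → X} (hβ : IsOpenEmbedding β) (q : ℕ) (hq : 1 ≤ q)
    (hqn : q ≤ n) : LCS β q := by
  classical
  intro ρ hρ
  obtain ⟨k1, hk1, H1⟩ := chart_mod hβ (r := 3) (R := 5) (by norm_num) (κ := 1) one_pos
  obtain ⟨ρ', hρ'0, hρ'ρ, hρ'k⟩ : ∃ ρ' > 0, ρ' ≤ ρ ∧ ρ' ≤ k1 :=
    ⟨min ρ k1, lt_min hρ hk1, min_le_left _ _, min_le_right _ _⟩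
  obtain ⟨k2, hk2, H2⟩ := chart_unif hβ 9 (κ := ρ' / 4) (by linarith only [hρ'0])
  obtain ⟨r₁, hr₁0, hr₁1, hr₁2⟩ : ∃ r₁ > 0, r₁ ≤ 1 ∧ r₁ ≤ k2 / 3 :=
    ⟨min 1 (k2 / 3), lt_min one_pos (by linarith only [hk2]), min_le_left _ _, min_le_right _ _⟩
  obtain ⟨k3, hk3, H3⟩ := chart_mod hβ (r := 3) (R := 5) (by norm_num) (κ := r₁) hr₁0
  obtain ⟨ρ₁, hρ₁0, hρ₁k, hρ₁ρ⟩ : ∃ ρ₁ > 0, ρ₁ ≤ k3 ∧ ρ₁ ≤ ρ' / 4 :=
    ⟨min k3 (ρ' / 4), lt_min hk3 (by linarith only [hρ'0]), min_le_left _ _, min_le_right _ _⟩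
  refine ⟨ρ₁, hρ₁0, fun κ hκ => ?_⟩
  obtain ⟨κ₃, hκ₃0, hκ₃1, hκ₃2⟩ : ∃ κ₃ > 0, κ₃ ≤ κ / 4 ∧ κ₃ ≤ ρ' / 8 :=
    ⟨min (κ / 4) (ρ' / 8), lt_min (by linarith only [hκ]) (by linarith only [hρ₁ρ, hρ₁0]), min_le_left _ _, min_le_right _ _⟩
  obtain ⟨k4, hk4, H4⟩ := sup_lcPhi hβ hκ₃0
  obtain ⟨k5, hk5, H5⟩ := KerC_local hβ (κ := κ₃ / 2) (by linarith only [hκ₃0])
  obtain ⟨κ', hκ'0, hκ'4, hκ'5, hκ'3⟩ : ∃ κ' > 0, κ' ≤ k4 ∧ κ' ≤ k5 ∧ κ' ≤ κ₃ / 2 :=
    ⟨min (min k4 k5) (κ₃ / 2), lt_min (lt_min hk4 hk5) (by linarith only [hκ₃0]),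
      (min_le_left _ _).trans (min_le_left _ _), (min_le_left _ _).trans (min_le_right _ _),
      min_le_right _ _⟩
  obtain ⟨N₁, hN₁⟩ := sup_muC hβ hκ'0
  obtain ⟨k7, hk7, H7⟩ := chart_unif hβ 9 hκ'0
  refine ⟨κ', hκ'0, fun x hx φ hφ1 hφ2 hφ3 => ?_⟩
  obtain ⟨u, hu, rfl⟩ := hx
  -- the choice of `N`
  obtain ⟨η, hη0, hη7, hη1⟩ : ∃ η > 0, 2 * η ≤ k7 ∧ 2 * η ≤ r₁ :=
    ⟨min (k7 / 2) (r₁ / 2), lt_min (by linarith only [hk7]) (by linarith only [hr₁0]),
      by have := min_le_left (k7 / 2) (r₁ / 2); linarith only [this],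
      by have := min_le_right (k7 / 2) (r₁ / 2); linarith only [this]⟩
  obtain ⟨N, hN0, hNN, hNη, hNφ⟩ : ∃ N : ℕ, 0 < N ∧ N₁ ≤ N ∧ (18 : ℝ) / N < η ∧
      (q = n → ext φ (muC β N) = 0) := by
    obtain ⟨M, hM⟩ := exists_nat_gt (18 / η)
    have hM0 : (0 : ℝ) < M := lt_trans (by (clear * - hη0; positivity)) hM
    obtain ⟨N₀, hN₀⟩ : ∃ N₀ : ℕ, q = n → ∀ N ≥ N₀, ext φ (muC β N) = 0 := by
      by_cases h : q = n
      · obtain ⟨N₀, h0⟩ := hφ3 h
        exact ⟨N₀, fun _ => h0⟩
      · exact ⟨0, fun h' => absurd h' h⟩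
    have hM1 : 0 < M := by exact_mod_cast hM0
    refine ⟨max M (max N₁ N₀), lt_of_lt_of_le hM1 (le_max_left _ _),
      (le_max_left _ _).trans (le_max_right _ _), ?_,
      fun h => hN₀ h _ ((le_max_right _ _).trans (le_max_right _ _))⟩
    have h1 : (M : ℝ) ≤ (max M (max N₁ N₀) : ℕ) := by exact_mod_cast le_max_left _ _
    calc (18 : ℝ) / (max M (max N₁ N₀) : ℕ) ≤ 18 / M := by (clear * - hM1 h1; gcongr)
      _ < η := by rwa [div_lt_comm₀ hM0 hη0]
  have hκ'κ : κ' ≤ κ := by linarith only [hκ'3, hκ'0, hκ₃1]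
  -- the cochain cut to length `q + 1`
  set φ' : List X → ZMod 2 := fun b => if b.length = q + 1 then φ b else 0 with hφ'
  have hφ'ne : ∀ b, φ' b ≠ 0 → b.length = q + 1 ∧ φ b ≠ 0 := by
    intro b hb
    by_cases h : b.length = q + 1
    · simp only [hφ', if_pos h] at hb
      exact ⟨h, hb⟩
    · simp only [hφ', if_neg h] at hb
      exact absurd rfl hb
  have hφ'0 : φ' [] = 0 := by
    by_contra h
    have := (hφ'ne _ h).1
    simp at this
  have hφ'd : ∀ l, Sm κ l → ext φ' (bdL (ZMod 2) l) = 0 := fun l hl =>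
    lc_cut (P := Sm κ) hφ1 l hl
  have hφ'x : ∀ l, Sm κ l → φ' l ≠ 0 → ∀ y ∈ l, dist (β u) y < ρ₁ := fun l hl h =>
    hφ2 l hl (hφ'ne l h).1 (hφ'ne l h).2
  -- the chain in coordinates
  set θ : List (Fin n → ℝ) → ZMod 2 := fun l => φ' (l.map β) with hθ
  have hbox := sup_box n N hN0
  have hsm : ∀ y : List (Fin n → ℝ), In (Q n 9) y → (∀ a ∈ y, ∀ b ∈ y, dist a b ≤ 18 / N) →
      Sm κ' (y.map β) := fun y h9 hy => lc_sm_map H7 (by linarith only [hNη, hη7, hη0]) h9 hy
  have hθx : ∀ y : List (Fin n → ℝ), In (Q n 9) y → (∀ a ∈ y, ∀ b ∈ y, dist a b ≤ 18 / N) →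
      θ y ≠ 0 → ∀ a ∈ y, a ∈ Q n 5 ∧ dist u a < r₁ := by
    intro y h9 hy hne a ha
    have h1 := hφ'x (y.map β) (fun a ha b hb => (hsm y h9 hy a ha b hb).trans_le hκ'κ) hne (β a)
      (List.mem_map.2 ⟨a, ha, rfl⟩)
    obtain ⟨v, hv5, hv, hvd⟩ := H3 u hu (β a) (h1.trans_le hρ₁k)
    rw [hβ.injective hv] at hv5 hvd
    exact ⟨hv5, hvd⟩
  have hz₀ : bd (ext (capS θ) (box n N)) = 0 := by
    rw [bd_ext_capS]
    have t1 : ext (capS θ) (bd (box n N)) = 0 := by
      have hb1 := sup_bd_box n N hn hN0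
      have hb2 : Sup (fun l => In (Q n 9) l ∧ ∀ a ∈ l, ∀ b ∈ l, dist a b ≤ 18 / N)
          (bd (box n N)) := Sup.bd (fun l l' hs _ h => ⟨fun a ha => h.2.1 a (hs.subset ha),
            fun a ha b hb => h.2.2 a (hs.subset ha) b (hs.subset hb)⟩) hbox
      have hb3 : Sup (fun l => (∃ i : Fin n, (∀ u ∈ l, u i = -9) ∨ (∀ u ∈ l, u i = 9)) ∧
          In (Q n 9) l ∧ ∀ a ∈ l, ∀ b ∈ l, dist a b ≤ 18 / N) (bd (box n N)) :=
        fun l hl => ⟨hb1 l hl, hb2 l hl⟩
      refine lc_ext_eq_zero hb3 fun l hl => lc_capS_zero _ _ fun p y s hy => ?_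
      obtain ⟨⟨i, hi⟩, h9, hd⟩ := hl
      by_contra hne
      have hsub : ∀ a ∈ p ++ [y], a ∈ l := by
        intro a ha
        rw [hy]
        rcases List.mem_append.1 ha with h | h
        · exact List.mem_append_left _ h
        · rw [List.mem_singleton] at h
          rw [h]
          exact List.mem_append_right _ (List.mem_cons_self ..)
      have hyl : y ∈ l := hsub y (List.mem_append_right _ (List.mem_singleton_self y))
      have h1 := (hθx (p ++ [y]) (fun a ha => h9 a (hsub a ha))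
        (fun a ha b hb => hd a (hsub a ha) b (hsub b hb)) hne y
        (List.mem_append_right _ (List.mem_singleton_self y))).1
      have h2 : ‖y‖ ≤ 5 := by simpa only [mem_closedBall, dist_zero_right] using h1
      have h3 := (norm_le_pi_norm y i).trans h2
      rw [Real.norm_eq_abs, abs_le] at h3
      rcases hi with hi | hi
      · have := hi y hyl
        linarith only [h3, this]
      · have := hi y hyl
        linarith only [h3, this]
    have t2 : ext (capS fun l => ext θ (bdL (ZMod 2) l)) (box n N) = 0 := by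
      refine lc_ext_eq_zero hbox fun l hl => lc_capS_zero _ _ fun p y s hy => ?_
      have hsub : ∀ a ∈ p ++ [y], a ∈ l := by
        intro a ha
        rw [hy]
        rcases List.mem_append.1 ha with h | h
        · exact List.mem_append_left _ h
        · rw [List.mem_singleton] at h
          rw [h]
          exact List.mem_append_right _ (List.mem_cons_self ..)
      have e : ext θ (bdL (ZMod 2) (p ++ [y])) = ext φ' (bdL (ZMod 2) ((p ++ [y]).map β)) := by
        rw [← pf_bdL, lc_ext_pf]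
      rw [e]
      refine hφ'd _ fun a ha b hb => ?_
      exact (hsm (p ++ [y]) (fun a ha => hl.2.1 a (hsub a ha))
        (fun a ha b hb => hl.2.2 a (hsub a ha) b (hsub b hb)) a ha b hb).trans_le hκ'κ
    have t4 : ext θ (box n N) = 0 := by
      have e : ext θ (box n N) = ext φ' (muC β N) := by
        unfold muC
        rw [lc_ext_pf]
      rw [e]
      by_cases h : q = n
      · rw [ext_congr (v := φ) (lc_muC_length N hN0) fun l hl => if_pos (by omega)]
        exact hNφ h
      · exact lc_ext_eq_zero (lc_muC_length N hN0) fun l hl => if_neg (by (clear * - h hl; omega))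
    have t3 : θ [] = 0 := hφ'0
    rw [t1, t2, t3, t4, zero_smul, Finsupp.single_zero]
    simp
  have hz₀s : Sup (fun l => l.length = n + 1 - q ∧ Sm η l ∧ In (closedBall u (2 * r₁)) l)
      (ext (capS θ) (box n N)) := by
    refine Sup.ext hbox fun y hy => (sup_capS θ y).mono ?_
    rintro l ⟨p, a, s, hys, hl, hne⟩
    obtain ⟨hy1, hy9, hyd⟩ := hy
    have hsub : ∀ b ∈ p ++ [a], b ∈ y := by
      intro b hb
      rw [hys]
      rcases List.mem_append.1 hb with h | h
      · exact List.mem_append_left _ h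
      · rw [List.mem_singleton] at h
        rw [h]
        exact List.mem_append_right _ (List.mem_cons_self ..)
    have hsubl : ∀ b ∈ l, b ∈ y := fun b hb => by
      rw [hys]
      rw [hl] at hb
      exact List.mem_append_right _ hb
    have h1 := (hφ'ne _ hne).1
    have h2 := (hθx (p ++ [a]) (fun b hb => hy9 b (hsub b hb))
        (fun b hb c hc => hyd b (hsub b hb) c (hsub c hc)) hne a
        (List.mem_append_right _ (List.mem_singleton_self a))).2
    have hay : a ∈ y := hsub a (List.mem_append_right _ (List.mem_singleton_self a))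
    refine ⟨?_, fun b hb c hc => (hyd b (hsubl b hb) c (hsubl c hc)).trans_lt hNη,
      fun b hb => ?_⟩
    · rw [hys] at hy1
      rw [hl]
      simp only [List.length_map, List.length_append, List.length_cons, List.length_nil]
        at h1 hy1 ⊢
      omega
    · rw [mem_closedBall]
      calc dist b u = dist u b := dist_comm _ _
        _ ≤ dist u a + dist a b := dist_triangle _ _ _
        _ ≤ r₁ + r₁ := add_le_add h2.le
            ((hyd a hay b (hsubl b hb)).trans (hNη.le.trans (by linarith only [hη0, hη1])))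
        _ = 2 * r₁ := by ring
  obtain ⟨w₀, hw₀, hw₀s⟩ := fill_ball (ZMod 2) u (2 * r₁) (by linarith only [hη0, hη1]) η (2 * η) hη0
    (by linarith only [hη0]) (n + 1 - q) _ hz₀ hz₀s
  have hball : ∀ v ∈ closedBall u (2 * r₁), v ∈ Q n 5 ∧ dist (β u) (β v) < ρ' / 4 := by
    intro v hv
    rw [mem_closedBall] at hv
    have hu3 : ‖u‖ ≤ 3 := by simpa only [mem_closedBall, dist_zero_right] using hu
    have hv5 : ‖v‖ ≤ 5 := by
      have h1 : ‖v‖ ≤ ‖v - u‖ + ‖u‖ := by
        have := norm_add_le (v - u) u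
        rwa [sub_add_cancel] at this
      rw [← dist_eq_norm] at h1
      linarith only [hr₁1, hv, hu3, h1]
    refine ⟨by simpa only [mem_closedBall, dist_zero_right] using hv5, H2 u ?_ v ?_ ?_⟩
    · simpa only [mem_closedBall, dist_zero_right] using hu3.trans (by norm_num)
    · simpa only [mem_closedBall, dist_zero_right] using hv5.trans (by norm_num)
    · rw [dist_comm]
      linarith only [hv, hη1, hη0, hr₁2]
  set w := pf β w₀ with hw
  have hws : Sup (fun l => l.length = n + 1 - q + 1 ∧ Sm κ' l ∧ In (β '' Q n 5) l ∧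
      ∀ y ∈ l, dist (β u) y < ρ' / 4) w := by
    refine Sup.pf β (hw₀s.mono fun l hl => ⟨by rw [List.length_map]; exact hl.1, ?_, ?_, ?_⟩)
    · intro a ha b hb
      obtain ⟨a', ha', rfl⟩ := List.mem_map.1 ha
      obtain ⟨b', hb', rfl⟩ := List.mem_map.1 hb
      refine H7 a' ?_ b' ?_ ((hl.2.1 a' ha' b' hb').trans_le hη7)
      · exact closedBall_subset_closedBall (by norm_num) (hball a' (hl.2.2 a' ha')).1
      · exact closedBall_subset_closedBall (by norm_num) (hball b' (hl.2.2 b' hb')).1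
    · intro a ha
      obtain ⟨a', ha', rfl⟩ := List.mem_map.1 ha
      exact ⟨a', (hball a' (hl.2.2 a' ha')).1, rfl⟩
    · intro a ha
      obtain ⟨a', ha', rfl⟩ := List.mem_map.1 ha
      exact (hball a' (hl.2.2 a' ha')).2
  have hbw : bd w = ext (capS φ') (muC β N) := by
    rw [hw, bd_pf, hw₀, lc_pf_ext]
    unfold muC
    rw [lc_ext_pf]
    congr 1
    congr 1
    funext l
    exact pf_capS β φ' l
  -- the homotopy
  set H := htp (fun l => l.headD (β u)) (lcPhi β N) with hH
  set P : List X → Prop := fun l => Sm κ' l ∧ In (β '' Q n 6) l with hP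
  set R : List X → Set X := fun l => {y | ∃ x ∈ l, dist x y < κ₃} with hR
  have hPs : ∀ l l' : List X, l'.Sublist l → P l → P l' := fun l l' hs h =>
    ⟨fun a ha b hb => h.1 a (hs.subset ha) b (hs.subset hb), fun a ha => h.2 a (hs.subset ha)⟩
  have hRs : ∀ l l' : List X, l'.Sublist l → R l' ⊆ R l := by
    rintro l l' hs y ⟨a, ha, hay⟩
    exact ⟨a, hs.subset ha, hay⟩
  have hlR : ∀ l, P l → ∀ x ∈ l, x ∈ R l := fun l _ x hx => ⟨x, hx, by rwa [dist_self]⟩
  have hξ : ∀ l : List X, l ≠ [] → P l → l.headD (β u) ∈ R l := by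
    rintro (_ | ⟨a, l⟩) hne hl
    · exact absurd rfl hne
    · exact hlR _ hl a (List.mem_cons_self ..)
  have hμ : Sup (fun l => Sm k4 l ∧ In (β '' Q n 9) l) (muC β N) :=
    (hN₁ N hNN).mono fun l hl => ⟨fun a ha b hb => (hl.2.1 a ha b hb).trans_le hκ'4, hl.2.2⟩
  have hΦs : ∀ l, P l → Sup (fun l' => l'.length = l.length ∧ In (R l) l') (lcPhi β N l) :=
    fun l hl => H4 N hN0 hμ l (fun a ha b hb => (hl.1 a ha b hb).trans_le hκ'4) hl.2
  have hΦ : ∀ l, P l → bd (lcPhi β N l) = ext (lcPhi β N) (bdL (ZMod 2) l) := fun l hl =>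
    bd_lcPhi hn hβ hN0 l fun a ha =>
      image_mono (closedBall_subset_closedBall (by norm_num)) (hl.2 a ha)
  have hHs : ∀ l, P l → Sup (fun l' => l'.length = l.length + 1 ∧ In (R l) l') (H l) :=
    fun l hl => sup_htp _ _ R hPs hRs hlR hξ hΦs l hl
  have hHb : ∀ l, P l → bd (H l) + ext H (bdL (ZMod 2) l) =
      Finsupp.single l 1 - lcPhi β N l := fun l hl => bd_htp _ _ hPs (lcPhi_nil N) hΦ l hl
  have hRsm : ∀ l, P l → ∀ l', In (R l) l' → Sm κ l' := by
    intro l hl l' hl' a ha b hb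
    obtain ⟨a', ha', h1⟩ := hl' a ha
    obtain ⟨b', hb', h2⟩ := hl' b hb
    calc dist a b ≤ dist a a' + dist a' b' + dist b' b := dist_triangle4 _ _ _ _
      _ < κ₃ + κ' + κ₃ := add_lt_add (add_lt_add (by rwa [dist_comm]) (hl.1 a' ha' b' hb')) h2
      _ ≤ κ := by linarith only [hκ₃1, hκ'0, hκ'3]
  set W : List X → ZMod 2 := fun s => ext (fun a => KerC β a s) w with hW
  have hmain : ∀ b, P b → b.length = q + 1 →
      φ b = ext (fun s => W s + ext φ' (H s)) (bdL (ZMod 2) b) := by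
    intro b hb hbl
    have h1 := congrArg (ext φ') (hHb b hb)
    rw [map_add, map_sub, Finsupp.linearCombination_single, one_smul] at h1
    have hA : ext φ' (bd (H b)) = 0 := by
      rw [ext_bdL]
      exact lc_ext_eq_zero (hHs b hb) fun l hl => hφ'd l (hRsm b hb l hl.2)
    have hB : ext φ' (ext H (bdL (ZMod 2) b)) = ext (fun s => ext φ' (H s)) (bdL (ZMod 2) b) :=
      lc_ext_ext _ _ _
    have hbne : b ≠ [] := by
      rintro rfl
      simp at hbl
    have hC : ext φ' (lcPhi β N b) = ext W (bdL (ZMod 2) b) := by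
      rw [lcPhi_of_ne N hbne, lc_ext_ext]
      have e1 : (fun l => ext φ' (capL (fun s => KerC β s b) l)) =
          fun l => ext (fun s => KerC β s b) (capS φ' l) := by
        funext l
        exact lc_dual _ _ _
      rw [e1, ← lc_ext_ext, ← hbw, ext_bdL]
      have e2 : (fun l => ext (fun s => KerC β s b) (bdL (ZMod 2) l)) =
          fun l => ext (fun b' => KerC β l b') (bdL (ZMod 2) b) := by
        funext l
        exact KerC_bd hβ l b
      rw [e2, lc_swap]
    have hφb : φ' b = φ b := if_pos hbl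
    rw [lc_ext_add, ← hC, ← hB]
    rw [hA, zero_add, hφb] at h1
    rw [h1]
    ring
  -- the solution
  refine ⟨fun s => if ∀ y ∈ s, dist (β u) y < ρ' then W s + ext φ' (H s) else 0,
    fun b _ _ hne y hy => ?_, fun b hbs hbl => ?_⟩
  · by_cases h : ∀ y ∈ b, dist (β u) y < ρ'
    · exact (h y hy).trans_le hρ'ρ
    · simp only [if_neg h] at hne
      exact absurd rfl hne
  have hin5 : ∀ l : List X, (∀ y ∈ l, dist (β u) y < ρ') → In (β '' Q n 5) l := by
    intro l hl y hy
    obtain ⟨v, hv, hvy, -⟩ := H1 u hu y ((hl y hy).trans_le hρ'k)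
    exact ⟨v, hv, hvy⟩
  by_cases hnear : ∀ y ∈ b, dist (β u) y < ρ'
  · rw [hmain b ⟨hbs, fun y hy => image_mono (closedBall_subset_closedBall (by norm_num))
      (hin5 b hnear y hy)⟩ hbl]
    exact ext_congr (sup_bdL b) fun s hs => if_pos fun y hy => hnear y (hs.1.subset hy)
  · push Not at hnear
    obtain ⟨y0, hy0, hy0d⟩ := hnear
    have hφb : φ b = 0 := by
      by_contra hne
      have h1 := hφ2 b (fun a ha c hc => (hbs a ha c hc).trans_le hκ'κ) hbl hne y0 hy0
      linarith only [hρ₁ρ, hκ₃2, hκ'0, hκ'3, hy0d, h1]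
    rw [hφb]
    refine lc_ext_eq_zero (sup_bdL b) fun s hs => ?_
    by_cases h : ∀ y ∈ s, dist (β u) y < ρ'
    swap
    · exact if_neg h
    rw [if_pos h]
    have hss : Sm κ' s := fun a ha c hc => hbs a (hs.1.subset ha) c (hs.1.subset hc)
    have hs5 := hin5 s h
    have hsP : P s := ⟨hss, fun y hy => image_mono (closedBall_subset_closedBall (by norm_num))
      (hs5 y hy)⟩
    have hsl : s.length = q := by
      have := hs.2
      omega
    have hfar : ∀ y ∈ s, ρ' - κ' < dist (β u) y := by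
      intro y hy
      have h1 := hbs y (hs.1.subset hy) y0 hy0
      have h2 := dist_triangle (β u) y y0
      linarith only [hy0d, h1, h2]
    have e1 : W s = 0 := by
      refine lc_ext_eq_zero hws fun a ha => ?_
      by_contra hne
      obtain ⟨hal, has, ha5, had⟩ := ha
      obtain ⟨y, hy⟩ : ∃ y, y ∈ s := List.exists_mem_of_length_pos (by omega)
      obtain ⟨z, hz⟩ : ∃ z, z ∈ a := List.exists_mem_of_length_pos (by omega)
      have h1 := H5 a s (fun a ha b hb => (has a ha b hb).trans_le hκ'5)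
        (fun a ha b hb => (hss a ha b hb).trans_le hκ'5)
        (fun y hy => image_mono (closedBall_subset_closedBall (by norm_num)) (ha5 y hy))
        (fun y hy => image_mono (closedBall_subset_closedBall (by norm_num)) (hs5 y hy)) hne
        z hz y hy
      have h2 := dist_triangle (β u) z y
      have h3 := hfar y hy
      have h4 := had z hz
      linarith only [hκ₃2, hκ'0, hκ'3, h1, h2, h3, h4]
    have e2 : ext φ' (H s) = 0 := by
      refine lc_ext_eq_zero (hHs s hsP) fun l hl => ?_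
      by_contra hne
      obtain ⟨z, hz⟩ : ∃ z, z ∈ l := List.exists_mem_of_length_pos (by have := hl.1; omega)
      have h1 := hφ'x l (hRsm s hsP l hl.2) hne z hz
      obtain ⟨y, hy, hyz⟩ := hl.2 z hz
      have h2 := dist_triangle (β u) z y
      have h3 := hfar y hy
      rw [dist_comm] at hyz
      linarith only [hρ₁ρ, hκ₃2, hκ'0, hκ'3, h1, hyz, h2, h3]
    rw [e1, e2, add_zero]

end LCMain

end Vale.Agent.P239.M
end

section

/-!
Block M11: the duality package.
-/

namespace Vale.Agent.P239.M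

open Metric Set Topology

private theorem pkg_lb {m : ℕ} (f : Fin m → ℝ) (hf : ∀ a, 0 < f a) : ∃ ε > 0, ∀ a, ε ≤ f a := by
  rcases isEmpty_or_nonempty (Fin m) with h | h
  · exact ⟨1, one_pos, fun a => (h.false a).elim⟩
  · obtain ⟨a, ha⟩ := Finite.exists_min f
    exact ⟨f a, hf a, ha⟩

private theorem pkg_swap {X Y : Type*} (u : List X → List Y → ZMod 2) (c : Ch (ZMod 2) X)
    (d : Ch (ZMod 2) Y) :
    ext (fun b => ext (fun a => u a b) c) d = ext (fun a => ext (u a) d) c := by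
  induction d using Finsupp.induction_linear with
  | zero =>
    rw [map_zero]
    have : (fun a => ext (u a) (0 : Ch (ZMod 2) Y)) = fun _ => (0 : ZMod 2) := by
      funext a; rw [map_zero]
    rw [this]
    simp [ext, Finsupp.linearCombination_apply, Finsupp.sum]
  | add d e hd he =>
    rw [map_add, hd, he]
    have : (fun a => ext (u a) (d + e)) = fun a => ext (u a) d + ext (u a) e := by
      funext a; rw [map_add]
    rw [this]
    simp only [ext, Finsupp.linearCombination_apply, smul_add, Finsupp.sum_add]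
  | single l r =>
    have : (fun a => ext (u a) (Finsupp.single l r)) = fun a => r • u a l := by
      funext a
      simp [ext, Finsupp.linearCombination_single]
    rw [this]
    simp only [ext, Finsupp.linearCombination_single]
    simp only [Finsupp.linearCombination_apply, Finsupp.sum, smul_eq_mul]
    rw [Finset.mul_sum]
    apply Finset.sum_congr rfl
    intro i _
    ring

private theorem pkg_ext_zero {X : Type*} {P : List X → Prop} {c : Ch (ZMod 2) X} (hc : Sup P c)
    {u : List X → ZMod 2} (h : ∀ l, P l → u l = 0) : ext u c = 0 := by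
  rw [ext_congr (v := fun _ => 0) hc h]
  simp [ext, Finsupp.linearCombination_apply, Finsupp.sum]

private theorem pkg_bdL_one {X : Type*} (x : X) (u : List X → ZMod 2) :
    ext u (bdL (ZMod 2) [x]) = u [] := by
  rw [bdL, bdL, map_zero, sub_zero]
  simp [ext, Finsupp.linearCombination_single]

private theorem pkg_bdL_two {X : Type*} (x x' : X) (u : List X → ZMod 2) :
    ext u (bdL (ZMod 2) [x, x']) = u [x'] - u [x] := by
  rw [bdL, bdL, bdL, map_zero, sub_zero, map_sub, cone_single]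
  simp only [ext, Finsupp.linearCombination_single, smul_eq_mul, one_mul]

section

variable {X : Type*} [MetricSpace X] {n : ℕ}

open Classical in
/-- the base kernel, cut off -/
private noncomputable def pkgB (β : (Fin n → ℝ) → X) (x : X) (b : List X) : ZMod 2 :=
  if In (β '' Q n 8) b ∧ b.length = n + 1 then KerC β [x] b else 0

private theorem pkgB_len {β : (Fin n → ℝ) → X} {x : X} {b : List X} (h : pkgB β x b ≠ 0) :
    b.length = n + 1 := by
  unfold pkgB at h
  by_contra hcon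
  apply h
  rw [if_neg]
  exact fun h' => hcon h'.2

private theorem pkgB_dg {β : (Fin n → ℝ) → X} {x : X} {μ : Ch (ZMod 2) X}
    (hμ : Sup (fun l => l.length = n + 1) μ) : ext (pkgB β x) μ = dg' β μ x := by
  unfold dg'
  apply ext_congr hμ
  intro l hl
  unfold pkgB
  by_cases h : In (β '' Q n 8) l
  · rw [if_pos ⟨h, hl⟩, if_pos h]
  · rw [if_neg fun h' => h h'.1, if_neg h]

private theorem Q_mono {r s : ℝ} (h : r ≤ s) (β : (Fin n → ℝ) → X) : β '' Q n r ⊆ β '' Q n s :=
  Set.image_mono (closedBall_subset_closedBall h)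

private theorem pkgB_loc {β : (Fin n → ℝ) → X} (hβ : IsOpenEmbedding β) {κ : ℝ} (hκ : 0 < κ) :
    ∃ κ' > 0, ∀ x ∈ β '' Q n 1, ∀ b, Sm κ' b → pkgB β x b ≠ 0 → ∀ y ∈ b, dist x y < κ := by
  obtain ⟨κ', hκ', h⟩ := KerC_local hβ hκ
  refine ⟨κ', hκ', fun x hx b hb hne y hy => ?_⟩
  have h1 : In (β '' Q n 8) b ∧ b.length = n + 1 := by
    by_contra hcon
    apply hne
    unfold pkgB
    rw [if_neg hcon]
  have h2 : KerC β [x] b ≠ 0 := by
    unfold pkgB at hne
    rwa [if_pos h1] at hne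
  refine h [x] b ?_ hb ?_ h1.1 h2 x (by simp) y hy
  · intro u hu v hv
    simp only [List.mem_singleton] at hu hv
    rw [hu, hv, dist_self]
    exact hκ'
  · intro u hu
    simp only [List.mem_singleton] at hu
    rw [hu]
    exact Q_mono (by norm_num) β hx

private theorem pkgB_bd {β : (Fin n → ℝ) → X} (hβ : IsOpenEmbedding β) :
    ∃ κ' > 0, ∀ x ∈ β '' Q n 1, ∀ b, Sm κ' b → ext (pkgB β x) (bdL (ZMod 2) b) = 0 := by
  obtain ⟨κ₂, hκ₂, hmod⟩ := chart_mod hβ (r := 1) (R := 8) (by norm_num) (κ := 1) one_pos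
  obtain ⟨κ₃, hκ₃, hloc⟩ := pkgB_loc hβ (κ := κ₂ / 2) (by (clear * - hκ₂; positivity))
  refine ⟨min κ₃ (κ₂ / 2), lt_min hκ₃ (by positivity), fun x hx b hb => ?_⟩
  by_cases hnear : ∃ y ∈ b, dist x y < κ₂ / 2
  · obtain ⟨y, hy, hxy⟩ := hnear
    have hin : In (β '' Q n 8) b := by
      intro y' hy'
      obtain ⟨u, hu, rfl⟩ := hx
      have h1 : dist (β u) y' < κ₂ := by
        have h2 := dist_triangle (β u) y y'
        have h3 := lt_of_lt_of_le (hb y hy y' hy') (min_le_right _ _)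
        linarith only [h3, h2, hxy]
      obtain ⟨v, hv, hv2, _⟩ := hmod u hu y' h1
      exact ⟨v, hv, hv2⟩
    by_cases hlen : b.length = n + 2
    · have h1 : ext (pkgB β x) (bdL (ZMod 2) b) = ext (fun b' => KerC β [x] b') (bdL (ZMod 2) b) := by
        apply ext_congr (sup_bdL b)
        rintro l ⟨hl1, hl2⟩
        unfold pkgB
        rw [if_pos]
        exact ⟨fun z hz => hin z (hl1.subset hz), by omega⟩
      rw [h1, ← KerC_bd hβ, pkg_bdL_one]
      exact Ker_nil_left _ _
    · apply pkg_ext_zero (sup_bdL b)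
      rintro l ⟨_, hl2⟩
      by_contra hne
      have := pkgB_len hne
      omega
  · push Not at hnear
    apply pkg_ext_zero (sup_bdL b)
    rintro l ⟨hl1, hl2⟩
    by_contra hne
    have hl := pkgB_len hne
    have hsm : Sm κ₃ l := fun u hu v hv =>
      lt_of_lt_of_le (hb u (hl1.subset hu) v (hl1.subset hv)) (min_le_left _ _)
    obtain ⟨z, hz⟩ : ∃ z, z ∈ l := by
      cases l with
      | nil => simp at hl
      | cons z l => exact ⟨z, by simp⟩
    have h1 := hloc x hx l hsm hne z hz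
    have h2 := hnear z (hl1.subset hz)
    linarith only [h2, h1]

/-- the inductive statement -/
private def PkgI (n : ℕ) (N : Set X) (Θ₀ : X → List X → ZMod 2) (J : ℕ) : Prop :=
  ∀ ρ > 0, ∃ κ₀ > 0, ∃ κ₁ > 0, ∃ Θ : List X → List X → ZMod 2,
    (∀ b, Θ [] b = 0) ∧ (∀ a, Θ a [] = 0) ∧
    (∀ a b, Θ a b ≠ 0 → a.length + b.length = n + 2) ∧
    (∀ a, In N a → Sm κ₀ a → a.length ≤ J + 1 → ∀ b, Sm κ₁ b → Θ a b ≠ 0 →
      ∀ x ∈ a, ∀ y ∈ b, dist x y < ρ) ∧
    (∀ a, In N a → Sm κ₀ a → a.length ≤ J + 1 → ∀ b, Sm κ₁ b →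
      ext (Θ a) (bdL (ZMod 2) b) = ext (fun a' => Θ a' b) (bdL (ZMod 2) a)) ∧
    (∀ x ∈ N, ∀ b, Θ [x] b = Θ₀ x b)

/-- auxiliary: a function on lists of length one -/
private def pkgOne (Θ₀ : X → List X → ZMod 2) : List X → List X → ZMod 2
  | [x], b => Θ₀ x b
  | _, _ => 0

private theorem pkgI_zero {m : ℕ} {β : Fin m → (Fin n → ℝ) → X}
    (hβ : ∀ a, IsOpenEmbedding (β a)) {N : Set X} (α : X → Fin m)
    (hα : ∀ x ∈ N, x ∈ β (α x) '' Q n 1) : PkgI n N (fun x b => pkgB (β (α x)) x b) 0 := by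
  intro ρ hρ
  choose κa hκa hloc using fun a => pkgB_loc (hβ a) hρ
  choose κb hκb hbd using fun a => pkgB_bd (hβ a)
  obtain ⟨ε₁, hε₁, h1⟩ := pkg_lb κa hκa
  obtain ⟨ε₂, hε₂, h2⟩ := pkg_lb κb hκb
  refine ⟨1, one_pos, min ε₁ ε₂, lt_min hε₁ hε₂, pkgOne (fun x b => pkgB (β (α x)) x b),
    fun b => rfl, ?_, ?_, ?_, ?_, fun x _ b => rfl⟩
  · intro a
    rcases a with _ | ⟨x, _ | ⟨y, a⟩⟩
    · rfl
    · show pkgB (β (α x)) x [] = 0
      by_contra hne
      have := pkgB_len hne
      simp at this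
    · rfl
  · intro a b hab
    rcases a with _ | ⟨x, _ | ⟨y, a⟩⟩
    · exact absurd rfl hab
    · have := pkgB_len hab
      rw [this]
      simp only [List.length_singleton]
      omega
    · exact absurd rfl hab
  · intro a ha _ _ b hb hab x hx y hy
    rcases a with _ | ⟨z, _ | ⟨w, a⟩⟩
    · simp at hx
    · simp only [List.mem_singleton] at hx
      subst hx
      have hxN : x ∈ N := ha x (by simp)
      refine hloc (α x) x (hα x hxN) b (fun u hu v hv => ?_) hab y hy
      exact lt_of_lt_of_le (hb u hu v hv) ((min_le_left _ _).trans (h1 _))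
    · exact absurd rfl hab
  · intro a ha _ hlen b hb
    rcases a with _ | ⟨z, _ | ⟨w, a⟩⟩
    · rw [bdL, map_zero]
      have : pkgOne (fun x b => pkgB (β (α x)) x b) [] = fun _ => 0 := rfl
      rw [this]
      exact pkg_ext_zero (sup_bdL b) fun _ _ => rfl
    · rw [pkg_bdL_one]
      have hzN : z ∈ N := ha z (by simp)
      refine (hbd (α z) z (hα z hzN) b (fun u hu v hv => ?_)).trans rfl
      exact lt_of_lt_of_le (hb u hu v hv) ((min_le_right _ _).trans (h2 _))
    · simp only [List.length_cons, zero_add, add_le_iff_nonpos_left, nonpos_iff_eq_zero, Nat.add_eq_zero_iff, List.length_eq_zero_iff, one_ne_zero, and_false] at hlen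

private theorem pkgI_succ {m : ℕ} {β : Fin m → (Fin n → ℝ) → X}
    (hβ : ∀ a, IsOpenEmbedding (β a)) (hI : ∀ a b, InvS (β a) (β b))
    (hLC : ∀ a q, 1 ≤ q → q ≤ n → LCS (β a) q) {N : Set X} (α : X → Fin m)
    (hα : ∀ x ∈ N, x ∈ β (α x) '' Q n 1) {J : ℕ} (hJ : J + 1 ≤ n)
    (ih : PkgI n N (fun x b => pkgB (β (α x)) x b) J) :
    PkgI n N (fun x b => pkgB (β (α x)) x b) (J + 1) := by
  classical
  intro ρ hρ
  obtain ⟨q, hq⟩ : ∃ q, q = n - J := ⟨_, rfl⟩
  have hq1 : 1 ≤ q := by omega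
  have hqn : q ≤ n := by omega
  choose r hr hLC1 using fun a => hLC a q hq1 hqn (ρ / 2) (by positivity)
  obtain ⟨ρ₁, hρ₁, hr1⟩ := pkg_lb r hr
  obtain ⟨κ₀', hκ₀', κ₁', hκ₁', Θ, hΘ0, hΘ1, hlen, hloc, hch, hbase⟩ :=
    ih (min (ρ₁ / 2) ρ) (lt_min (by positivity) hρ)
  choose k hk hLC2 using fun a => hLC1 a κ₁' hκ₁'
  obtain ⟨κ₂, hκ₂, hk2⟩ := pkg_lb k hk
  choose c hc hmod using fun a => chart_mod (hβ a) (r := 1) (R := 2) (by norm_num) (κ := 1) one_pos
  obtain ⟨κ₃, hκ₃, hc3⟩ := pkg_lb c hc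
  obtain ⟨κ₀, hκ₀def⟩ : ∃ κ₀, κ₀ = min (min κ₀' (ρ₁ / 2)) (min (ρ / 2) κ₃) := ⟨_, rfl⟩
  have hκ₀ : 0 < κ₀ := by
    rw [hκ₀def]
    exact lt_min (lt_min hκ₀' (by positivity)) (lt_min (by positivity) hκ₃)
  have e1 : κ₀ ≤ κ₀' := by rw [hκ₀def]; exact (min_le_left _ _).trans (min_le_left _ _)
  have e2 : κ₀ ≤ ρ₁ / 2 := by rw [hκ₀def]; exact (min_le_left _ _).trans (min_le_right _ _)
  have e3 : κ₀ ≤ ρ / 2 := by rw [hκ₀def]; exact (min_le_right _ _).trans (min_le_left _ _)
  have e4 : κ₀ ≤ κ₃ := by rw [hκ₀def]; exact (min_le_right _ _).trans (min_le_right _ _)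
  -- the new values
  have key : ∀ A : List X, In N A ∧ Sm κ₀ A ∧ A.length = J + 2 → ∃ ψ : List X → ZMod 2,
      (∀ b, Sm κ₂ b → b.length = q → ψ b ≠ 0 → ∀ x ∈ A, ∀ y ∈ b, dist x y < ρ) ∧
      (∀ b, Sm κ₂ b → b.length = q + 1 →
        ext ψ (bdL (ZMod 2) b) = ext (fun a' => Θ a' b) (bdL (ZMod 2) A)) := by
    rintro A ⟨hA1, hA2, hA3⟩
    obtain ⟨x, A', rfl⟩ : ∃ x A', A = x :: A' := by
      cases A with
      | nil => simp at hA3
      | cons x A' => exact ⟨x, A', rfl⟩
    have hxN : x ∈ N := hA1 x (by simp)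
    have hx1 := hα x hxN
    obtain ⟨φ, hφ⟩ : ∃ φ : List X → ZMod 2,
      φ = fun b => ext (fun a' => Θ a' b) (bdL (ZMod 2) (x :: A')) := ⟨_, rfl⟩
    have hface : Sup (fun l' => In N l' ∧ Sm κ₀' l' ∧ l'.length = J + 1 ∧ ∀ z ∈ l', z ∈ x :: A')
        (bdL (ZMod 2) (x :: A')) := by
      refine Sup.mono ?_ (sup_bdL _)
      rintro l ⟨hl1, hl2⟩
      refine ⟨fun z hz => hA1 z (hl1.subset hz), fun z hz w hw => ?_, by omega,
        fun z hz => hl1.subset hz⟩
      exact lt_of_lt_of_le (hA2 z (hl1.subset hz) w (hl1.subset hw)) e1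
    have c1 : ∀ b, Sm κ₁' b → b.length = q + 2 → ext φ (bdL (ZMod 2) b) = 0 := by
      intro b hb _
      rw [hφ, pkg_swap]
      rw [ext_congr (v := fun a' => ext (fun a'' => Θ a'' b) (bdL (ZMod 2) a')) hface]
      · rw [← ext_bdL, bd_bdL, map_zero]
      · rintro l ⟨h1, h2, h3, _⟩
        exact hch l h1 h2 h3.le b hb
    have c2 : ∀ b, Sm κ₁' b → b.length = q + 1 → φ b ≠ 0 → ∀ y ∈ b, dist x y < r (α x) := by
      intro b hb _ hne y hy
      by_contra hcon
      rw [not_lt] at hcon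
      apply hne
      rw [hφ]
      apply pkg_ext_zero hface
      rintro l ⟨h1, h2, h3, h4⟩
      by_contra hl
      obtain ⟨z, hz⟩ : ∃ z, z ∈ l := by
        cases l with
        | nil => simp at h3
        | cons z l => exact ⟨z, by simp⟩
      have h5 := hloc l h1 h2 h3.le b hb hl z hz y hy
      have h6 := lt_of_lt_of_le h5 (min_le_left _ _)
      have h7 := hA2 x (by simp) z (h4 z hz)
      have h8 := dist_triangle x z y
      have h9 := hr1 (α x)
      linarith only [h9, h8, h7, h6, hcon, e2]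
    have c3 : q = n → ∃ N₀ : ℕ, ∀ M ≥ N₀, ext φ (muC (β (α x)) M) = 0 := by
      intro hqn'
      have hJ0 : J = 0 := by omega
      subst hJ0
      obtain ⟨x', rfl⟩ : ∃ x', A' = [x'] := by
        rcases A' with _ | ⟨x', _ | ⟨z, A'⟩⟩
        · simp at hA3
        · exact ⟨x', rfl⟩
        · simp at hA3
      have hx'N : x' ∈ N := hA1 x' (by simp)
      have hx'1 := hα x' hx'N
      have hx'2 : x' ∈ β (α x) '' Q n 2 := by
        obtain ⟨u, hu, hux⟩ := hx1
        have h1 : dist (β (α x) u) x' < c (α x) := by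
          rw [hux]
          exact lt_of_lt_of_le (hA2 x (by simp) x' (by simp)) (e4.trans (hc3 _))
        obtain ⟨v, hv, hv2, _⟩ := hmod (α x) u hu x' h1
        exact ⟨v, hv, hv2⟩
      obtain ⟨N₁, hN₁⟩ := hI (α x) (α x)
      obtain ⟨N₂, hN₂⟩ := hI (α x) (α x')
      obtain ⟨N₃, hN₃⟩ := sup_muC (hβ (α x)) (κ := 1) one_pos
      refine ⟨max N₁ (max N₂ N₃), fun M hM => ?_⟩
      have hM1 : N₁ ≤ M := le_trans (le_max_left _ _) hM
      have hM2 : N₂ ≤ M := le_trans (le_trans (le_max_left _ _) (le_max_right _ _)) hM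
      have hM3 : N₃ ≤ M := le_trans (le_trans (le_max_right _ _) (le_max_right _ _)) hM
      have hsup : Sup (fun l => l.length = n + 1) (muC (β (α x)) M) :=
        Sup.mono (fun l hl => hl.1) (hN₃ M hM3)
      have h1 : φ = fun b => pkgB (β (α x')) x' b - pkgB (β (α x)) x b := by
        rw [hφ]
        funext b
        rw [pkg_bdL_two, hbase x' hx'N, hbase x hxN]
      have h2 : ext φ (muC (β (α x)) M) = ext (pkgB (β (α x')) x') (muC (β (α x)) M) -
          ext (pkgB (β (α x)) x) (muC (β (α x)) M) := by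
        rw [h1]
        simp only [ext, Finsupp.linearCombination_apply, smul_sub, Finsupp.sum_sub]
      rw [h2, pkgB_dg hsup, pkgB_dg hsup,
        (hN₂ M hM2 x' ⟨hx'2, Q_mono (by norm_num) _ hx'1⟩).2,
        (hN₁ M hM1 x ⟨Q_mono (by norm_num) _ hx1, Q_mono (by norm_num) _ hx1⟩).2, sub_self]
    obtain ⟨ψ, hψ1, hψ2⟩ := hLC2 (α x) x (Q_mono (by norm_num) _ hx1) φ c1 c2 c3
    refine ⟨ψ, fun b hb hbl hne z hz y hy => ?_, fun b hb hbl => ?_⟩
    · have hb' : Sm (k (α x)) b := fun u hu v hv => lt_of_lt_of_le (hb u hu v hv) (hk2 _)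
      have h1 := hψ1 b hb' hbl hne y hy
      have h2 := hA2 z hz x (by simp)
      have h3 := dist_triangle z x y
      linarith only [h3, h2, h1, e3]
    · have hb' : Sm (k (α x)) b := fun u hu v hv => lt_of_lt_of_le (hb u hu v hv) (hk2 _)
      rw [hψ2 b hb' hbl, hφ]
  choose! ψ hψ1 hψ2 using key
  obtain ⟨Θ', hΘ'⟩ : ∃ Θ' : List X → List X → ZMod 2, Θ' = fun A b =>
      if A.length = J + 2 then (if b.length + (J + 2) = n + 2 ∧ In N A ∧ Sm κ₀ A then ψ A b else 0)
      else Θ A b := ⟨_, rfl⟩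
  have hne : ∀ A : List X, A.length ≠ J + 2 → Θ' A = Θ A := by
    intro A hA
    rw [hΘ']
    funext b
    simp only [if_neg hA]
  have heq : ∀ A : List X, A.length = J + 2 → ∀ b : List X,
      Θ' A b = if b.length + (J + 2) = n + 2 ∧ In N A ∧ Sm κ₀ A then ψ A b else 0 := by
    intro A hA b
    rw [hΘ']
    simp only [if_pos hA]
  refine ⟨κ₀, hκ₀, min κ₁' κ₂, lt_min hκ₁' hκ₂, Θ', ?_, ?_, ?_, ?_, ?_, ?_⟩
  · intro b
    rw [hne [] (by simp)]
    exact hΘ0 b
  · intro A
    by_cases hA : A.length = J + 2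
    · rw [heq A hA, if_neg]
      rintro ⟨h, _⟩
      simp only [List.length_nil] at h
      omega
    · rw [hne A hA]
      exact hΘ1 A
  · intro A b hAb
    by_cases hA : A.length = J + 2
    · rw [heq A hA] at hAb
      by_cases h : b.length + (J + 2) = n + 2 ∧ In N A ∧ Sm κ₀ A
      · omega
      · rw [if_neg h] at hAb
        exact absurd rfl hAb
    · rw [hne A hA] at hAb
      exact hlen A b hAb
  · intro A hA1 hA2 hA3 b hb hAb x hx y hy
    have hb1 : Sm κ₁' b := fun u hu v hv => lt_of_lt_of_le (hb u hu v hv) (min_le_left _ _)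
    have hb2 : Sm κ₂ b := fun u hu v hv => lt_of_lt_of_le (hb u hu v hv) (min_le_right _ _)
    by_cases hA : A.length = J + 2
    · rw [heq A hA] at hAb
      by_cases h : b.length + (J + 2) = n + 2 ∧ In N A ∧ Sm κ₀ A
      · rw [if_pos h] at hAb
        exact hψ1 A ⟨hA1, hA2, hA⟩ b hb2 (by omega) hAb x hx y hy
      · rw [if_neg h] at hAb
        exact absurd rfl hAb
    · rw [hne A hA] at hAb
      have h1 : Sm κ₀' A := fun u hu v hv => lt_of_lt_of_le (hA2 u hu v hv) e1
      exact lt_of_lt_of_le (hloc A hA1 h1 (by omega) b hb1 hAb x hx y hy) (min_le_right _ _)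
  · intro A hA1 hA2 hA3 b hb
    have hb1 : Sm κ₁' b := fun u hu v hv => lt_of_lt_of_le (hb u hu v hv) (min_le_left _ _)
    have hb2 : Sm κ₂ b := fun u hu v hv => lt_of_lt_of_le (hb u hu v hv) (min_le_right _ _)
    have hR : ext (fun a' => Θ' a' b) (bdL (ZMod 2) A) =
        ext (fun a' => Θ a' b) (bdL (ZMod 2) A) := by
      apply ext_congr (sup_bdL A)
      rintro l ⟨_, hl⟩
      rw [hne l (by omega)]
    rw [hR]
    by_cases hA : A.length = J + 2
    · by_cases hbl : b.length = q + 1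
      · rw [← hψ2 A ⟨hA1, hA2, hA⟩ b hb2 hbl]
        apply ext_congr (sup_bdL b)
        rintro l ⟨_, hl⟩
        rw [heq A hA, if_pos]
        exact ⟨by omega, hA1, hA2⟩
      · have h1 : ext (Θ' A) (bdL (ZMod 2) b) = 0 := by
          apply pkg_ext_zero (sup_bdL b)
          rintro l ⟨_, hl⟩
          rw [heq A hA, if_neg]
          rintro ⟨h, _⟩
          omega
        have h2 : ext (fun a' => Θ a' b) (bdL (ZMod 2) A) = 0 := by
          apply pkg_ext_zero (sup_bdL A)
          rintro l ⟨_, hl⟩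
          by_contra h
          have := hlen l b h
          omega
        rw [h1, h2]
    · rw [hne A hA]
      have h1 : Sm κ₀' A := fun u hu v hv => lt_of_lt_of_le (hA2 u hu v hv) e1
      exact hch A hA1 h1 (by omega) b hb1
  · intro x hx b
    rw [hne [x] (by simp)]
    exact hbase x hx b

/-- file `M_Pkg.lean` -/
theorem pkgS (hn : 0 < n) {m : ℕ} (β : Fin m → (Fin n → ℝ) → X)
    (hβ : ∀ a, IsOpenEmbedding (β a)) (hF : FundS β) (hI : ∀ a b, InvS (β a) (β b))
    (hLC : ∀ a q, 1 ≤ q → q ≤ n → LCS (β a) q) (N : Set X) (hN : IsCompact N)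
    (hcov : N ⊆ ⋃ a, β a '' Q n 1) : PkgS n N := by
  rcases N.eq_empty_or_nonempty with hN0 | ⟨x₀, hx₀⟩
  · subst hN0
    refine ⟨1, one_pos, fun J _ ρ _ => ⟨1, one_pos, 1, one_pos, fun _ _ => 0, fun _ => rfl,
      fun _ => rfl, fun a b h => absurd rfl h, fun a _ _ _ b _ h => absurd rfl h, ?_, ?_⟩⟩
    · intro a _ _ _ b _
      rw [pkg_ext_zero (sup_bdL b) fun _ _ => rfl, pkg_ext_zero (sup_bdL a) fun _ _ => rfl]
    · intro δ _
      refine ⟨0, Sup.zero, ?_, fun x hx => absurd hx (Set.notMem_empty x)⟩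
      rw [map_zero]
      exact Sup.zero
  · obtain ⟨a₀, _⟩ := Set.mem_iUnion.1 (hcov hx₀)
    have hα0 : ∀ x : X, ∃ a : Fin m, x ∈ N → x ∈ β a '' Q n 1 := by
      intro x
      by_cases hx : x ∈ N
      · obtain ⟨a, ha⟩ := Set.mem_iUnion.1 (hcov hx)
        exact ⟨a, fun _ => ha⟩
      · exact ⟨a₀, fun h => absurd h hx⟩
    choose α hα using hα0
    have hind : ∀ J ≤ n, PkgI n N (fun x b => pkgB (β (α x)) x b) J := by
      intro J
      induction J with
      | zero => exact fun _ => pkgI_zero hβ α hα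
      | succ J ih => exact fun hJ => pkgI_succ hβ hI hLC α hα hJ (ih (by omega))
    obtain ⟨η, hη, hfund⟩ := hF
    refine ⟨η, hη, fun J hJ ρ hρ => ?_⟩
    obtain ⟨κ₀, hκ₀, κ₁, hκ₁, Θ, h1, h2, h3, h4, h5, h6⟩ := hind J hJ ρ hρ
    refine ⟨κ₀, hκ₀, κ₁, hκ₁, Θ, h1, h2, h3, h4, h5, fun δ hδ => ?_⟩
    obtain ⟨μ, hμ1, hμ2, hμ3⟩ := hfund δ hδ
    refine ⟨μ, hμ1, ?_, fun x hx => ?_⟩
    · refine Sup.mono ?_ hμ2
      intro l hl y hy z hz
      exact hl (α z) y hy z (hα z hz)
    · have e : Θ [x] = pkgB (β (α x)) x := funext fun b => h6 x hx b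
      rw [e, pkgB_dg (Sup.mono (fun l hl => hl.1) hμ1)]
      have hx1 := hα x hx
      exact (hμ3 (α x) x (Q_mono (by norm_num) _ hx1) ⟨α x, x, hx1, by rw [dist_self]; exact hη⟩).2

end

end Vale.Agent.P239.M
end
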