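import Vale.Agent.P239.Bdl.B11
import Vale.Agent.P239.Bdl.B8
import Vale.Agent.P239.Bdl.B9
import Vale.Agent.P239.Bdl.B6
import Vale.Agent.P239.Bdl.B13
import Vale.Agent.P239.Bdl.B12

set_option linter.all false

section

/-!
Module M, block M16: coarse connectedness at infinity implies that the group is one-ended.
-/

namespace Vale.Agent.P239.M

open Metric Set Topology

variable {Γ : Type*} [Group Γ]

/-- The points where `A` changes under right multiplication by `r`. -/
def OE_ch (A : Set Γ) (r : Γ) : Set Γ := {x | ¬ (x ∈ A ↔ x * r ∈ A)}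

theorem OE_finite (S : Finset Γ) (hS : Subgroup.closure (S : Set Γ) = ⊤) (A : Set Γ)
    (hA : {x | ∃ y, Adj S x y ∧ ¬ (x ∈ A ↔ y ∈ A)}.Finite) (r : Γ) : (OE_ch A r).Finite := by
  have hr : r ∈ Subgroup.closure (S : Set Γ) := by rw [hS]; trivial
  induction hr using Subgroup.closure_induction with
  | mem s hs =>
    refine hA.subset ?_
    intro x hx
    exact ⟨x * s, ⟨s, hs, Or.inl rfl⟩, hx⟩
  | one =>
    have : OE_ch A 1 = ∅ := by
      ext x; simp [OE_ch]
    rw [this]; exact Set.finite_empty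
  | mul a b _ _ iha ihb =>
    have h1 : ((fun x => x * a) ⁻¹' OE_ch A b).Finite :=
      ihb.preimage (mul_left_injective a).injOn
    refine (iha.union h1).subset ?_
    intro x hx
    by_contra hcon
    simp only [Set.mem_union, not_or, Set.mem_preimage, OE_ch, Set.mem_ofPred_eq, not_not] at hcon
    apply hx
    rw [hcon.1, hcon.2, mul_assoc]
  | inv a _ iha =>
    have h1 : ((fun x => x * a⁻¹) ⁻¹' OE_ch A a).Finite :=
      iha.preimage (mul_left_injective a⁻¹).injOn
    refine h1.subset ?_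
    intro x hx
    simp only [OE_ch, Set.mem_preimage, Set.mem_ofPred_eq, inv_mul_cancel_right] at hx ⊢
    exact fun h => hx h.symm

open Classical in
/-- The indicator of `A` as a function on lists of length one. -/
noncomputable def OE_chi (A : Set Γ) : List Γ → ZMod 2
  | [x] => if x ∈ A then 1 else 0
  | _ => 0

omit [Group Γ] in
theorem OE_bd1 (g : Γ) : bdL (ZMod 2) [g] = Finsupp.single [] 1 := by
  simp [bdL]

omit [Group Γ] in
theorem OE_bd2 (x y : Γ) : bdL (ZMod 2) [x, y] = Finsupp.single [y] 1 - Finsupp.single [x] 1 := by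
  rw [bdL, OE_bd1, cone_single]

omit [Group Γ] in
theorem OE_ext_bd (u : List Γ → ZMod 2) (c : Ch (ZMod 2) Γ) :
    ext u (bd c) = ∑ l ∈ c.support, c l * ext u (bdL (ZMod 2) l) := by
  have h1 : bd c = ∑ l ∈ c.support, c l • bdL (ZMod 2) l := rfl
  rw [h1, map_sum]
  exact Finset.sum_congr rfl fun l _ => by rw [map_smul, smul_eq_mul]

theorem OE_two (n : ZMod 2) : n + n = 0 := CharTwo.add_self_eq_zero n

theorem oneEnded_of_cpush (h : CPushS Γ 1) (S : Finset Γ)
    (hS : Subgroup.closure (S : Set Γ) = ⊤) (hsym : ∀ s ∈ S, s⁻¹ ∈ S) : F.OneEnded S := by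
  classical
  intro A hA
  have _ := hsym
  obtain ⟨R, _, hR⟩ := h {1}
  have hfin : (⋃ r ∈ R, OE_ch A r).Finite :=
    R.finite_toSet.biUnion fun r _ => OE_finite S hS A hA r
  obtain ⟨F', hF'⟩ := hR hfin.toFinset
  by_contra hcon
  rw [not_or] at hcon
  obtain ⟨g, hgA, hgF⟩ := Set.Infinite.exists_notMem_finset hcon.1 F'
  obtain ⟨k, hkA, hkF⟩ := Set.Infinite.exists_notMem_finset hcon.2 F'
  have hbd : bd (Finsupp.single [g] 1 + Finsupp.single [k] 1 : Ch (ZMod 2) Γ) = 0 := by
    rw [map_add, bd_single, bd_single, OE_bd1, OE_bd1, one_smul, ← Finsupp.single_add, OE_two,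
      Finsupp.single_zero]
  obtain ⟨c, hc, hcs⟩ := hF' (Finsupp.single [g] 1 + Finsupp.single [k] 1) hbd (by
    intro l hl
    have hl2 : l = [g] ∨ l = [k] := by
      rcases Finset.mem_union.mp (Finsupp.support_add hl) with h1 | h1
      · exact Or.inl (Finset.mem_singleton.mp (Finsupp.support_single_subset h1))
      · exact Or.inr (Finset.mem_singleton.mp (Finsupp.support_single_subset h1))
    rcases hl2 with rfl | rfl
    · refine ⟨rfl, ?_, ?_⟩
      · intro x hx y hy
        rw [List.mem_singleton] at hx hy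
        subst hx; subst hy; simp
      · intro x hx
        rw [List.mem_singleton] at hx
        subst hx; exact hgF
    · refine ⟨rfl, ?_, ?_⟩
      · intro x hx y hy
        rw [List.mem_singleton] at hx hy
        subst hx; subst hy; simp
      · intro x hx
        rw [List.mem_singleton] at hx
        subst hx; exact hkF)
  have h0 : ext (OE_chi A) (bd c) = 0 := by
    rw [OE_ext_bd]
    refine Finset.sum_eq_zero fun l hl => ?_
    obtain ⟨hlen, hsm, hin⟩ := hcs l hl
    obtain ⟨x, y, rfl⟩ := List.length_eq_two.mp hlen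
    have hxF : x ∉ hfin.toFinset := hin x (by simp)
    have hr : x⁻¹ * y ∈ R := hsm x (by simp) y (by simp)
    have hxy : x ∈ A ↔ y ∈ A := by
      by_contra hxy
      apply hxF
      rw [Set.Finite.mem_toFinset]
      simp only [Set.mem_iUnion]
      exact ⟨x⁻¹ * y, hr, by simpa [OE_ch] using hxy⟩
    rw [OE_bd2, map_sub]
    simp only [ext, Finsupp.linearCombination_single, OE_chi, hxy, sub_self, mul_zero]
  rw [hc, map_add] at h0
  simp only [ext, Finsupp.linearCombination_single, OE_chi, one_smul] at h0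
  rw [if_pos hgA, if_neg hkA] at h0
  simp at h0

end Vale.Agent.P239.M
end

section

/-! Coarse acyclicity at infinity implies one-endedness and the vanishing of the second cohomology
with finite supports (both modulo 2). -/

namespace Vale.Agent.P239.M.Out

open Vale.Agent.P239.M
open Vale.Agent.P239.TF (On mem_On single_mem_On map_mem_of map_eq_of)

section Gen

variable {k : Type*} [CommRing k] {X : Type*}

theorem sup_iff {P : List X → Prop} {c : Ch k X} : Sup P c ↔ c ∈ (On P : Submodule k (Ch k X)) := by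
  constructor
  · intro h t ht; exact h t (Finsupp.mem_support_iff.2 ht)
  · intro h t ht; exact h t (Finsupp.mem_support_iff.1 ht)

end Gen

variable {Γ : Type*} [Group Γ]

theorem bdL_one (x : Γ) : bdL (ZMod 2) [x] = Finsupp.single [] 1 := by
  rw [bdL, bdL, map_zero, sub_zero]

theorem bdL_two (x y : Γ) : bdL (ZMod 2) [x, y] = Finsupp.single [y] 1 - Finsupp.single [x] 1 := by
  rw [bdL, bdL_one, cone_single]

/-! ### The second cohomology -/

/-- a cochain as a function of lists -/
def lift3 (b : Γ → Γ → Γ → ZMod 2) : List Γ → ZMod 2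
  | [x, y, z] => b x y z
  | _ => 0

theorem bdL_three (x y z : Γ) : bdL (ZMod 2) [x, y, z] =
    Finsupp.single [y, z] 1 - (Finsupp.single [x, z] 1 - Finsupp.single [x, y] 1) := by
  rw [bdL, bdL_two, map_sub, cone_single, cone_single]

theorem bdL_four (x y z w : Γ) : bdL (ZMod 2) [x, y, z, w] =
    Finsupp.single [y, z, w] 1 - (Finsupp.single [x, z, w] 1 -
      (Finsupp.single [x, y, w] 1 - Finsupp.single [x, y, z] 1)) := by
  rw [bdL, bdL_three, map_sub, map_sub, cone_single, cone_single, cone_single]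

theorem SmG.mono {S T : Finset Γ} (h : S ⊆ T) {l : List Γ} (hl : SmG S l) : SmG T l :=
  fun x hx y hy => h (hl x hx y hy)

/-- The second cohomology with finite supports vanishes. -/
theorem h2Fill_of (hp : CPushS Γ 2) (hf2 : CFillS (ZMod 2) Γ 2) (hf3 : CFillS (ZMod 2) Γ 3)
    (S : Finset Γ) : ∃ T₀ : Finset Γ, ∀ T : Finset Γ, T₀ ⊆ T → F.H2Fill S T := by
  classical
  let S' : Finset Γ := insert 1 (S ∪ S.image fun g => g⁻¹)
  have hS' : ∀ x y : Γ, x⁻¹ * y ∈ S → x⁻¹ * y ∈ S' ∧ y⁻¹ * x ∈ S' := by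
    intro x y h
    refine ⟨by simp [S', h], ?_⟩
    have : y⁻¹ * x = (x⁻¹ * y)⁻¹ := by group
    rw [this]
    refine Finset.mem_insert_of_mem (Finset.mem_union_right _ (Finset.mem_image.2 ⟨_, h, rfl⟩))
  have h1S' : (1 : Γ) ∈ S' := by simp [S']
  obtain ⟨R₁, hSR₁, hR₁⟩ := hf2 S'
  obtain ⟨R₃, hSR₃, hR₃⟩ := hp S'
  set R := R₁ ∪ R₃ with hR
  obtain ⟨T₀, hRT, hT₀⟩ := hf3 R
  refine ⟨T₀, fun T hT b hb hcoc => ?_⟩
  let B : Ch (ZMod 2) Γ →ₗ[ZMod 2] ZMod 2 := ext (lift3 b)
  have h1T : (1 : Γ) ∈ T := hT (hRT (Finset.mem_union_left _ (hSR₁ h1S')))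
  -- `B` vanishes on small cycles
  have hB0 : ∀ z : Ch (ZMod 2) Γ, bd z = 0 → Sup (fun l => l.length = 3 ∧ SmG R l) z → B z = 0 := by
    intro z hz hzs
    obtain ⟨w, hw, hws⟩ := hT₀ z hz hzs
    rw [← hw]
    rw [sup_iff] at hws
    refine map_eq_of hws (B ∘ₗ bd) 0 fun t ht => ?_
    obtain ⟨hlen, hsm⟩ := ht
    rw [LinearMap.comp_apply, bd_single, one_smul, LinearMap.zero_apply]
    match t, hlen with
    | [x, y, z, w], _ =>
      rw [bdL_four]
      simp only [B, map_sub, Finsupp.linearCombination_single, one_smul, lift3]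
      have h := hcoc x y z w (hT (hsm x (by simp) y (by simp))) (hT (hsm x (by simp) z (by simp)))
        (hT (hsm x (by simp) w (by simp))) (hT (hsm y (by simp) z (by simp)))
        (hT (hsm y (by simp) w (by simp))) (hT (hsm z (by simp) w (by simp)))
      simp only [sub_eq_add_neg, CharTwo.neg_eq]
      rw [← h]; ring
  -- vertices of the support
  let F : Finset Γ := hb.toFinset.image (fun p => p.1)
  have hF : ∀ x y z, x ∉ F → b x y z = 0 := by
    intro x y z hx
    by_contra h
    exact hx (Finset.mem_image.2 ⟨(x, y, z), by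
      rw [Set.Finite.mem_toFinset]; exact h, rfl⟩)
  obtain ⟨F', hF'⟩ := hR₃ F
  -- spaces of cycles and of chains off `F'`
  let P : List Γ → Prop := fun l => l.length = 2 ∧ SmG S' l
  let Z : Submodule (ZMod 2) (Ch (ZMod 2) Γ) := LinearMap.ker bd ⊓ On P
  let O : Submodule (ZMod 2) (Ch (ZMod 2) Γ) := On (fun l => P l ∧ In {x | x ∉ F'} l)
  -- the functional on cycles
  have hex : ∀ z : Z, ∃ w : Ch (ZMod 2) Γ, bd w = z ∧ w ∈ (On (fun l => l.length = 3 ∧ SmG R l) :
      Submodule (ZMod 2) (Ch (ZMod 2) Γ)) := by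
    intro z
    obtain ⟨w, hw, hws⟩ := hR₁ z.1 z.2.1 (sup_iff.2 z.2.2)
    exact ⟨w, hw, sup_iff.1 fun l hl => ⟨(hws l hl).1, SmG.mono Finset.subset_union_left (hws l hl).2⟩⟩
  have hval : ∀ w w' : Ch (ZMod 2) Γ, w ∈ (On (fun l => l.length = 3 ∧ SmG R l) :
      Submodule (ZMod 2) (Ch (ZMod 2) Γ)) → w' ∈ (On (fun l => l.length = 3 ∧ SmG R l) :
      Submodule (ZMod 2) (Ch (ZMod 2) Γ)) → bd w = bd w' → B w = B w' := by
    intro w w' hw hw' h
    have := hB0 (w - w') (by rw [map_sub, h, sub_self]) (sup_iff.2 (Submodule.sub_mem _ hw hw'))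
    rwa [map_sub, sub_eq_zero] at this
  choose W hW hWs using hex
  let lam : Z →ₗ[ZMod 2] ZMod 2 :=
    { toFun := fun z => B (W z)
      map_add' := fun z z' => by
        rw [← map_add]
        refine hval _ _ (hWs _) (Submodule.add_mem _ (hWs _) (hWs _)) ?_
        rw [hW, map_add, hW, hW]; rfl
      map_smul' := fun a z => by
        rw [RingHom.id_apply, ← map_smul]
        refine hval _ _ (hWs _) (Submodule.smul_mem _ _ (hWs _)) ?_
        rw [hW, map_smul, hW]; rfl }
  have hlam : ∀ (z : Z) (w : Ch (ZMod 2) Γ), w ∈ (On (fun l => l.length = 3 ∧ SmG R l) :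
      Submodule (ZMod 2) (Ch (ZMod 2) Γ)) → bd w = z → lam z = B w := fun z w hw h =>
    hval _ _ (hWs _) hw (by rw [hW, h])
  -- vanishing off `F'`
  have hlam0 : ∀ z : Z, (z : Ch (ZMod 2) Γ) ∈ O → lam z = 0 := by
    intro z hz
    obtain ⟨w, hw, hws⟩ := hF' z.1 z.2.1 (sup_iff.2 (Vale.Agent.P239.TF.On_mono
      (fun t ht => ⟨ht.1.1, ht.1.2, ht.2⟩) hz))
    rw [sup_iff] at hws
    rw [hlam z w (Vale.Agent.P239.TF.On_mono (fun t ht => ⟨ht.1, SmG.mono
      Finset.subset_union_right ht.2.1⟩) hws) hw]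
    refine map_eq_of hws B 0 fun t ht => ?_
    obtain ⟨hlen, -, hout⟩ := ht
    match t, hlen with
    | [x, y, z], _ =>
      simp only [B, Finsupp.linearCombination_single, one_smul, lift3, LinearMap.zero_apply]
      exact hF x y z (hout x (by simp))
  -- extension
  obtain ⟨Λ, hΛZ, hΛO⟩ : ∃ Λ : Ch (ZMod 2) Γ →ₗ[ZMod 2] ZMod 2,
      (∀ z : Z, Λ z = lam z) ∧ ∀ c ∈ O, Λ c = 0 := by
    -- the functional induced on the image of `Z` in the quotient by `O`
    let q : Z →ₗ[ZMod 2] (Ch (ZMod 2) Γ ⧸ O) := O.mkQ ∘ₗ Z.subtype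
    have hker : LinearMap.ker q ≤ LinearMap.ker lam := by
      intro z hz
      have h1 : O.mkQ (z : Ch (ZMod 2) Γ) = 0 := hz
      rw [Submodule.mkQ_apply, Submodule.Quotient.mk_eq_zero] at h1
      exact hlam0 z h1
    let f : LinearMap.range q →ₗ[ZMod 2] ZMod 2 :=
      ((LinearMap.ker q).liftQ lam hker).comp q.quotKerEquivRange.symm.toLinearMap
    obtain ⟨μ, hμ⟩ := LinearMap.exists_extend f
    refine ⟨μ ∘ₗ O.mkQ, fun z => ?_, fun c hc => ?_⟩
    · have h2 : μ (q z) = f ⟨q z, LinearMap.mem_range_self q z⟩ :=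
        LinearMap.congr_fun hμ ⟨q z, LinearMap.mem_range_self q z⟩
      have h3 : (μ ∘ₗ O.mkQ) (z : Ch (ZMod 2) Γ) = μ (q z) := rfl
      rw [h3, h2]
      have h4 : q.quotKerEquivRange.symm ⟨q z, LinearMap.mem_range_self q z⟩ =
          Submodule.Quotient.mk z := by
        rw [LinearEquiv.symm_apply_eq]
        rfl
      change (LinearMap.ker q).liftQ lam hker
        (q.quotKerEquivRange.symm ⟨q z, LinearMap.mem_range_self q z⟩) = lam z
      rw [h4]
      rfl
    · rw [LinearMap.comp_apply]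
      have : O.mkQ c = 0 := by rw [Submodule.mkQ_apply, Submodule.Quotient.mk_eq_zero]; exact hc
      rw [this, map_zero]
  refine ⟨fun x y => if SmG S' [x, y] then Λ (Finsupp.single [x, y] 1) else 0, ?_, ?_⟩
  · -- finite support
    refine ((F' ×ˢ S').image (fun p => (p.1, p.1 * p.2)) ∪
      (F' ×ˢ S').image (fun p => (p.1 * p.2, p.1))).finite_toSet.subset ?_
    rintro ⟨x, y⟩ hxy
    simp only [Set.mem_ofPred_eq] at hxy
    by_cases hsm : SmG S' [x, y]
    · rw [if_pos hsm] at hxy
      rw [Finset.coe_union]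
      by_cases hx : x ∈ F'
      · left
        refine Finset.mem_coe.2 (Finset.mem_image.2 ⟨(x, x⁻¹ * y), Finset.mem_product.2
          ⟨hx, hsm x (by simp) y (by simp)⟩, by simp⟩)
      · by_cases hy : y ∈ F'
        · right
          refine Finset.mem_coe.2 (Finset.mem_image.2 ⟨(y, y⁻¹ * x), Finset.mem_product.2
            ⟨hy, hsm y (by simp) x (by simp)⟩, by simp⟩)
        · exfalso
          apply hxy
          refine hΛO _ (single_mem_On ⟨⟨rfl, hsm⟩, ?_⟩ 1)
          intro a ha
          rcases List.mem_cons.1 ha with rfl | ha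
          · exact hx
          · rw [List.mem_singleton] at ha
            rw [ha]; exact hy
    · rw [if_neg hsm] at hxy
      exact absurd rfl hxy
  · intro x y z hxy hyz hxz
    have hsm : SmG S' [x, y, z] := by
      have e : ∀ a : Γ, a⁻¹ * a ∈ S' := fun a => by rw [inv_mul_cancel]; exact h1S'
      have e1 := hS' x y hxy
      have e2 := hS' y z hyz
      have e3 := hS' x z hxz
      intro a ha b hb
      simp only [List.mem_cons, List.not_mem_nil, or_false] at ha hb
      rcases ha with rfl | rfl | rfl <;> rcases hb with rfl | rfl | rfl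
      · exact e _
      · exact e1.1
      · exact e3.1
      · exact e1.2
      · exact e _
      · exact e2.1
      · exact e3.2
      · exact e2.2
      · exact e _
    have hsub : ∀ a b : Γ, a ∈ [x, y, z] → b ∈ [x, y, z] → SmG S' [a, b] := by
      intro a b ha hb u hu v hv
      simp only [List.mem_cons, List.not_mem_nil, or_false] at hu hv
      refine hsm u ?_ v ?_
      · rcases hu with rfl | rfl <;> assumption
      · rcases hv with rfl | rfl <;> assumption
    have hbd : bd (Finsupp.single [x, y, z] (1 : ZMod 2)) = bdL (ZMod 2) [x, y, z] := by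
      rw [bd_single, one_smul]
    have hZ : bdL (ZMod 2) [x, y, z] ∈ Z := by
      refine ⟨LinearMap.mem_ker.2 (bd_bdL _), ?_⟩
      rw [bdL_three]
      refine Submodule.sub_mem _ (single_mem_On ⟨rfl, hsub _ _ (by simp) (by simp)⟩ 1)
        (Submodule.sub_mem _ (single_mem_On ⟨rfl, hsub _ _ (by simp) (by simp)⟩ 1)
          (single_mem_On ⟨rfl, hsub _ _ (by simp) (by simp)⟩ 1))
    have h1 : lam ⟨_, hZ⟩ = B (Finsupp.single [x, y, z] 1) :=
      hlam ⟨_, hZ⟩ _ (single_mem_On ⟨rfl, SmG.mono (hSR₁.trans Finset.subset_union_left) hsm⟩ 1) hbd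
    have h2 : B (Finsupp.single [x, y, z] 1) = b x y z := by
      simp only [B, Finsupp.linearCombination_single, one_smul, lift3]
    rw [← h2, ← h1, ← hΛZ]
    simp only [hsub x y (by simp) (by simp), hsub y z (by simp) (by simp),
      hsub x z (by simp) (by simp), if_true, bdL_three, map_sub]
    simp only [sub_eq_add_neg, CharTwo.neg_eq]
    ring

end Vale.Agent.P239.M.Out
end

section

/-! Vanishing of the second cohomology with finite supports, in the form of `M_Skel`. -/

namespace Vale.Agent.P239.M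

variable {Γ : Type*} [Group Γ]

theorem h2fill_of_cpush (h1 : CPushS Γ 2) (h2 : CFillS (ZMod 2) Γ 2) (h3 : CFillS (ZMod 2) Γ 3)
    (S : Finset Γ) : ∃ T₀ : Finset Γ, ∀ T : Finset Γ, T₀ ⊆ T → (∀ s ∈ T, s⁻¹ ∈ T) →
      F.H2Fill S T := by
  obtain ⟨T₀, h⟩ := Out.h2Fill_of h1 h2 h3 S
  exact ⟨T₀, fun T hT _ => h T hT⟩

end Vale.Agent.P239.M
end

section

/-! Facts on covers of closed 4-manifolds. -/

namespace Vale.Agent.P239.M

open Metric Set Topology

variable {M X Γ : Type*} [TopologicalSpace M] [T2Space M] [CompactSpace M]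
  [ChartedSpace (EuclideanSpace ℝ (Fin 4)) M] [TopologicalSpace X] [ContractibleSpace X]
  [Group Γ] [MulAction Γ X] {p : X → M} (hp : IsQuotientCoveringMap p Γ)
include hp

omit [CompactSpace M] [ChartedSpace (EuclideanSpace ℝ (Fin 4)) M] [ContractibleSpace X] in
theorem t2_of_cover : T2Space X := by
  refine ⟨fun x y hxy => ?_⟩
  by_cases h : p x = p y
  · exact hp.isCoveringMap.isSeparatedMap x y h hxy
  · obtain ⟨A, B, hA, hB, hxA, hyB, hAB⟩ := t2_separation h
    exact ⟨p ⁻¹' A, p ⁻¹' B, hA.preimage hp.continuous, hB.preimage hp.continuous, hxA, hyB,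
      hAB.preimage p⟩

theorem Mfd.exists_cocomp : LocallyCompactSpace X ∧
    ∃ B : Set X, IsCompact B ∧ ∀ x : X, ∃ g : Γ, ∃ y ∈ B, x = g • y := by
  have : LocallyCompactSpace M := ChartedSpace.locallyCompactSpace (EuclideanSpace ℝ (Fin 4)) M
  have hX : LocallyCompactSpace X := locallyCompact_of_cover hp
  refine ⟨hX, ?_⟩
  have hopen : IsOpenMap p := hp.isCoveringMap.isOpenMap
  have h1 : ∀ x : X, ∃ K : Set X, IsCompact K ∧ K ∈ 𝓝 x := fun x => exists_compact_mem_nhds x
  choose K hK hKx using h1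
  obtain ⟨t, ht⟩ := isCompact_univ.elim_finite_subcover (fun x => p '' interior (K x))
    (fun x => hopen _ isOpen_interior) (by
      intro m _
      obtain ⟨x, rfl⟩ := hp.surjective m
      exact mem_iUnion.2 ⟨x, x, mem_interior_iff_mem_nhds.2 (hKx x), rfl⟩)
  refine ⟨⋃ x ∈ t, K x, t.isCompact_biUnion fun x _ => hK x, fun x => ?_⟩
  obtain ⟨y, hy, z, hz, hzx⟩ := mem_iUnion₂.mp (ht (mem_univ (p x)))
  obtain ⟨g, hg⟩ := hp.apply_eq_iff_mem_orbit.mp hzx.symm
  exact ⟨g, z, mem_iUnion₂.2 ⟨y, hy, interior_subset hz⟩, Eq.symm hg⟩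

omit [ContractibleSpace X] in
theorem Mfd.countable [ConnectedSpace X] [LocallyCompactSpace X] : Countable Γ := by
  have hfg : Group.FG Γ := fg_of_cover hp
  obtain ⟨S, hS⟩ := Group.fg_iff.1 hfg
  obtain ⟨hS, hfin⟩ := hS
  have : Countable S := hfin.countable.to_subtype
  have h : Function.Surjective (FreeGroup.lift (fun s : S => (s : Γ))) := by
    rw [← MonoidHom.range_eq_top, FreeGroup.range_lift_eq_closure, Subtype.range_coe]
    exact hS
  exact h.countable

theorem metrizable_of_cover : TopologicalSpace.MetrizableSpace X := by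
  obtain ⟨hX, B, hB, hcov⟩ := Mfd.exists_cocomp hp
  have hcs : ContinuousConstSMul Γ X := hp.toContinuousConstSMul
  have h2 : T2Space X := t2_of_cover hp
  have hcount : Countable Γ := Mfd.countable hp
  have hsig : SigmaCompactSpace X := by
    refine SigmaCompactSpace.of_countable (range fun g : Γ => (fun x => g • x) '' B)
      (countable_range _) ?_ ?_
    · rintro _ ⟨g, rfl⟩
      exact hB.image (continuous_const_smul g)
    · refine eq_univ_of_forall fun x => ?_
      obtain ⟨g, y, hy, rfl⟩ := hcov x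
      exact ⟨_, ⟨g, rfl⟩, y, hy, rfl⟩
  have hM : SecondCountableTopology M :=
    ChartedSpace.secondCountable_of_sigmaCompact (EuclideanSpace ℝ (Fin 4)) M
  have hsec : SecondCountableTopology X := by
    choose e he hpe using hp.isCoveringMap.isLocalHomeomorph
    obtain ⟨s, hs, hsu⟩ := countable_cover_nhds (fun x => (e x).open_source.mem_nhds (he x))
    have hsc : Countable s := hs.to_subtype
    have hU : ∀ i : s, SecondCountableTopology (e i).source := by
      intro i
      exact ((e i).toHomeomorphSourceTarget).isEmbedding.secondCountableTopology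
    exact TopologicalSpace.secondCountableTopology_of_countable_cover
      (fun i : s => (e i).open_source) (by
        rw [← hsu]
        ext x
        simp only [mem_iUnion, Subtype.exists, exists_prop])
  infer_instance

omit [T2Space M] [CompactSpace M] [ContractibleSpace X] in
theorem chart_of_cover (x : X) : ∃ β : (Fin 4 → ℝ) → X, IsOpenEmbedding β ∧ β 0 = x := by
  obtain ⟨e, hx, -⟩ := hp.isCoveringMap.isLocalHomeomorph x
  let c := chartAt (EuclideanSpace ℝ (Fin 4)) (e x)
  let f : OpenPartialHomeomorph X (EuclideanSpace ℝ (Fin 4)) := e.trans c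
  have hxf : x ∈ f.source := by
    rw [OpenPartialHomeomorph.trans_source]
    exact ⟨hx, mem_chart_source _ (e x)⟩
  obtain ⟨r, hr, hball⟩ := Metric.isOpen_iff.1 f.open_target (f x) (f.map_source hxf)
  let u : OpenPartialHomeomorph (EuclideanSpace ℝ (Fin 4)) (EuclideanSpace ℝ (Fin 4)) :=
    OpenPartialHomeomorph.univBall (f x) r
  let g : OpenPartialHomeomorph (EuclideanSpace ℝ (Fin 4)) X := u.trans f.symm
  have hg : g.source = univ := by
    rw [OpenPartialHomeomorph.trans_source]
    refine eq_univ_of_forall fun y => ⟨?_, ?_⟩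
    · rw [OpenPartialHomeomorph.univBall_source]; trivial
    · refine hball ?_
      rw [← OpenPartialHomeomorph.univBall_target (f x) hr]
      exact u.map_source (by rw [OpenPartialHomeomorph.univBall_source]; trivial)
  let L : (Fin 4 → ℝ) ≃ₜ EuclideanSpace ℝ (Fin 4) :=
    (EuclideanSpace.equiv (Fin 4) ℝ).symm.toHomeomorph
  refine ⟨fun y => g (L y), (g.isOpenEmbedding hg).comp L.isOpenEmbedding, ?_⟩
  have h0 : L 0 = 0 := map_zero (EuclideanSpace.equiv (Fin 4) ℝ).symm
  change f.symm (u (L 0)) = x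
  rw [h0]
  have h1 : u 0 = f x := OpenPartialHomeomorph.univBall_apply_zero _ _
  rw [h1, f.left_inv hxf]

theorem coAct_of_cover : CoAct Γ X := by
  obtain ⟨hX, hB⟩ := Mfd.exists_cocomp hp
  have hcs : ContinuousConstSMul Γ X := hp.toContinuousConstSMul
  refine ⟨fun g => continuous_const_smul g, fun g x hx => ?_, hB, fun C D hC hD => ?_⟩
  · obtain ⟨U, hU, hU'⟩ := hp.disjoint x
    exact hU' g ⟨x, ⟨x, mem_of_mem_nhds hU, hx⟩, mem_of_mem_nhds hU⟩
  · refine (finite_meet hp hC hD).subset ?_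
    rintro g ⟨y, hy, hgy⟩
    exact ⟨g • y, ⟨y, hy, rfl⟩, hgy⟩

end Vale.Agent.P239.M
end

section

/-!
Module M: assembly.
-/

namespace Vale.Agent.P239.M

open Metric Set Topology

variable {M X Γ : Type*} [TopologicalSpace M] [T2Space M] [CompactSpace M]
  [ChartedSpace (EuclideanSpace ℝ (Fin 4)) M] [TopologicalSpace X] [ContractibleSpace X]
  [Group Γ] [MulAction Γ X] {p : X → M}

theorem pkg_of_charts {X : Type*} [MetricSpace X]
    (hch : ∀ x : X, ∃ β : (Fin 4 → ℝ) → X, IsOpenEmbedding β ∧ β 0 = x) (N : Set X)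
    (hN : IsCompact N) : PkgS 4 N := by
  choose β hβ hβ0 using hch
  have hnb : ∀ x, β x '' Q 4 1 ∈ 𝓝 x := fun x => by
    have h1 : ball (0 : Fin 4 → ℝ) 1 ⊆ Q 4 1 := ball_subset_closedBall
    refine Filter.mem_of_superset ?_ (image_mono h1)
    refine ((hβ x).isOpenMap _ isOpen_ball).mem_nhds ?_
    exact ⟨0, mem_ball_self one_pos, hβ0 x⟩
  obtain ⟨t, -, ht⟩ := hN.elim_nhds_subcover (fun x => β x '' Q 4 1) fun x _ => hnb x
  let e := t.equivFin
  let b : Fin t.card → (Fin 4 → ℝ) → X := fun a => β (e.symm a)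
  have hb : ∀ a, IsOpenEmbedding (b a) := fun a => hβ _
  have hL : ∀ a, LD1S (b a) := fun a => ld1S (by norm_num) (hb a)
  have hI : ∀ a c, InvS (b a) (b c) := fun a c => invS (by norm_num) (hb a) (hb c) (hL c)
  refine pkgS (by norm_num) b hb (fundS (by norm_num) b hb hL hI) hI
    (fun a q h1 h2 => lcS (by norm_num) (hb a) q h1 h2) N hN ?_
  intro x hx
  obtain ⟨y, hy, hxy⟩ := mem_iUnion₂.1 (ht hx)
  refine mem_iUnion.2 ⟨e ⟨y, hy⟩, ?_⟩
  simpa [b] using hxy

theorem push_of_charts {X : Type*} [MetricSpace X] [LocallyCompactSpace X] [ContractibleSpace X]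
    (hch : ∀ x : X, ∃ β : (Fin 4 → ℝ) → X, IsOpenEmbedding β ∧ β 0 = x) (i : ℕ) (hi : 1 ≤ i)
    (hi4 : i < 4) : PushS X i :=
  pushS i hi (fillS _ X) (relS (pkg_of_charts hch) i hi hi4)

variable (hp : IsQuotientCoveringMap p Γ)
include hp

theorem coarse_of_cover : CPushS Γ 1 ∧ CPushS Γ 2 ∧ CFillS (ZMod 2) Γ 2 ∧
    CFillS (ZMod 2) Γ 3 := by
  have : LocallyCompactSpace M := ChartedSpace.locallyCompactSpace (EuclideanSpace ℝ (Fin 4)) M
  have : LocallyCompactSpace X := locallyCompact_of_cover hp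
  have hm : TopologicalSpace.MetrizableSpace X := metrizable_of_cover hp
  letI : MetricSpace X := TopologicalSpace.metrizableSpaceMetric X
  have hact : CoAct Γ X := coAct_of_cover hp
  have hF : FillS (ZMod 2) X := fillS _ X
  have hch := chart_of_cover hp
  have hpsi : ∀ i, PsiS (ZMod 2) Γ X i := fun i => psiS _ hact hF i
  exact ⟨cpushS hact 1 (hpsi 1) (push_of_charts hch 1 le_rfl (by norm_num)),
    cpushS hact 2 (hpsi 2) (push_of_charts hch 2 (by norm_num) (by norm_num)),
    cfillS _ hact hF 2 (hpsi 2), cfillS _ hact hF 3 (hpsi 3)⟩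

/-- The deck group of a closed aspherical 4-manifold is one-ended. -/
theorem oneEnded_of_cover (S : Finset Γ) (hS : Subgroup.closure (S : Set Γ) = ⊤)
    (hsym : ∀ s ∈ S, s⁻¹ ∈ S) : F.OneEnded S :=
  oneEnded_of_cpush (coarse_of_cover hp).1 S hS hsym

/-- `H²(Γ; 𝔽₂Γ) = 0` in coarse form. -/
theorem h2Fill_of_cover (S : Finset Γ) : ∃ T₀ : Finset Γ, ∀ T : Finset Γ, T₀ ⊆ T →
    (∀ s ∈ T, s⁻¹ ∈ T) → F.H2Fill S T :=
  h2fill_of_cpush (coarse_of_cover hp).2.1 (coarse_of_cover hp).2.2.1
    (coarse_of_cover hp).2.2.2 S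

end Vale.Agent.P239.M
end
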