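import Vale.Agent.P239.Bdl.B6
import Vale.Agent.P239.Bdl.B8

set_option linter.all false

section

/-!
Bilinear area estimates and their consequences for crossing potentials.
-/

namespace Vale.Agent.P239.F

open scoped ENNReal InnerProductSpace
open MeasureTheory Filter Topology
open Vale.Agent.P239

variable {G : Type*} [Group G] {S : Finset G}

/-- Total oscillation over the translate `u F`. -/
noncomputable def osF (F : Finset G) (c : G → ℝ) (u : G) : ℝ :=
  ∑ a ∈ F, ∑ b ∈ F, |c (u * a) - c (u * b)|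

theorem osF_nonneg (F : Finset G) (c : G → ℝ) (u : G) : 0 ≤ osF F c u :=
  Finset.sum_nonneg fun _ _ => Finset.sum_nonneg fun _ _ => abs_nonneg _

theorem le_osF {F : Finset G} (c : G → ℝ) (u : G) {a b : G} (ha : a ∈ F) (hb : b ∈ F) :
    |c (u * a) - c (u * b)| ≤ osF F c u :=
  (Finset.single_le_sum (f := fun b => |c (u * a) - c (u * b)|) (fun _ _ => abs_nonneg _) hb).trans
    (Finset.single_le_sum (f := fun a => ∑ b ∈ F, |c (u * a) - c (u * b)|)
      (fun _ _ => Finset.sum_nonneg fun _ _ => abs_nonneg _) ha)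

theorem osF_trans (F : Finset G) (c : G → ℝ) (k u : G) :
    osF F (fun x => c (k⁻¹ * x)) u = osF F c (k⁻¹ * u) := by
  simp only [osF, mul_assoc]

/-- The oscillation is square summable. -/
theorem exists_osF_bound (hS : Subgroup.closure (S : Set G) = ⊤) (F : Finset G) :
    ∃ C : ℝ, 0 ≤ C ∧ ∀ f : Dir S, SqS (osF F f.1) ∧ ∑' u, osF F f.1 u ^ 2 ≤ C * en S f f := by
  obtain ⟨C, hC0, hC⟩ := exists_osc_bound hS F
  refine ⟨(F.card : ℝ) ^ 4 * C, by (clear * - hC0; positivity), fun f => ?_⟩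
  have hle : ∀ u : G, osF F f.1 u ^ 2 ≤
      (F.card : ℝ) ^ 2 * ∑ p ∈ F ×ˢ F, (f.1 (u * p.1) - f.1 (u * p.2)) ^ 2 := by
    intro u
    have h1 : osF F f.1 u = ∑ p ∈ F ×ˢ F, |f.1 (u * p.1) - f.1 (u * p.2)| := by
      rw [Finset.sum_product]; rfl
    rw [h1]
    have h2 := sq_sum_le_card_mul_sum_sq (s := F ×ˢ F)
      (f := fun p : G × G => |f.1 (u * p.1) - f.1 (u * p.2)|)
    refine h2.trans (le_of_eq ?_)
    rw [Finset.card_product]
    push_cast
    rw [sq]
    congr 1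
    exact Finset.sum_congr rfl fun p _ => sq_abs _
  have hsum : Summable fun u : G =>
      (F.card : ℝ) ^ 2 * ∑ p ∈ F ×ˢ F, (f.1 (u * p.1) - f.1 (u * p.2)) ^ 2 := by
    refine Summable.mul_left _ (summable_sum fun p hp => ?_)
    rw [Finset.mem_product] at hp
    exact (hC f p.1 hp.1 p.2 hp.2).1
  have h1 : SqS (osF F f.1) := Summable.of_nonneg_of_le (fun u => sq_nonneg _) hle hsum
  refine ⟨h1, (h1.tsum_le_tsum hle hsum).trans ?_⟩
  rw [tsum_mul_left, Summable.tsum_finsetSum (fun p hp => by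
    rw [Finset.mem_product] at hp
    exact (hC f p.1 hp.1 p.2 hp.2).1)]
  have h2 : ∑ p ∈ F ×ˢ F, ∑' u : G, (f.1 (u * p.1) - f.1 (u * p.2)) ^ 2 ≤
      ∑ p ∈ F ×ˢ F, C * en S f f := Finset.sum_le_sum fun p hp => by
    rw [Finset.mem_product] at hp
    exact (hC f p.1 hp.1 p.2 hp.2).2
  rw [Finset.sum_const, Finset.card_product, nsmul_eq_mul] at h2
  push_cast at h2
  calc (F.card : ℝ) ^ 2 * ∑ p ∈ F ×ˢ F, ∑' u : G, (f.1 (u * p.1) - f.1 (u * p.2)) ^ 2
      ≤ (F.card : ℝ) ^ 2 * ((F.card : ℝ) * F.card * (C * en S f f)) :=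
        mul_le_mul_of_nonneg_left h2 (by (clear * -; positivity))
    _ = (F.card : ℝ) ^ 4 * C * en S f f := by ring

/-- Bilinear area estimate. -/
theorem area_bilin [Countable G] (F : Finset G) {T₁ T₂ : Set ℝ} (c₁ c₂ : G → ℝ)
    (hT : ∀ t ∈ T₁, ∀ s ∈ T₂, ∃ u : G, (∃ a ∈ F, t < c₁ (u * a)) ∧ (∃ b ∈ F, c₁ (u * b) < t) ∧
      (∃ a ∈ F, s < c₂ (u * a)) ∧ (∃ b ∈ F, c₂ (u * b) < s)) :
    volume T₁ * volume T₂ ≤ ∑' u : G, ENNReal.ofReal (osF F c₁ u * osF F c₂ u) := by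
  let J := (F × F) × (F × F)
  let R : J × G → Set (ℝ × ℝ) := fun i =>
    (Set.Ioo (c₁ (i.2 * i.1.1.1)) (c₁ (i.2 * i.1.1.2))) ×ˢ
      (Set.Ioo (c₂ (i.2 * i.1.2.1)) (c₂ (i.2 * i.1.2.2)))
  have hcov : T₁ ×ˢ T₂ ⊆ ⋃ i : J × G, R i := by
    rintro ⟨t, s⟩ ⟨ht, hs⟩
    obtain ⟨u, ⟨a, ha, h1⟩, ⟨b, hb, h2⟩, ⟨a', ha', h3⟩, ⟨b', hb', h4⟩⟩ := hT t ht s hs
    exact Set.mem_iUnion.2 ⟨(((⟨b, hb⟩, ⟨a, ha⟩), (⟨b', hb'⟩, ⟨a', ha'⟩)), u), ⟨⟨h2, h1⟩, ⟨h4, h3⟩⟩⟩
  have hvol : volume (T₁ ×ˢ T₂) = volume T₁ * volume T₂ := by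
    rw [Measure.volume_eq_prod, Measure.prod_prod]
  have hR : ∀ i : J × G, volume (R i) ≤
      ENNReal.ofReal |c₁ (i.2 * i.1.1.1) - c₁ (i.2 * i.1.1.2)| *
      ENNReal.ofReal |c₂ (i.2 * i.1.2.1) - c₂ (i.2 * i.1.2.2)| := by
    intro i
    rw [Measure.volume_eq_prod, Measure.prod_prod, Real.volume_Ioo, Real.volume_Ioo]
    refine mul_le_mul' (ENNReal.ofReal_le_ofReal ?_) (ENNReal.ofReal_le_ofReal ?_)
    · rw [abs_sub_comm]; exact le_abs_self _
    · rw [abs_sub_comm]; exact le_abs_self _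
  have hos : ∀ (c : G → ℝ) (u : G), ENNReal.ofReal (osF F c u) =
      ∑ p : F × F, ENNReal.ofReal |c (u * p.1) - c (u * p.2)| := by
    intro c u
    rw [← ENNReal.ofReal_sum_of_nonneg fun _ _ => abs_nonneg _, Fintype.sum_prod_type]
    congr 1
    rw [osF, ← Finset.sum_coe_sort F (fun a => ∑ b ∈ F, |c (u * a) - c (u * b)|)]
    refine Finset.sum_congr rfl fun a _ => ?_
    rw [← Finset.sum_coe_sort F (fun b => |c (u * a) - c (u * b)|)]
  calc volume T₁ * volume T₂ = volume (T₁ ×ˢ T₂) := hvol.symm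
    _ ≤ volume (⋃ i : J × G, R i) := measure_mono hcov
    _ ≤ ∑' i : J × G, volume (R i) := measure_iUnion_le _
    _ ≤ ∑' i : J × G, ENNReal.ofReal |c₁ (i.2 * i.1.1.1) - c₁ (i.2 * i.1.1.2)| *
      ENNReal.ofReal |c₂ (i.2 * i.1.2.1) - c₂ (i.2 * i.1.2.2)| := ENNReal.tsum_le_tsum hR
    _ = ∑' u : G, ∑' j : J, ENNReal.ofReal |c₁ (u * j.1.1) - c₁ (u * j.1.2)| *
      ENNReal.ofReal |c₂ (u * j.2.1) - c₂ (u * j.2.2)| := by
      rw [ENNReal.tsum_prod', ENNReal.tsum_comm]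
    _ = ∑' u : G, ENNReal.ofReal (osF F c₁ u * osF F c₂ u) := by
      refine tsum_congr fun u => ?_
      rw [ENNReal.ofReal_mul (osF_nonneg _ _ _), hos, hos, Finset.sum_mul_sum, tsum_fintype,
        Fintype.sum_prod_type]

theorem summable_mul_of_sq {φ ψ : G → ℝ} (hφ : SqS φ) (hψ : SqS ψ) :
    Summable fun u => φ u * ψ u := by
  have hadd : Summable fun u => φ u ^ 2 + ψ u ^ 2 := Summable.add (f := fun u => φ u ^ 2) hφ hψ
  refine Summable.of_norm_bounded hadd fun u => ?_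
  rw [Real.norm_eq_abs, abs_mul]
  linarith only [sq_nonneg (ψ u), sq_nonneg (φ u), sq_abs (ψ u), sq_abs (φ u), sq_nonneg (|φ u| - |ψ u|)]

/-- Convolution coefficients of square summable functions vanish at infinity. -/
theorem tendsto_conv_zero {φ ψ : G → ℝ} (hφ : SqS φ) (hψ : SqS ψ) :
    Tendsto (fun g : G => ∑' u, φ (g⁻¹ * u) * ψ u) cofinite (𝓝 0) := by
  classical
  let Ψ : lp (fun _ : G => ℝ) 2 := ⟨ψ, sqS_iff.1 hψ⟩
  let Φ : G → lp (fun _ : G => ℝ) 2 := fun g => ⟨fun u => φ (g⁻¹ * u), sqS_iff.1 (hφ.trans g)⟩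
  have hin : ∀ g, ⟪Φ g, Ψ⟫_ℝ = ∑' u, φ (g⁻¹ * u) * ψ u := by
    intro g
    rw [← (lp.hasSum_inner (𝕜 := ℝ) (Φ g) Ψ).tsum_eq]
    refine tsum_congr fun u => ?_
    simp only [RCLike.inner_apply, Real.ringHom_apply, mul_comm, Φ, Ψ]
  have hnorm : ∀ g : G, ‖Φ g‖ = ‖Φ 1‖ := by
    intro g
    have h1 : ∀ g, ‖Φ g‖ ^ 2 = ∑' u, φ u ^ 2 := by
      intro g
      have h := lp.hasSum_norm (by norm_num : 0 < (2 : ℝ≥0∞).toReal) (Φ g)
      have h2 := h.tsum_eq
      simp only [ENNReal.toReal_ofNat, Real.rpow_ofNat, Real.norm_eq_abs, sq_abs] at h2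
      rw [← h2]
      exact (Equiv.mulLeft g⁻¹).tsum_eq (fun u => φ u ^ 2)
    exact (pow_left_inj₀ (norm_nonneg _) (norm_nonneg _) two_ne_zero).1 ((h1 g).trans (h1 1).symm)
  rw [Metric.tendsto_nhds]
  intro ε hε
  have hsum : HasSum (fun p : G => lp.single 2 p (Ψ p)) Ψ := lp.hasSum_single (by norm_num) Ψ
  obtain ⟨T, hT⟩ := ((Metric.tendsto_nhds.1 hsum (ε / (2 * (‖Φ 1‖ + 1))) (by positivity))).exists
  have hfin : Tendsto (fun h : G => ∑ p ∈ T, φ (h⁻¹ * p) * ψ p) cofinite (𝓝 0) := by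
    have h0 : (0 : ℝ) = ∑ p ∈ T, 0 * ψ p := by simp
    rw [h0]
    refine tendsto_finsetSum _ fun p _ => Tendsto.mul_const _ ?_
    have h1 : Tendsto (fun q : G => φ q) cofinite (𝓝 0) := by
      have h2 := Summable.tendsto_cofinite_zero hφ
      have h3 := (Real.continuous_sqrt.tendsto 0).comp h2
      rw [Real.sqrt_zero] at h3
      rw [tendsto_zero_iff_abs_tendsto_zero]
      refine h3.congr fun q => ?_
      simp only [Function.comp_apply, Real.sqrt_sq_eq_abs]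
    refine h1.comp (Function.Injective.tendsto_cofinite ?_)
    intro a b hab
    simpa only [mul_left_inj, inv_inj] using hab
  filter_upwards [Metric.tendsto_nhds.1 hfin (ε / 2) (by positivity)] with h hh
  rw [dist_zero_right] at hh ⊢
  have h1 : ⟪Φ h, ∑ p ∈ T, lp.single 2 p (Ψ p)⟫_ℝ = ∑ p ∈ T, φ (h⁻¹ * p) * ψ p := by
    rw [inner_sum]
    refine Finset.sum_congr rfl fun p _ => ?_
    rw [lp.inner_single_right]
    simp only [RCLike.inner_apply, Real.ringHom_apply, mul_comm, Φ, Ψ]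
  have h2 : ⟪Φ h, Ψ⟫_ℝ = ⟪Φ h, Ψ - ∑ p ∈ T, lp.single 2 p (Ψ p)⟫_ℝ +
      ∑ p ∈ T, φ (h⁻¹ * p) * ψ p := by
    rw [inner_sub_right, h1]; ring
  rw [← hin, h2]
  refine (norm_add_le _ _).trans_lt ?_
  have h3 : ‖⟪Φ h, Ψ - ∑ p ∈ T, lp.single 2 p (Ψ p)⟫_ℝ‖ ≤ ε / 2 := by
    refine (norm_inner_le_norm _ _).trans ?_
    rw [hnorm, ← dist_eq_norm, dist_comm]
    have h4 : ‖Φ 1‖ * (ε / (2 * (‖Φ 1‖ + 1))) ≤ ε / 2 := by
      rw [mul_div_assoc', div_le_div_iff₀ (by positivity) (by positivity)]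
      linarith only [hε]
    exact (mul_le_mul_of_nonneg_left hT.le (norm_nonneg _)).trans h4
  linarith only [h3, hh]

/-- Two potentials with four corners cross at all intermediate levels. -/
theorem cross_area [Countable G] (hS : Subgroup.closure (S : Set G) = ⊤) {F : Finset G}
    (hF : CrossProp S F) {a b a' b' : G} {f g : Dir S} (hf : IsPot a b f) (hg : IsPot a' b' g)
    {t₁ t₂ s₁ s₂ : ℝ} (ht : t₁ < t₂) (hs : s₁ < s₂) {p q r s : G}
    (hp : t₂ ≤ f.1 p) (hp' : s₂ ≤ g.1 p) (hq : f.1 q ≤ t₁) (hq' : s₂ ≤ g.1 q)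
    (hr : t₂ ≤ f.1 r) (hr' : g.1 r ≤ s₁) (hs' : f.1 s ≤ t₁) (hs'' : g.1 s ≤ s₁) :
    (t₂ - t₁) * (s₂ - s₁) ≤ ∑' u : G, osF F (cD t₁ t₂ f).1 u * osF F (cD s₁ s₂ g).1 u := by
  obtain ⟨C, hC0, hC⟩ := exists_osF_bound hS F
  set c₁ := cD t₁ t₂ f with hc₁
  set c₂ := cD s₁ s₂ g with hc₂
  let T₁ : Set ℝ := Set.Ioo t₁ t₂ \ Set.range f.1
  let T₂ : Set ℝ := Set.Ioo s₁ s₂ \ Set.range g.1
  have hV₁ : volume T₁ = ENNReal.ofReal (t₂ - t₁) := by
    rw [measure_sdiff_null ((Set.countable_range _).measure_zero _), Real.volume_Ioo]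
  have hV₂ : volume T₂ = ENNReal.ofReal (s₂ - s₁) := by
    rw [measure_sdiff_null ((Set.countable_range _).measure_zero _), Real.volume_Ioo]
  have harea := area_bilin F (T₁ := T₁) (T₂ := T₂) c₁.1 c₂.1 (by
    rintro t ⟨⟨ht1, ht2⟩, htr⟩ s₀ ⟨⟨hs1, hs2⟩, hsr⟩
    have htr' : ∀ u, f.1 u ≠ t := fun u hu => htr ⟨u, hu⟩
    have hsr' : ∀ u, g.1 u ≠ s₀ := fun u hu => hsr ⟨u, hu⟩
    have hfb : f.1 b < t := ((hf.mem_range hS s).1.trans hs').trans_lt ht1
    have hgb : g.1 b' < s₀ := ((hg.mem_range hS s).1.trans hs'').trans_lt hs1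
    have hfa : t < f.1 a := ht2.trans_le (hp.trans (hf.mem_range hS p).2)
    have hga : s₀ < g.1 a' := hs2.trans_le (hp'.trans (hg.mem_range hS p).2)
    obtain ⟨u, ⟨α, hα, h1⟩, ⟨β, hβ, h2⟩, ⟨α', hα', h3⟩, ⟨β', hβ', h4⟩⟩ :=
      hF {u | t < f.1 u} {u | s₀ < g.1 u} p r q s (ht2.trans_le hp) (hs2.trans_le hp')
        (ht2.trans_le hr) (not_lt.2 (hr'.trans hs1.le))
        (not_lt.2 (hq.trans ht1.le)) (hs2.trans_le hq')
        (not_lt.2 (hs'.trans ht1.le)) (not_lt.2 (hs''.trans hs1.le))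
        ((hf.con hS hfb (ht2.trans_le hp)).symm.trans (hf.con hS hfb (ht2.trans_le hr)))
        ((hg.con' hS hga (hr'.trans_lt hs1) hsr').symm.trans
          (hg.con' hS hga (hs''.trans_lt hs1) hsr'))
        ((hf.con' hS hfa (hq.trans_lt ht1) htr').symm.trans
          (hf.con' hS hfa (hs'.trans_lt ht1) htr'))
        ((hg.con hS hgb (hs2.trans_le hp')).symm.trans (hg.con hS hgb (hs2.trans_le hq')))
    refine ⟨u, ⟨α, hα, ?_⟩, ⟨β, hβ, ?_⟩, ⟨α', hα', ?_⟩, ⟨β', hβ', ?_⟩⟩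
    · exact lt_max_of_lt_right (lt_min ht2 h1)
    · exact max_lt ht1 ((min_le_right _ _).trans_lt (lt_of_le_of_ne (not_lt.1 h2) (htr' _)))
    · exact lt_max_of_lt_right (lt_min hs2 h3)
    · exact max_lt hs1 ((min_le_right _ _).trans_lt (lt_of_le_of_ne (not_lt.1 h4) (hsr' _))))
  have hsm : Summable fun u => osF F c₁.1 u * osF F c₂.1 u :=
    summable_mul_of_sq (hC c₁).1 (hC c₂).1
  rw [hV₁, hV₂, ← ENNReal.ofReal_mul (by linarith only [ht]),
    ← ENNReal.ofReal_tsum_of_nonneg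
      (fun u => mul_nonneg (osF_nonneg _ _ _) (osF_nonneg _ _ _)) hsm,
    ENNReal.ofReal_le_ofReal_iff
      (tsum_nonneg fun u => mul_nonneg (osF_nonneg _ _ _) (osF_nonneg _ _ _))] at harea
  exact harea

theorem cD_trD (t₁ t₂ : ℝ) (k : G) (f : Dir S) : cD t₁ t₂ (trD k f) = trD k (cD t₁ t₂ f) := rfl

/-- A clamped potential which is nearly constant on a large finite set does not cross. -/
theorem slab [Countable G] (hS : Subgroup.closure (S : Set G) = ⊤) {F : Finset G}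
    (hF : CrossProp S F) {a' b' : G} {g : Dir S} (hg : IsPot a' b' g)
    {s₁ s₂ L : ℝ} (hs : s₁ < s₂) (hL : 0 < L) :
    ∃ E : Finset G, ∃ η : ℝ, 0 < η ∧ ∀ (x y : G) (w : Dir S) (t₁ : ℝ), IsPot x y w →
      (∀ u ∈ E, ∀ α ∈ F, ∀ β ∈ F,
        |clp t₁ (t₁ + L) (w.1 (u * α)) - clp t₁ (t₁ + L) (w.1 (u * β))| ≤ η) →
      ¬ ∃ p q r s : G, t₁ + L ≤ w.1 p ∧ s₂ ≤ g.1 p ∧ w.1 q ≤ t₁ ∧ s₂ ≤ g.1 q ∧
        t₁ + L ≤ w.1 r ∧ g.1 r ≤ s₁ ∧ w.1 s ≤ t₁ ∧ g.1 s ≤ s₁ := by
  classical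
  obtain ⟨C, hC0, hC⟩ := exists_osF_bound hS F
  set ψ : G → ℝ := osF F (cD s₁ s₂ g).1 with hψdef
  have hψ : Summable fun u => ψ u ^ 2 := (hC (cD s₁ s₂ g)).1
  set A : ℝ := L * (s₂ - s₁) with hA
  have hApos : 0 < A := mul_pos hL (by linarith only [hs])
  set lam : ℝ := A / (4 * (C * L + 1)) with hlam
  have hlampos : 0 < lam := by (clear * - hL hs hC0; positivity)
  have hlamM : lam * (C * L) ≤ A / 4 := by
    rw [hlam, div_mul_eq_mul_div, div_le_div_iff₀ (by (clear * - hC0 hL; positivity)) (by norm_num)]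
    linarith only [hApos]
  obtain ⟨E, hE⟩ := (Metric.tendsto_nhds.1 hψ.hasSum (lam * (A / 4)) (by positivity)).exists
  rw [Real.dist_eq, abs_sub_comm] at hE
  have hE' : ∑' u, ψ u ^ 2 - ∑ u ∈ E, ψ u ^ 2 < lam * (A / 4) := (le_abs_self _).trans_lt hE
  set K : ℝ := (F.card : ℝ) ^ 2 with hK
  set Q : ℝ := ∑ u ∈ E, ψ u with hQ
  have hQ0 : 0 ≤ Q := Finset.sum_nonneg fun u _ => osF_nonneg _ _ _
  have hK0 : 0 ≤ K := by (clear * -; positivity)
  refine ⟨E, A / (4 * (K * Q + 1)), by (clear * - hL hs hQ0; positivity), fun x y w t₁ hw hη => ?_⟩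
  rintro ⟨p, q, r, s, hp, hp', hq, hq', hr, hr', hs1, hs2⟩
  set η : ℝ := A / (4 * (K * Q + 1)) with hηdef
  have hη0 : 0 < η := by (clear * - hL hs hQ0; positivity)
  have h1 := cross_area hS hF hw hg (by linarith only [hL] : t₁ < t₁ + L) hs (p := p) (q := q) (r := r)
    (s := s) hp hp' hq hq' hr hr' hs1 hs2
  set φ : G → ℝ := osF F (cD t₁ (t₁ + L) w).1 with hφdef
  have hφ : Summable fun u => φ u ^ 2 := (hC (cD t₁ (t₁ + L) w)).1
  have hφM : ∑' u, φ u ^ 2 ≤ C * L := by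
    refine (hC (cD t₁ (t₁ + L) w)).2.trans (mul_le_mul_of_nonneg_left ?_ hC0)
    have := hw.en_clamp (by linarith only [hL] : t₁ ≤ t₁ + L) ((hw.mem_range hS q).1.trans hq)
      (hp.trans (hw.mem_range hS p).2)
    linarith only [this]
  have hφE : ∀ u ∈ E, φ u ≤ K * η := by
    intro u hu
    have h2 : φ u ≤ ∑ α ∈ F, ∑ β ∈ F, η :=
      Finset.sum_le_sum fun α hα => Finset.sum_le_sum fun β hβ => hη u hu α hα β hβ
    rw [Finset.sum_const, Finset.sum_const, nsmul_eq_mul, nsmul_eq_mul] at h2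
    rw [hK]
    linarith only [h2]
  have hψ0 : ∀ u, 0 ≤ ψ u := fun u => osF_nonneg _ _ _
  have hφ0 : ∀ u, 0 ≤ φ u := fun u => osF_nonneg _ _ _
  have hpt : ∀ u, φ u * ψ u ≤ (if u ∈ E then K * η * ψ u - ψ u ^ 2 / lam else 0) +
      (lam * φ u ^ 2 + ψ u ^ 2 / lam) := by
    intro u
    by_cases hu : u ∈ E
    · rw [if_pos hu]
      have h3 := mul_le_mul_of_nonneg_right (hφE u hu) (hψ0 u)
      have h4 : 0 ≤ lam * φ u ^ 2 := by (clear * - hL hs hC0; positivity)
      linarith only [h4, h3]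
    · rw [if_neg hu, zero_add]
      have h3 : 0 ≤ (lam * φ u - ψ u) ^ 2 / lam := by (clear * - hL hs hC0; positivity)
      have h4 : (lam * φ u - ψ u) ^ 2 / lam = lam * φ u ^ 2 - 2 * (φ u * ψ u) + ψ u ^ 2 / lam := by
        field_simp
        ring
      have h5 : 0 ≤ φ u * ψ u := mul_nonneg (hφ0 u) (hψ0 u)
      linarith only [h5, h4, h3]
  have hs1 : Summable fun u => (if u ∈ E then K * η * ψ u - ψ u ^ 2 / lam else 0) :=
    summable_of_ne_finset_zero (s := E) fun u hu => if_neg hu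
  have hs2 : Summable fun u => lam * φ u ^ 2 + ψ u ^ 2 / lam :=
    (hφ.mul_left lam).add (hψ.div_const lam)
  have h2 : ∑' u, φ u * ψ u ≤ ∑' u, ((if u ∈ E then K * η * ψ u - ψ u ^ 2 / lam else 0) +
      (lam * φ u ^ 2 + ψ u ^ 2 / lam)) :=
    (summable_mul_of_sq hφ hψ).tsum_le_tsum hpt (hs1.add hs2)
  rw [hs1.tsum_add hs2, (hφ.mul_left lam).tsum_add (hψ.div_const lam), tsum_mul_left,
    tsum_div_const, tsum_eq_sum (s := E) (fun u hu => if_neg hu)] at h2
  have h3 : ∑ u ∈ E, (if u ∈ E then K * η * ψ u - ψ u ^ 2 / lam else 0) =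
      K * η * Q - (∑ u ∈ E, ψ u ^ 2) / lam := by
    rw [hQ, Finset.mul_sum, Finset.sum_div, ← Finset.sum_sub_distrib]
    exact Finset.sum_congr rfl fun u hu => if_pos hu
  rw [h3] at h2
  have h4 : (∑' u, ψ u ^ 2) / lam - (∑ u ∈ E, ψ u ^ 2) / lam < A / 4 := by
    rw [← sub_div, div_lt_iff₀ hlampos]
    linarith only [hE']
  have h5 : lam * ∑' u, φ u ^ 2 ≤ A / 4 :=
    (mul_le_mul_of_nonneg_left hφM hlampos.le).trans hlamM
  have h6 : K * η * Q ≤ A / 4 := by
    rw [hηdef, show K * (A / (4 * (K * Q + 1))) * Q = K * Q * A / (4 * (K * Q + 1)) by ring,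
      div_le_div_iff₀ (by (clear * - hQ0; positivity)) (by norm_num)]
    linarith only [hApos]
  have h7 : (t₁ + L - t₁) * (s₂ - s₁) = A := by rw [hA]; ring
  rw [h7] at h1
  linarith only [hApos, h1, h2, h4, h5, h6]

/-- Engine of the convergence property. -/
theorem finite_cross [Countable G] (hS : Subgroup.closure (S : Set G) = ⊤) {F : Finset G}
    (hF : CrossProp S F) {a b a' b' : G} {f g : Dir S} (hf : IsPot a b f) (hg : IsPot a' b' g)
    {t₁ t₂ s₁ s₂ : ℝ} (ht : t₁ < t₂) (hs : s₁ < s₂) :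
    {k : G | ∃ p q r s : G, t₂ ≤ f.1 (k⁻¹ * p) ∧ s₂ ≤ g.1 p ∧ f.1 (k⁻¹ * q) ≤ t₁ ∧ s₂ ≤ g.1 q ∧
      t₂ ≤ f.1 (k⁻¹ * r) ∧ g.1 r ≤ s₁ ∧ f.1 (k⁻¹ * s) ≤ t₁ ∧ g.1 s ≤ s₁}.Finite := by
  obtain ⟨C, hC0, hC⟩ := exists_osF_bound hS F
  have h0 := tendsto_conv_zero (hC (cD t₁ t₂ f)).1 (hC (cD s₁ s₂ g)).1
  have hpos : 0 < (t₂ - t₁) * (s₂ - s₁) := mul_pos (by linarith only [ht]) (by linarith only [hs])
  have h1 := (tendsto_order.1 h0).2 _ hpos
  rw [Filter.eventually_cofinite] at h1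
  refine h1.subset ?_
  rintro k ⟨p, q, r, s, hp, hp', hq, hq', hr, hr', hs1, hs2⟩
  simp only [Set.mem_ofPred_eq, not_lt]
  have h2 := cross_area hS hF (hf.trans k) hg ht hs (p := p) (q := q) (r := r) (s := s)
    hp hp' hq hq' hr hr' hs1 hs2
  refine h2.trans (le_of_eq (tsum_congr fun u => ?_))
  rw [cD_trD]
  congr 1
  exact osF_trans F (cD t₁ t₂ f).1 k u

end Vale.Agent.P239.F
end

section

/-! Basic facts: vectors, translations, points at infinity. -/

namespace Vale.Agent.P239.F.D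

open Filter Topology Set
open Vale.Agent.P239 Vale.Agent.P239.F
open scoped RealInnerProductSpace ENNReal

variable {G : Type*} [Group G] {S : Finset G}

section Tr

theorem memℓp_perm (g : G) (ω : HS S) : Memℓp (fun p : S × G => ω (edgePerm S g p)) 2 := by
  have h := lp.memℓp ω
  rw [memℓp_gen_iff (by norm_num)] at h ⊢
  exact (edgePerm S g).summable_iff.2 h

/-- Translation of edge fields. -/
noncomputable def tr (g : G) : HS S →ₗᵢ[ℝ] HS S where
  toFun ω := ⟨fun p => ω (edgePerm S g p), memℓp_perm g ω⟩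
  map_add' _ _ := rfl
  map_smul' _ _ := rfl
  norm_map' ω := by
    have h1 := lp.norm_eq_tsum_rpow (p := 2) (by norm_num) ω
    have h2 := lp.norm_eq_tsum_rpow (p := 2) (by norm_num)
      (⟨fun p => ω (edgePerm S g p), memℓp_perm g ω⟩ : HS S)
    change ‖(⟨fun p => ω (edgePerm S g p), memℓp_perm g ω⟩ : HS S)‖ = ‖ω‖
    rw [h1, h2]
    congr 1
    exact (edgePerm S g).tsum_eq (fun p => ‖ω p‖ ^ (2 : ℝ≥0∞).toReal)

theorem tr_apply (g : G) (ω : HS S) (p : S × G) : tr g ω p = ω (p.1, g⁻¹ * p.2) := rfl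

theorem tr_grad (g : G) (f : Dir S) : tr g (grad S f) = grad S (trD g f) := by
  refine lp.ext (funext fun p => ?_)
  rw [tr_apply, grad_apply, grad_apply]
  change f.1 (g⁻¹ * p.2 * (p.1 : G)) - f.1 (g⁻¹ * p.2) =
    f.1 (g⁻¹ * (p.2 * (p.1 : G))) - f.1 (g⁻¹ * p.2)
  rw [mul_assoc]

theorem tr_one (ω : HS S) : tr 1 ω = ω := by
  refine lp.ext (funext fun p => ?_)
  rw [tr_apply, inv_one, one_mul]

theorem tr_tr (g h : G) (ω : HS S) : tr g (tr h ω) = tr (g * h) ω := by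
  refine lp.ext (funext fun p => ?_)
  rw [tr_apply, tr_apply, tr_apply]
  simp only [mul_inv_rev, mul_assoc]

theorem inner_tr (g : G) (ω η : HS S) : ⟪tr g ω, tr g η⟫ = ⟪ω, η⟫ :=
  (tr g).inner_map_map ω η

theorem inner_tr_left (g : G) (ω η : HS S) : ⟪tr g ω, η⟫ = ⟪ω, tr g⁻¹ η⟫ := by
  rw [← inner_tr g ω, tr_tr, mul_inv_cancel, tr_one]

end Tr

variable (hS : Subgroup.closure (S : Set G) = ⊤)

/-- The vector of a vertex. -/
noncomputable def vec (x : G) : HS S := grad S (pot hS x)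

theorem inner_vec (x y : G) : ⟪vec hS x, vec hS y⟫ = gp hS x y := rfl

theorem inner_vec_grad (x : G) (f : Dir S) : ⟪vec hS x, grad S f⟫ = f.1 x - f.1 1 :=
  pot_isPot hS x f

theorem res_eq_norm (x y : G) : res hS x y = ‖vec hS x - vec hS y‖ ^ 2 := by
  rw [res, en_self, map_sub]; rfl

theorem vec_one : vec hS 1 = 0 := by
  have h : ‖vec hS 1‖ ^ 2 = 0 := by
    rw [← real_inner_self_eq_norm_sq, inner_vec, gp_one]
  exact norm_eq_zero.1 (pow_eq_zero_iff (two_ne_zero) |>.1 h)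

theorem eq_of_inner_grad {ω η : HS S} (hω : ω ∈ Grad S) (hη : η ∈ Grad S)
    (h : ∀ f : Dir S, ⟪ω, grad S f⟫ = ⟪η, grad S f⟫) : ω = η := by
  obtain ⟨f, hf⟩ := (Grad S).sub_mem hω hη
  have h1 : ⟪ω - η, ω - η⟫ = (0 : ℝ) := by
    rw [inner_sub_left, ← hf, h f, sub_self]
  exact sub_eq_zero.1 (inner_self_eq_zero.1 h1)

theorem vec_mem (x : G) : vec hS x ∈ Grad S := ⟨_, rfl⟩

theorem tr_mem (g : G) {ω : HS S} (h : ω ∈ Grad S) : tr g ω ∈ Grad S := by
  obtain ⟨f, rfl⟩ := h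
  exact ⟨trD g f, (tr_grad g f).symm⟩

theorem vec_mul (g x : G) : vec hS (g * x) = tr g (vec hS x) + vec hS g := by
  refine eq_of_inner_grad (vec_mem hS _) ((Grad S).add_mem (tr_mem g (vec_mem hS x))
    (vec_mem hS g)) fun f => ?_
  rw [inner_vec_grad, inner_add_left, inner_vec_grad, inner_tr_left, tr_grad, inner_vec_grad]
  change f.1 (g * x) - f.1 1 = f.1 (g⁻¹⁻¹ * x) - f.1 (g⁻¹⁻¹ * 1) + (f.1 g - f.1 1)
  rw [inv_inv, mul_one]; ring

theorem vec_inv (g : G) : vec hS g⁻¹ = - tr g⁻¹ (vec hS g) := by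
  have h := vec_mul hS g⁻¹ g
  rw [inv_mul_cancel, vec_one] at h
  exact eq_neg_of_add_eq_zero_right h.symm

end Vale.Agent.P239.F.D
end

section

/-! Points: elements of the closure of the vertices in the space of cocycles. -/

namespace Vale.Agent.P239.F.D

open Filter Topology Set
open Vale.Agent.P239 Vale.Agent.P239.F
open scoped RealInnerProductSpace ENNReal

variable {G : Type*} [Group G] {S : Finset G} (hS : Subgroup.closure (S : Set G) = ⊤)

/-- All points: vertices and their limits. -/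
def Pt : Set (G → G → ℝ) := closure (range (hb hS))

theorem hb_mem (z : G) : hb hS z ∈ Pt hS := subset_closure ⟨z, rfl⟩

theorem hb_eq (z x y : G) :
    hb hS z x y = gp hS x x - gp hS y y - 2 * (gp hS x z - gp hS y z) := by
  unfold hb; rw [res_eq, res_eq]; ring

theorem hb_eq_inner (z x y : G) :
    hb hS z x y = gp hS x x - gp hS y y - 2 * ⟪vec hS x - vec hS y, vec hS z⟫ := by
  rw [hb_eq, inner_sub_left, inner_vec, inner_vec]

theorem gpb_hb (w x z : G) : gpb hS w x (hb hS z) = (res hS w x - res hS x z + res hS w z) / 2 := by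
  unfold gpb hb; ring

theorem gpb_hb_one (x z : G) : gpb hS 1 x (hb hS z) = gp hS x z := by
  rw [gpb_hb, res_one, res_one, res_eq]; ring

variable {hS} in
/-- Induction for closed properties of points. -/
theorem Pt.closed_ind {β : G → G → ℝ} (hβ : β ∈ Pt hS) {P : (G → G → ℝ) → Prop}
    (hP : IsClosed {β | P β}) (h : ∀ z, P (hb hS z)) : P β :=
  closure_minimal (by rintro _ ⟨z, rfl⟩; exact h z) hP hβ

omit [Group G] in
theorem continuous_ev (x y : G) : Continuous fun β : G → G → ℝ => β x y :=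
  (continuous_apply y).comp (continuous_apply x)

variable {hS} in
theorem Pt.add {β : G → G → ℝ} (hβ : β ∈ Pt hS) (x y z : G) : β x y + β y z = β x z :=
  Pt.closed_ind (P := fun β => β x y + β y z = β x z) hβ
    (isClosed_eq ((continuous_ev x y).add (continuous_ev y z)) (continuous_ev x z))
    fun w => by unfold hb; ring

variable {hS} in
theorem Pt.self {β : G → G → ℝ} (hβ : β ∈ Pt hS) (x : G) : β x x = 0 := by
  have := Pt.add hβ x x x; linarith only [this]

variable {hS} in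
theorem Pt.neg {β : G → G → ℝ} (hβ : β ∈ Pt hS) (x y : G) : β y x = - β x y := by
  have := Pt.add hβ x y x; rw [Pt.self hβ] at this; linarith only [this]

variable {hS} in
theorem Pt.le {β : G → G → ℝ} (hβ : β ∈ Pt hS) (x y : G) : β x y ≤ res hS x y :=
  Pt.closed_ind (P := fun β => β x y ≤ res hS x y) hβ
    (isClosed_le (continuous_ev x y) continuous_const)
    fun w => by
      unfold hb
      have := res_triangle hS x y w
      linarith only [this]

variable {hS} in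
theorem Pt.abs_le {β : G → G → ℝ} (hβ : β ∈ Pt hS) (x y : G) : |β x y| ≤ res hS x y := by
  rw [_root_.abs_le]
  have h1 := Pt.le hβ x y
  have h2 := Pt.le hβ y x
  rw [Pt.neg hβ x y, res_comm] at h2
  exact ⟨by linarith only [h2], h1⟩

theorem isClosed_Pt : IsClosed (Pt hS) := isClosed_closure

theorem isCompact_Pt : IsCompact (Pt hS) := by
  have h : Pt hS ⊆ Set.pi univ fun x : G => Set.pi univ fun y : G =>
      Set.Icc (-res hS x y) (res hS x y) := by
    intro β hβ x _ y _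
    exact _root_.abs_le.1 (Pt.abs_le hβ x y)
  exact (isCompact_univ_pi fun x => isCompact_univ_pi fun y => isCompact_Icc).of_isClosed_subset
    (isClosed_Pt hS) h

/-- Limits along ultrafilters exist. -/
theorem exists_lim {ι : Type*} (𝒰 : Ultrafilter ι) (f : ι → G) :
    ∃ β ∈ Pt hS, Tendsto (fun i => hb hS (f i)) 𝒰 (𝓝 β) := by
  obtain ⟨β, hβ, h⟩ := isCompact_iff_ultrafilter_le_nhds.1 (isCompact_Pt hS)
    (𝒰.map fun i => hb hS (f i)) (by
      rw [le_principal_iff, Ultrafilter.coe_map, Filter.mem_map]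
      exact Eventually.of_forall fun i => hb_mem hS (f i))
  exact ⟨β, hβ, h⟩

variable {hS} in
theorem Pt.of_tendsto {ι : Type*} {l : Filter ι} [l.NeBot] {f : ι → G} {β : G → G → ℝ}
    (h : Tendsto (fun i => hb hS (f i)) l (𝓝 β)) : β ∈ Pt hS :=
  (isClosed_Pt hS).mem_of_tendsto h (Eventually.of_forall fun i => hb_mem hS (f i))

theorem Lim_subset (V : Set G) : Lim hS V ⊆ Pt hS := by
  intro β hβ
  rw [Pt, mem_closure_iff_clusterPt]
  refine ClusterPt.mono hβ (le_principal_iff.2 (Filter.mem_map.2 ?_))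
  exact Eventually.of_forall fun z => ⟨z, rfl⟩

variable {hS} in
theorem gpb_add {β : G → G → ℝ} (hβ : β ∈ Pt hS) (x y : G) :
    β x y = gp hS x x - gp hS y y - 2 * (gpb hS 1 x β - gpb hS 1 y β) := by
  have h1 := Pt.add hβ x y 1
  unfold gpb
  rw [res_one, res_one]; linarith only [h1]

theorem continuous_gpb (w x : G) : Continuous (gpb hS w x) := by
  unfold gpb
  exact (continuous_const.sub (continuous_ev x w)).div_const _

variable {hS} in
/-- Convergence to a point is convergence of the Gromov products. -/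
theorem tendsto_iff {ι : Type*} {l : Filter ι} {f : ι → G → G → ℝ} {β : G → G → ℝ}
    (hf : ∀ i, f i ∈ Pt hS) (hβ : β ∈ Pt hS) :
    Tendsto f l (𝓝 β) ↔ ∀ x, Tendsto (fun i => gpb hS 1 x (f i)) l (𝓝 (gpb hS 1 x β)) := by
  constructor
  · intro h x
    exact ((continuous_gpb hS 1 x).tendsto β).comp h
  · intro h
    rw [tendsto_pi_nhds]
    intro x
    rw [tendsto_pi_nhds]
    intro y
    rw [gpb_add hβ x y]
    simp only [fun i => gpb_add (hf i) x y]
    exact tendsto_const_nhds.sub (((h x).sub (h y)).const_mul 2)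

variable {hS} in
theorem tendsto_hb_iff {ι : Type*} {l : Filter ι} {f : ι → G} {β : G → G → ℝ} (hβ : β ∈ Pt hS) :
    Tendsto (fun i => hb hS (f i)) l (𝓝 β) ↔
      ∀ x, Tendsto (fun i => gp hS x (f i)) l (𝓝 (gpb hS 1 x β)) := by
  rw [tendsto_iff (fun i => hb_mem hS (f i)) hβ]
  simp only [gpb_hb_one]

section Act

theorem act_apply (g : G) (β : G → G → ℝ) (x y : G) : act g β x y = β (g⁻¹ * x) (g⁻¹ * y) := rfl

theorem act_one (β : G → G → ℝ) : act 1 β = β := by
  funext x y; rw [act_apply, inv_one, one_mul, one_mul]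

theorem act_act (g h : G) (β : G → G → ℝ) : act g (act h β) = act (g * h) β := by
  funext x y; simp only [act_apply, mul_inv_rev, mul_assoc]

theorem act_hb (g z : G) : act g (hb hS z) = hb hS (g * z) := by
  funext x y
  rw [act_apply]
  unfold hb
  rw [← res_mul hS g (g⁻¹ * x) z, ← res_mul hS g (g⁻¹ * y) z, mul_inv_cancel_left,
    mul_inv_cancel_left]

theorem continuous_act (g : G) : Continuous (act g : (G → G → ℝ) → G → G → ℝ) :=
  continuous_pi fun _ => continuous_pi fun _ => continuous_ev _ _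

theorem act_inj {g : G} {β γ : G → G → ℝ} (h : act g β = act g γ) : β = γ := by
  have := congrArg (act g⁻¹) h
  rwa [act_act, act_act, inv_mul_cancel, act_one, act_one] at this

variable {hS} in
theorem Pt.act {β : G → G → ℝ} (hβ : β ∈ Pt hS) (g : G) : F.act g β ∈ Pt hS :=
  Pt.closed_ind (P := fun β => F.act g β ∈ Pt hS) hβ
    ((isClosed_Pt hS).preimage (continuous_act g)) fun z => by rw [act_hb]; exact hb_mem hS _

end Act

end Vale.Agent.P239.F.D
end

section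

namespace Vale.Agent.P239.F.D

section

open Filter Topology Set
open Vale.Agent.P239 Vale.Agent.P239.F
open scoped RealInnerProductSpace ENNReal

variable {G : Type*} [Group G] {S : Finset G} (hS : Subgroup.closure (S : Set G) = ⊤)

theorem D3_1_coord (ω : HS S) : Tendsto (fun q : S × G => ω q) cofinite (𝓝 0) := by
  have h := lp.memℓp ω
  rw [memℓp_gen_iff (by norm_num)] at h
  have h2 : Tendsto (fun q : S × G => ‖ω q‖ ^ (2 : ℕ)) cofinite (𝓝 0) := by
    refine h.tendsto_cofinite_zero.congr fun q => ?_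
    rw [ENNReal.toReal_ofNat, Real.rpow_ofNat]
  have h3 := (Real.continuous_sqrt.tendsto 0).comp h2
  rw [Real.sqrt_zero] at h3
  rw [tendsto_zero_iff_norm_tendsto_zero]
  refine h3.congr fun q => ?_
  simp only [Function.comp_apply]
  exact Real.sqrt_sq (norm_nonneg _)

/-- Matrix coefficients vanish at infinity. -/
theorem tendsto_inner_tr (ω η : HS S) :
    Tendsto (fun g : G => ⟪tr g ω, η⟫) cofinite (𝓝 0) := by
  classical
  have hnorm : ∀ h : G, ‖tr h ω‖ = ‖ω‖ := fun h => (tr h).norm_map ω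
  rw [Metric.tendsto_nhds]
  intro ε hε
  have hsum : HasSum (fun p : S × G => lp.single 2 p (η p)) η := lp.hasSum_single (by norm_num) η
  obtain ⟨T, hT⟩ := ((Metric.tendsto_nhds.1 hsum (ε / (2 * (‖ω‖ + 1))) (by positivity))).exists
  have hfin : Tendsto (fun h : G => ∑ p ∈ T, (ω (p.1, h⁻¹ * p.2)) * η p) cofinite (𝓝 0) := by
    have h0 : (0 : ℝ) = ∑ p ∈ T, 0 * η p := by simp only [zero_mul, Finset.sum_const_zero]
    rw [h0]
    refine tendsto_finsetSum _ fun p _ => Tendsto.mul_const _ ?_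
    refine (D3_1_coord ω).comp (Function.Injective.tendsto_cofinite ?_)
    intro a b hab
    have := (Prod.ext_iff.1 hab).2
    simpa only [mul_left_inj, inv_inj] using this
  filter_upwards [Metric.tendsto_nhds.1 hfin (ε / 2) (by positivity)] with h hh
  rw [dist_zero_right] at hh ⊢
  have h1 : ⟪tr h ω, ∑ p ∈ T, lp.single 2 p (η p)⟫ =
      ∑ p ∈ T, (ω (p.1, h⁻¹ * p.2)) * η p := by
    rw [inner_sum]
    refine Finset.sum_congr rfl fun p _ => ?_
    rw [lp.inner_single_right, tr_apply]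
    simp [mul_comm]
  have h2 : ⟪tr h ω, η⟫ = ⟪tr h ω, η - ∑ p ∈ T, lp.single 2 p (η p)⟫ +
      ∑ p ∈ T, (ω (p.1, h⁻¹ * p.2)) * η p := by
    rw [inner_sub_right, h1]; ring
  rw [h2]
  refine (norm_add_le _ _).trans_lt ?_
  have h3 : ‖⟪tr h ω, η - ∑ p ∈ T, lp.single 2 p (η p)⟫‖ ≤ ε / 2 := by
    refine (norm_inner_le_norm _ _).trans ?_
    rw [hnorm, ← dist_eq_norm, dist_comm]
    have h4 : ‖ω‖ * (ε / (2 * (‖ω‖ + 1))) ≤ ε / 2 := by
      rw [mul_div_assoc', div_le_div_iff₀ (by positivity) (by positivity)]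
      linarith only [hε]
    exact (mul_le_mul_of_nonneg_left hT.le (norm_nonneg _)).trans h4
  linarith only [h3, hh]

end

section

open Filter Topology Set
open Vale.Agent.P239 Vale.Agent.P239.F
open scoped RealInnerProductSpace ENNReal

variable {G : Type*} [Group G] {S : Finset G} (hS : Subgroup.closure (S : Set G) = ⊤)

theorem exists_weak_lim {E : Type*} [NormedAddCommGroup E] [InnerProductSpace ℝ E]
    [CompleteSpace E] {ι : Type*} (𝒰 : Ultrafilter ι) (f : ι → E) (C : ℝ) (hf : ∀ i, ‖f i‖ ≤ C) :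
    ∃ c : E, ‖c‖ ≤ C ∧ ∀ η : E, Tendsto (fun i => ⟪f i, η⟫) 𝒰 (𝓝 ⟪c, η⟫) := by
  have hex : ∀ η : E, ∃ a : ℝ, |a| ≤ C * ‖η‖ ∧
      Tendsto (fun i => ⟪f i, η⟫) 𝒰 (𝓝 a) := by
    intro η
    have hbd : ∀ i, |⟪f i, η⟫| ≤ C * ‖η‖ := fun i =>
      (abs_real_inner_le_norm _ _).trans (mul_le_mul_of_nonneg_right (hf i) (norm_nonneg _))
    obtain ⟨a, ha, hle⟩ := (isCompact_Icc (a := -(C * ‖η‖)) (b := C * ‖η‖)).ultrafilter_le_nhds'
      (𝒰.map fun i => ⟪f i, η⟫) (by
        rw [Ultrafilter.mem_map]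
        exact Filter.univ_mem' fun i => abs_le.1 (hbd i))
    exact ⟨a, abs_le.2 ha, hle⟩
  choose L hL hLt using hex
  have hC : 0 ≤ C := by
    obtain ⟨i⟩ := Filter.nonempty_of_neBot (𝒰 : Filter ι)
    exact (norm_nonneg (f i)).trans (hf i)
  let Λ : E →ₗ[ℝ] ℝ :=
    { toFun := L
      map_add' := fun x y => by
        refine tendsto_nhds_unique (hLt (x + y)) ?_
        simpa [inner_add_right] using (hLt x).add (hLt y)
      map_smul' := fun r x => by
        refine tendsto_nhds_unique (hLt (r • x)) ?_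
        simpa only [real_inner_smul_right, Real.ringHom_apply, smul_eq_mul] using (hLt x).const_mul r }
  let Λc : E →L[ℝ] ℝ := Λ.mkContinuous C (fun x => by rw [Real.norm_eq_abs]; exact hL x)
  refine ⟨(InnerProductSpace.toDual ℝ E).symm Λc, ?_, fun η => ?_⟩
  · rw [LinearIsometryEquiv.norm_map]
    exact Λ.mkContinuous_norm_le hC _
  · rw [InnerProductSpace.toDual_symm_apply]
    exact hLt η

end

section

/-! Proof of `tendsto_hb_mul` (D3.3). -/


open Filter Topology Set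
open Vale.Agent.P239 Vale.Agent.P239.F
open scoped RealInnerProductSpace ENNReal

variable {G : Type*} [Group G] {S : Finset G} (hS : Subgroup.closure (S : Set G) = ⊤)

theorem tendsto_hb_mul {ι : Type*} {l : Filter ι} [l.NeBot] {f : ι → G} {β : G → G → ℝ} (w : G)
    (hf : Tendsto f l cofinite) (h : Tendsto (fun i => hb hS (f i)) l (𝓝 β)) :
    Tendsto (fun i => hb hS (f i * w)) l (𝓝 β) := by
  have hβ : β ∈ Pt hS := Pt.of_tendsto h
  rw [tendsto_hb_iff hβ] at h ⊢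
  intro x
  have h1 : Tendsto (fun i => ⟪vec hS x, tr (f i) (vec hS w)⟫) l (𝓝 0) := by
    refine ((tendsto_inner_tr (vec hS w) (vec hS x)).comp hf).congr fun i => ?_
    exact real_inner_comm _ _
  have h2 : ∀ i, gp hS x (f i * w) = ⟪vec hS x, tr (f i) (vec hS w)⟫ + gp hS x (f i) := by
    intro i
    rw [← inner_vec, vec_mul, inner_add_right, inner_vec]
  simp only [h2]
  have h3 := h1.add (h x)
  rwa [zero_add] at h3

end

section

/-! Proof of D3.4. -/


open Filter Topology Set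
open Vale.Agent.P239 Vale.Agent.P239.F
open scoped RealInnerProductSpace ENNReal

variable {G : Type*} [Group G] {S : Finset G} (hS : Subgroup.closure (S : Set G) = ⊤)

/-- Version of D3.3 with a bounded error: `w i` in a finite set. -/
theorem tendsto_hb_mul' {ι : Type*} {l : Filter ι} [l.NeBot] {f w : ι → G} {β : G → G → ℝ}
    (W : Finset G) (hw : ∀ i, w i ∈ W)
    (hf : Tendsto f l cofinite) (h : Tendsto (fun i => hb hS (f i)) l (𝓝 β)) :
    Tendsto (fun i => hb hS (f i * w i)) l (𝓝 β) := by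
  intro O hO
  have h1 : ∀ᶠ i in l, ∀ v ∈ W, hb hS (f i * v) ∈ O := by
    rw [Filter.eventually_all_finset]
    intro v _
    exact (tendsto_hb_mul hS v hf h) hO
  exact h1.mono fun i hi => hi (w i) (hw i)

end

section

/-! D3.5: hyperbolicity with one point. -/


open Filter Topology Set
open Vale.Agent.P239 Vale.Agent.P239.F
open scoped RealInnerProductSpace ENNReal

variable {G : Type*} [Group G] {S : Finset G} (hS : Subgroup.closure (S : Set G) = ⊤)

section Four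

variable {hS} {δ : ℝ} (h4 : Four hS δ)
include h4

end Four

end

section

open Filter Topology Set
open Vale.Agent.P239 Vale.Agent.P239.F
open scoped RealInnerProductSpace ENNReal

variable {G : Type*} [Group G] {S : Finset G} (hS : Subgroup.closure (S : Set G) = ⊤)

section Four

variable {hS} {δ : ℝ} (h4 : Four hS δ)
include h4

end Four

end

section

open Filter Topology Set
open Vale.Agent.P239 Vale.Agent.P239.F
open scoped RealInnerProductSpace ENNReal

variable {G : Type*} [Group G] {S : Finset G} (hS : Subgroup.closure (S : Set G) = ⊤)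

/-- the clamped potential -/
noncomputable def D3_7_m (s : ℝ) (z : G) : Dir S :=
  cD ((pot hS z).1 1) ((pot hS z).1 1 + s) (pot hS z)

theorem D3_7_norm {s : ℝ} (hs : 0 ≤ s) (z : G) : ‖grad S (D3_7_m hS s z)‖ ≤ √s := by
  have h1 : en S (D3_7_m hS s z) (D3_7_m hS s z) ≤ s := by
    refine (en_le_of_contr (pot hS z) (D3_7_m hS s z) fun _ => clp_sq _ _).trans ?_
    rw [pot_isPot hS z]
    have h2 := (clp_mem (s := (pot hS z).1 1) (t := (pot hS z).1 1 + s) (by linarith only [hs])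
      ((pot hS z).1 z)).2
    have h3 := (clp_mem (s := (pot hS z).1 1) (t := (pot hS z).1 1 + s) (by linarith only [hs])
      ((pot hS z).1 1)).1
    change clp _ _ _ - clp _ _ _ ≤ s
    linarith
  rw [en_self] at h1
  rw [← Real.sqrt_sq (norm_nonneg (grad S (D3_7_m hS s z)))]
  exact Real.sqrt_le_sqrt h1

theorem D3_7_inner {s : ℝ} (hs : 0 ≤ s) (x z : G) :
    ⟪vec hS x, grad S (D3_7_m hS s z)⟫ = min s (gp hS x z) := by
  rw [inner_vec_grad]
  have h0 := gp_eq hS z x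
  have h1 := gp_nonneg hS z x
  rw [gp_comm hS x z]
  have e1 : (D3_7_m hS s z).1 1 = (pot hS z).1 1 := clp_of_ge (by linarith) le_rfl
  rw [e1]
  change clp _ _ _ - _ = _
  rcases le_total s (gp hS z x) with h | h
  · rw [clp_of_le (by linarith only [hs]) (by linarith only [h0, h]), min_eq_left h]
    ring
  · rw [min_eq_right h]
    unfold clp
    rw [min_eq_right (by linarith only [h0, h]), max_eq_right (by linarith only [h0, h1]), h0]

theorem D3_7_ultra {β : G → G → ℝ} (hβ : β ∈ Pt hS) :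
    ∃ 𝒰 : Ultrafilter G, Tendsto (fun z => hb hS z) 𝒰 (𝓝 β) := by
  have hne : (comap (hb hS) (𝓝 β)).NeBot := by
    rw [comap_neBot_iff]
    intro t ht
    obtain ⟨γ, hγ, z, rfl⟩ := mem_closure_iff_nhds.1 hβ t ht
    exact ⟨z, hγ⟩
  refine ⟨Ultrafilter.of (comap (hb hS) (𝓝 β)), ?_⟩
  exact tendsto_comap.mono_left (Ultrafilter.of_le _)

section Four

variable {hS} {δ : ℝ} (h4 : Four hS δ)
include h4

theorem exists_centre {β : G → G → ℝ} (hβ : β ∈ Pt hS) (hfin : IsFin hS β) :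
    ∃ c ∈ Grad S, ∀ x, ⟪vec hS x, c⟫ = gpb hS 1 x β := by
  obtain ⟨C, hC⟩ := hfin
  obtain ⟨𝒰, h𝒰⟩ := D3_7_ultra hS hβ
  have hgp : ∀ x, Tendsto (fun z => gp hS x z) 𝒰 (𝓝 (gpb hS 1 x β)) :=
    (tendsto_hb_iff hβ).1 h𝒰
  have hC0 : 0 ≤ C := by
    refine le_trans ?_ (hC 1)
    exact ge_of_tendsto' (hgp 1) fun z => gp_nonneg hS 1 z
  obtain ⟨c, -, hc⟩ := exists_weak_lim 𝒰 (fun z => grad S (D3_7_m hS (C + 1) z)) (√(C + 1))
    (fun z => D3_7_norm hS (by linarith only [hC0]) z)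
  have hcomp : CompleteSpace (Grad S) := (isClosed_Grad hS).completeSpace_coe
  refine ⟨c, ?_, fun x => ?_⟩
  · rw [← Submodule.orthogonal_orthogonal (Grad S), Submodule.mem_orthogonal']
    intro η hη
    refine tendsto_nhds_unique (hc η) ?_
    refine tendsto_const_nhds.congr fun z => ?_
    exact ((Submodule.mem_orthogonal _ _).1 hη _ ⟨_, rfl⟩).symm
  · rw [real_inner_comm]
    refine tendsto_nhds_unique (hc (vec hS x)) ?_
    have h1 : Tendsto (fun z => min (C + 1) (gp hS x z)) 𝒰 (𝓝 (min (C + 1) (gpb hS 1 x β))) :=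
      tendsto_const_nhds.min (hgp x)
    rw [min_eq_right (by have := hC x; linarith only [this])] at h1
    refine h1.congr fun z => ?_
    rw [real_inner_comm, D3_7_inner hS (by linarith only [hC0])]

end Four

end

section

/-! Convergence dynamics: the clamped potentials converge weakly to the centre. -/


open Filter Topology Set
open Vale.Agent.P239 Vale.Agent.P239.F
open scoped RealInnerProductSpace ENNReal

variable {G : Type*} [Group G] {S : Finset G} (hS : Subgroup.closure (S : Set G) = ⊤)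

section Four

variable {hS} {δ : ℝ} (h4 : Four hS δ)
include h4

end Four

end

section

/-! D3.9: two vertices close to a point of infinite type have a large Gromov product. -/


open Filter Topology Set
open Vale.Agent.P239 Vale.Agent.P239.F
open scoped RealInnerProductSpace ENNReal

variable {G : Type*} [Group G] {S : Finset G} (hS : Subgroup.closure (S : Set G) = ⊤)

section Four

variable {hS} {δ : ℝ} (h4 : Four hS δ)
include h4

theorem gp_large {β : G → G → ℝ} (hβ : β ∈ Pt hS) (hfin : ¬ IsFin hS β)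
    {ι : Type*} {l : Filter ι} {f : ι → G} (h : Tendsto (fun i => hb hS (f i)) l (𝓝 β)) (N : ℝ) :
    ∃ A ∈ l, ∀ i ∈ A, ∀ j ∈ A, N ≤ gp hS (f i) (f j) := by
  have hδ : 0 ≤ δ := by
    have := h4 1 1 1 1
    simp only [res_self, add_zero, max_self, zero_add] at this
    exact this
  have hx : ∃ x, N + δ < gpb hS 1 x β := by
    by_contra hcon
    push Not at hcon
    exact hfin ⟨N + δ, hcon⟩
  obtain ⟨x, hx⟩ := hx
  have h1 := (tendsto_hb_iff hβ).1 h x
  refine ⟨{i | N + δ < gp hS x (f i)}, h1.eventually (lt_mem_nhds hx), ?_⟩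
  intro i hi j hj
  have h2 := h4.gp (f i) x (f j)
  rw [gp_comm hS (f i) x] at h2
  have h3 : N + δ < min (gp hS x (f i)) (gp hS x (f j)) := lt_min hi hj
  linarith only [hδ, h2, h3]

end Four

end

section

open Filter Topology Set
open Vale.Agent.P239 Vale.Agent.P239.F
open scoped RealInnerProductSpace ENNReal

variable {G : Type*} [Group G] {S : Finset G} (hS : Subgroup.closure (S : Set G) = ⊤)

section Four

variable {hS} {δ : ℝ} (h4 : Four hS δ)
include h4

theorem tendsto_act_fin {β : G → G → ℝ} (hβ : β ∈ Pt hS) (hfin : IsFin hS β)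
    {ι : Type*} {l : Filter ι} [l.NeBot] {f : ι → G} {γ : G → G → ℝ} (hf : Tendsto f l cofinite)
    (h : Tendsto (fun i => hb hS (f i)) l (𝓝 γ)) :
    Tendsto (fun i => act (f i) β) l (𝓝 γ) := by
  obtain ⟨c, -, hc⟩ := exists_centre h4 hβ hfin
  have key : ∀ z x y : G, act z β x y = hb hS z x y - 2 * ⟪tr z⁻¹ (vec hS x - vec hS y), c⟫ := by
    intro z x y
    have h1 : ∀ x : G, gp hS (z⁻¹ * x) (z⁻¹ * x) = res hS x z := by
      intro x
      rw [← res_one, ← res_mul hS z 1 (z⁻¹ * x), mul_one, mul_inv_cancel_left, res_comm]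
    rw [act_apply, gpb_add hβ, ← hc, ← hc, h1, h1, ← inner_sub_left, vec_mul, vec_mul,
      add_sub_add_right_eq_sub, map_sub]
    rfl
  rw [tendsto_pi_nhds]
  intro x
  rw [tendsto_pi_nhds]
  intro y
  simp only [key]
  have h2 : Tendsto (fun i => ⟪tr (f i)⁻¹ (vec hS x - vec hS y), c⟫) l (𝓝 0) := by
    have h3 := (tendsto_inner_tr c (vec hS x - vec hS y)).comp hf
    refine h3.congr fun i => ?_
    rw [Function.comp_apply, inner_tr_left, real_inner_comm]
  have h4 := (((continuous_ev x y).tendsto γ).comp h).sub (h2.const_mul 2)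
  simpa using h4

end Four

end

section

/-! Proof of D3.11. -/


open Filter Topology Set
open Vale.Agent.P239 Vale.Agent.P239.F
open scoped RealInnerProductSpace ENNReal

variable {G : Type*} [Group G] {S : Finset G} (hS : Subgroup.closure (S : Set G) = ⊤)

section Four

variable {hS} {δ : ℝ} (h4 : Four hS δ)
include h4

theorem isFin_of_bdd {ι : Type*} {l : Filter ι} [l.NeBot] {f : ι → G} {β : G → G → ℝ}
    (h : Tendsto (fun i => hb hS (f i)) l (𝓝 β)) {C : ℝ} (hC : ∀ᶠ i in l, res hS 1 (f i) ≤ C) :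
    IsFin hS β := by
  have hβ : β ∈ Pt hS := Pt.of_tendsto h
  refine ⟨C, fun x => ?_⟩
  refine le_of_tendsto ((tendsto_hb_iff hβ).1 h x) (hC.mono fun i hi => ?_)
  rw [res_one] at hi
  calc gp hS x (f i) = gp hS (f i) x := gp_comm hS _ _
    _ ≤ gp hS (f i) (f i) := gp_le hS _ _
    _ ≤ C := hi

end Four

end

section

open Filter Topology Set
open Vale.Agent.P239 Vale.Agent.P239.F
open scoped RealInnerProductSpace ENNReal

variable {G : Type*} [Group G] {S : Finset G} (hS : Subgroup.closure (S : Set G) = ⊤)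

section Area

/-- Clamping decreases the oscillation. -/
theorem D3_16_osF_clamp (F : Finset G) (f : Dir S) (t₁ t₂ : ℝ) (u : G) :
    osF F (cD t₁ t₂ f).1 u ≤ osF F f.1 u := by
  refine Finset.sum_le_sum fun a _ => Finset.sum_le_sum fun b _ => ?_
  change |clp t₁ t₂ (f.1 (u * a)) - clp t₁ t₂ (f.1 (u * b))| ≤ _
  unfold clp
  exact (abs_max_sub_max_le_max _ _ _ _).trans (by
    rw [sub_self, abs_zero, max_eq_right (abs_nonneg _)]
    exact (abs_min_sub_min_le_max _ _ _ _).trans (by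
      rw [sub_self, abs_zero, max_eq_right (abs_nonneg _)]))

include hS in
/-- `f (k * x) - f k` tends to `0`. -/
theorem D3_16_coord (f : Dir S) (x : G) {ε : ℝ} (hε : 0 < ε) :
    {k : G | ε ≤ |f.1 (k * x) - f.1 k|}.Finite := by
  have h := (finite_en_trD f (pot hS x) hε).preimage (f := fun k : G => k⁻¹)
    inv_injective.injOn
  refine h.subset fun k hk => ?_
  change ε ≤ |en S (trD k⁻¹ f) (pot hS x)|
  rw [en_comm, pot_isPot hS x]
  change ε ≤ |f.1 (k⁻¹⁻¹ * x) - f.1 (k⁻¹⁻¹ * 1)|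
  rw [inv_inv, mul_one]
  exact hk

/-- One sign case. -/
theorem D3_16_one [Countable G] {F : Finset G} (hF : CrossProp S F) (a b c d : G) {ε η : ℝ}
    (hε : 0 < ε) (hη : 0 < η) :
    {k : G | ∃ w : G, η ≤ (pot hS c - pot hS d).1 w - (pot hS c - pot hS d).1 k⁻¹ ∧
      ε ≤ (pot hS a - pot hS b).1 (k * w) - (pot hS a - pot hS b).1 k}.Finite := by
  set v := pot hS a - pot hS b with hv
  set u := pot hS c - pot hS d with hu
  have hvp : IsPot a b v := pot_sub_isPot hS a b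
  have hup : IsPot c d u := pot_sub_isPot hS c d
  obtain ⟨C, hC0, hC⟩ := exists_osF_bound hS F
  have h0 := tendsto_conv_zero (hC v).1 (hC u).1
  have hpos : 0 < (3 * ε / 4) * (3 * η / 4) := by positivity
  have h1 := (tendsto_order.1 h0).2 _ hpos
  rw [Filter.eventually_cofinite] at h1
  have h1' := h1.preimage (f := fun k : G => k⁻¹) inv_injective.injOn
  have hA1 := D3_16_coord hS v c (ε := ε / 4) (by positivity)
  have hA2 := D3_16_coord hS v d (ε := ε / 4) (by positivity)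
  have hB1 := (D3_16_coord hS u a (ε := η / 4) (by positivity)).preimage
    (f := fun k : G => k⁻¹) inv_injective.injOn
  refine (h1'.union (hA1.union (hA2.union hB1))).subset ?_
  rintro k ⟨w, hw1, hw2⟩
  by_contra hcon
  rw [mem_union, mem_union, mem_union, not_or, not_or, not_or] at hcon
  obtain ⟨hc1, hc2, hc3, hc4⟩ := hcon
  have hc1 : ∑' x, osF F v.1 (k⁻¹⁻¹ * x) * osF F u.1 x < (3 * ε / 4) * (3 * η / 4) :=
    not_not.1 hc1
  have hc2 : |v.1 (k * c) - v.1 k| < ε / 4 := not_le.1 hc2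
  have hc3 : |v.1 (k * d) - v.1 k| < ε / 4 := not_le.1 hc3
  have hc4 : |u.1 (k⁻¹ * a) - u.1 k⁻¹| < η / 4 := not_le.1 hc4
  rw [abs_lt] at hc2 hc3 hc4
  have htr : ∀ x, (trD k⁻¹ v).1 x = v.1 (k * x) := fun x => by
    change v.1 (k⁻¹⁻¹ * x) = _
    rw [inv_inv]
  have hva := (hvp.mem_range hS (k * w)).2
  have huc := (hup.mem_range hS w).2
  have hud := (hup.mem_range hS k⁻¹).1
  have hx := cross_area hS hF (hvp.trans k⁻¹) hup (t₁ := v.1 k + ε / 4) (t₂ := v.1 k + ε)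
    (s₁ := u.1 k⁻¹ + η / 4) (s₂ := u.1 k⁻¹ + η) (by linarith only [hε]) (by linarith only [hη])
    (p := w) (q := c) (r := k⁻¹ * a) (s := d)
    (by rw [htr]; linarith only [hw2]) (by linarith only [hw1]) (by rw [htr]; linarith only [hc2]) (by linarith only [hw1, huc])
    (by rw [htr, mul_inv_cancel_left]; linarith only [hw2, hva]) (by linarith only [hc4]) (by rw [htr]; linarith only [hc3])
    (by linarith only [hη, hud])
  have hsum : ∑' x, osF F (cD (v.1 k + ε / 4) (v.1 k + ε) (trD k⁻¹ v)).1 x *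
      osF F (cD (u.1 k⁻¹ + η / 4) (u.1 k⁻¹ + η) u).1 x ≤
      ∑' x, osF F v.1 (k⁻¹⁻¹ * x) * osF F u.1 x := by
    have heq : ∀ x, osF F v.1 (k⁻¹⁻¹ * x) = osF F (trD k⁻¹ v).1 x := fun x =>
      (osF_trans F v.1 k⁻¹ x).symm
    simp only [heq]
    refine Summable.tsum_le_tsum (fun x => ?_)
      (summable_mul_of_sq (hC _).1 (hC _).1) (summable_mul_of_sq (hC _).1 (hC _).1)
    exact mul_le_mul (D3_16_osF_clamp F _ _ _ x) (D3_16_osF_clamp F _ _ _ x)
      (osF_nonneg _ _ _) (osF_nonneg _ _ _)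
  linarith only [hc1, hsum, hx]

theorem D3_16_swap (a b w : G) :
    (pot hS b - pot hS a).1 w = - (pot hS a - pot hS b).1 w := by
  change (pot hS b).1 w - (pot hS a).1 w = -((pot hS a).1 w - (pot hS b).1 w)
  ring

theorem cp_unif [Countable G] {F : Finset G} (hF : CrossProp S F) (a b c d : G) {ε η : ℝ}
    (hε : 0 < ε) (hη : 0 < η) :
    {k : G | ∃ w : G, η ≤ |(pot hS c - pot hS d).1 w - (pot hS c - pot hS d).1 k⁻¹| ∧
      ε ≤ |(pot hS a - pot hS b).1 (k * w) - (pot hS a - pot hS b).1 k|}.Finite := by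
  refine ((D3_16_one hS hF a b c d hε hη).union ((D3_16_one hS hF a b d c hε hη).union
    ((D3_16_one hS hF b a c d hε hη).union (D3_16_one hS hF b a d c hε hη)))).subset ?_
  rintro k ⟨w, hw1, hw2⟩
  rcases le_abs.1 hw1 with h1 | h1 <;> rcases le_abs.1 hw2 with h2 | h2
  · exact Or.inl ⟨w, h1, h2⟩
  · refine Or.inr (Or.inr (Or.inl ⟨w, h1, ?_⟩))
    rw [D3_16_swap hS a b, D3_16_swap hS a b]; linarith only [h2]
  · refine Or.inr (Or.inl ⟨w, ?_, h2⟩)
    rw [D3_16_swap hS c d, D3_16_swap hS c d]; linarith only [h1]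
  · refine Or.inr (Or.inr (Or.inr ⟨w, ?_, ?_⟩))
    · rw [D3_16_swap hS c d, D3_16_swap hS c d]; linarith only [h1]
    · rw [D3_16_swap hS a b, D3_16_swap hS a b]; linarith only [h2]

end Area

end

section

/-! D3.17 -/


open Filter Topology Set
open Vale.Agent.P239 Vale.Agent.P239.F
open scoped RealInnerProductSpace ENNReal

variable {G : Type*} [Group G] {S : Finset G} (hS : Subgroup.closure (S : Set G) = ⊤)

section Area

omit [Group G] in
/-- Neighbourhoods of a point are given by finitely many coordinates. -/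
theorem D3_17_nhds {x : G → G → ℝ} {O : Set (G → G → ℝ)} (hO : O ∈ 𝓝 x) :
    ∃ I : Finset (G × G), ∃ ε : ℝ, 0 < ε ∧
      ∀ β : G → G → ℝ, (∀ p ∈ I, |β p.1 p.2 - x p.1 p.2| < ε) → β ∈ O := by
  classical
  let 𝓕 : Filter (G → G → ℝ) :=
    { sets := {O | ∃ I : Finset (G × G), ∃ ε : ℝ, 0 < ε ∧
        ∀ β : G → G → ℝ, (∀ p ∈ I, |β p.1 p.2 - x p.1 p.2| < ε) → β ∈ O}
      univ_sets := ⟨∅, 1, one_pos, fun _ _ => mem_univ _⟩
      sets_of_superset := by
        rintro A B ⟨I, ε, hε, h⟩ hAB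
        exact ⟨I, ε, hε, fun β hβ => hAB (h β hβ)⟩
      inter_sets := by
        rintro A B ⟨I, ε, hε, h⟩ ⟨J, η, hη, h'⟩
        refine ⟨I ∪ J, min ε η, lt_min hε hη, fun β hβ => ⟨h β fun p hp => ?_, h' β fun p hp => ?_⟩⟩
        · exact (hβ p (Finset.mem_union_left _ hp)).trans_le (min_le_left _ _)
        · exact (hβ p (Finset.mem_union_right _ hp)).trans_le (min_le_right _ _) }
  have h1 : Tendsto (fun β : G → G → ℝ => β) 𝓕 (𝓝 x) := by
    rw [tendsto_pi_nhds]
    intro a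
    rw [tendsto_pi_nhds]
    intro b
    rw [Metric.tendsto_nhds]
    intro ε hε
    refine ⟨{(a, b)}, ε, hε, fun β hβ => ?_⟩
    have := hβ (a, b) (Finset.mem_singleton_self _)
    simpa only [Real.dist_eq, mem_ofPred_eq, gt_iff_lt] using this
  exact h1 hO

/-- Differences of coordinates of vertices. -/
theorem D3_17_diff (z w x y : G) :
    hb hS z x y - hb hS w x y = -2 * ((pot hS x - pot hS y).1 z - (pot hS x - pot hS y).1 w) := by
  rw [hb_eq, hb_eq, gp_eq, gp_eq, gp_eq, gp_eq]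
  change _ = -2 * ((pot hS x).1 z - (pot hS y).1 z - ((pot hS x).1 w - (pot hS y).1 w))
  rw [gp_eq, gp_eq]
  ring

theorem cp_unif' [Countable G] {F : Finset G} (hF : CrossProp S F) {ι : Type*} {l : Filter ι}
    {k : ι → G} {x y : G → G → ℝ} (hk : Tendsto k l cofinite)
    (hx : Tendsto (fun i => hb hS (k i)) l (𝓝 x)) (hy : Tendsto (fun i => hb hS (k i)⁻¹) l (𝓝 y))
    {O O' : Set (G → G → ℝ)} (hO : O ∈ 𝓝 x) (hO' : O' ∈ 𝓝 y) :
    ∀ᶠ i in l, ∀ w : G, hb hS w ∉ O' → hb hS (k i * w) ∈ O := by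
  obtain ⟨I, ε, hε, hI⟩ := D3_17_nhds hO
  obtain ⟨J, η, hη, hJ⟩ := D3_17_nhds hO'
  have e1 : ∀ᶠ i in l, ∀ p ∈ I, |hb hS (k i) p.1 p.2 - x p.1 p.2| < ε / 2 := by
    rw [Filter.eventually_all_finset]
    intro p _
    have h := ((continuous_ev p.1 p.2).tendsto x).comp hx
    have h2 := Metric.tendsto_nhds.1 h (ε / 2) (half_pos hε)
    filter_upwards [h2] with i hi
    simpa [Real.dist_eq] using hi
  have e2 : ∀ᶠ i in l, ∀ p ∈ J, |hb hS (k i)⁻¹ p.1 p.2 - y p.1 p.2| < η / 2 := by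
    rw [Filter.eventually_all_finset]
    intro p _
    have h := ((continuous_ev p.1 p.2).tendsto y).comp hy
    have h2 := Metric.tendsto_nhds.1 h (η / 2) (half_pos hη)
    filter_upwards [h2] with i hi
    simpa [Real.dist_eq] using hi
  have e3 : ∀ᶠ i in l, ∀ p ∈ I, ∀ q ∈ J, k i ∉ {k : G | ∃ w : G,
      η / 4 ≤ |(pot hS q.1 - pot hS q.2).1 w - (pot hS q.1 - pot hS q.2).1 k⁻¹| ∧
      ε / 4 ≤ |(pot hS p.1 - pot hS p.2).1 (k * w) - (pot hS p.1 - pot hS p.2).1 k|} := by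
    rw [Filter.eventually_all_finset]
    intro p _
    rw [Filter.eventually_all_finset]
    intro q _
    exact hk (cp_unif hS hF p.1 p.2 q.1 q.2 (by positivity) (by positivity)).compl_mem_cofinite
  filter_upwards [e1, e2, e3] with i h1 h2 h3 w hw
  have hq : ∃ q ∈ J, η ≤ |hb hS w q.1 q.2 - y q.1 q.2| := by
    by_contra hcon
    push Not at hcon
    exact hw (hJ _ hcon)
  obtain ⟨q, hqJ, hq⟩ := hq
  refine hI _ fun p hp => ?_
  have h4 := h2 q hqJ
  have h5 : η / 4 ≤ |(pot hS q.1 - pot hS q.2).1 w - (pot hS q.1 - pot hS q.2).1 (k i)⁻¹| := by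
    have hd := D3_17_diff hS w (k i)⁻¹ q.1 q.2
    have h6 : |hb hS w q.1 q.2 - y q.1 q.2| ≤
        |hb hS w q.1 q.2 - hb hS (k i)⁻¹ q.1 q.2| + |hb hS (k i)⁻¹ q.1 q.2 - y q.1 q.2| :=
      abs_sub_le _ _ _
    rw [hd, abs_mul] at h6
    have h7 : |(-2 : ℝ)| = 2 := by norm_num
    rw [h7] at h6
    linarith only [h6, h4, hq]
  have h8 : |(pot hS p.1 - pot hS p.2).1 (k i * w) - (pot hS p.1 - pot hS p.2).1 (k i)| < ε / 4 := by
    by_contra hcon
    push Not at hcon
    exact h3 p hp q hqJ ⟨w, h5, hcon⟩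
  have hd := D3_17_diff hS (k i * w) (k i) p.1 p.2
  have h6 : |hb hS (k i * w) p.1 p.2 - x p.1 p.2| ≤
      |hb hS (k i * w) p.1 p.2 - hb hS (k i) p.1 p.2| + |hb hS (k i) p.1 p.2 - x p.1 p.2| :=
    abs_sub_le _ _ _
  rw [hd, abs_mul] at h6
  have h7 : |(-2 : ℝ)| = 2 := by norm_num
  rw [h7] at h6
  have h9 := h1 p hp
  linarith only [h9, h6, h8]

end Area

end

section

/-! Proof of D3.18 (`cp_pt`). -/


open Filter Topology Set
open Vale.Agent.P239 Vale.Agent.P239.F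
open scoped RealInnerProductSpace ENNReal

variable {G : Type*} [Group G] {S : Finset G} (hS : Subgroup.closure (S : Set G) = ⊤)

section Area

theorem cp_pt [Countable G] {F : Finset G} (hF : CrossProp S F) {ι : Type*} {l : Filter ι}
    {k : ι → G} {x y : G → G → ℝ} (hk : Tendsto k l cofinite)
    (hx : Tendsto (fun i => hb hS (k i)) l (𝓝 x)) (hy : Tendsto (fun i => hb hS (k i)⁻¹) l (𝓝 y))
    {p : ι → G → G → ℝ} (hp : ∀ i, p i ∈ Pt hS) {β : G → G → ℝ} (hpβ : Tendsto p l (𝓝 β))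
    (hβ : β ≠ y) : Tendsto (fun i => act (k i) (p i)) l (𝓝 x) := by
  intro O hO
  obtain ⟨O₁, hO₁, hO₁c, hO₁s⟩ := exists_mem_nhds_isClosed_subset hO
  obtain ⟨O', hO', hO'c, hO's⟩ :=
    exists_mem_nhds_isClosed_subset (isOpen_compl_singleton.mem_nhds hβ.symm : {β}ᶜ ∈ 𝓝 y)
  have hβO' : β ∈ O'ᶜ := fun h => hO's h rfl
  have h1 : ∀ᶠ i in l, p i ∈ O'ᶜ := hpβ (hO'c.isOpen_compl.mem_nhds hβO')
  have h2 := cp_unif' hS hF hk hx hy hO₁ hO'
  rw [Filter.mem_map]
  filter_upwards [h1, h2] with i hi1 hi2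
  refine hO₁s ?_
  have h3 : p i ∈ closure (O'ᶜ ∩ range (hb hS)) :=
    hO'c.isOpen_compl.inter_closure ⟨hi1, hp i⟩
  have h4 : IsClosed {γ : G → G → ℝ | act (k i) γ ∈ O₁} :=
    hO₁c.preimage (continuous_act (k i))
  refine closure_minimal (fun γ hγ => ?_) h4 h3
  obtain ⟨hγ1, w, rfl⟩ := hγ
  change act (k i) (hb hS w) ∈ O₁
  rw [act_hb]
  exact hi2 w hγ1

end Area

end

section

/-! D3.19 -/


open Filter Topology Set
open Vale.Agent.P239 Vale.Agent.P239.F
open scoped RealInnerProductSpace ENNReal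

variable {G : Type*} [Group G] {S : Finset G} (hS : Subgroup.closure (S : Set G) = ⊤)

section Area

/-- The area estimate in the form used here: two clamped potentials have a small pairing. -/
theorem D3_19_pair {F : Finset G} {C : ℝ} (hC0 : 0 ≤ C)
    (hC : ∀ f : Dir S, SqS (osF F f.1) ∧ ∑' u, osF F f.1 u ^ 2 ≤ C * en S f f)
    {a b a' b' : G} {f g : Dir S} (hf : IsPot a b f) (hg : IsPot a' b' g)
    {t₁ t₂ s₁ s₂ : ℝ} (ht : t₁ ≤ t₂) (hs : s₁ ≤ s₂) (h1 : f.1 b ≤ t₁) (h2 : t₂ ≤ f.1 a)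
    (h3 : g.1 b' ≤ s₁) (h4 : s₂ ≤ g.1 a') {lam : ℝ} (hlam : 0 < lam) :
    ∑' u : G, osF F (cD t₁ t₂ f).1 u * osF F (cD s₁ s₂ g).1 u ≤
      lam * (C * (t₂ - t₁)) + C * (s₂ - s₁) / lam := by
  set φ : G → ℝ := osF F (cD t₁ t₂ f).1 with hφdef
  set ψ : G → ℝ := osF F (cD s₁ s₂ g).1 with hψdef
  have hφ : Summable fun u => φ u ^ 2 := (hC (cD t₁ t₂ f)).1
  have hψ : Summable fun u => ψ u ^ 2 := (hC (cD s₁ s₂ g)).1
  have hφM : ∑' u, φ u ^ 2 ≤ C * (t₂ - t₁) :=
    (hC (cD t₁ t₂ f)).2.trans (mul_le_mul_of_nonneg_left (hf.en_clamp ht h1 h2) hC0)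
  have hψM : ∑' u, ψ u ^ 2 ≤ C * (s₂ - s₁) :=
    (hC (cD s₁ s₂ g)).2.trans (mul_le_mul_of_nonneg_left (hg.en_clamp hs h3 h4) hC0)
  have hψ0 : ∀ u, 0 ≤ ψ u := fun u => osF_nonneg _ _ _
  have hφ0 : ∀ u, 0 ≤ φ u := fun u => osF_nonneg _ _ _
  have hpt : ∀ u, φ u * ψ u ≤ lam * φ u ^ 2 + ψ u ^ 2 / lam := by
    intro u
    have h3 : 0 ≤ (lam * φ u - ψ u) ^ 2 / lam := by (clear * - hlam; positivity)
    have h4 : (lam * φ u - ψ u) ^ 2 / lam = lam * φ u ^ 2 - 2 * (φ u * ψ u) + ψ u ^ 2 / lam := by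
      field_simp
      ring
    have h5 : 0 ≤ φ u * ψ u := mul_nonneg (hφ0 u) (hψ0 u)
    linarith only [h3, h4, h5]
  have hs2 : Summable fun u => lam * φ u ^ 2 + ψ u ^ 2 / lam :=
    (hφ.mul_left lam).add (hψ.div_const lam)
  have h5 : ∑' u, φ u * ψ u ≤ ∑' u, (lam * φ u ^ 2 + ψ u ^ 2 / lam) :=
    (summable_mul_of_sq hφ hψ).tsum_le_tsum hpt hs2
  rw [(hφ.mul_left lam).tsum_add (hψ.div_const lam), tsum_mul_left, tsum_div_const] at h5
  refine h5.trans (add_le_add (mul_le_mul_of_nonneg_left hφM hlam.le) ?_)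
  exact div_le_div_of_nonneg_right hψM hlam.le

/-- One direction of the shadow estimate. -/
theorem D3_19_one [Countable G] {F : Finset G} (hF : CrossProp S F) (x : G) {ε : ℝ}
    (hε : 0 < ε) :
    ∃ N : ℝ, ∀ w w' : G, N ≤ gp hS w w' → gp hS x w' ≤ gp hS x w + ε := by
  obtain ⟨C, hC0, hC⟩ := exists_osF_bound hS F
  set lam : ℝ := ε / (2 * (C + 1)) with hlamdef
  have hlam : 0 < lam := by positivity
  have hlamC : lam * C ≤ ε / 2 := by
    rw [hlamdef, div_mul_eq_mul_div, div_le_div_iff₀ (by positivity) (by norm_num)]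
    linarith only [hε]
  set L : ℝ := 2 * (C / lam) + 1 with hL
  have hCl : 0 ≤ C / lam := by positivity
  have hLpos : 0 < L := by linarith only [hCl]
  refine ⟨gp hS x x + L, fun w w' hN => ?_⟩
  by_contra hcon
  rw [not_le] at hcon
  have e1 := gp_eq hS w w'
  have e2 := gp_eq hS w w
  have e3 := gp_eq hS w x
  have e4 := gp_eq hS x w
  have e5 := gp_eq hS x w'
  have e6 := gp_le hS w w'
  have e7 := gp_le hS x w
  have e8 := gp_comm hS w x
  have e9 := gp_nonneg hS x x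
  have m1 := (pot_isPot hS x).mem_range hS w
  have m2 := (pot_isPot hS x).mem_range hS w'
  have key := cross_area hS hF (pot_isPot hS w) (pot_isPot hS x)
    (t₁ := (pot hS w).1 1 + gp hS x x) (t₂ := (pot hS w).1 1 + (gp hS x x + L))
    (s₁ := (pot hS x).1 w) (s₂ := (pot hS x).1 w') (p := w') (q := x) (r := w) (s := 1)
    (by linarith only [hCl]) (by linarith only [hε, hcon, e4, e5]) (by linarith only [hN, e1]) le_rfl (by linarith only [e3, e7, e8]) m2.2 (by linarith only [hN, e2, e6]) le_rfl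
    (by linarith only [e9]) m1.1
  have h1 := D3_19_pair hC0 hC (pot_isPot hS w) (pot_isPot hS x)
    (t₁ := (pot hS w).1 1 + gp hS x x) (t₂ := (pot hS w).1 1 + (gp hS x x + L))
    (s₁ := (pot hS x).1 w) (s₂ := (pot hS x).1 w')
    (by linarith only [hCl]) (by linarith only [hε, hcon, e4, e5]) (by linarith only [e9]) (by linarith only [hN, e2, e6]) m1.1 m2.2 hlam
  have h2 := key.trans h1
  set d : ℝ := (pot hS x).1 w' - (pot hS x).1 w with hd
  have hdε : ε < d := by linarith only [hcon, e4, e5]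
  have h3 : (pot hS w).1 1 + (gp hS x x + L) - ((pot hS w).1 1 + gp hS x x) = L := by ring
  rw [h3] at h2
  have h4 : lam * (C * L) ≤ d / 2 * L := by
    have : lam * (C * L) = lam * C * L := by ring
    rw [this]
    exact mul_le_mul_of_nonneg_right (by linarith only [e5, e4, hcon, hlamC]) hLpos.le
  have h5 : C * d / lam = C / lam * d := by ring
  rw [h5] at h2
  have h6 : d * (L / 2 - C / lam) ≤ 0 := by linarith only [h4, h2]
  have h7 : L / 2 - C / lam = 1 / 2 := by rw [hL]; ring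
  rw [h7] at h6
  linarith only [hε, hcon, e4, e5, h2, h4]

theorem shadow [Countable G] {F : Finset G} (hF : CrossProp S F) (x : G) {ε : ℝ} (hε : 0 < ε) :
    ∃ N : ℝ, ∀ w w' : G, N ≤ gp hS w w' → |gp hS x w - gp hS x w'| ≤ ε := by
  obtain ⟨N, hN⟩ := D3_19_one hS hF x hε
  refine ⟨N, fun w w' h => abs_le.2 ⟨?_, ?_⟩⟩
  · have := hN w w' h
    linarith only [this]
  · have := hN w' w (by rw [gp_comm]; exact h)
    linarith

end Area

end

section

/-! D3.20: sequences with large Gromov products have the same limit. -/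


open Filter Topology Set
open Vale.Agent.P239 Vale.Agent.P239.F
open scoped RealInnerProductSpace ENNReal

variable {G : Type*} [Group G] {S : Finset G} (hS : Subgroup.closure (S : Set G) = ⊤)

section Conseq

variable {hS} {δ : ℝ} (h4 : Four hS δ) [Countable G] {F : Finset G} (hF : CrossProp S F)

end Conseq

end

section

/-! Proof of `near_conn` (D3.21). -/


open Filter Topology Set
open Vale.Agent.P239 Vale.Agent.P239.F
open scoped RealInnerProductSpace ENNReal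

variable {G : Type*} [Group G] {S : Finset G} (hS : Subgroup.closure (S : Set G) = ⊤)

section Conseq

variable {hS} {δ : ℝ} (h4 : Four hS δ) [Countable G] {F : Finset G} (hF : CrossProp S F)

omit [Countable G] in
/-- Neighbourhoods of points in terms of finitely many Gromov products. -/
theorem D3_21_basis {β : G → G → ℝ} (hβ : β ∈ Pt hS) {O : Set (G → G → ℝ)} (hO : O ∈ 𝓝 β) :
    ∃ I : Set G, I.Finite ∧ ∃ ε : G → ℝ, (∀ x, 0 < ε x) ∧
      ∀ z : G, (∀ x ∈ I, |gp hS x z - gpb hS 1 x β| < ε x) → hb hS z ∈ O := by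
  have h1 : Tendsto (fun z : G => fun x : G => gp hS x z)
      (comap (fun z : G => fun x : G => gp hS x z) (𝓝 fun x => gpb hS 1 x β))
      (𝓝 fun x => gpb hS 1 x β) := tendsto_comap
  have h2 : Tendsto (fun z : G => hb hS z)
      (comap (fun z : G => fun x : G => gp hS x z) (𝓝 fun x => gpb hS 1 x β)) (𝓝 β) :=
    (tendsto_hb_iff (f := fun z => z) hβ).2 (tendsto_pi_nhds.1 h1)
  obtain ⟨V, hV, hVO⟩ := mem_comap.1 (h2 hO)
  rw [nhds_pi, Filter.mem_pi] at hV
  obtain ⟨I, hI, t, ht, hIt⟩ := hV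
  choose ε hε hball using fun x => Metric.mem_nhds_iff.1 (ht x)
  refine ⟨I, hI, ε, hε, fun z hz => hVO (hIt fun x hx => hball x ?_)⟩
  rw [Metric.mem_ball, Real.dist_eq]
  exact hz x hx

include h4 hF in
theorem near_conn {β : G → G → ℝ} (hβ : β ∈ Pt hS) (hfin : ¬ IsFin hS β)
    {O : Set (G → G → ℝ)} (hO : O ∈ 𝓝 β) :
    ∃ O' ∈ 𝓝 β, ∀ z z' : G, hb hS z ∈ O' → hb hS z' ∈ O' → Con S {w | hb hS w ∈ O} z z' := by
  obtain ⟨I, hI, ε, hε, hIO⟩ := D3_21_basis hβ hO
  choose N hN using fun x => shadow hS hF x (half_pos (hε x))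
  obtain ⟨M, hM⟩ := (hI.image N).bddAbove
  obtain ⟨A, hA, hAgp⟩ := gp_large h4 hβ hfin (l := comap (hb hS) (𝓝 β)) (f := fun z => z)
    tendsto_comap (max M 0 + 1)
  obtain ⟨O₂, hO₂, hO₂A⟩ := mem_comap.1 hA
  refine ⟨{γ | ∀ x ∈ I, |gpb hS 1 x γ - gpb hS 1 x β| < ε x / 2} ∩ O₂,
    inter_mem ?_ hO₂, ?_⟩
  · have h : ∀ x ∈ I, {γ : G → G → ℝ | |gpb hS 1 x γ - gpb hS 1 x β| < ε x / 2} ∈ 𝓝 β := by
      intro x _
      have h1 := ((continuous_gpb hS 1 x).tendsto β) (Metric.ball_mem_nhds _ (half_pos (hε x)))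
      filter_upwards [h1] with γ hγ
      rw [mem_preimage, Metric.mem_ball, Real.dist_eq] at hγ
      exact hγ
    filter_upwards [(Filter.biInter_mem hI).2 h] with γ hγ x hx
    exact mem_iInter₂.1 hγ x hx
  · rintro z z' ⟨hz1, hz2⟩ ⟨-, hz2'⟩
    have hzA : z ∈ A := hO₂A hz2
    have hzA' : z' ∈ A := hO₂A hz2'
    have hgp := hAgp z hzA z' hzA'
    rw [gp_eq] at hgp
    have h0 : 0 ≤ max M 0 := le_max_right _ _
    have hcon := (pot_isPot hS z).con hS (t := (pot hS z).1 1 + (max M 0 + 1 / 2)) (z := z')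
      (by linarith only [h0]) (by linarith only [hgp])
    refine Relation.ReflTransGen.mono ?_ _ _ hcon
    have key : ∀ u : G, (pot hS z).1 1 + (max M 0 + 1 / 2) < (pot hS z).1 u → hb hS u ∈ O := by
      intro u hu
      refine hIO u fun x hx => ?_
      have h1 : N x ≤ gp hS z u := by
        rw [gp_eq]
        have h2 : N x ≤ M := hM ⟨x, hx, rfl⟩
        have h3 := le_max_left M 0
        linarith only [h3, h2, hu]
      have h2 := hN x z u h1
      have h3 := hz1 x hx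
      rw [gpb_hb_one] at h3
      rw [abs_lt] at h3 ⊢
      rw [abs_le] at h2
      constructor <;> linarith [h2.1, h2.2, h3.1, h3.2]
    rintro a b ⟨ha, hb, hab⟩
    exact ⟨key a ha, key b hb, hab⟩

end Conseq

end

section

/-! Convergence dynamics: loxodromic elements. -/


open Filter Topology Set
open Vale.Agent.P239 Vale.Agent.P239.F
open scoped RealInnerProductSpace ENNReal

variable {G : Type*} [Group G] {S : Finset G} (hS : Subgroup.closure (S : Set G) = ⊤)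

section Conseq

variable {hS} {δ : ℝ} (h4 : Four hS δ) [Countable G] {F : Finset G} (hF : CrossProp S F)

/-- Powers of an element of infinite order leave finite sets. -/
theorem D3_22_pow_cof {G : Type*} [Group G] (htf : ∀ g : G, g ≠ 1 → ∀ n : ℕ, n ≠ 0 → g ^ n ≠ 1)
    {m : G} (hm : m ≠ 1) : Tendsto (fun n : ℕ => m ^ n) atTop cofinite := by
  rw [← Nat.cofinite_eq_atTop]
  refine Function.Injective.tendsto_cofinite ?_
  have key : ∀ a b : ℕ, a < b → m ^ a ≠ m ^ b := by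
    intro a b hab h
    have h1 : m ^ b = m ^ a * m ^ (b - a) := by
      rw [← pow_add]
      congr 1
      omega
    rw [h1] at h
    exact htf m hm (b - a) (by omega) (mul_eq_left.1 h.symm)
  intro a b hab
  rcases lt_trichotomy a b with h | h | h
  · exact absurd hab (key a b h)
  · exact h
  · exact absurd hab.symm (key b a h)

include hF in
/-- Step (i): a filter with different limits of `m` and `m⁻¹`. -/
theorem D3_22_filter (H : Subgroup G) {x y : G → G → ℝ} (hx : x ∈ Lim hS (H : Set G))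
    (hy : y ∈ Lim hS (H : Set G)) (hxy : x ≠ y) :
    ∃ l : Filter G, l.NeBot ∧ l ≤ cofinite ∧ (H : Set G) ∈ l ∧ ∃ x' y' : G → G → ℝ, x' ≠ y' ∧
      Tendsto (fun m => hb hS m) l (𝓝 x') ∧ Tendsto (fun m => hb hS m⁻¹) l (𝓝 y') := by
  obtain ⟨U1, hU1, hx1⟩ := mapClusterPt_iff_ultrafilter.1 hx
  obtain ⟨U2, hU2, hy1⟩ := mapClusterPt_iff_ultrafilter.1 hy
  have hU1c : (U1 : Filter G) ≤ cofinite := hU1.trans inf_le_left
  have hU2c : (U2 : Filter G) ≤ cofinite := hU2.trans inf_le_left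
  have hU1H : (H : Set G) ∈ (U1 : Filter G) := (hU1.trans inf_le_right) (mem_principal_self _)
  have hU2H : (H : Set G) ∈ (U2 : Filter G) := (hU2.trans inf_le_right) (mem_principal_self _)
  obtain ⟨x1, hx1P, hx1'⟩ := exists_lim hS U1 (fun m => m⁻¹)
  obtain ⟨y1, hy1P, hy1'⟩ := exists_lim hS U2 (fun m => m⁻¹)
  by_cases hxx : x1 = x
  swap
  · exact ⟨U1, U1.neBot, hU1c, hU1H, x, x1, fun h => hxx h.symm, hx1, hx1'⟩
  by_cases hyy : y1 = y
  swap
  · exact ⟨U2, U2.neBot, hU2c, hU2H, y, y1, fun h => hyy h.symm, hy1, hy1'⟩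
  rw [hxx] at hx1'
  rw [hyy] at hy1'
  have hyP : y ∈ Pt hS := Lim_subset hS _ hy
  have hact : Tendsto (fun h : G => act h y) (U1 : Filter G) (𝓝 x) := by
    have h := cp_pt hS hF (l := (U1 : Filter G)) (k := fun m : G => m) (x := x) (y := x)
      hU1c hx1 hx1' (p := fun _ => y) (fun _ => hyP) (β := y) tendsto_const_nhds hxy.symm
    exact h
  have hinvc : Tendsto (fun m : G => m⁻¹) (U2 : Filter G) cofinite :=
    (inv_injective.tendsto_cofinite).mono_left hU2c
  refine ⟨Filter.bind (U1 : Filter G) fun h => Filter.map (fun k => h * k) (U2 : Filter G),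
    ?_, ?_, ?_, x, y, hxy, ?_, ?_⟩
  · refine ⟨fun h => ?_⟩
    have h1 : (∅ : Set G) ∈ Filter.bind (U1 : Filter G)
        fun h => Filter.map (fun k => h * k) (U2 : Filter G) := by
      rw [h]; exact mem_bot
    rw [mem_bind'] at h1
    obtain ⟨a, ha⟩ := (U1.neBot.nonempty_of_mem h1)
    have ha' : (fun k => a * k) ⁻¹' (∅ : Set G) ∈ (U2 : Filter G) := ha
    rw [Set.preimage_empty] at ha'
    exact U2.neBot.ne (empty_mem_iff_bot.1 ha')
  · intro s hs
    rw [mem_bind']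
    refine Filter.mem_of_superset univ_mem fun h _ => ?_
    show (fun k => h * k) ⁻¹' s ∈ (U2 : Filter G)
    have : Tendsto (fun k => h * k) (U2 : Filter G) cofinite :=
      ((mul_right_injective h).tendsto_cofinite).mono_left hU2c
    exact this hs
  · rw [mem_bind']
    filter_upwards [hU1H] with h hh
    show (fun k => h * k) ⁻¹' (H : Set G) ∈ (U2 : Filter G)
    filter_upwards [hU2H] with k hk
    exact H.mul_mem hh hk
  · intro s hs
    obtain ⟨t, hts, hto, hxt⟩ := mem_nhds_iff.1 hs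
    rw [mem_map, mem_bind']
    filter_upwards [hact (hto.mem_nhds hxt)] with h hh
    show (fun k => h * k) ⁻¹' ((fun m => hb hS m) ⁻¹' s) ∈ (U2 : Filter G)
    have h2 : Tendsto (fun k => act h (hb hS k)) (U2 : Filter G) (𝓝 (act h y)) :=
      ((continuous_act h).tendsto y).comp hy1
    filter_upwards [h2 (hto.mem_nhds hh)] with k hk
    have hk' : act h (hb hS k) ∈ t := hk
    rw [act_hb] at hk'
    exact hts hk'
  · intro s hs
    rw [mem_map, mem_bind']
    refine Filter.mem_of_superset univ_mem fun h _ => ?_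
    show (fun k => h * k) ⁻¹' ((fun m => hb hS m⁻¹) ⁻¹' s) ∈ (U2 : Filter G)
    have h2 := tendsto_hb_mul hS (l := (U2 : Filter G)) (f := fun k : G => k⁻¹) (β := y) h⁻¹
      hinvc hy1'
    filter_upwards [h2 hs] with k hk
    have hk' : hb hS (k⁻¹ * h⁻¹) ∈ s := hk
    show hb hS (h * k)⁻¹ ∈ s
    rw [mul_inv_rev]
    exact hk'

theorem D3_22_pot (c d w : G) : (pot hS c - pot hS d).1 w =
    (pot hS c - pot hS d).1 1 + (gp hS c c - gp hS d d - hb hS w c d) / 2 := by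
  have h1 : ∀ z : G, (pot hS c - pot hS d).1 z = (pot hS c).1 z - (pot hS d).1 z := fun z => rfl
  rw [hb_eq, gp_eq hS c w, gp_eq hS d w, h1 w, h1 1]
  ring

include hF in
/-- Step (ii): an element whose powers stay near one value, the inverse powers near another. -/
theorem D3_22_elt (H : Subgroup G) {x y : G → G → ℝ} (hx : x ∈ Lim hS (H : Set G))
    (hy : y ∈ Lim hS (H : Set G)) (hxy : x ≠ y) :
    ∃ m ∈ H, m ≠ 1 ∧ ∃ A B : Set (G → G → ℝ), IsClosed A ∧ IsClosed B ∧ Disjoint A B ∧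
      (∀ n : ℕ, n ≠ 0 → hb hS (m ^ n) ∈ A) ∧ (∀ n : ℕ, n ≠ 0 → hb hS (m⁻¹ ^ n) ∈ B) := by
  obtain ⟨l, hl, hlc, hlH, x', y', hne, hx', hy'⟩ := D3_22_filter (hS := hS) hF H hx hy hxy
  obtain ⟨c, d, hcd⟩ : ∃ c d, x' c d ≠ y' c d := by
    by_contra hcon
    push Not at hcon
    exact hne (funext fun c => funext fun d => hcon c d)
  set u := pot hS c - pot hS d with hu
  set U : (G → G → ℝ) → ℝ := fun β => u.1 1 + (gp hS c c - gp hS d d - β c d) / 2 with hU
  have hUw : ∀ w : G, u.1 w = U (hb hS w) := fun w => D3_22_pot c d w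
  have hUc : Continuous U := by
    rw [hU]
    exact continuous_const.add ((continuous_const.sub (continuous_ev c d)).div_const _)
  have hα : Tendsto (fun m : G => u.1 m) l (𝓝 (U x')) := by
    have := (hUc.tendsto x').comp hx'
    exact this.congr fun m => (hUw m).symm
  have hα' : Tendsto (fun m : G => u.1 m⁻¹) l (𝓝 (U y')) := by
    have := (hUc.tendsto y').comp hy'
    exact this.congr fun m => (hUw m⁻¹).symm
  have hne' : U x' ≠ U y' := by
    intro h
    apply hcd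
    simp only [hU] at h
    linarith only [h]
  set α := U x' with hαd
  set α' := U y' with hαd'
  set ε := |α - α'| / 5 with hε
  have hεpos : 0 < ε := by
    have := abs_pos.2 (sub_ne_zero.2 hne')
    rw [hε]; linarith only [this]
  have h5 : |α - α'| = 5 * ε := by rw [hε]; ring
  have hE := cp_unif hS hF c d c d hεpos hεpos
  rw [← hu] at hE
  set E := {k : G | ∃ w : G, ε ≤ |u.1 w - u.1 k⁻¹| ∧ ε ≤ |u.1 (k * w) - u.1 k|} with hEd
  have e1 : ∀ᶠ m in l, m ∉ E := hlc (hE.compl_mem_cofinite)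
  have e2 : ∀ᶠ m in l, m⁻¹ ∉ E := by
    have h1 : Tendsto (fun m : G => m⁻¹) l cofinite := (inv_injective.tendsto_cofinite).mono_left hlc
    exact h1 hE.compl_mem_cofinite
  have e3 : ∀ᶠ m in l, |u.1 m - α| < ε := by
    have := Metric.tendsto_nhds.1 hα ε hεpos
    exact this
  have e4 : ∀ᶠ m in l, |u.1 m⁻¹ - α'| < ε := by
    have := Metric.tendsto_nhds.1 hα' ε hεpos
    exact this
  have e5 : ∀ᶠ m in l, m ∈ (H : Set G) := hlH
  obtain ⟨m, ⟨⟨⟨⟨m1, m2⟩, m3⟩, m4⟩, m5⟩⟩ := ((((e1.and e2).and e3).and e4).and e5).exists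
  have far : ∀ r : ℝ, |r - α| < 2 * ε → 2 * ε ≤ |r - α'| := by
    intro r hr
    have h1 := abs_sub_abs_le_abs_sub (α - α') (α - r)
    have h2 : α - α' - (α - r) = r - α' := by ring
    rw [h2, h5, abs_sub_comm α r] at h1
    linarith only [hεpos, hr, h1]
  have far' : ∀ r : ℝ, |r - α'| < 2 * ε → 2 * ε ≤ |r - α| := by
    intro r hr
    have h1 := abs_sub_abs_le_abs_sub (α - α') (r - α')
    have h2 : α - α' - (r - α') = α - r := by ring
    rw [h2, h5, abs_sub_comm α r] at h1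
    linarith only [hεpos, hr, h1]
  have s1 : ∀ w : G, 2 * ε ≤ |u.1 w - α'| → |u.1 (m * w) - α| < 2 * ε := by
    intro w hw
    have h1 : ε ≤ |u.1 w - u.1 m⁻¹| := by
      have h2 := abs_sub_le (u.1 w) (u.1 m⁻¹) α'
      linarith only [m4, hw, h2]
    have h3 : |u.1 (m * w) - u.1 m| < ε := by
      by_contra hc
      push Not at hc
      exact m1 ⟨w, h1, hc⟩
    have h4 := abs_sub_le (u.1 (m * w)) (u.1 m) α
    linarith only [m3, h3, h4]
  have s2 : ∀ w : G, 2 * ε ≤ |u.1 w - α| → |u.1 (m⁻¹ * w) - α'| < 2 * ε := by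
    intro w hw
    have h1 : ε ≤ |u.1 w - u.1 m⁻¹⁻¹| := by
      rw [inv_inv]
      have h2 := abs_sub_le (u.1 w) (u.1 m) α
      linarith only [m3, hw, h2]
    have h3 : |u.1 (m⁻¹ * w) - u.1 m⁻¹| < ε := by
      by_contra hc
      push Not at hc
      exact m2 ⟨w, h1, hc⟩
    have h4 := abs_sub_le (u.1 (m⁻¹ * w)) (u.1 m⁻¹) α'
    linarith only [h4, h3, m4]
  have p1 : ∀ n : ℕ, |u.1 (m ^ (n + 1)) - α| < 2 * ε := by
    intro n
    induction n with
    | zero => rw [zero_add, pow_one]; linarith only [hεpos, m3]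
    | succ n ih =>
      rw [pow_succ' m (n + 1)]
      exact s1 _ (far _ ih)
  have p2 : ∀ n : ℕ, |u.1 (m⁻¹ ^ (n + 1)) - α'| < 2 * ε := by
    intro n
    induction n with
    | zero => rw [zero_add, pow_one]; linarith only [hεpos, m4]
    | succ n ih =>
      rw [pow_succ' m⁻¹ (n + 1)]
      exact s2 _ (far' _ ih)
  refine ⟨m, m5, ?_, {β | |U β - α| ≤ 2 * ε}, {β | |U β - α'| ≤ 2 * ε}, ?_, ?_, ?_, ?_, ?_⟩
  · intro h
    rw [h] at m3
    rw [h, inv_one] at m4
    have h1 := abs_sub_le α (u.1 1) α'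
    rw [abs_sub_comm α (u.1 1)] at h1
    linarith only [hε, hεpos, m4, m3, h1]
  · exact isClosed_le (hUc.sub continuous_const).abs continuous_const
  · exact isClosed_le (hUc.sub continuous_const).abs continuous_const
  · rw [Set.disjoint_left]
    intro β hβ hβ'
    have h1 : |U β - α| ≤ 2 * ε := hβ
    have h2 : |U β - α'| ≤ 2 * ε := hβ'
    have h3 := abs_sub_le α (U β) α'
    rw [abs_sub_comm α (U β)] at h3
    linarith only [hε, hεpos, h1, h2, h3]
  · intro n hn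
    obtain ⟨k, rfl⟩ := Nat.exists_eq_succ_of_ne_zero hn
    have := p1 k
    rw [hUw] at this
    exact this.le
  · intro n hn
    obtain ⟨k, rfl⟩ := Nat.exists_eq_succ_of_ne_zero hn
    have := p2 k
    rw [hUw] at this
    exact this.le

include hF in
/-- Limit points of the powers are fixed. -/
theorem D3_22_fix {m : G} (hm : Tendsto (fun n : ℕ => m ^ n) atTop cofinite)
    (V : Ultrafilter ℕ) (hV : (V : Filter ℕ) ≤ atTop) {a : G → G → ℝ}
    (ha : Tendsto (fun n : ℕ => hb hS (m ^ n)) (V : Filter ℕ) (𝓝 a)) (n : ℕ) :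
    act (m ^ n) a = a := by
  have h1 := tendsto_hb_mul hS (l := (V : Filter ℕ)) (f := fun n : ℕ => m ^ n) (β := a) m
    (hm.mono_left hV) ha
  have h2 : Tendsto (fun n : ℕ => act m (hb hS (m ^ n))) (V : Filter ℕ) (𝓝 (act m a)) :=
    ((continuous_act m).tendsto a).comp ha
  have h3 : Tendsto (fun n : ℕ => hb hS (m ^ n * m)) (V : Filter ℕ) (𝓝 (act m a)) := by
    refine h2.congr fun n => ?_
    rw [act_hb, ← pow_succ', pow_succ]
  have h4 : act m a = a := tendsto_nhds_unique h3 h1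
  induction n with
  | zero => rw [pow_zero, act_one]
  | succ n ih => rw [pow_succ, ← act_act, h4, ih]

theorem D3_22_fix_inv {m : G} {a : G → G → ℝ} (h : ∀ n : ℕ, act (m ^ n) a = a) (n : ℕ) :
    act (m⁻¹ ^ n) a = a := by
  refine act_inj (g := m ^ n) ?_
  rw [act_act, inv_pow, mul_inv_cancel, act_one, h n]

include hF in
/-- Step (iii): the powers converge. -/
theorem D3_22_conv {m : G} (hm : Tendsto (fun n : ℕ => m ^ n) atTop cofinite)
    {A B : Set (G → G → ℝ)} (hA : IsClosed A) (hB : IsClosed B) (hAB : Disjoint A B)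
    (hmA : ∀ n : ℕ, n ≠ 0 → hb hS (m ^ n) ∈ A) (hmB : ∀ n : ℕ, n ≠ 0 → hb hS (m⁻¹ ^ n) ∈ B) :
    ∃ a ∈ Pt hS, a ∈ A ∧ (∀ n : ℕ, act (m ^ n) a = a) ∧
      Tendsto (fun n : ℕ => hb hS (m ^ n)) atTop (𝓝 a) := by
  obtain ⟨V, hV⟩ : ∃ V : Ultrafilter ℕ, (V : Filter ℕ) ≤ atTop :=
    ⟨Ultrafilter.of atTop, Ultrafilter.of_le atTop⟩
  have hev : ∀ W : Ultrafilter ℕ, (W : Filter ℕ) ≤ atTop → ∀ᶠ n in (W : Filter ℕ), n ≠ 0 :=
    fun W hW => hW (eventually_ne_atTop 0)
  have hAmem : ∀ W : Ultrafilter ℕ, (W : Filter ℕ) ≤ atTop → ∀ a : G → G → ℝ,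
      Tendsto (fun n : ℕ => hb hS (m ^ n)) (W : Filter ℕ) (𝓝 a) → a ∈ A := fun W hW a ha =>
    hA.mem_of_tendsto ha ((hev W hW).mono fun n hn => hmA n hn)
  have hBmem : ∀ W : Ultrafilter ℕ, (W : Filter ℕ) ≤ atTop → ∀ b : G → G → ℝ,
      Tendsto (fun n : ℕ => hb hS (m⁻¹ ^ n)) (W : Filter ℕ) (𝓝 b) → b ∈ B := fun W hW b hb =>
    hB.mem_of_tendsto hb ((hev W hW).mono fun n hn => hmB n hn)
  obtain ⟨a, haP, ha⟩ := exists_lim hS V (fun n : ℕ => m ^ n)
  have hafix := D3_22_fix (hS := hS) hF hm V hV ha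
  refine ⟨a, haP, hAmem V hV a ha, hafix, ?_⟩
  rw [tendsto_iff_ultrafilter]
  intro W hW
  obtain ⟨a', haP', ha'⟩ := exists_lim hS W (fun n : ℕ => m ^ n)
  obtain ⟨b, hbP, hb'⟩ := exists_lim hS W (fun n : ℕ => m⁻¹ ^ n)
  have hb'' : Tendsto (fun n : ℕ => hb hS (m ^ n)⁻¹) (W : Filter ℕ) (𝓝 b) := by
    refine hb'.congr fun n => ?_
    rw [inv_pow]
  have hne : a ≠ b := by
    intro h
    exact (Set.disjoint_left.1 hAB) (hAmem V hV a ha) (h ▸ hBmem W hW b hb')
  have h1 := cp_pt hS hF (l := (W : Filter ℕ)) (k := fun n : ℕ => m ^ n) (x := a') (y := b)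
    (hm.mono_left hW) ha' hb'' (p := fun _ => a) (fun _ => haP) (β := a) tendsto_const_nhds hne
  have h2 : Tendsto (fun _ : ℕ => a) (W : Filter ℕ) (𝓝 a') := h1.congr fun n => hafix n
  have h3 : a = a' := tendsto_nhds_unique tendsto_const_nhds h2
  rw [h3]
  exact ha'

include h4 hF in
/-- D3.22. -/
theorem exists_lox' (htf : ∀ g : G, g ≠ 1 → ∀ n : ℕ, n ≠ 0 → g ^ n ≠ 1) (H : Subgroup G)
    {x y : G → G → ℝ} (hx : x ∈ Lim hS (H : Set G)) (hy : y ∈ Lim hS (H : Set G)) (hxy : x ≠ y) :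
    ∃ g ∈ H, ∃ a ∈ Pt hS, ∃ b ∈ Pt hS, a ≠ b ∧ ¬ IsFin hS a ∧ ¬ IsFin hS b ∧
      Tendsto (fun n : ℕ => hb hS (g ^ n)) atTop (𝓝 a) ∧
      Tendsto (fun n : ℕ => hb hS (g⁻¹ ^ n)) atTop (𝓝 b) := by
  obtain ⟨m, hmH, hm1, A, B, hA, hB, hAB, hmA, hmB⟩ := D3_22_elt (hS := hS) hF H hx hy hxy
  have hc := D3_22_pow_cof htf hm1
  have hc' := D3_22_pow_cof htf (inv_ne_one.2 hm1)
  obtain ⟨a, haP, haA, hafix, ha⟩ := D3_22_conv (hS := hS) hF hc hA hB hAB hmA hmB
  obtain ⟨b, hbP, hbB, hbfix, hb'⟩ := D3_22_conv (hS := hS) hF (m := m⁻¹) hc' hB hA hAB.symm hmB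
    (by simpa only [inv_inv] using hmA)
  have hab : a ≠ b := fun h => (Set.disjoint_left.1 hAB) haA (h ▸ hbB)
  refine ⟨m, hmH, a, haP, b, hbP, hab, ?_, ?_, ha, hb'⟩
  · intro hfin
    have h1 := tendsto_act_fin h4 haP hfin (l := atTop) (f := fun n : ℕ => m⁻¹ ^ n) (γ := b) hc' hb'
    have h2 : Tendsto (fun _ : ℕ => a) atTop (𝓝 b) := h1.congr fun n => D3_22_fix_inv hafix n
    exact hab (tendsto_nhds_unique tendsto_const_nhds h2)
  · intro hfin
    have h1 := tendsto_act_fin h4 hbP hfin (l := atTop) (f := fun n : ℕ => m ^ n) (γ := a) hc ha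
    have h2 : Tendsto (fun _ : ℕ => b) atTop (𝓝 a) := h1.congr fun n => by
      have := D3_22_fix_inv hbfix n
      rwa [inv_inv] at this
    exact hab (tendsto_nhds_unique h2 tendsto_const_nhds)

end Conseq

end

end Vale.Agent.P239.F.D
end

section

/-! Module A: a block gives, for all points `q ≠ a, b`, connections from `a` to `b` avoiding a
neighbourhood of `q`. Definitions. -/

namespace Vale.Agent.P239.F.D

open Filter Topology Set
open Vale.Agent.P239 Vale.Agent.P239.F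
open scoped RealInnerProductSpace ENNReal

variable {G : Type*} [Group G] {S : Finset G} {hS : Subgroup.closure (S : Set G) = ⊤}

/-- `hb` of the elements of `V` and their limits. -/
def KV (B : Block hS) : Set (G → G → ℝ) := closure (hb hS '' B.V)

theorem KV_subset (B : Block hS) : KV B ⊆ Pt hS := closure_mono (image_subset_range _ _)

theorem isClosed_KV (B : Block hS) : IsClosed (KV B) := isClosed_closure

theorem isCompact_KV (B : Block hS) : IsCompact (KV B) :=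
  (isCompact_Pt hS).of_isClosed_subset (isClosed_KV B) (KV_subset B)

theorem hb_mem_KV (B : Block hS) {z : G} (hz : z ∈ B.V) : hb hS z ∈ KV B :=
  subset_closure ⟨z, hz, rfl⟩

theorem act_mem_KV (B : Block hS) {h : G} (hh : h ∈ B.H) {β : G → G → ℝ} (hβ : β ∈ KV B) :
    act h β ∈ KV B := by
  have h1 : KV B ⊆ act h ⁻¹' KV B := by
    refine closure_minimal ?_ ((isClosed_KV B).preimage (continuous_act h))
    rintro _ ⟨z, hz, rfl⟩
    change act h (hb hS z) ∈ KV B
    rw [act_hb]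
    exact hb_mem_KV B (B.inv h hh z hz)
  exact h1 hβ

theorem mem_V_iff (B : Block hS) {h : G} (hh : h ∈ B.H) {z : G} : h * z ∈ B.V ↔ z ∈ B.V :=
  ⟨fun hz => by simpa only [inv_mul_cancel_left] using B.inv h⁻¹ (B.H.inv_mem hh) _ hz, fun hz => B.inv h hh z hz⟩

theorem V_nonempty (B : Block hS) : B.V.Nonempty := by
  obtain ⟨β, hβ, -⟩ := B.two
  by_contra h
  rw [not_nonempty_iff_eq_empty] at h
  rw [Lim, mem_ofPred_eq, h, principal_empty, inf_bot_eq] at hβ
  exact hβ.neBot.ne (by rw [Filter.map_bot, inf_bot_eq])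


section Geo

variable {δ : ℝ} (h4 : Four hS δ) [Countable G] {F : Finset G} (hF : CrossProp S F)


end Geo

section Blk

variable {δ : ℝ} (h4 : Four hS δ) [Countable G] {F : Finset G} (hF : CrossProp S F)
  (htf : ∀ g : G, g ≠ 1 → ∀ n : ℕ, n ≠ 0 → g ^ n ≠ 1) (B : Block hS)


/-- The class of sets used in the proof of `dd0`: bounded boundary, and from every boundary vertex
one reaches in a bounded number of steps vertices of `U` and of `V \ U` far from the boundary. -/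
structure Cls (r : ℝ) (C : Finset G) (L : ℝ) (U : Set G) : Prop where
  sub : U ⊆ B.V
  ne : (bdIn B.M B.V U).Nonempty
  bdd : ∀ z ∈ bdIn B.M B.V U, ∀ z' ∈ bdIn B.M B.V U, res hS z z' ≤ r
  inn : ∀ z ∈ bdIn B.M B.V U, ∃ y ∈ U, z⁻¹ * y ∈ C ∧ ∀ z' ∈ bdIn B.M B.V U, r + L ≤ res hS y z'
  out : ∀ z ∈ bdIn B.M B.V U, ∃ y ∈ B.V \ U, z⁻¹ * y ∈ C ∧
    ∀ z' ∈ bdIn B.M B.V U, r + L ≤ res hS y z'


/-- Vertices of `V` obtained from `A` by steps in `W` with gain at least `c` away from `q`. -/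
def push (W : Finset G) (c : ℝ) (q : G → G → ℝ) (A : Set G) : Set G :=
  {z | z ∈ B.V ∧ ∃ v ∈ A, v⁻¹ * z ∈ W ∧ c ≤ q z v}


end Blk

end Vale.Agent.P239.F.D
end
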