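import Vale.Agent.P239.MathlibUsed
import Vale.Agent.P239.Bdl.B6
import Vale.Agent.P239.Bdl.B8

set_option linter.all false

section

/-!
# P239, Module B (discreteness of the centres of one-point cuts), combinatorial core

See notes 8332, 8393 of helper467.  `T` is a family of pairs (cut, centre).
-/

set_option autoImplicit false
set_option linter.unusedSectionVars false
set_option linter.unusedVariables false

open scoped Pointwise
open Set Filter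

namespace Vale.Agent.P239S

variable {G : Type*} [Group G] {Q : Type*} [MulAction G Q]

/-- overlap of the walls of `U` and `V` at scale `BR` (same orientation) -/
def Ov (BR : Set G) (U V : Set G) : Set G :=
  {x | x ∈ U ∧ x ∈ V ∧ ∃ y, x⁻¹ * y ∈ BR ∧ y ∉ U ∧ y ∉ V}

/-- A family of cuts with centres. -/
structure CutFam (BR : Set G) (T : Set (Set G × Q)) : Prop where
  smul : ∀ (g : G) (U : Set G) (c : Q), (U, c) ∈ T → (g • U, g • c) ∈ T
  compl : ∀ (U : Set G) (c : Q), (U, c) ∈ T → (Uᶜ, c) ∈ T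
  nested : ∀ (U V : Set G) (c d : Q), (U, c) ∈ T → (V, d) ∈ T → c ≠ d →
    U ⊆ V ∨ V ⊆ U ∨ U ∩ V = ∅ ∨ U ∪ V = univ
  fin : ∀ (U V : Set G) (c d : Q), (U, c) ∈ T → (V, d) ∈ T → c ≠ d → (Ov BR U V).Finite
  inf : ∀ (U : Set G) (c : Q), (U, c) ∈ T → (Ov BR U U).Infinite
  three : ∀ (h : G) (U V W : Set G) (a b c : Q), h ≠ 1 → (U, a) ∈ T → (V, b) ∈ T → (W, c) ∈ T →
    h • a = a → h • b = b → h • c = c → a = b ∨ b = c ∨ a = c

variable {BR : Set G} {T : Set (Set G × Q)}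

theorem CutFam.comp (hT : CutFam BR T) {U V : Set G} {c d : Q} (hU : (U, c) ∈ T)
    (hV : (V, d) ∈ T) (hcd : c ≠ d) {x y : G} (hxU : x ∈ U) (hxV : x ∈ V)
    (hyU : y ∉ U) (hyV : y ∉ V) : U ⊆ V ∨ V ⊆ U := by
  rcases hT.nested U V c d hU hV hcd with h | h | h | h
  · exact Or.inl h
  · exact Or.inr h
  · exact absurd (h ▸ (⟨hxU, hxV⟩ : x ∈ U ∩ V)) (Set.notMem_empty x)
  · have : y ∈ U ∪ V := h ▸ mem_univ y
    rcases this with h' | h'
    · exact absurd h' hyU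
    · exact absurd h' hyV

theorem CutFam.same (hT : CutFam BR T) {U V : Set G} {c d : Q} (hU : (U, c) ∈ T)
    (hV : (V, d) ∈ T) (h : (Ov BR U V).Infinite) : c = d := by
  by_contra hcd
  exact h (hT.fin U V c d hU hV hcd)

/-- separation in an ultrafilter -/
theorem sep {ι : Type*} (F : Ultrafilter ι) (a b : ι → Q) (g : G)
    (h : ¬ ∀ᶠ k in (F : Filter ι), g • a k = b k) :
    ∀ᶠ k in (F : Filter ι), ∀ᶠ m in (F : Filter ι), g • a k ≠ b m := by
  have h' : ∀ᶠ k in (F : Filter ι), g • a k ≠ b k := Ultrafilter.eventually_not.2 h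
  by_cases hc : ∃ b0, ∀ᶠ m in (F : Filter ι), b m = b0
  · obtain ⟨b0, hb0⟩ := hc
    filter_upwards [h', hb0] with k hk hk0
    filter_upwards [hb0] with m hm
    rw [hm, ← hk0]
    exact hk
  · push Not at hc
    refine Eventually.of_forall fun k => ?_
    have := hc (g • a k)
    rw [← Ultrafilter.frequently_iff_eventually] at *
    exact this.mono fun m hm h => hm h.symm

theorem mem_inv_smul {g x : G} {U : Set G} : x ∈ g⁻¹ • U ↔ g * x ∈ U := by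
  rw [Set.mem_smul_set_iff_inv_smul_mem, inv_inv, smul_eq_mul]

theorem mem_smul' {g x : G} {U : Set G} : x ∈ g • U ↔ g⁻¹ * x ∈ U := by
  rw [Set.mem_smul_set_iff_inv_smul_mem, smul_eq_mul]

/-- the limit of a sequence of sets along an ultrafilter -/
def Lim {ι : Type*} (F : Ultrafilter ι) (V : ι → Set G) : Set G := {x | ∀ᶠ k in (F : Filter ι), x ∈ V k}

theorem notMem_Lim {ι : Type*} {F : Ultrafilter ι} {V : ι → Set G} {x : G} :
    x ∉ Lim F V ↔ ∀ᶠ k in (F : Filter ι), x ∉ V k := Ultrafilter.eventually_not.symm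

theorem subset_Lim {ι : Type*} {F : Ultrafilter ι} {V : ι → Set G} {A : Set G} {s : G}
    (h : ∀ᶠ k in (F : Filter ι), A ⊆ s⁻¹ • V k) : A ⊆ s⁻¹ • Lim F V := by
  intro x hx
  rw [mem_inv_smul]
  change ∀ᶠ k in (F : Filter ι), s * x ∈ V k
  filter_upwards [h] with k hk
  exact mem_inv_smul.1 (hk hx)

theorem Lim_subset {ι : Type*} {F : Ultrafilter ι} {V : ι → Set G} {A : Set G} {s : G}
    (h : ∀ᶠ k in (F : Filter ι), s⁻¹ • V k ⊆ A) : s⁻¹ • Lim F V ⊆ A := by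
  intro x hx
  rw [mem_inv_smul] at hx
  have hx' : ∀ᶠ k in (F : Filter ι), s * x ∈ V k := hx
  obtain ⟨k, h1, h2⟩ := (h.and hx').exists
  exact h1 (mem_inv_smul.2 h2)

/-- isolation lemma -/
theorem CutFam.iso (hT : CutFam BR T) (htf : ∀ g : G, g ≠ 1 → ∀ n : ℕ, n ≠ 0 → g ^ n ≠ 1)
    {V M : Set G} {c : Q} (hV : (V, c) ∈ T) {k : G} (hk1 : k ≠ 1)
    (hkM : ∀ x, x ∈ M ↔ k * x ∈ M) {x y : G} (hxy : x⁻¹ * y ∈ BR)
    (h : (V ⊆ M ∧ (∀ u, u ∈ V → k⁻¹ * u ∈ V) ∧ x ∈ V ∧ y ∉ M) ∨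
      (M ⊆ V ∧ (∀ u, k⁻¹ * u ∈ V → u ∈ V) ∧ x ∈ M ∧ y ∉ V)) : k • c = c := by
  have hM : ∀ (i : ℕ) (x : G), x ∈ M ↔ (k⁻¹) ^ i * x ∈ M := by
    intro i
    induction i with
    | zero => intro x; simp
    | succ n ih =>
      intro x
      rw [ih x, hkM ((k⁻¹) ^ (n+1) * x)]
      rw [pow_succ', ← mul_assoc, ← mul_assoc, mul_inv_cancel, one_mul]
  have key : ∀ i : ℕ, (k⁻¹) ^ i * x ∈ V ∧ (k⁻¹) ^ i * y ∉ V := by
    rcases h with ⟨h1, h2, h3, h4⟩ | ⟨h1, h2, h3, h4⟩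
    · have hV' : ∀ i : ℕ, (k⁻¹) ^ i * x ∈ V := by
        intro i
        induction i with
        | zero => simpa using h3
        | succ n ih =>
          have := h2 _ ih
          rwa [← mul_assoc, ← pow_succ'] at this
      refine fun i => ⟨hV' i, fun hy => h4 ?_⟩
      exact (hM i y).2 (h1 hy)
    · have hV' : ∀ i : ℕ, (k⁻¹) ^ i * y ∉ V := by
        intro i
        induction i with
        | zero => simpa using h4
        | succ n ih =>
          intro hc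
          apply ih
          apply h2
          rwa [← mul_assoc, ← pow_succ']
      exact fun i => ⟨h1 ((hM i x).1 h3), hV' i⟩
  have hinf : (Ov BR V (k • V)).Infinite := by
    have hinj : Function.Injective (fun i : ℕ => (k⁻¹) ^ i * x) := by
      intro i j hij
      have hij' : (k⁻¹) ^ i = (k⁻¹) ^ j := mul_right_cancel hij
      by_contra hne
      have hk1' : k⁻¹ ≠ 1 := by simpa using hk1
      rcases lt_or_gt_of_ne hne with hlt | hlt
      · have := htf k⁻¹ hk1' (j - i) (by omega)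
        apply this
        rw [← mul_right_inj ((k⁻¹) ^ i), ← pow_add, mul_one, hij']
        congr 1
        omega
      · have := htf k⁻¹ hk1' (i - j) (by omega)
        apply this
        rw [← mul_right_inj ((k⁻¹) ^ j), ← pow_add, mul_one, ← hij']
        congr 1
        omega
    refine (Set.infinite_range_of_injective hinj).mono ?_
    rintro _ ⟨i, rfl⟩
    refine ⟨(key i).1, ?_, (k⁻¹) ^ i * y, ?_, (key i).2, ?_⟩
    · rw [mem_smul']
      have := (key (i+1)).1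
      rwa [pow_succ', mul_assoc] at this
    · have : ((k⁻¹) ^ i * x)⁻¹ * ((k⁻¹) ^ i * y) = x⁻¹ * y := by group
      rwa [this]
    · rw [mem_smul']
      have := (key (i+1)).2
      rwa [pow_succ', mul_assoc] at this
  exact (hT.same hV (hT.smul k V c hV) hinf).symm


/-- two families of cuts -/
structure PF (T : Set (Set G × Q)) {ι : Type*} (V V' : ι → Set G) (c c' : ι → Q) : Prop where
  mem : ∀ k, (V k, c k) ∈ T
  mem' : ∀ k, (V' k, c' k) ∈ T
  sub : ∀ k, V k ⊆ V' k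

/-- good elements -/
def II {ι : Type*} (F : Ultrafilter ι) (V V' : ι → Set G) (p q z : G) : Set G :=
  {t | t * p ∈ Lim F V ∧ t * q ∉ Lim F V' ∧ t * z ∈ Lim F V' ∧ t * z ∉ Lim F V}

section pf

variable {ι : Type*} {F : Ultrafilter ι} {V V' : ι → Set G} {c c' : ι → Q} {p q z : G}

theorem PF.lim_sub (h : PF T V V' c c') : Lim F V ⊆ Lim F V' := by
  intro x hx
  have hx' : ∀ᶠ k in (F : Filter ι), x ∈ V k := hx
  change ∀ᶠ k in (F : Filter ι), x ∈ V' k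
  exact hx'.mono fun k hk => h.sub k hk

theorem PF.q_notMem (h : PF T V V' c c') {t : G} (ht : t ∈ II F V V' p q z) :
    ∀ᶠ k in (F : Filter ι), t * q ∉ V k := by
  have := notMem_Lim.1 ht.2.1
  exact this.mono fun k hk h' => hk (h.sub k h')

theorem PF.cmp1 (hT : CutFam BR T) (h : PF T V V' c c') {s t : G} (hs : s ∈ II F V V' p q z)
    (ht : t ∈ II F V V' p q z) (hst : ¬ ∀ᶠ k in (F : Filter ι), (s * t⁻¹) • c k = c k) :
    (∀ᶠ k in (F : Filter ι), t⁻¹ • V k ⊆ s⁻¹ • Lim F V) ∨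
    (∀ᶠ k in (F : Filter ι), s⁻¹ • Lim F V ⊆ t⁻¹ • V k) := by
  have h1 := sep F c c (s * t⁻¹) hst
  have htp : ∀ᶠ k in (F : Filter ι), t * p ∈ V k := ht.1
  have hsp : ∀ᶠ k in (F : Filter ι), s * p ∈ V k := hs.1
  rw [← Ultrafilter.eventually_or]
  filter_upwards [h1, htp, h.q_notMem ht] with k hk1 hk2 hk3
  have : ∀ᶠ m in (F : Filter ι), (t⁻¹ • V k ⊆ s⁻¹ • V m ∨ s⁻¹ • V m ⊆ t⁻¹ • V k) := by
    filter_upwards [hk1, hsp, h.q_notMem hs] with m hm1 hm2 hm3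
    refine hT.comp (hT.smul t⁻¹ _ _ (h.mem k)) (hT.smul s⁻¹ _ _ (h.mem m)) ?_
      (x := p) (y := q) (mem_inv_smul.2 hk2) (mem_inv_smul.2 hm2)
      (fun h => hk3 (mem_inv_smul.1 h)) (fun h => hm3 (mem_inv_smul.1 h))
    intro heq
    apply hm1
    rw [mul_smul, heq, smul_inv_smul]
  rw [Ultrafilter.eventually_or] at this
  rcases this with h' | h'
  · exact Or.inl (subset_Lim h')
  · exact Or.inr (Lim_subset h')

theorem PF.cmp2 (hT : CutFam BR T) (h : PF T V V' c c') {s t : G} (hs : s ∈ II F V V' p q z)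
    (ht : t ∈ II F V V' p q z) (hst : ¬ ∀ᶠ k in (F : Filter ι), (s * t⁻¹) • c k = c' k) :
    ∀ᶠ k in (F : Filter ι), t⁻¹ • V k ⊆ s⁻¹ • Lim F V' := by
  have h1 := sep F c c' (s * t⁻¹) hst
  have htp : ∀ᶠ k in (F : Filter ι), t * p ∈ V k := ht.1
  have hsp : ∀ᶠ k in (F : Filter ι), s * p ∈ V k := hs.1
  have hsz : ∀ᶠ k in (F : Filter ι), s * z ∈ V' k := hs.2.2.1
  filter_upwards [h1, htp, h.q_notMem ht, notMem_Lim.1 ht.2.2.2] with k hk1 hk2 hk3 hk4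
  apply subset_Lim
  filter_upwards [hk1, hsp, notMem_Lim.1 hs.2.1, hsz] with m hm1 hm2 hm3 hm4
  have := hT.comp (hT.smul t⁻¹ _ _ (h.mem k)) (hT.smul s⁻¹ _ _ (h.mem' m)) ?_
      (x := p) (y := q) (mem_inv_smul.2 hk2) (mem_inv_smul.2 (h.sub m hm2))
      (fun h => hk3 (mem_inv_smul.1 h)) (fun h => hm3 (mem_inv_smul.1 h))
  · rcases this with h' | h'
    · exact h'
    · exact absurd (mem_inv_smul.1 (h' (mem_inv_smul.2 hm4))) hk4
  · intro heq
    apply hm1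
    rw [mul_smul, heq, smul_inv_smul]

/-- strictly above: the walls contain a fixed infinite set -/
theorem PF.wall (h : PF T V V' c c') (hpq : p⁻¹ * q ∈ BR) {s t : G}
    (k : ι) (h1 : s⁻¹ • Lim F V ⊆ t⁻¹ • V k) (h2 : t⁻¹ • V k ⊆ s⁻¹ • Lim F V')
    {u : G} (hu : u ∈ II F V V' p q z) :
    s⁻¹ * (u * p) ∈ t⁻¹ • V k ∧ s⁻¹ * (u * q) ∉ t⁻¹ • V k ∧
      (s⁻¹ * (u * p))⁻¹ * (s⁻¹ * (u * q)) ∈ BR := by
  refine ⟨h1 ?_, fun hc => hu.2.1 ?_, ?_⟩
  · rw [mem_inv_smul, mul_inv_cancel_left]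
    exact hu.1
  · have := h2 hc
    rwa [mem_inv_smul, mul_inv_cancel_left] at this
  · have : (s⁻¹ * (u * p))⁻¹ * (s⁻¹ * (u * q)) = p⁻¹ * q := by group
    rwa [this]

theorem PF.two (hT : CutFam BR T) (h : PF T V V' c c') (hpq : p⁻¹ * q ∈ BR)
    (hinf : (II F V V' p q z).Infinite) {s t1 t2 : G}
    (h1 : ∀ᶠ k in (F : Filter ι), s⁻¹ • Lim F V ⊆ t1⁻¹ • V k ∧ t1⁻¹ • V k ⊆ s⁻¹ • Lim F V')
    (h2 : ∀ᶠ k in (F : Filter ι), s⁻¹ • Lim F V ⊆ t2⁻¹ • V k ∧ t2⁻¹ • V k ⊆ s⁻¹ • Lim F V')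
    (hst : ¬ ∀ᶠ k in (F : Filter ι), (t1 * t2⁻¹) • c k = c k) : False := by
  have h3 := Ultrafilter.eventually_not.2 hst
  obtain ⟨k, hk1, hk2, hk3⟩ := (h1.and (h2.and h3)).exists
  have hOv : (Ov BR (t1⁻¹ • V k) (t2⁻¹ • V k)).Infinite := by
    have hinj : InjOn (fun u : G => s⁻¹ * (u * p)) (II F V V' p q z) := by
      intro a _ b _ hab
      simpa only [mul_right_inj, mul_left_inj] using hab
    refine (hinf.image hinj).mono ?_
    rintro _ ⟨u, hu, rfl⟩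
    obtain ⟨a1, a2, a3⟩ := h.wall hpq k hk1.1 hk1.2 hu
    obtain ⟨b1, b2, b3⟩ := h.wall hpq k hk2.1 hk2.2 hu
    exact ⟨a1, b1, _, a3, a2, b2⟩
  have := hT.same (hT.smul t1⁻¹ _ _ (h.mem k)) (hT.smul t2⁻¹ _ _ (h.mem k)) hOv
  apply hk3
  rw [mul_smul, ← this, smul_inv_smul]

theorem PF.ne_lim (hT : CutFam BR T) (htf : ∀ g : G, g ≠ 1 → ∀ n : ℕ, n ≠ 0 → g ^ n ≠ 1)
    (h : PF T V V' c c') (hpq : p⁻¹ * q ∈ BR) {s t : G}
    (hs : s ∈ II F V V' p q z) (ht : t ∈ II F V V' p q z)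
    (hst : ¬ ∀ᶠ k in (F : Filter ι), (s * t⁻¹) • c k = c k)
    (hts : ¬ ∀ᶠ k in (F : Filter ι), (t * s⁻¹) • c k = c k) :
    s⁻¹ • Lim F V ≠ t⁻¹ • Lim F V := by
  intro heq
  have hh : ∀ x, x ∈ Lim F V ↔ (t * s⁻¹) * x ∈ Lim F V := by
    intro x
    have h1 : s⁻¹ * x ∈ s⁻¹ • Lim F V ↔ x ∈ Lim F V := by
      rw [mem_inv_smul, mul_inv_cancel_left]
    rw [← h1, heq, mem_inv_smul, mul_assoc]
  have hh' : ∀ x, x ∈ Lim F V ↔ (t * s⁻¹)⁻¹ * x ∈ Lim F V := by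
    intro x
    rw [hh ((t * s⁻¹)⁻¹ * x), mul_inv_cancel_left]
  have hne1 : t * s⁻¹ ≠ 1 := by
    intro h1
    apply hts
    rw [h1]
    exact Eventually.of_forall fun k => one_smul _ _
  have hne1' : (t * s⁻¹)⁻¹ ≠ 1 := inv_ne_one.2 hne1
  have hcomp : ∀ᶠ k in (F : Filter ι), V k ⊆ Lim F V ∨ Lim F V ⊆ V k := by
    have := h.cmp1 hT hs ht hst
    rw [heq] at this
    rw [Ultrafilter.eventually_or]
    rcases this with h' | h'
    · exact Or.inl (h'.mono fun k hk => by simpa only [smul_set_subset_smul_set_iff] using hk)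
    · exact Or.inr (h'.mono fun k hk => by simpa only [smul_set_subset_smul_set_iff] using hk)
  have hts' := Ultrafilter.eventually_not.2 hts
  have htp : ∀ᶠ k in (F : Filter ι), t * p ∈ V k := ht.1
  have hsp : ∀ᶠ k in (F : Filter ι), s * p ∈ V k := hs.1
  obtain ⟨k, hk1, hk2, hk3, hk4, hk5, hk6⟩ := (hcomp.and (hts'.and (htp.and (hsp.and
    ((h.q_notMem ht).and (h.q_notMem hs)))))).exists
  have hqL : t * q ∉ Lim F V := fun h' => ht.2.1 (h.lim_sub h')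
  have hxy : (t * p)⁻¹ * (t * q) ∈ BR := by
    have : (t * p)⁻¹ * (t * q) = p⁻¹ * q := by group
    rwa [this]
  have hcmp := hT.comp (h.mem k) (hT.smul (t * s⁻¹) _ _ (h.mem k)) (fun h' => hk2 h'.symm)
    (x := t * p) (y := t * q) hk3 (mem_smul'.2 (by simpa only [mul_inv_rev, inv_inv, mul_assoc, inv_mul_cancel_left] using hk4)) hk5
    (fun h' => hk6 (by simpa only [mul_inv_rev, inv_inv, mul_assoc, inv_mul_cancel_left] using mem_smul'.1 h'))
  have fin1 : ∀ {g : G} {a : Q}, g⁻¹ • a = a → g • a = a := by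
    intro g a hga
    rw [inv_smul_eq_iff] at hga
    exact hga.symm
  rcases hcmp with hc | hc
  · -- V ⊆ h V
    rcases hk1 with hL | hL
    · exact hk2 (hT.iso htf (h.mem k) hne1 hh hxy (Or.inl ⟨hL, fun u hu => mem_smul'.1 (hc hu), hk3, hqL⟩))
    · apply hk2
      apply fin1
      refine hT.iso htf (h.mem k) hne1' hh' hxy (Or.inr ⟨hL, fun u hu => ?_, ht.1, hk5⟩)
      rw [inv_inv] at hu
      have := mem_smul'.1 (hc hu)
      rwa [inv_mul_cancel_left] at this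
  · rcases hk1 with hL | hL
    · apply hk2
      apply fin1
      refine hT.iso htf (h.mem k) hne1' hh' hxy (Or.inl ⟨hL, fun u hu => ?_, hk3, hqL⟩)
      rw [inv_inv]
      apply hc
      rw [mem_smul', inv_mul_cancel_left]
      exact hu
    · refine hk2 (hT.iso htf (h.mem k) hne1 hh hxy (Or.inr ⟨hL, fun u hu => ?_, ht.1, hk5⟩))
      exact hc (mem_smul'.2 hu)

theorem PF.caseB3 (hT : CutFam BR T) (htf : ∀ g : G, g ≠ 1 → ∀ n : ℕ, n ≠ 0 → g ^ n ≠ 1)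
    (h : PF T V V' c c') (hpq : p⁻¹ * q ∈ BR) (hinf : (II F V V' p q z).Infinite)
    (s : Fin 3 → G) (hs : ∀ i, s i ∈ II F V V' p q z)
    (h0 : ∀ i j, i ≠ j → ¬ ∀ᶠ k in (F : Filter ι), (s i * (s j)⁻¹) • c k = c k)
    (h1 : ∀ i j, i ≠ j → ¬ ∀ᶠ k in (F : Filter ι), (s i * (s j)⁻¹) • c k = c' k) : False := by
  have hcomp : ∀ i j, i ≠ j → (s i)⁻¹ • Lim F V ⊆ (s j)⁻¹ • Lim F V ∨
      (s j)⁻¹ • Lim F V ⊆ (s i)⁻¹ • Lim F V := by
    intro i j hij
    rcases h.cmp1 hT (hs i) (hs j) (h0 i j hij) with h' | h'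
    · exact Or.inr (Lim_subset h')
    · exact Or.inl (subset_Lim h')
  have hne : ∀ i j, i ≠ j → (s i)⁻¹ • Lim F V ≠ (s j)⁻¹ • Lim F V := fun i j hij =>
    h.ne_lim hT htf hpq (hs i) (hs j) (h0 i j hij) (h0 j i hij.symm)
  have habove : ∀ i j, i ≠ j → (s i)⁻¹ • Lim F V ⊆ (s j)⁻¹ • Lim F V →
      ∀ᶠ k in (F : Filter ι), (s i)⁻¹ • Lim F V ⊆ (s j)⁻¹ • V k ∧
        (s j)⁻¹ • V k ⊆ (s i)⁻¹ • Lim F V' := by
    intro i j hij hsub
    refine Eventually.and ?_ (h.cmp2 hT (hs i) (hs j) (h1 i j hij))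
    rcases h.cmp1 hT (hs i) (hs j) (h0 i j hij) with h' | h'
    · exact absurd (hsub.antisymm (Lim_subset h')) (hne i j hij)
    · exact h'
  have hmin : ∀ i j l, i ≠ j → i ≠ l → j ≠ l → (s i)⁻¹ • Lim F V ⊆ (s j)⁻¹ • Lim F V →
      (s i)⁻¹ • Lim F V ⊆ (s l)⁻¹ • Lim F V → False := by
    intro i j l hij hil hjl hA hB
    exact h.two hT hpq hinf (habove i j hij hA) (habove i l hil hB) (h0 j l hjl)
  have h01 : (0 : Fin 3) ≠ 1 := by decide
  have h02 : (0 : Fin 3) ≠ 2 := by decide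
  have h12 : (1 : Fin 3) ≠ 2 := by decide
  rcases hcomp 0 1 h01 with a | a <;> rcases hcomp 0 2 h02 with b | b <;>
    rcases hcomp 1 2 h12 with d | d
  · exact hmin 0 1 2 h01 h02 h12 a b
  · exact hmin 0 1 2 h01 h02 h12 a b
  · exact hmin 0 1 2 h01 h02 h12 a (a.trans d)
  · exact hmin 2 0 1 h02.symm h12.symm h01 b d
  · exact hmin 1 0 2 h01.symm h12 h02 a d
  · exact hmin 1 0 2 h01.symm h12 h02 a (a.trans b)
  · exact hmin 1 0 2 h01.symm h12 h02 a d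
  · exact hmin 2 0 1 h02.symm h12.symm h01 b d

end pf

/-- three independent vertices of an infinite functional digraph -/
theorem indep3 {J : Set G} (hJ : J.Infinite) (r : G → G → Prop)
    (hr : ∀ s ∈ J, ∀ t ∈ J, ∀ t' ∈ J, r s t → r s t' → t = t') :
    ∃ s : Fin 3 → G, (∀ i, s i ∈ J) ∧ ∀ i j, i ≠ j → ¬ r (s i) (s j) ∧ s i ≠ s j := by
  have key : ∃ a ∈ J, ∃ b ∈ J, ∃ d ∈ J, (¬ r a b ∧ ¬ r b a ∧ a ≠ b) ∧
      (¬ r a d ∧ ¬ r d a ∧ a ≠ d) ∧ (¬ r b d ∧ ¬ r d b ∧ b ≠ d) := by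
    by_cases hc : ∃ s0 ∈ J, {t | t ∈ J ∧ r t s0}.Infinite
    · obtain ⟨s0, hs0, hinf⟩ := hc
      obtain ⟨a, ha, ha'⟩ := (hinf.sdiff (Set.finite_singleton s0)).nonempty
      obtain ⟨b, hb, hb'⟩ := (hinf.sdiff ((Set.finite_singleton s0).insert a)).nonempty
      obtain ⟨d, hd, hd'⟩ := (hinf.sdiff (((Set.finite_singleton s0).insert a).insert b)).nonempty
      simp only [mem_insert_iff, mem_singleton_iff, not_or] at ha' hb' hd'
      have hno : ∀ x y, x ∈ J → r x s0 → y ∈ J → y ≠ s0 → ¬ r x y := by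
        intro x y hx hxs hy hys hxy
        exact hys (hr x hx y hy s0 hs0 hxy hxs)
      refine ⟨a, ha.1, b, hb.1, d, hd.1, ⟨hno a b ha.1 ha.2 hb.1 hb'.2,
        hno b a hb.1 hb.2 ha.1 ha', fun h => hb'.1 h.symm⟩,
        ⟨hno a d ha.1 ha.2 hd.1 hd'.2.2, hno d a hd.1 hd.2 ha.1 ha', fun h => hd'.2.1 h.symm⟩,
        ⟨hno b d hb.1 hb.2 hd.1 hd'.2.2, hno d b hd.1 hd.2 hb.1 hb'.2, fun h => hd'.1 h.symm⟩⟩
    · push Not at hc
      have hin : ∀ s0 ∈ J, {t | t ∈ J ∧ r t s0}.Finite := fun s0 hs0 =>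
        hc s0 hs0
      have hout : ∀ s0 ∈ J, {t | t ∈ J ∧ r s0 t}.Finite := by
        intro s0 hs0
        apply Set.Subsingleton.finite
        intro t ht t' ht'
        exact hr s0 hs0 t ht.1 t' ht'.1 ht.2 ht'.2
      obtain ⟨a, ha⟩ := hJ.nonempty
      obtain ⟨b, hb, hb'⟩ := (hJ.sdiff (((hin a ha).union (hout a ha)).insert a)).nonempty
      obtain ⟨d, hd, hd'⟩ := (hJ.sdiff ((((hin a ha).union (hout a ha)).insert a).union
        (((hin b hb).union (hout b hb)).insert b))).nonempty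
      simp only [mem_insert_iff, mem_union, mem_ofPred_eq, not_or, not_and] at hb' hd'
      exact ⟨a, ha, b, hb, d, hd, ⟨hb'.2.2 hb, hb'.2.1 hb, fun h => hb'.1 h.symm⟩,
        ⟨hd'.1.2.2 hd, hd'.1.2.1 hd, fun h => hd'.1.1 h.symm⟩,
        ⟨hd'.2.2.2 hd, hd'.2.2.1 hd, fun h => hd'.2.1 h.symm⟩⟩
  obtain ⟨a, ha, b, hb, d, hd, hab, had, hbd⟩ := key
  refine ⟨![a, b, d], ?_, ?_⟩
  · intro i
    fin_cases i <;> simp [ha, hb, hd]
  · intro i j hij
    fin_cases i <;> fin_cases j <;> simp at hij ⊢ <;>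
    (clear * - hab had hbd; tauto)

/-- infinite classes -/
theorem infClass {I : Set G} (hI : I.Infinite) (r : Setoid G)
    (hno : ∀ J ⊆ I, J.Infinite → ∃ s ∈ J, ∃ t ∈ J, s ≠ t ∧ r s t) :
    ∃ J ⊆ I, J.Infinite ∧ ∀ s ∈ J, ∀ t ∈ J, r s t := by
  set f : G → Quotient r := Quotient.mk r with hf
  by_cases hfin : (f '' I).Finite
  · by_contra hcon
    push Not at hcon
    have : ∀ y ∈ f '' I, (I ∩ f ⁻¹' {y}).Finite := by
      intro y _
      by_contra hinf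
      obtain ⟨s, hs, t, ht, hst⟩ := hcon (I ∩ f ⁻¹' {y}) inter_subset_left hinf
      apply hst
      have h1 : f s = y := hs.2
      have h2 : f t = y := ht.2
      exact Quotient.exact (h1.trans h2.symm)
    apply hI
    refine (hfin.biUnion this).subset ?_
    intro x hx
    simp only [mem_iUnion]
    exact ⟨f x, ⟨x, hx, rfl⟩, hx, rfl⟩
  · obtain ⟨J, hJI, hJ⟩ := Set.exists_subset_bijOn I f
    have hJinf : J.Infinite := by
      intro hfinJ
      apply hfin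
      rw [← hJ.image_eq]
      exact hfinJ.image f
    obtain ⟨s, hs, t, ht, hne, hst⟩ := hno J hJI hJinf
    exact absurd (hJ.injOn hs ht (Quotient.sound hst)) hne

/-- the relation of being in one class -/
def fixRel {ι : Type*} (F : Ultrafilter ι) (c : ι → Q) : Setoid G where
  r s t := ∀ᶠ k in (F : Filter ι), s⁻¹ • c k = t⁻¹ • c k
  iseqv := ⟨fun _ => Eventually.of_forall fun _ => rfl, fun h => h.mono fun _ hk => hk.symm,
    fun h1 h2 => (h1.and h2).mono fun _ hk => hk.1.trans hk.2⟩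

theorem rel_iff {ι : Type*} (F : Ultrafilter ι) (a b : ι → Q) (s t : G) :
    (∀ᶠ k in (F : Filter ι), (s * t⁻¹) • a k = b k) ↔
      ∀ᶠ k in (F : Filter ι), t⁻¹ • a k = s⁻¹ • b k := by
  apply eventually_congr
  refine Eventually.of_forall fun k => ?_
  rw [mul_smul, eq_inv_smul_iff]

section pf2

variable {ι : Type*} {F : Ultrafilter ι} {V V' : ι → Set G} {c c' : ι → Q} {p q z : G}

theorem PF.classB (hT : CutFam BR T) (htf : ∀ g : G, g ≠ 1 → ∀ n : ℕ, n ≠ 0 → g ^ n ≠ 1)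
    (h : PF T V V' c c') (hpq : p⁻¹ * q ∈ BR) {J : Set G} (hJ : J.Infinite)
    (hJI : J ⊆ II F V V' p q z) : ∃ s ∈ J, ∃ t ∈ J, s ≠ t ∧ fixRel F c s t := by
  by_contra hcon
  push Not at hcon
  have hno : ∀ s ∈ J, ∀ t ∈ J, s ≠ t → ¬ ∀ᶠ k in (F : Filter ι), (s * t⁻¹) • c k = c k := by
    intro s hs t ht hst h'
    rw [rel_iff] at h'
    exact hcon t ht s hs (Ne.symm hst) h'
  obtain ⟨s, hs, hs'⟩ := indep3 hJ
    (fun s t => ∀ᶠ k in (F : Filter ι), (s * t⁻¹) • c k = c' k) (by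
      intro s hs t ht t' ht' h1 h2
      by_contra hne
      apply hcon t ht t' ht' hne
      rw [rel_iff] at h1 h2
      exact (h1.and h2).mono fun k hk => hk.1.trans hk.2.symm)
  exact h.caseB3 hT htf hpq (hJ.mono hJI) s (fun i => hJI (hs i))
    (fun i j hij => hno _ (hs i) _ (hs j) (hs' i j hij).2) (fun i j hij => (hs' i j hij).1)

theorem Lim_compl : Lim F (fun k => (V k)ᶜ) = (Lim F V)ᶜ := by
  ext x
  rw [mem_compl_iff, notMem_Lim]
  rfl

theorem PF.classC (hT : CutFam BR T) (hsym : ∀ x ∈ BR, x⁻¹ ∈ BR)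
    (htf : ∀ g : G, g ≠ 1 → ∀ n : ℕ, n ≠ 0 → g ^ n ≠ 1)
    (h : PF T V V' c c') (hpq : p⁻¹ * q ∈ BR) {J : Set G} (hJ : J.Infinite)
    (hJI : J ⊆ II F V V' p q z) : ∃ s ∈ J, ∃ t ∈ J, s ≠ t ∧ fixRel F c' s t := by
  have h' : PF T (fun k => (V' k)ᶜ) (fun k => (V k)ᶜ) c' c :=
    ⟨fun k => hT.compl _ _ (h.mem' k), fun k => hT.compl _ _ (h.mem k),
      fun k => compl_subset_compl.2 (h.sub k)⟩
  refine h'.classB hT htf (p := q) (q := p) (z := z) (F := F) ?_ hJ ?_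
  · have := hsym _ hpq
    rwa [mul_inv_rev, inv_inv] at this
  · intro t ht
    obtain ⟨a1, a2, a3, a4⟩ := hJI ht
    refine ⟨?_, ?_, ?_, ?_⟩
    · rw [Lim_compl]; exact a2
    · rw [Lim_compl]; exact fun h => h a1
    · rw [Lim_compl]; exact a4
    · rw [Lim_compl]; exact fun h => h a3

end pf2

/-- **core theorem** -/
theorem core (hT : CutFam BR T) (hsym : ∀ x ∈ BR, x⁻¹ ∈ BR)
    (htf : ∀ g : G, g ≠ 1 → ∀ n : ℕ, n ≠ 0 → g ^ n ≠ 1)
    {ι : Type*} (F : Ultrafilter ι) {V V1 V2 : ι → Set G} {c c1 c2 : ι → Q}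
    (h1 : PF T V V1 c c1) (h2 : PF T V V2 c c2) (hlim : Lim F V1 = Lim F V2)
    (h01 : ∀ k, c k ≠ c1 k) (h02 : ∀ k, c k ≠ c2 k) (h12 : ∀ k, c1 k ≠ c2 k)
    {p q z : G} (hpq : p⁻¹ * q ∈ BR) : (II F V V1 p q z).Finite := by
  by_contra hinf
  have hII : II F V V1 p q z = II F V V2 p q z := by
    unfold II
    rw [hlim]
  obtain ⟨J, hJ, hJinf, hJr⟩ := infClass hinf (fixRel F c)
    (fun J hJ hJinf => h1.classB hT htf hpq hJinf hJ)
  obtain ⟨J1, hJ1, hJ1inf, hJ1r⟩ := infClass hJinf (fixRel F c1)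
    (fun J' hJ' hJ'inf => h1.classC hT hsym htf hpq hJ'inf (hJ'.trans hJ))
  obtain ⟨J2, hJ2, hJ2inf, hJ2r⟩ := infClass hJ1inf (fixRel F c2)
    (fun J' hJ' hJ'inf => h2.classC hT hsym htf hpq hJ'inf
      ((hJ'.trans (hJ1.trans hJ)).trans hII.subset))
  obtain ⟨s, hs⟩ := hJ2inf.nonempty
  obtain ⟨t, ht, hts⟩ := (hJ2inf.sdiff (Set.finite_singleton s)).nonempty
  have e0 : ∀ᶠ k in (F : Filter ι), t⁻¹ • c k = s⁻¹ • c k :=
    hJr t (hJ1 (hJ2 ht)) s (hJ1 (hJ2 hs))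
  have e1 : ∀ᶠ k in (F : Filter ι), t⁻¹ • c1 k = s⁻¹ • c1 k := hJ1r t (hJ2 ht) s (hJ2 hs)
  have e2 : ∀ᶠ k in (F : Filter ι), t⁻¹ • c2 k = s⁻¹ • c2 k := hJ2r t ht s hs
  rw [← rel_iff] at e0 e1 e2
  obtain ⟨k, hk0, hk1, hk2⟩ := (e0.and (e1.and e2)).exists
  have hne : s * t⁻¹ ≠ 1 := by
    intro h
    apply hts
    rw [mem_singleton_iff]
    exact (mul_inv_eq_one.1 h).symm
  rcases hT.three _ _ _ _ _ _ _ hne (h1.mem k) (h1.mem' k) (h2.mem' k) hk0 hk1 hk2 with h | h | h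
  · exact h01 k h
  · exact h12 k h
  · exact h02 k h

end Vale.Agent.P239S
end

section

/-!
# P239, Module B: the centres of one-point cuts are discrete

`CutFam` = (T1)-(T6), `DeepFam` = (T7), `CapProp` = (CAP).
-/

set_option autoImplicit false
set_option linter.unusedSectionVars false
set_option linter.unusedVariables false

open scoped Pointwise
open Set Filter
open Vale.Agent.P239 (Adj Con)

namespace Vale.Agent.P239S

variable {G : Type*} [Group G] {Q : Type*} [MulAction G Q]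

/-- singular set of the pair `U ⊆ V` -/
def Sing (R : Finset G) (U V : Set G) : Set G :=
  {m | m ∈ V ∧ m ∉ U ∧ ∃ a ∈ U, ∃ b, b ∉ V ∧ m⁻¹ * a ∈ R ∧ m⁻¹ * b ∈ R ∧ a⁻¹ * b ∈ R}

/-- (CAP) -/
def CapProp (S R : Finset G) : Prop :=
  ∀ B : Finset G, ∃ F : Finset G, ∀ U V : Set G, U ⊆ V →
    {x | x ∈ U ∧ ∃ y, y ∉ V ∧ x⁻¹ * y ∈ R}.Finite →
    (∀ m m', Relation.ReflTransGen
      (fun a b => a ∈ Sing R U V ∧ b ∈ Sing R U V ∧ a⁻¹ * b ∈ R) m m' → m⁻¹ * m' ∈ B) →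
    ∃ E : Set G, E.Finite ∧ ∀ x y, x⁻¹ * y ∈ S → (∀ f ∈ F, x * f ∉ Sing R U V) →
      (¬ (x ∈ E ↔ y ∈ E) ↔ ((x ∈ U ∧ y ∉ V) ∨ (y ∈ U ∧ x ∉ V)))

/-- (T7) -/
structure DeepFam (S : Finset G) (T : Set (Set G × Q)) : Prop where
  deep1 : ∀ (U : Set G) (c : Q), (U, c) ∈ T → ∀ F : Finset G, ∃ K : Set G, K.Infinite ∧
    (∀ x ∈ K, ∀ y ∈ K, Con S K x y) ∧ ∀ x ∈ K, ∀ f ∈ F, x * f ∈ U
  deep2 : ∀ (U : ℕ → Set G) (c : ℕ → Q), (∀ n, (U n, c n) ∈ T) → Function.Injective c →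
    (∀ n, U n ⊆ U (n + 1)) → (∃ y, ∀ n, y ∉ U n) → ∀ F : Finset G, ∃ K : Set G, K.Infinite ∧
    (∀ x ∈ K, ∀ y ∈ K, Con S K x y) ∧ ∀ x ∈ K, ∀ f ∈ F, ∀ n, x * f ∉ U n

variable {S R : Finset G} {T : Set (Set G × Q)}

theorem not_mem_of_con {K E : Set G} (hsymS : ∀ s ∈ S, s⁻¹ ∈ S) (hK : K.Infinite) (hE : E.Finite)
    (hcon : ∀ x ∈ K, ∀ y ∈ K, Con S K x y)
    (h : ∀ x ∈ K, ∀ y ∈ K, x⁻¹ * y ∈ S → (x ∈ E ↔ y ∈ E)) : ∀ x ∈ K, x ∉ E := by
  intro x hx hxE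
  apply hK
  refine hE.subset fun y hy => ?_
  have := hcon x hx y hy
  clear hy
  induction this with
  | refl => exact hxE
  | tail _ h2 ih =>
    obtain ⟨h3, h4, s, hs, h5 | h5⟩ := h2
    · refine (h _ h3 _ h4 ?_).1 ih
      rw [h5, inv_mul_cancel_left]
      exact hs
    · refine (h _ h4 _ h3 ?_).2 ih
      rw [h5, inv_mul_cancel_left]
      exact hs

theorem caseA (hcap : CapProp S R) (hsymS : ∀ s ∈ S, s⁻¹ ∈ S)
    (hgen : Subgroup.closure (S : Set G) = ⊤)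
    (hT : CutFam (R : Set G) T) (hD : DeepFam S T) {U : ℕ → Set G} {c : ℕ → Q}
    (hU : ∀ n, (U n, c n) ∈ T) (hc : Function.Injective c) (hmono : Monotone U)
    {y : G} (hy : ∀ n, y ∉ U n) (B : Finset G)
    (hB : ∀ n m m', Relation.ReflTransGen
      (fun a b => a ∈ Sing R (U n) (⋃ n, U n) ∧ b ∈ Sing R (U n) (⋃ n, U n) ∧ a⁻¹ * b ∈ R) m m' →
        m⁻¹ * m' ∈ B) : False := by
  classical
  obtain ⟨F, hF⟩ := hcap B
  set W : Set G := ⋃ n, U n with hW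
  have hsub : ∀ n, U n ⊆ W := fun n => subset_iUnion U n
  have hov : ∀ n, {x | x ∈ U n ∧ ∃ y, y ∉ W ∧ x⁻¹ * y ∈ R}.Finite := by
    intro n
    refine (hT.fin (U n) (U (n + 1)) _ _ (hU n) (hU (n + 1)) (hc.ne (by omega))).subset ?_
    rintro x ⟨hx, b, hb, hxb⟩
    exact ⟨hx, hmono (Nat.le_succ n) hx, b, hxb, fun h => hb (hsub _ h), fun h => hb (hsub _ h)⟩
  choose E hEfin hE using fun n => hF (U n) W (hsub n) (hov n) (hB n)
  obtain ⟨K1, hK1inf, hK1con, hK1⟩ := hD.deep1 (U 0) (c 0) (hU 0) (insert 1 F)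
  obtain ⟨K2, hK2inf, hK2con, hK2⟩ := hD.deep2 U c hU hc (fun n => hmono (Nat.le_succ n)) ⟨y, hy⟩
    (insert 1 F)
  have hK1' : ∀ x ∈ K1, x ∈ U 0 := fun x hx => by simpa using hK1 x hx 1 (by simp only [Finset.mem_insert, true_or])
  have hK2' : ∀ x ∈ K2, x ∉ W := fun x hx => by
    rw [hW, mem_iUnion, not_exists]
    exact fun n => by simpa only [mul_one] using hK2 x hx 1 (by simp) n
  have e1 : ∀ n, ∀ x ∈ K1, x ∉ E n := by
    intro n
    refine not_mem_of_con hsymS hK1inf (hEfin n) hK1con fun x hx y hy hxy => ?_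
    have h1 := hE n x y hxy fun f hf hs => hs.2.1 (hmono (Nat.zero_le n) (hK1 x hx f (by simp [hf])))
    have h2 : x ∈ W := hsub 0 (hK1' x hx)
    have h3 : y ∈ W := hsub 0 (hK1' y hy)
    (clear * - h1 h3 h2; tauto)
  have e2 : ∀ n, ∀ x ∈ K2, x ∉ E n := by
    intro n
    refine not_mem_of_con hsymS hK2inf (hEfin n) hK2con fun x hx y hy hxy => ?_
    have h1 := hE n x y hxy fun f hf hs => by
      obtain ⟨i, hi⟩ := mem_iUnion.1 hs.1
      exact hK2 x hx f (by simp only [Finset.mem_insert, hf, or_true]) i hi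
    have h2 : x ∉ U n := fun h => hK2' x hx (hsub n h)
    have h3 : y ∉ U n := fun h => hK2' y hy (hsub n h)
    (clear * - h1 h2 h3; tauto)
  have hev : ∀ g : G, ∀ᶠ n in atTop, g ∈ W → g ∈ U n := by
    intro g
    by_cases hg : g ∈ W
    · obtain ⟨i, hi⟩ := mem_iUnion.1 hg
      filter_upwards [eventually_ge_atTop i] with n hn _
      exact hmono hn hi
    · exact Eventually.of_forall fun n h => absurd h hg
  have hstep : ∀ x y : G, x⁻¹ * y ∈ S → (∀ᶠ n in atTop, ¬ (x ∈ E n ↔ x ∈ W)) →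
      ∀ᶠ n in atTop, ¬ (y ∈ E n ↔ y ∈ W) := by
    intro x y hxy hx
    have hfar : ∀ᶠ n in atTop, ∀ f ∈ F, x * f ∉ Sing R (U n) W := by
      rw [Filter.eventually_all_finset]
      intro f hf
      filter_upwards [hev (x * f)] with n hn hs
      exact hs.2.1 (hn hs.1)
    filter_upwards [hx, hfar, hev x, hev y] with n h1 h2 h3 h4
    have h5 := hE n x y hxy h2
    have h6 : x ∈ U n → x ∈ W := fun h => hsub n h
    have h7 : y ∈ U n → y ∈ W := fun h => hsub n h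
    (clear * - h1 h3 h4 h5 h6 h7; tauto)
  have hall : ∀ g : G, ∀ x : G, (∀ᶠ n in atTop, ¬ (x ∈ E n ↔ x ∈ W)) ↔
      ∀ᶠ n in atTop, ¬ (x * g ∈ E n ↔ x * g ∈ W) := by
    intro g
    have hg : g ∈ Subgroup.closure (S : Set G) := by rw [hgen]; trivial
    induction hg using Subgroup.closure_induction with
    | mem s hs =>
      intro x
      constructor
      · exact hstep x (x * s) (by rw [inv_mul_cancel_left]; exact hs)
      · refine hstep (x * s) x ?_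
        have : (x * s)⁻¹ * x = s⁻¹ := by group
        rw [this]
        exact hsymS s hs
    | one => intro x; simp only [eventually_atTop, mul_one]
    | mul a b _ _ iha ihb =>
      intro x
      rw [iha x, ihb (x * a), mul_assoc]
    | inv a _ iha =>
      intro x
      rw [iha (x * a⁻¹), inv_mul_cancel_right]
  obtain ⟨a, ha⟩ := hK1inf.nonempty
  obtain ⟨b, hb⟩ := hK2inf.nonempty
  have hPa : ∀ᶠ n in atTop, ¬ (a ∈ E n ↔ a ∈ W) := Eventually.of_forall fun n h =>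
    e1 n a ha (h.2 (hsub 0 (hK1' a ha)))
  have hPb := (hall (a⁻¹ * b) a).1 hPa
  rw [mul_inv_cancel_left] at hPb
  obtain ⟨n, hn⟩ := hPb.exists
  exact hn ⟨fun h => absurd h (e2 n b hb), fun h => absurd h (hK2' b hb)⟩

theorem crossing {r : G → G → Prop} {P : G → Prop} {a b : G} (h : Relation.ReflTransGen r a b)
    (ha : P a) (hb : ¬ P b) : ∃ u v, r u v ∧ P u ∧ ¬ P v := by
  induction h with
  | refl => exact absurd ha hb
  | @tail u v h1 h2 ih =>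
    by_cases hP : P u
    · exact ⟨u, v, h2, hP, hb⟩
    · exact ih hP

section ball

open scoped Classical in
/-- balls -/
noncomputable def bl (R : Finset G) (k : ℕ) : Finset G := R ^ k

theorem one_mem_bl (h1 : (1 : G) ∈ R) (k : ℕ) : (1 : G) ∈ bl R k := by
  classical
  unfold bl
  exact Finset.one_mem_pow h1

theorem bl_mono (h1 : (1 : G) ∈ R) {j k : ℕ} (h : j ≤ k) : bl R j ⊆ bl R k := by
  classical
  unfold bl
  exact Finset.pow_subset_pow_right h1 h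

theorem mul_mem_bl {k : ℕ} {a b : G} (ha : a ∈ bl R k) (hb : b ∈ R) : a * b ∈ bl R (k + 1) := by
  classical
  unfold bl at *
  rw [pow_succ]
  exact Finset.mul_mem_mul ha hb

theorem inv_mem_bl (hsymR : ∀ s ∈ R, s⁻¹ ∈ R) (k : ℕ) : ∀ a ∈ bl R k, a⁻¹ ∈ bl R k := by
  classical
  unfold bl
  induction k with
  | zero =>
    intro a hk
    rw [pow_zero, Finset.mem_one] at hk
    rw [pow_zero, Finset.mem_one, hk, inv_one]
  | succ n ih =>
    intro a hk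
    rw [pow_succ, Finset.mem_mul] at hk
    obtain ⟨u, hu, v, hv, rfl⟩ := hk
    rw [pow_succ', mul_inv_rev]
    exact Finset.mul_mem_mul (hsymR v hv) (ih u hu)

theorem bl_exhaust (hsymR : ∀ s ∈ R, s⁻¹ ∈ R) (hgen : Subgroup.closure (R : Set G) = ⊤)
    (g : G) : ∃ k, g ∈ bl R k := by
  classical
  have hg : g ∈ Subgroup.closure (R : Set G) := by rw [hgen]; trivial
  induction hg using Subgroup.closure_induction with
  | mem s hs => exact ⟨1, by unfold bl; rw [pow_one]; exact hs⟩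
  | one => exact ⟨0, by unfold bl; rw [pow_zero]; simp only [Finset.mem_one]⟩
  | mul a b _ _ iha ihb =>
    obtain ⟨k, hk⟩ := iha
    obtain ⟨l, hl⟩ := ihb
    refine ⟨k + l, ?_⟩
    unfold bl at *
    rw [pow_add]
    exact Finset.mul_mem_mul hk hl
  | inv a _ iha =>
    obtain ⟨k, hk⟩ := iha
    exact ⟨k, inv_mem_bl hsymR k a hk⟩

end ball

theorem caseB (hsymR : ∀ s ∈ R, s⁻¹ ∈ R) (h1R : (1 : G) ∈ R)
    (hgen : Subgroup.closure (R : Set G) = ⊤)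
    (htf : ∀ g : G, g ≠ 1 → ∀ n : ℕ, n ≠ 0 → g ^ n ≠ 1)
    (hT : CutFam (R : Set G) T) {U : ℕ → Set G} {c : ℕ → Q}
    (hU : ∀ n, (U n, c n) ∈ T) (hc : Function.Injective c) (hmono : Monotone U)
    (hB : ∀ B : Finset G, ∃ n m m', Relation.ReflTransGen
      (fun a b => a ∈ Sing R (U n) (⋃ n, U n) ∧ b ∈ Sing R (U n) (⋃ n, U n) ∧ a⁻¹ * b ∈ R) m m' ∧
        m⁻¹ * m' ∉ B) : False := by
  classical
  set W : Set G := ⋃ n, U n with hW
  have hsub : ∀ n, U n ⊆ W := fun n => subset_iUnion U n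
  choose n m m' hmm hout using fun k : ℕ => hB (bl R k)
  -- the annuli
  have hann : ∀ j k : ℕ, j ≤ k → ∃ t ∈ ((bl R (j + 1)) ×ˢ (R ×ˢ R) : Finset (G × G × G)),
      t.1 ∉ bl R j ∧ t.2.1⁻¹ * t.2.2 ∈ R ∧ m k * t.1 ∈ W ∧ m k * t.1 ∉ U (n k) ∧
        m k * (t.1 * t.2.1) ∈ U (n k) ∧ m k * (t.1 * t.2.2) ∉ W := by
    intro j k hjk
    obtain ⟨u, v, ⟨hu, hv, huv⟩, hPu, hPv⟩ := crossing (P := fun u => (m k)⁻¹ * u ∈ bl R j) (hmm k)
      (by rw [inv_mul_cancel]; exact one_mem_bl h1R j) (fun h => hout k (bl_mono h1R hjk h))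
    obtain ⟨hv1, hv2, a, ha, b, hb, hva, hvb, hab⟩ := hv
    have e1 : m k * ((m k)⁻¹ * v) = v := mul_inv_cancel_left _ _
    have e2 : m k * ((m k)⁻¹ * v * (v⁻¹ * a)) = a := by group
    have e3 : m k * ((m k)⁻¹ * v * (v⁻¹ * b)) = b := by group
    have e4 : (v⁻¹ * a)⁻¹ * (v⁻¹ * b) = a⁻¹ * b := by group
    have e5 : (m k)⁻¹ * v = ((m k)⁻¹ * u) * (u⁻¹ * v) := by group
    refine ⟨((m k)⁻¹ * v, v⁻¹ * a, v⁻¹ * b), ?_, hPv, ?_, ?_, ?_, ?_, ?_⟩
    · simp only [Finset.mem_product]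
      refine ⟨?_, hva, hvb⟩
      rw [e5]
      exact mul_mem_bl hPu huv
    · show (v⁻¹ * a)⁻¹ * (v⁻¹ * b) ∈ R
      rw [e4]; exact hab
    · show m k * ((m k)⁻¹ * v) ∈ W
      rw [e1]; exact hv1
    · show m k * ((m k)⁻¹ * v) ∉ U (n k)
      rw [e1]; exact hv2
    · show m k * ((m k)⁻¹ * v * (v⁻¹ * a)) ∈ U (n k)
      rw [e2]; exact ha
    · show m k * ((m k)⁻¹ * v * (v⁻¹ * b)) ∉ W
      rw [e3]; exact hb
  set F : Ultrafilter ℕ := Filter.hyperfilter ℕ with hFdef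
  have hFtop : (F : Filter ℕ) ≤ atTop := Nat.hyperfilter_le_atTop
  have hann' : ∀ j : ℕ, ∃ t ∈ (((bl R (j + 1)) ×ˢ (R ×ˢ R) : Finset (G × G × G)) : Set (G × G × G)),
      ∀ᶠ k in (F : Filter ℕ), t.1 ∉ bl R j ∧ t.2.1⁻¹ * t.2.2 ∈ R ∧ m k * t.1 ∈ W ∧
        m k * t.1 ∉ U (n k) ∧ m k * (t.1 * t.2.1) ∈ U (n k) ∧ m k * (t.1 * t.2.2) ∉ W := by
    intro j
    rw [← Ultrafilter.eventually_exists_mem_iff (Finset.finite_toSet _)]
    filter_upwards [hFtop (eventually_ge_atTop j)] with k hk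
    exact hann j k hk
  choose τ hτ1 hτ2 using hann'
  have hinj : Function.Injective fun j => (τ j).1 := by
    have key : ∀ i j, i < j → (τ i).1 ≠ (τ j).1 := by
      intro i j hij heq
      have h1 : (τ i).1 ∈ bl R (i + 1) := (Finset.mem_product.1 (hτ1 i)).1
      obtain ⟨k, hk⟩ := (hτ2 j).exists
      exact hk.1 (heq ▸ bl_mono h1R hij h1)
    intro i j hij
    by_contra hne
    rcases lt_or_gt_of_ne hne with h | h
    · exact key i j h hij
    · exact key j i h hij.symm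
  -- the outer families
  have hl : ∀ k : ℕ, ∃ l, n k < l ∧ ∀ x ∈ bl R k, m k * x ∈ W → m k * x ∈ U l := by
    intro k
    have h2 : ∀ᶠ l in atTop, ∀ x ∈ bl R k, m k * x ∈ W → m k * x ∈ U l := by
      rw [Filter.eventually_all_finset]
      intro x _
      by_cases hg : m k * x ∈ W
      · obtain ⟨i, hi⟩ := mem_iUnion.1 hg
        filter_upwards [eventually_ge_atTop i] with n hn _
        exact hmono hn hi
      · exact Eventually.of_forall fun n h => absurd h hg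
    exact ((eventually_gt_atTop (n k)).and h2).exists
  choose l hl1 hl2 using hl
  have hLim : ∀ (l' : ℕ → ℕ), (∀ k, l k ≤ l' k) → ∀ x, (x ∈ Lim F (fun k => (m k)⁻¹ • U (l' k)) ↔
      ∀ᶠ k in (F : Filter ℕ), m k * x ∈ W) := by
    intro l' hl' x
    obtain ⟨k0, hk0⟩ := bl_exhaust hsymR hgen x
    have hx : ∀ᶠ k in (F : Filter ℕ), x ∈ bl R k := by
      filter_upwards [hFtop (eventually_ge_atTop k0)] with k hk
      exact bl_mono h1R hk hk0
    constructor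
    · intro h
      have h' : ∀ᶠ k in (F : Filter ℕ), x ∈ (m k)⁻¹ • U (l' k) := h
      filter_upwards [h'] with k hk
      exact hsub _ (mem_inv_smul.1 hk)
    · intro h
      change ∀ᶠ k in (F : Filter ℕ), x ∈ (m k)⁻¹ • U (l' k)
      filter_upwards [h, hx] with k hk hk'
      exact mem_inv_smul.2 (hmono (hl' k) (hl2 k x hk' hk))
  have hP1 : PF T (fun k => (m k)⁻¹ • U (n k)) (fun k => (m k)⁻¹ • U (l k))
      (fun k => (m k)⁻¹ • c (n k)) (fun k => (m k)⁻¹ • c (l k)) :=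
    ⟨fun k => hT.smul _ _ _ (hU _), fun k => hT.smul _ _ _ (hU _), fun k =>
      smul_set_mono (hmono (hl1 k).le)⟩
  have hP2 : PF T (fun k => (m k)⁻¹ • U (n k)) (fun k => (m k)⁻¹ • U (l k + 1))
      (fun k => (m k)⁻¹ • c (n k)) (fun k => (m k)⁻¹ • c (l k + 1)) :=
    ⟨fun k => hT.smul _ _ _ (hU _), fun k => hT.smul _ _ _ (hU _), fun k =>
      smul_set_mono (hmono ((hl1 k).le.trans (Nat.le_succ _)))⟩
  have hLeq : Lim F (fun k => (m k)⁻¹ • U (l k)) = Lim F (fun k => (m k)⁻¹ • U (l k + 1)) := by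
    ext x
    rw [hLim l (fun k => le_rfl) x, hLim (fun k => l k + 1) (fun k => Nat.le_succ _) x]
  have hne : ∀ (k : ℕ) (i j : ℕ), i ≠ j → (m k)⁻¹ • c i ≠ (m k)⁻¹ • c j := by
    intro k i j hij h
    exact hij (hc (MulAction.injective _ h))
  have hcore : ∀ a : G × G, {t : G | a.1⁻¹ * a.2 ∈ R ∧
      t ∈ II F (fun k => (m k)⁻¹ • U (n k)) (fun k => (m k)⁻¹ • U (l k)) a.1 a.2 1}.Finite := by
    intro a
    by_cases ha : a.1⁻¹ * a.2 ∈ R
    · refine (core hT (fun x hx => hsymR x hx) htf F hP1 hP2 hLeq (fun k => hne k _ _ (hl1 k).ne)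
        (fun k => hne k _ _ ((hl1 k).trans (Nat.lt_succ_self _)).ne)
        (fun k => hne k _ _ (Nat.lt_succ_self _).ne) (p := a.1) (q := a.2) (z := 1) ha).subset ?_
      exact fun t ht => ht.2
    · refine Set.finite_empty.subset fun t ht => absurd ht.1 ha
  have hfin : (⋃ a ∈ ((R ×ˢ R : Finset (G × G)) : Set (G × G)), {t : G | a.1⁻¹ * a.2 ∈ R ∧
      t ∈ II F (fun k => (m k)⁻¹ • U (n k)) (fun k => (m k)⁻¹ • U (l k)) a.1 a.2 1}).Finite :=
    (Finset.finite_toSet _).biUnion fun a _ => hcore a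
  refine Set.infinite_range_of_injective hinj (hfin.subset ?_)
  rintro _ ⟨j, rfl⟩
  simp only [mem_iUnion]
  refine ⟨(τ j).2, Finset.mem_coe.2 (Finset.mem_product.1 (hτ1 j)).2, ?_, ?_⟩
  · obtain ⟨k, hk⟩ := (hτ2 j).exists
    exact hk.2.1
  · refine ⟨?_, ?_, ?_, ?_⟩
    · change ∀ᶠ k in (F : Filter ℕ), (τ j).1 * (τ j).2.1 ∈ (m k)⁻¹ • U (n k)
      filter_upwards [hτ2 j] with k hk
      exact mem_inv_smul.2 hk.2.2.2.2.1
    · intro h
      rw [hLim l (fun k => le_rfl)] at h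
      obtain ⟨k, hk1, hk2⟩ := (h.and (hτ2 j)).exists
      exact hk2.2.2.2.2.2 hk1
    · rw [mul_one, hLim l (fun k => le_rfl)]
      filter_upwards [hτ2 j] with k hk
      exact hk.2.2.1
    · rw [mul_one, notMem_Lim]
      filter_upwards [hτ2 j] with k hk
      exact fun h => hk.2.2.2.1 (mem_inv_smul.1 h)

theorem mono_false (hcap : CapProp S R) (hsymS : ∀ s ∈ S, s⁻¹ ∈ S)
    (hgen : Subgroup.closure (S : Set G) = ⊤) (hSR : S ⊆ R)
    (hsymR : ∀ s ∈ R, s⁻¹ ∈ R) (h1R : (1 : G) ∈ R)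
    (htf : ∀ g : G, g ≠ 1 → ∀ n : ℕ, n ≠ 0 → g ^ n ≠ 1)
    (hT : CutFam (R : Set G) T) (hD : DeepFam S T) {U : ℕ → Set G} {c : ℕ → Q}
    (hU : ∀ n, (U n, c n) ∈ T) (hc : Function.Injective c) (hmono : Monotone U)
    {y : G} (hy : ∀ n, y ∉ U n) : False := by
  by_cases hB : ∀ B : Finset G, ∃ n m m', Relation.ReflTransGen
      (fun a b => a ∈ Sing R (U n) (⋃ n, U n) ∧ b ∈ Sing R (U n) (⋃ n, U n) ∧ a⁻¹ * b ∈ R) m m' ∧
        m⁻¹ * m' ∉ B
  · refine caseB hsymR h1R ?_ htf hT hU hc hmono hB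
    rw [eq_top_iff, ← hgen]
    exact Subgroup.closure_mono (by exact_mod_cast hSR)
  · push Not at hB
    obtain ⟨B, hB⟩ := hB
    exact caseA hcap hsymS hgen hT hD hU hc hmono hy B hB

/-- **Module B**: only finitely many centres separate two given vertices. -/
theorem discrete (hcap : CapProp S R) (hsymS : ∀ s ∈ S, s⁻¹ ∈ S)
    (hgen : Subgroup.closure (S : Set G) = ⊤) (hSR : S ⊆ R)
    (hsymR : ∀ s ∈ R, s⁻¹ ∈ R) (h1R : (1 : G) ∈ R)
    (htf : ∀ g : G, g ≠ 1 → ∀ n : ℕ, n ≠ 0 → g ^ n ≠ 1)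
    (hT : CutFam (R : Set G) T) (hD : DeepFam S T) (x y : G) :
    {c : Q | ∃ U : Set G, (U, c) ∈ T ∧ x ∈ U ∧ y ∉ U}.Finite := by
  by_contra hinf
  have hinf' : {c : Q | ∃ U : Set G, (U, c) ∈ T ∧ x ∈ U ∧ y ∉ U}.Infinite := hinf
  set e := hinf'.natEmbedding
  have he : ∀ n, ∃ U : Set G, (U, (e n : Q)) ∈ T ∧ x ∈ U ∧ y ∉ U := fun n => (e n).2
  choose U hU hx hy using he
  have hinj : Function.Injective fun n => (e n : Q) := Subtype.val_injective.comp e.injective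
  have : IsTrans (Set G) (fun a b => a ⊆ b) := ⟨fun _ _ _ h1 h2 => h1.trans h2⟩
  obtain ⟨g, hg | hg⟩ := exists_increasing_or_nonincreasing_subseq (fun a b : Set G => a ⊆ b) U
  · refine mono_false hcap hsymS hgen hSR hsymR h1R htf hT hD (U := fun n => U (g n))
      (c := fun n => (e (g n) : Q)) (fun n => hU _) (hinj.comp g.injective) ?_ (y := y)
      (fun n => hy _)
    intro i j hij
    rcases hij.lt_or_eq with h | h
    · exact hg i j h
    · rw [h]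
  · refine mono_false hcap hsymS hgen hSR hsymR h1R htf hT hD (U := fun n => (U (g n))ᶜ)
      (c := fun n => (e (g n) : Q)) (fun n => hT.compl _ _ (hU _)) (hinj.comp g.injective) ?_
      (y := x) (fun n h => h (hx _))
    intro i j hij
    rcases hij.lt_or_eq with h | h
    · have hne : (e (g i) : Q) ≠ (e (g j) : Q) := fun h' => h.ne (g.injective (hinj h'))
      rcases hT.comp (hU (g i)) (hU (g j)) hne (hx _) (hx _) (hy _) (hy _) with h' | h'
      · exact absurd h' (hg i j h)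
      · exact compl_subset_compl.2 h'
    · rw [h]

end Vale.Agent.P239S
end

section

/-! Caps for the singular part of a pair of nested sets (the only use of `H^1` and `H^2`). -/

namespace Vale.Agent.P239.S

open Filter Set
open scoped Pointwise
open Vale.Agent.P239 Vale.Agent.P239.F

variable {G : Type*} [Group G]

/-- middle vertices of triangles meeting `U`, `V \ U` and the complement of `V` -/
def Sing (T : Finset G) (U V : Set G) : Set G :=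
  {m | m ∈ V ∧ m ∉ U ∧ ∃ a ∈ U, ∃ b, b ∉ V ∧ m⁻¹ * a ∈ T ∧ m⁻¹ * b ∈ T ∧ a⁻¹ * b ∈ T}

/-- closed 2-cochains at scale `T` -/
def Coc (T : Finset G) (b : G → G → G → ZMod 2) : Prop :=
  ∀ x y z w, x⁻¹ * y ∈ T → x⁻¹ * z ∈ T → x⁻¹ * w ∈ T → y⁻¹ * z ∈ T → y⁻¹ * w ∈ T →
      z⁻¹ * w ∈ T → b y z w + b x z w + b x y w + b x y z = 0

omit [Group G] in
theorem finite_cochains (F : Finset G) :
    {z : G → G → G → ZMod 2 | ∀ x y w, z x y w ≠ 0 → x ∈ F ∧ y ∈ F ∧ w ∈ F}.Finite := by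
  classical
  refine Set.Finite.of_finite_image (f := fun (z : G → G → G → ZMod 2) (t : F × F × F) =>
    z t.1 t.2.1 t.2.2) (Set.toFinite _) ?_
  · intro z hz z' hz' h
    funext x y w
    by_cases hm : x ∈ F ∧ y ∈ F ∧ w ∈ F
    · exact congrFun h (⟨x, hm.1⟩, ⟨y, hm.2.1⟩, ⟨w, hm.2.2⟩)
    · have h1 : z x y w = 0 := by
        by_contra h0; exact hm (hz _ _ _ h0)
      have h2 : z' x y w = 0 := by
        by_contra h0; exact hm (hz' _ _ _ h0)
      rw [h1, h2]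

theorem unif_cap {S T : Finset G} (h2 : H2Fill S T) (F : Finset G) :
    ∃ F' : Finset G, ∀ z : G → G → G → ZMod 2,
      (∀ x y w, z x y w ≠ 0 → x ∈ F ∧ y ∈ F ∧ w ∈ F) → Coc T z →
      ∃ c : G → G → ZMod 2, (∀ x y, c x y ≠ 0 → x ∈ F' ∧ y ∈ F') ∧
        ∀ x y w, x⁻¹ * y ∈ S → y⁻¹ * w ∈ S → x⁻¹ * w ∈ S → z x y w = c x y + c y w + c x w := by
  classical
  have key : ∀ z : G → G → G → ZMod 2, ∃ Fz : Finset G,
      (∀ x y w, z x y w ≠ 0 → x ∈ F ∧ y ∈ F ∧ w ∈ F) → Coc T z →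
      ∃ c : G → G → ZMod 2, (∀ x y, c x y ≠ 0 → x ∈ Fz ∧ y ∈ Fz) ∧
        ∀ x y w, x⁻¹ * y ∈ S → y⁻¹ * w ∈ S → x⁻¹ * w ∈ S →
          z x y w = c x y + c y w + c x w := by
    intro z
    by_cases hz : (∀ x y w, z x y w ≠ 0 → x ∈ F ∧ y ∈ F ∧ w ∈ F) ∧ Coc T z
    · obtain ⟨c, hc, hc'⟩ := h2 z (by
        refine ((F ×ˢ F ×ˢ F).finite_toSet).subset ?_
        rintro ⟨x, y, w⟩ h
        simpa using hz.1 x y w h) hz.2
      refine ⟨hc.toFinset.image Prod.fst ∪ hc.toFinset.image Prod.snd, fun _ _ => ⟨c, ?_, hc'⟩⟩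
      intro x y hxy
      have hm : (x, y) ∈ hc.toFinset := by rw [Set.Finite.mem_toFinset]; exact hxy
      exact ⟨Finset.mem_union_left _ (Finset.mem_image.2 ⟨_, hm, rfl⟩),
        Finset.mem_union_right _ (Finset.mem_image.2 ⟨_, hm, rfl⟩)⟩
    · exact ⟨∅, fun h1 h2 => absurd ⟨h1, h2⟩ hz⟩
  choose Fz hFz using key
  refine ⟨(finite_cochains F).toFinset.biUnion Fz, fun z hz1 hz3 => ?_⟩
  obtain ⟨c, hc, hc'⟩ := hFz z hz1 hz3
  refine ⟨c, fun x y hxy => ?_, hc'⟩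
  have hm : z ∈ (finite_cochains F).toFinset := by
    rw [Set.Finite.mem_toFinset]; exact hz1
  exact ⟨Finset.mem_biUnion.2 ⟨z, hm, (hc x y hxy).1⟩, Finset.mem_biUnion.2 ⟨z, hm, (hc x y hxy).2⟩⟩

open Classical in
/-- the 1-cochain of edges crossing both `U ⊆ V` -/
noncomputable def KK (U V : Set G) (x y : G) : ZMod 2 :=
  if (x ∈ U ∧ y ∉ V) ∨ (y ∈ U ∧ x ∉ V) then 1 else 0

/-- its coboundary -/
noncomputable def dK (U V : Set G) (x y w : G) : ZMod 2 := KK U V x y + KK U V y w + KK U V x w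

omit [Group G] in
theorem KK_eq_one {U V : Set G} {x y : G} :
    KK U V x y = 1 ↔ (x ∈ U ∧ y ∉ V) ∨ (y ∈ U ∧ x ∉ V) := by
  unfold KK
  split_ifs with h
  · simp [h]
  · simp only [zero_ne_one, h]

theorem add_self2 (a : ZMod 2) : a + a = 0 := by revert a; decide

omit [Group G] in
theorem dK_ne {U V : Set G} (h : U ⊆ V) {x y w : G} (hd : dK U V x y w ≠ 0) :
    (x ∈ V ∧ x ∉ U ∧ ((y ∈ U ∧ w ∉ V) ∨ (w ∈ U ∧ y ∉ V))) ∨
    (y ∈ V ∧ y ∉ U ∧ ((x ∈ U ∧ w ∉ V) ∨ (w ∈ U ∧ x ∉ V))) ∨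
    (w ∈ V ∧ w ∉ U ∧ ((x ∈ U ∧ y ∉ V) ∨ (y ∈ U ∧ x ∉ V))) := by
  have hx := @h x
  have hy := @h y
  have hw := @h w
  have h11 : (1 : ZMod 2) + 1 = 0 := by decide
  by_contra hcon
  apply hd
  unfold dK KK
  by_cases hxU : x ∈ U <;> by_cases hxV : x ∈ V <;> by_cases hyU : y ∈ U <;>
    by_cases hyV : y ∈ V <;> by_cases hwU : w ∈ U <;> by_cases hwV : w ∈ V <;>
    simp_all

omit [Group G] in
theorem dK_coc (U V : Set G) (x y z w : G) :
    dK U V y z w + dK U V x z w + dK U V x y w + dK U V x y z = 0 := by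
  unfold dK
  linear_combination add_self2 (KK U V y z) + add_self2 (KK U V z w) + add_self2 (KK U V y w) +
    add_self2 (KK U V x z) + add_self2 (KK U V x w) + add_self2 (KK U V x y)

/-- the set of pairwise close elements -/
def AllClose (T : Finset G) (Q : Set G) : Prop := ∀ u ∈ Q, ∀ v ∈ Q, u⁻¹ * v ∈ T

theorem allClose3 {T : Finset G} (h1 : (1 : G) ∈ T) (hs : ∀ s ∈ T, s⁻¹ ∈ T) {x y w : G}
    (hxy : x⁻¹ * y ∈ T) (hxw : x⁻¹ * w ∈ T) (hyw : y⁻¹ * w ∈ T) :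
    AllClose T {x, y, w} := by
  have f : ∀ {a b : G}, a⁻¹ * b ∈ T → b⁻¹ * a ∈ T := fun {a b} h => by
    have := hs _ h; rwa [mul_inv_rev, inv_inv] at this
  rintro u (rfl | rfl | rfl) v (rfl | rfl | rfl) <;>
    first | (rw [inv_mul_cancel]; exact h1) | assumption | (apply f; assumption)

theorem allClose4 {T : Finset G} (h1 : (1 : G) ∈ T) (hs : ∀ s ∈ T, s⁻¹ ∈ T) {x y z w : G}
    (hxy : x⁻¹ * y ∈ T) (hxz : x⁻¹ * z ∈ T) (hxw : x⁻¹ * w ∈ T) (hyz : y⁻¹ * z ∈ T)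
    (hyw : y⁻¹ * w ∈ T) (hzw : z⁻¹ * w ∈ T) :
    AllClose T {x, y, z, w} := by
  have f : ∀ {a b : G}, a⁻¹ * b ∈ T → b⁻¹ * a ∈ T := fun {a b} h => by
    have := hs _ h; rwa [mul_inv_rev, inv_inv] at this
  rintro u (rfl | rfl | rfl | rfl) v (rfl | rfl | rfl | rfl) <;>
    first | (rw [inv_mul_cancel]; exact h1) | assumption | (apply f; assumption)

/-- the middle vertex of a singular triangle -/
theorem exists_mid {T : Finset G} {U V : Set G} (h : U ⊆ V) {Q : Set G} (hQ : AllClose T Q)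
    {x y w : G} (hx : x ∈ Q) (hy : y ∈ Q) (hw : w ∈ Q) (hd : dK U V x y w ≠ 0) :
    ∃ m, (m = x ∨ m = y ∨ m = w) ∧ m ∈ Sing T U V ∧
      ∀ v, (v = x ∨ v = y ∨ v = w) → v ∈ V → v ∉ U → v = m := by
  rcases dK_ne h hd with ⟨h1, h2, h3 | h3⟩ | ⟨h1, h2, h3 | h3⟩ | ⟨h1, h2, h3 | h3⟩
  · refine ⟨x, by simp, ⟨h1, h2, y, h3.1, w, h3.2, hQ _ hx _ hy, hQ _ hx _ hw, hQ _ hy _ hw⟩, ?_⟩
    rintro v (rfl | rfl | rfl) hv hv'
    · rfl
    · exact absurd h3.1 hv'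
    · exact absurd hv h3.2
  · refine ⟨x, by simp, ⟨h1, h2, w, h3.1, y, h3.2, hQ _ hx _ hw, hQ _ hx _ hy, hQ _ hw _ hy⟩, ?_⟩
    rintro v (rfl | rfl | rfl) hv hv'
    · rfl
    · exact absurd hv h3.2
    · exact absurd h3.1 hv'
  · refine ⟨y, by simp, ⟨h1, h2, x, h3.1, w, h3.2, hQ _ hy _ hx, hQ _ hy _ hw, hQ _ hx _ hw⟩, ?_⟩
    rintro v (rfl | rfl | rfl) hv hv'
    · exact absurd h3.1 hv'
    · rfl
    · exact absurd hv h3.2
  · refine ⟨y, by simp, ⟨h1, h2, w, h3.1, x, h3.2, hQ _ hy _ hw, hQ _ hy _ hx, hQ _ hw _ hx⟩, ?_⟩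
    rintro v (rfl | rfl | rfl) hv hv'
    · exact absurd hv h3.2
    · rfl
    · exact absurd h3.1 hv'
  · refine ⟨w, by simp, ⟨h1, h2, x, h3.1, y, h3.2, hQ _ hw _ hx, hQ _ hw _ hy, hQ _ hx _ hy⟩, ?_⟩
    rintro v (rfl | rfl | rfl) hv hv'
    · exact absurd h3.1 hv'
    · exact absurd hv h3.2
    · rfl
  · refine ⟨w, by simp, ⟨h1, h2, y, h3.1, x, h3.2, hQ _ hw _ hy, hQ _ hw _ hx, hQ _ hy _ hx⟩, ?_⟩
    rintro v (rfl | rfl | rfl) hv hv'
    · exact absurd hv h3.2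
    · exact absurd h3.1 hv'
    · rfl

/-- a union of clusters -/
def ClosedIn (T : Finset G) (U V D : Set G) : Prop :=
  D ⊆ Sing T U V ∧ ∀ m ∈ D, ∀ m' ∈ Sing T U V, m⁻¹ * m' ∈ T → m' ∈ D

theorem touch {T : Finset G} {U V D : Set G} (h : U ⊆ V) (hD : ClosedIn T U V D) {Q : Set G}
    (hQ : AllClose T Q) {x y w x' y' w' : G} (hx : x ∈ Q) (hy : y ∈ Q) (hw : w ∈ Q)
    (hx' : x' ∈ Q) (hy' : y' ∈ Q) (hw' : w' ∈ Q) (hd : dK U V x y w ≠ 0)
    (hd' : dK U V x' y' w' ≠ 0) (ht : x ∈ D ∨ y ∈ D ∨ w ∈ D) : x' ∈ D ∨ y' ∈ D ∨ w' ∈ D := by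
  obtain ⟨m, hm, hmS, hmu⟩ := exists_mid h hQ hx hy hw hd
  obtain ⟨m', hm', hmS', -⟩ := exists_mid h hQ hx' hy' hw' hd'
  have hmD : m ∈ D := by
    rcases ht with ht | ht | ht
    · rwa [← hmu x (by simp) (hD.1 ht).1 (hD.1 ht).2.1]
    · rwa [← hmu y (by simp) (hD.1 ht).1 (hD.1 ht).2.1]
    · rwa [← hmu w (by simp) (hD.1 ht).1 (hD.1 ht).2.1]
  have hmQ : m ∈ Q := by rcases hm with rfl | rfl | rfl <;> assumption
  have hmQ' : m' ∈ Q := by rcases hm' with rfl | rfl | rfl <;> assumption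
  have := hD.2 m hmD m' hmS' (hQ _ hmQ _ hmQ')
  rcases hm' with rfl | rfl | rfl <;> simp [this]

open Classical in
/-- the part of the singular cochain near `D` -/
noncomputable def zD (T : Finset G) (U V D : Set G) (x y w : G) : ZMod 2 :=
  if (x⁻¹ * y ∈ T ∧ x⁻¹ * w ∈ T ∧ y⁻¹ * w ∈ T) ∧ (x ∈ D ∨ y ∈ D ∨ w ∈ D) then dK U V x y w else 0

theorem zD_coc {T : Finset G} {U V D : Set G} (h : U ⊆ V) (hD : ClosedIn T U V D)
    (h1 : (1 : G) ∈ T) (hs : ∀ s ∈ T, s⁻¹ ∈ T) : Coc T (zD T U V D) := by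
  intro x y z w hxy hxz hxw hyz hyw hzw
  have hQ := allClose4 h1 hs hxy hxz hxw hyz hyw hzw
  have hx : x ∈ ({x, y, z, w} : Set G) := by simp only [mem_insert_iff, mem_singleton_iff, true_or]
  have hy : y ∈ ({x, y, z, w} : Set G) := by simp only [mem_insert_iff, mem_singleton_iff, true_or, or_true]
  have hz : z ∈ ({x, y, z, w} : Set G) := by simp only [mem_insert_iff, mem_singleton_iff, true_or, or_true]
  have hw : w ∈ ({x, y, z, w} : Set G) := by simp only [mem_insert_iff, mem_singleton_iff, or_true]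
  have hdd := dK_coc U V x y z w
  -- a face which is singular and touches
  by_cases hex : (dK U V y z w ≠ 0 ∧ (y ∈ D ∨ z ∈ D ∨ w ∈ D)) ∨
      (dK U V x z w ≠ 0 ∧ (x ∈ D ∨ z ∈ D ∨ w ∈ D)) ∨
      (dK U V x y w ≠ 0 ∧ (x ∈ D ∨ y ∈ D ∨ w ∈ D)) ∨
      (dK U V x y z ≠ 0 ∧ (x ∈ D ∨ y ∈ D ∨ z ∈ D))
  · have key : ∀ x' y' w' : G, x' ∈ ({x, y, z, w} : Set G) → y' ∈ ({x, y, z, w} : Set G) →
        w' ∈ ({x, y, z, w} : Set G) → dK U V x' y' w' ≠ 0 → (x' ∈ D ∨ y' ∈ D ∨ w' ∈ D) := by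
      intro x' y' w' hx' hy' hw' hd'
      rcases hex with ⟨e1, e2⟩ | ⟨e1, e2⟩ | ⟨e1, e2⟩ | ⟨e1, e2⟩
      · exact touch h hD hQ hy hz hw hx' hy' hw' e1 hd' e2
      · exact touch h hD hQ hx hz hw hx' hy' hw' e1 hd' e2
      · exact touch h hD hQ hx hy hw hx' hy' hw' e1 hd' e2
      · exact touch h hD hQ hx hy hz hx' hy' hw' e1 hd' e2
    have e : ∀ x' y' w' : G, x' ∈ ({x, y, z, w} : Set G) → y' ∈ ({x, y, z, w} : Set G) →
        w' ∈ ({x, y, z, w} : Set G) → x'⁻¹ * y' ∈ T → x'⁻¹ * w' ∈ T → y'⁻¹ * w' ∈ T →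
        zD T U V D x' y' w' = dK U V x' y' w' := by
      intro x' y' w' hx' hy' hw' a1 a2 a3
      unfold zD
      split_ifs with hc
      · rfl
      · by_contra h0
        exact hc ⟨⟨a1, a2, a3⟩, key x' y' w' hx' hy' hw' (Ne.symm h0)⟩
    rw [e y z w hy hz hw hyz hyw hzw, e x z w hx hz hw hxz hxw hzw, e x y w hx hy hw hxy hxw hyw,
      e x y z hx hy hz hxy hxz hyz]
    exact hdd
  · push Not at hex
    obtain ⟨k1, k2, k3, k4⟩ := hex
    have e : ∀ x' y' w' : G, (dK U V x' y' w' ≠ 0 → ¬ (x' ∈ D ∨ y' ∈ D ∨ w' ∈ D)) →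
        zD T U V D x' y' w' = 0 := by
      intro x' y' w' hk
      unfold zD
      split_ifs with hc
      · by_contra h0
        exact hk h0 hc.2
      · rfl
    rw [e y z w (fun h => by have := k1 h; (clear * - k1 k2 k3 k4 this h; tauto)), e x z w (fun h => by have := k2 h; (clear * - k1 k2 k3 k4 this h; tauto)),
      e x y w (fun h => by have := k3 h; (clear * - k1 k2 k3 k4 this h; tauto)), e x y z (fun h => by have := k4 h; (clear * - k1 k2 k3 k4 this h; tauto))]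
    norm_num

/-- the cluster of `m` -/
def Comp (T : Finset G) (U V : Set G) (m : G) : Set G :=
  {m' | Relation.ReflTransGen (fun a b => a ∈ Sing T U V ∧ b ∈ Sing T U V ∧ a⁻¹ * b ∈ T) m m'}

theorem comp_closed {T : Finset G} {U V : Set G} {m : G} (hm : m ∈ Sing T U V) :
    ClosedIn T U V (Comp T U V m) := by
  have hsub : Comp T U V m ⊆ Sing T U V := by
    intro m' h
    induction h with
    | refl => exact hm
    | tail _ h _ => exact h.2.1
  refine ⟨hsub, fun a ha b hb hab => ?_⟩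
  exact Relation.ReflTransGen.tail ha ⟨hsub ha, hb, hab⟩

theorem comp_subset {T : Finset G} {U V D : Set G} (hD : ClosedIn T U V D) {m : G} (hm : m ∈ D) :
    Comp T U V m ⊆ D := by
  intro m' h
  induction h with
  | refl => exact hm
  | tail _ h ih => exact hD.2 _ ih _ h.2.1 h.2.2

theorem diff_closed {T : Finset G} {U V D : Set G} (hs : ∀ s ∈ T, s⁻¹ ∈ T)
    (hD : ClosedIn T U V D) {m : G} (hm : m ∈ D) :
    ClosedIn T U V (D \ Comp T U V m) := by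
  refine ⟨fun x hx => hD.1 hx.1, fun a ha b hb hab => ⟨hD.2 _ ha.1 _ hb hab, fun hbc => ha.2 ?_⟩⟩
  refine (comp_closed (hD.1 hm)).2 b hbc a (hD.1 ha.1) ?_
  have := hs _ hab
  rwa [mul_inv_rev, inv_inv] at this

theorem zD_split {T : Finset G} {U V D : Set G} (h : U ⊆ V) (h1 : (1 : G) ∈ T)
    (hs : ∀ s ∈ T, s⁻¹ ∈ T) (hD : ClosedIn T U V D) {m : G} (hm : m ∈ D) (x y w : G) :
    zD T U V D x y w = zD T U V (Comp T U V m) x y w + zD T U V (D \ Comp T U V m) x y w := by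
  by_cases hd : dK U V x y w = 0
  · unfold zD; simp only [hd, ite_self, Set.mem_sdiff, add_zero]
  by_cases hT : x⁻¹ * y ∈ T ∧ x⁻¹ * w ∈ T ∧ y⁻¹ * w ∈ T
  swap
  · unfold zD; simp only [hT, false_and, ↓reduceIte, Set.mem_sdiff, add_zero]
  have hQ := allClose3 h1 hs hT.1 hT.2.1 hT.2.2
  obtain ⟨n, hn, hnS, hnu⟩ := exists_mid h hQ (by simp) (by simp) (by simp) hd
  have hmem : ∀ E : Set G, E ⊆ Sing T U V → ((x ∈ E ∨ y ∈ E ∨ w ∈ E) ↔ n ∈ E) := by
    intro E hE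
    constructor
    · rintro (ht | ht | ht)
      · rwa [← hnu x (by simp) (hE ht).1 (hE ht).2.1]
      · rwa [← hnu y (by simp) (hE ht).1 (hE ht).2.1]
      · rwa [← hnu w (by simp) (hE ht).1 (hE ht).2.1]
    · intro hnE
      rcases hn with rfl | rfl | rfl <;> simp [hnE]
  have hC : Comp T U V m ⊆ D := comp_subset hD hm
  have val : ∀ E : Set G, E ⊆ Sing T U V →
      (n ∈ E → zD T U V E x y w = dK U V x y w) ∧ (n ∉ E → zD T U V E x y w = 0) := by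
    intro E hE
    constructor
    · intro hn
      unfold zD
      rw [if_pos ⟨hT, (hmem E hE).2 hn⟩]
    · intro hn
      unfold zD
      rw [if_neg (fun hc => hn ((hmem E hE).1 hc.2))]
  have v1 := val D hD.1
  have v2 := val (Comp T U V m) (hC.trans hD.1)
  have v3 := val (D \ Comp T U V m) (fun z hz => hD.1 hz.1)
  by_cases hnD : n ∈ D
  · by_cases hnC : n ∈ Comp T U V m
    · rw [v1.1 hnD, v2.1 hnC, v3.2 (fun hc => hc.2 hnC), add_zero]
    · rw [v1.1 hnD, v2.2 hnC, v3.1 ⟨hnD, hnC⟩, zero_add]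
  · have hnC : n ∉ Comp T U V m := fun hc => hnD (hC hc)
    rw [v1.2 hnD, v2.2 hnC, v3.2 (fun hc => hnD hc.1), add_zero]

open Classical in
/-- Capping a union of clusters of bounded size. -/
theorem cap_closed {S T : Finset G} (h1 : (1 : G) ∈ T) (hs : ∀ s ∈ T, s⁻¹ ∈ T)
    (h2 : H2Fill S T) (B : Finset G) :
    ∃ F : Finset G, ∀ U V : Set G, U ⊆ V →
      (∀ m ∈ Sing T U V, ∀ m' ∈ Comp T U V m, m⁻¹ * m' ∈ B) →
      ∀ n : ℕ, ∀ D : Set G, D.Finite → D.ncard ≤ n → ClosedIn T U V D →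
      ∃ c : G → G → ZMod 2, (∀ x y, c x y ≠ 0 → ∃ m ∈ D, m⁻¹ * x ∈ F ∧ m⁻¹ * y ∈ F) ∧
        ∀ x y w, x⁻¹ * y ∈ S → y⁻¹ * w ∈ S → x⁻¹ * w ∈ S →
          zD T U V D x y w = c x y + c y w + c x w := by
  obtain ⟨F, hF⟩ := unif_cap h2 ((B ×ˢ T).image fun p => p.1 * p.2)
  refine ⟨F, fun U V hUV hB n => ?_⟩
  induction n with
  | zero =>
    intro D hfin hn hD
    have hE : D = ∅ := by
      rcases Set.eq_empty_or_nonempty D with h | h
      · exact h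
      · exact absurd hn (by have := (Set.ncard_pos hfin).2 h; omega)
    subst hE
    refine ⟨fun _ _ => 0, fun x y h => absurd rfl h, fun x y w _ _ _ => ?_⟩
    unfold zD; simp only [mem_empty_iff_false, or_self, and_false, ↓reduceIte, add_zero]
  | succ n ih =>
    intro D hfin hn hD
    rcases Set.eq_empty_or_nonempty D with hE | ⟨m, hm⟩
    · subst hE
      refine ⟨fun _ _ => 0, fun x y h => absurd rfl h, fun x y w _ _ _ => ?_⟩
      unfold zD; simp only [mem_empty_iff_false, or_self, and_false, ↓reduceIte, add_zero]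
    have hmS := hD.1 hm
    have hmm : m ∈ Comp T U V m := Relation.ReflTransGen.refl
    have hsub : D \ Comp T U V m ⊂ D :=
      ⟨fun x hx => hx.1, fun h => (h hm).2 hmm⟩
    obtain ⟨c, hc, hc'⟩ := ih (D \ Comp T U V m) (hfin.subset hsub.1)
      (by have := Set.ncard_lt_ncard hsub hfin; omega) (diff_closed hs hD hm)
    -- the cluster of `m`
    have hCc := comp_closed hmS
    have hcoc := zD_coc hUV hCc h1 hs
    obtain ⟨c₁, hc₁, hc₁'⟩ := hF (fun x y w => zD T U V (Comp T U V m) (m * x) (m * y) (m * w))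
      (by
        intro x y w h0
        have hc0 : ((m * x)⁻¹ * (m * y) ∈ T ∧ (m * x)⁻¹ * (m * w) ∈ T ∧ (m * y)⁻¹ * (m * w) ∈ T) ∧
            (m * x ∈ Comp T U V m ∨ m * y ∈ Comp T U V m ∨ m * w ∈ Comp T U V m) := by
          by_contra hc0
          exact h0 (if_neg hc0)
        have hQ := allClose3 h1 hs hc0.1.1 hc0.1.2.1 hc0.1.2.2
        obtain ⟨k, hk, hkC⟩ : ∃ k ∈ ({m * x, m * y, m * w} : Set G), k ∈ Comp T U V m := by
          rcases hc0.2 with h | h | h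
          · exact ⟨_, by simp only [mem_insert_iff, mul_right_inj, mem_singleton_iff, true_or], h⟩
          · exact ⟨_, by simp only [mem_insert_iff, mul_right_inj, mem_singleton_iff, true_or, or_true], h⟩
          · exact ⟨_, by simp only [mem_insert_iff, mul_right_inj, mem_singleton_iff, or_true], h⟩
        have hkB := hB m hmS k hkC
        have fin : ∀ u, m * u ∈ ({m * x, m * y, m * w} : Set G) →
            u ∈ (B ×ˢ T).image fun p => p.1 * p.2 := by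
          intro u hu
          refine Finset.mem_image.2 ⟨(m⁻¹ * k, k⁻¹ * (m * u)), ?_, ?_⟩
          · exact Finset.mem_product.2 ⟨hkB, hQ _ hk _ hu⟩
          · simp only [mul_assoc, mul_inv_cancel_left, inv_mul_cancel_left]
        exact ⟨fin x (by simp only [mem_insert_iff, mul_right_inj, mem_singleton_iff, true_or]), fin y (by simp only [mem_insert_iff, mul_right_inj, mem_singleton_iff, true_or, or_true]), fin w (by simp only [mem_insert_iff, mul_right_inj, mem_singleton_iff, or_true])⟩)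
      (by
        intro x y z w hxy hxz hxw hyz hyw hzw
        have e : ∀ {a b : G}, a⁻¹ * b ∈ T → (m * a)⁻¹ * (m * b) ∈ T := by
          intro a b h; rwa [mul_inv_rev, mul_assoc, inv_mul_cancel_left]
        exact hcoc _ _ _ _ (e hxy) (e hxz) (e hxw) (e hyz) (e hyw) (e hzw))
    refine ⟨fun x y => c₁ (m⁻¹ * x) (m⁻¹ * y) + c x y, fun x y h => ?_, fun x y w a1 a2 a3 => ?_⟩
    · by_cases h0 : c x y = 0
      · have : c₁ (m⁻¹ * x) (m⁻¹ * y) ≠ 0 := by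
          intro h'; apply h; simp only [h', h0]; rfl
        exact ⟨m, hm, hc₁ _ _ this⟩
      · obtain ⟨k, hk, hk'⟩ := hc x y h0
        exact ⟨k, hk.1, hk'⟩
    · have e : ∀ {a b : G}, a⁻¹ * b ∈ S → (m⁻¹ * a)⁻¹ * (m⁻¹ * b) ∈ S := by
        intro a b h; rwa [mul_inv_rev, inv_inv, mul_assoc, mul_inv_cancel_left]
      have k1 := hc₁' (m⁻¹ * x) (m⁻¹ * y) (m⁻¹ * w) (e a1) (e a2) (e a3)
      have k2 := hc' x y w a1 a2 a3
      simp only [mul_inv_cancel_left] at k1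
      rw [zD_split hUV h1 hs hD hm, k1, k2]
      ring

theorem sing_finite {T : Finset G} {U V : Set G}
    (hov : {x | x ∈ U ∧ ∃ y, y ∉ V ∧ x⁻¹ * y ∈ T}.Finite) : (Sing T U V).Finite := by
  classical
  refine (hov.mul (T.finite_toSet.image (fun t => t⁻¹))).subset ?_
  rintro m ⟨-, -, a, ha, b, hb, h1, h2, h3⟩
  refine Set.mem_mul.2 ⟨a, ⟨ha, b, hb, h3⟩, (m⁻¹ * a)⁻¹, ⟨_, h1, rfl⟩, ?_⟩
  rw [mul_inv_rev, inv_inv, mul_inv_cancel_left]

theorem zmod2_cases (a : ZMod 2) : a = 0 ∨ a = 1 := by revert a; decide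

/-- The only use of `H^1` and `H^2` in the discreteness theorem. -/
theorem cap {S T : Finset G} (h1 : (1 : G) ∈ T) (hsS : ∀ s ∈ S, s⁻¹ ∈ S) (hs : ∀ s ∈ T, s⁻¹ ∈ T)
    (hST : S ⊆ T) (hone : OneEnded S) (hex : H1Ex S) (h2 : H2Fill S T) (B : Finset G) :
    ∃ F : Finset G, ∀ U V : Set G, U ⊆ V →
      {x | x ∈ U ∧ ∃ y, y ∉ V ∧ x⁻¹ * y ∈ T}.Finite →
      (∀ m m', Relation.ReflTransGen
        (fun a b => a ∈ Sing T U V ∧ b ∈ Sing T U V ∧ a⁻¹ * b ∈ T) m m' → m⁻¹ * m' ∈ B) →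
      ∃ E : Set G, E.Finite ∧ ∀ x y, x⁻¹ * y ∈ S → (∀ f ∈ F, x * f ∉ Sing T U V) →
        (¬ (x ∈ E ↔ y ∈ E) ↔ ((x ∈ U ∧ y ∉ V) ∨ (y ∈ U ∧ x ∉ V))) := by
  classical
  obtain ⟨F, hF⟩ := cap_closed (S := S) h1 hs h2 B
  refine ⟨F.image (fun f => f⁻¹), fun U V hUV hov hB => ?_⟩
  have hfin := sing_finite hov
  have hcl : ClosedIn T U V (Sing T U V) := ⟨Subset.rfl, fun _ _ m' hm' _ => hm'⟩
  obtain ⟨c, hc, hc'⟩ := hF U V hUV (fun m _ m' hm' => hB m m' hm') _ (Sing T U V) hfin le_rfl hcl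
  have hz : ∀ x y w, x⁻¹ * y ∈ S → y⁻¹ * w ∈ S → x⁻¹ * w ∈ S →
      dK U V x y w = c x y + c y w + c x w := by
    intro x y w a1 a2 a3
    rw [← hc' x y w a1 a2 a3]
    unfold zD
    by_cases hd : dK U V x y w = 0
    · simp only [hd, ite_self]
    rw [if_pos]
    have hQ := allClose3 h1 hs (hST a1) (hST a3) (hST a2)
    obtain ⟨m, hm, hmS, -⟩ := exists_mid hUV hQ (by simp) (by simp) (by simp) hd
    refine ⟨⟨hST a1, hST a3, hST a2⟩, ?_⟩
    rcases hm with rfl | rfl | rfl <;> simp [hmS]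
  obtain ⟨g, hg⟩ := hex (fun x y => KK U V x y + c x y) (by
    intro x y w a1 a2 a3
    have := hz x y w a1 a2 a3
    unfold dK at this
    linear_combination this + add_self2 (c x y) + add_self2 (c y w) - add_self2 (KK U V x w))
  -- the boundary of `{g = 1}` is finite
  have hbd : {x | ∃ y, Adj S x y ∧ ¬ (x ∈ {u | g u = 1} ↔ y ∈ {u | g u = 1})}.Finite := by
    have hfs : {x | ∃ y, x⁻¹ * y ∈ S ∧ (KK U V x y ≠ 0 ∨ c x y ≠ 0)}.Finite := by
      have f1 : {x | x ∈ U ∧ ∃ y, y ∉ V ∧ x⁻¹ * y ∈ T}.Finite := hov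
      have f2 : ({x | x ∈ U ∧ ∃ y, y ∉ V ∧ x⁻¹ * y ∈ T} * (S : Set G)).Finite :=
        f1.mul S.finite_toSet
      have f3 : ((Sing T U V) * (F : Set G)).Finite := hfin.mul F.finite_toSet
      refine ((f1.union f2).union f3).subset ?_
      rintro x ⟨y, hxy, h | h⟩
      · left
        have h' : (x ∈ U ∧ y ∉ V) ∨ (y ∈ U ∧ x ∉ V) :=
          KK_eq_one.1 ((zmod2_cases _).resolve_left h)
        have hyx : y⁻¹ * x ∈ S := by
          have := hsS _ hxy; rwa [mul_inv_rev, inv_inv] at this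
        rcases h' with h' | h'
        · exact Or.inl ⟨h'.1, y, h'.2, hST hxy⟩
        · refine Or.inr (Set.mem_mul.2 ⟨y, ⟨h'.1, x, h'.2, hST hyx⟩, y⁻¹ * x, hyx, ?_⟩)
          rw [mul_inv_cancel_left]
      · right
        obtain ⟨m, hm, hmx, -⟩ := hc x y h
        exact Set.mem_mul.2 ⟨m, hm, m⁻¹ * x, hmx, by rw [mul_inv_cancel_left]⟩
    refine hfs.subset ?_
    rintro x ⟨y, hxy, hne⟩
    have hxy' : x⁻¹ * y ∈ S := by
      obtain ⟨s, hs', rfl | rfl⟩ := hxy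
      · rwa [inv_mul_cancel_left]
      · rw [mul_inv_rev, mul_assoc, inv_mul_cancel, mul_one]; exact hsS _ hs'
    refine ⟨y, hxy', ?_⟩
    by_contra hcon
    push Not at hcon
    have := hg x y hxy'
    simp only [hcon.1, hcon.2, add_zero] at this
    apply hne
    simp only [Set.mem_ofPred_eq]
    have e : g x = g y := by
      have h3 : g x + g y + g y = 0 + g y := by rw [← this]
      rw [add_assoc, add_self2, add_zero, zero_add] at h3
      exact h3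
    rw [e]
  have hE : ∃ E : Set G, E.Finite ∧ ∀ x y, (¬ (x ∈ E ↔ y ∈ E)) ↔ g x + g y = 1 := by
    have base : ∀ x y, (¬ (g x = 1 ↔ g y = 1)) ↔ g x + g y = 1 := by
      intro x y
      have h11 : (1 : ZMod 2) + 1 = 0 := by decide
      rcases zmod2_cases (g x) with e1 | e1 <;> rcases zmod2_cases (g y) with e2 | e2 <;>
        simp [e1, e2, h11]
    rcases hone _ hbd with h | h
    · exact ⟨_, h, base⟩
    · refine ⟨_, h, fun x y => ?_⟩
      rw [← base x y]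
      simp only [Set.mem_compl_iff, Set.mem_ofPred_eq]
      (clear * -; tauto)
  obtain ⟨E, hEf, hE⟩ := hE
  refine ⟨E, hEf, fun x y hxy hfar => ?_⟩
  have hc0 : c x y = 0 := by
    by_contra h
    obtain ⟨m, hm, hmx, -⟩ := hc x y h
    refine hfar (m⁻¹ * x)⁻¹ (Finset.mem_image.2 ⟨_, hmx, rfl⟩) ?_
    rw [mul_inv_rev, inv_inv, mul_inv_cancel_left]
    exact hm
  rw [hE x y, ← hg x y hxy, hc0, add_zero, KK_eq_one]

end Vale.Agent.P239.S
end
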