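import Vale.Agent.P239.Bdl.B8

set_option linter.all false

section

/-!
Module C0, part a: the averaging operator, the harmonic part of a function of finite energy.
-/

namespace Vale.Agent.P239.F

open Filter Topology Set
open Vale.Agent.P239
open scoped RealInnerProductSpace

variable {G : Type*} [Group G]

variable {S : Finset G}

theorem HypS.card_pos (h : HypS S) : (0 : ℝ) < S.card := by
  have := Finset.card_pos.2 ⟨1, h.oneS⟩
  exact_mod_cast this

theorem avg_mono {f g : G → ℝ} (h : ∀ x, f x ≤ g x) (x : G) : avg S f x ≤ avg S g x :=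
  div_le_div_of_nonneg_right (Finset.sum_le_sum fun _ _ => h _) (Nat.cast_nonneg _)

theorem avg_add (f g : G → ℝ) : avg S (f + g) = avg S f + avg S g := by
  funext x
  simp only [avg, Pi.add_apply, Finset.sum_add_distrib, add_div]

theorem avg_smul (c : ℝ) (f : G → ℝ) : avg S (c • f) = c • avg S f := by
  funext x
  simp only [avg, Pi.smul_apply, smul_eq_mul, ← Finset.mul_sum, mul_div_assoc]

theorem avg_sub (f g : G → ℝ) : avg S (f - g) = avg S f - avg S g := by
  funext x
  simp only [avg, Pi.sub_apply, Finset.sum_sub_distrib, sub_div]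

theorem avg_const (hS : HypS S) (c : ℝ) : avg S (fun _ => c) = fun _ => c := by
  funext x
  simp only [avg, Finset.sum_const, nsmul_eq_mul]
  exact mul_div_cancel_left₀ c hS.card_pos.ne'

theorem avg_trans (f : G → ℝ) (g : G) : avg S (fun x => f (g * x)) = fun x => avg S f (g * x) := by
  funext x
  simp only [avg, mul_assoc]

theorem avg_eq_of_harm (hS : HypS S) {f : G → ℝ}
    (hf : ∀ y, ∑ s ∈ S, (f (y * s) - f y) = 0) : avg S f = f := by
  funext x
  have h := hf x
  rw [Finset.sum_sub_distrib, Finset.sum_const, nsmul_eq_mul, sub_eq_zero] at h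
  rw [avg, h]
  exact mul_div_cancel_left₀ _ hS.card_pos.ne'

theorem harm_of_avg_eq (hS : HypS S) {f : G → ℝ} (hf : avg S f = f) (y : G) :
    ∑ s ∈ S, (f (y * s) - f y) = 0 := by
  have h := congrFun hf y
  rw [avg, div_eq_iff hS.card_pos.ne'] at h
  rw [Finset.sum_sub_distrib, Finset.sum_const, nsmul_eq_mul, h]
  ring

theorem iter_mono {f g : G → ℝ} (h : ∀ x, f x ≤ g x) (n : ℕ) (x : G) :
    (avg S)^[n] f x ≤ (avg S)^[n] g x := by
  induction n generalizing x with
  | zero => exact h x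
  | succ n ih => rw [Function.iterate_succ_apply', Function.iterate_succ_apply']; exact avg_mono ih x

theorem iter_add (f g : G → ℝ) (n : ℕ) :
    (avg S)^[n] (f + g) = (avg S)^[n] f + (avg S)^[n] g := by
  induction n with
  | zero => rfl
  | succ n ih => rw [Function.iterate_succ_apply', ih, avg_add, Function.iterate_succ_apply',
      Function.iterate_succ_apply']

theorem iter_sub (f g : G → ℝ) (n : ℕ) :
    (avg S)^[n] (f - g) = (avg S)^[n] f - (avg S)^[n] g := by
  induction n with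
  | zero => rfl
  | succ n ih => rw [Function.iterate_succ_apply', ih, avg_sub, Function.iterate_succ_apply',
      Function.iterate_succ_apply']

theorem iter_smul (c : ℝ) (f : G → ℝ) (n : ℕ) :
    (avg S)^[n] (c • f) = c • (avg S)^[n] f := by
  induction n with
  | zero => rfl
  | succ n ih => rw [Function.iterate_succ_apply', ih, avg_smul, Function.iterate_succ_apply']

theorem iter_const (hS : HypS S) (c : ℝ) (n : ℕ) :
    (avg S)^[n] (fun _ => c) = fun _ => c := by
  induction n with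
  | zero => rfl
  | succ n ih => rw [Function.iterate_succ_apply', ih, avg_const hS]

theorem iter_harm {f : G → ℝ} (hf : avg S f = f) (n : ℕ) : (avg S)^[n] f = f := by
  induction n with
  | zero => rfl
  | succ n ih => rw [Function.iterate_succ_apply', ih, hf]

theorem iter_trans (f : G → ℝ) (g : G) (n : ℕ) :
    (avg S)^[n] (fun x => f (g * x)) = fun x => (avg S)^[n] f (g * x) := by
  induction n with
  | zero => rfl
  | succ n ih =>
    rw [Function.iterate_succ_apply', ih, avg_trans, Function.iterate_succ_apply']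

/-! ### contraction on `ℓ²` -/

/-- pointwise inequality -/
theorem avg_sq_le (hS : HypS S) (f : G → ℝ) (x : G) :
    (avg S f x) ^ 2 ≤ (∑ s ∈ S, f (x * s) ^ 2) / S.card
      - (∑ s ∈ S, (f (x * s) - f x) ^ 2) / (S.card : ℝ) ^ 2 := by
  classical
  have hc := hS.card_pos
  set N : ℝ := (S.card : ℝ) with hN
  -- sum over pairs
  have h1 : ∑ s ∈ S, ∑ t ∈ S, (f (x * s) - f (x * t)) ^ 2 =
      2 * N * ∑ s ∈ S, f (x * s) ^ 2 - 2 * (∑ s ∈ S, f (x * s)) ^ 2 := by
    have e : ∀ s t : G, (f (x * s) - f (x * t)) ^ 2 =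
        f (x * s) ^ 2 + f (x * t) ^ 2 - 2 * (f (x * s) * f (x * t)) := fun s t => by ring
    simp only [e, Finset.sum_sub_distrib, Finset.sum_add_distrib, Finset.sum_const, nsmul_eq_mul,
      ← Finset.mul_sum, ← Finset.sum_mul]
    rw [← hN]; ring
  have h2 : 2 * ∑ s ∈ S, (f (x * s) - f x) ^ 2 ≤
      ∑ s ∈ S, ∑ t ∈ S, (f (x * s) - f (x * t)) ^ 2 := by
    have hx : ∀ s ∈ S, (f (x * s) - f x) ^ 2 ≤ ∑ t ∈ S, (f (x * s) - f (x * t)) ^ 2 := by
      intro s _
      have := Finset.single_le_sum (f := fun t => (f (x * s) - f (x * t)) ^ 2)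
        (fun t _ => sq_nonneg _) hS.oneS
      simpa only [ge_iff_le, mul_one] using this
    rw [← Finset.add_sum_erase S (fun s => ∑ t ∈ S, (f (x * s) - f (x * t)) ^ 2) hS.oneS, two_mul]
    have h3 : ∑ s ∈ S, (f (x * s) - f x) ^ 2 = ∑ t ∈ S, (f (x * 1) - f (x * t)) ^ 2 := by
      refine Finset.sum_congr rfl fun s _ => ?_
      rw [mul_one]; ring
    have h4 : ∑ s ∈ S, (f (x * s) - f x) ^ 2 ≤
        ∑ s ∈ S.erase 1, ∑ t ∈ S, (f (x * s) - f (x * t)) ^ 2 := by
      rw [← Finset.add_sum_erase S (fun s => (f (x * s) - f x) ^ 2) hS.oneS]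
      simp only [mul_one, sub_self, ne_eq, OfNat.ofNat_ne_zero, not_false_eq_true, zero_pow,
        zero_add]
      exact Finset.sum_le_sum fun s hs => hx s (Finset.mem_of_mem_erase hs)
    calc ∑ s ∈ S, (f (x * s) - f x) ^ 2 + ∑ s ∈ S, (f (x * s) - f x) ^ 2
        ≤ ∑ t ∈ S, (f (x * 1) - f (x * t)) ^ 2 +
          ∑ s ∈ S.erase 1, ∑ t ∈ S, (f (x * s) - f (x * t)) ^ 2 := add_le_add h3.le h4
      _ = _ := rfl
  rw [avg, div_pow]
  rw [h1] at h2
  rw [div_sub_div _ _ hc.ne' (pow_ne_zero 2 hc.ne'), div_le_div_iff₀ (pow_pos hc 2)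
    (by (clear * - hc; positivity))]
  have h5 : (∑ s ∈ S, f (x * s)) ^ 2 ≤ N * ∑ s ∈ S, f (x * s) ^ 2 -
      ∑ s ∈ S, (f (x * s) - f x) ^ 2 := by linarith only [h2]
  calc (∑ s ∈ S, f (x * s)) ^ 2 * (N * N ^ 2) ≤
      (N * ∑ s ∈ S, f (x * s) ^ 2 - ∑ s ∈ S, (f (x * s) - f x) ^ 2) * (N * N ^ 2) :=
        mul_le_mul_of_nonneg_right h5 (by (clear * - hc; positivity))
    _ = _ := by ring

theorem avg_contr (hS : HypS S) : ∃ q : ℝ, 0 ≤ q ∧ q < 1 ∧ ∀ f : G → ℝ, SqS f →
    SqS (avg S f) ∧ ∑' x, avg S f x ^ 2 ≤ q * ∑' x, f x ^ 2 := by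
  obtain ⟨C, hC, hgap⟩ := hS.gap
  have hc := hS.card_pos
  refine ⟨max 0 (1 - 1 / (C * (S.card : ℝ) ^ 2)), le_max_left _ _, ?_, fun f hf => ?_⟩
  · refine max_lt one_pos ?_
    have : 0 < 1 / (C * (S.card : ℝ) ^ 2) := by positivity
    linarith [this]
  · have hs : ∀ s : G, Summable fun x => f (x * s) ^ 2 := fun s =>
      (Equiv.mulRight s).summable_iff.2 hf
    have hst : ∀ s : G, ∑' x, f (x * s) ^ 2 = ∑' x, f x ^ 2 := fun s =>
      (Equiv.mulRight s).tsum_eq (fun x => f x ^ 2)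
    have hd : ∀ s : G, Summable fun x => (f (x * s) - f x) ^ 2 := fun s => (sq_slice hf s).1
    have s1 : Summable fun x => ∑ s ∈ S, f (x * s) ^ 2 := summable_sum fun s _ => hs s
    have s2 : Summable fun x => ∑ s ∈ S, (f (x * s) - f x) ^ 2 := summable_sum fun s _ => hd s
    have s3 : Summable fun x => (∑ s ∈ S, f (x * s) ^ 2) / (S.card : ℝ) := s1.div_const _
    have s4 : Summable fun x => (∑ s ∈ S, (f (x * s) - f x) ^ 2) / (S.card : ℝ) ^ 2 :=
      s2.div_const _
    have hle := avg_sq_le hS f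
    have s5 : SqS (avg S f) := (s3.sub s4).of_nonneg_of_le (fun x => sq_nonneg _) hle
    refine ⟨s5, ?_⟩
    have h1 : ∑' x, avg S f x ^ 2 ≤ ∑' x, ((∑ s ∈ S, f (x * s) ^ 2) / (S.card : ℝ)
        - (∑ s ∈ S, (f (x * s) - f x) ^ 2) / (S.card : ℝ) ^ 2) :=
      s5.tsum_le_tsum hle (s3.sub s4)
    have h2 : ∑' x, ((∑ s ∈ S, f (x * s) ^ 2) / (S.card : ℝ)
        - (∑ s ∈ S, (f (x * s) - f x) ^ 2) / (S.card : ℝ) ^ 2) =
        ∑' x, f x ^ 2 - (∑ s ∈ S, ∑' x, (f (x * s) - f x) ^ 2) / (S.card : ℝ) ^ 2 := by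
      rw [s3.tsum_sub s4, tsum_div_const, tsum_div_const, Summable.tsum_finsetSum fun s _ => hs s,
        Summable.tsum_finsetSum fun s _ => hd s]
      simp only [hst, Finset.sum_const, nsmul_eq_mul]
      rw [mul_div_cancel_left₀ _ hc.ne']
    have h3 := hgap f hf
    have h4 : (∑' x, f x ^ 2) / (C * (S.card : ℝ) ^ 2) ≤
        (∑ s ∈ S, ∑' x, (f (x * s) - f x) ^ 2) / (S.card : ℝ) ^ 2 := by
      rw [div_le_div_iff₀ (by (clear * - hC hc; positivity)) (by (clear * - hc; positivity))]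
      calc (∑' x, f x ^ 2) * (S.card : ℝ) ^ 2 ≤
          (C * ∑ s ∈ S, ∑' x, (f (x * s) - f x) ^ 2) * (S.card : ℝ) ^ 2 :=
            mul_le_mul_of_nonneg_right h3 (by (clear * - hc; positivity))
        _ = _ := by ring
    have h5 : 0 ≤ ∑' x, f x ^ 2 := tsum_nonneg fun x => sq_nonneg _
    calc ∑' x, avg S f x ^ 2 ≤ ∑' x, f x ^ 2 - (∑' x, f x ^ 2) / (C * (S.card : ℝ) ^ 2) := by
          rw [h2] at h1; linarith only [h1, h4]
      _ = (1 - 1 / (C * (S.card : ℝ) ^ 2)) * ∑' x, f x ^ 2 := by ring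
      _ ≤ _ := mul_le_mul_of_nonneg_right (le_max_right _ _) h5

theorem iter_l2 (hS : HypS S) {f : G → ℝ} (hf : SqS f) (x : G) :
    Tendsto (fun n => (avg S)^[n] f x) atTop (𝓝 0) := by
  obtain ⟨q, hq0, hq1, hq⟩ := avg_contr hS
  have h1 : ∀ n, SqS ((avg S)^[n] f) ∧ ∑' x, (avg S)^[n] f x ^ 2 ≤ q ^ n * ∑' x, f x ^ 2 := by
    intro n
    induction n with
    | zero => exact ⟨hf, by simp only [Function.iterate_zero, id_eq, pow_zero, one_mul, Std.le_refl]⟩
    | succ n ih =>
      rw [Function.iterate_succ_apply']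
      refine ⟨(hq _ ih.1).1, (hq _ ih.1).2.trans ?_⟩
      calc q * ∑' x, (avg S)^[n] f x ^ 2 ≤ q * (q ^ n * ∑' x, f x ^ 2) :=
            mul_le_mul_of_nonneg_left ih.2 hq0
        _ = _ := by ring
  have h2 : Tendsto (fun n => ((avg S)^[n] f x) ^ 2) atTop (𝓝 0) := by
    have h3 : Tendsto (fun n : ℕ => q ^ n * ∑' x, f x ^ 2) atTop (𝓝 0) := by
      have := (tendsto_pow_atTop_nhds_zero_of_lt_one hq0 hq1).mul_const (∑' x, f x ^ 2)
      rwa [zero_mul] at this
    refine squeeze_zero (fun n => sq_nonneg _) (fun n => ?_) h3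
    exact ((h1 n).1.le_tsum x fun y _ => sq_nonneg _).trans (h1 n).2
  have h4 := h2.sqrt
  simp only [Real.sqrt_sq_eq_abs, Real.sqrt_zero] at h4
  exact (tendsto_zero_iff_abs_tendsto_zero _).2 h4

/-! ### the harmonic part -/

/-- the harmonic part of a function of finite energy -/
noncomputable def HpD (hS : HypS S) (f : Dir S) : Dir S :=
  (exists_decomp (C := hS.gap.choose) hS.gap.choose_spec.2 f).choose

theorem Hp_spec (hS : HypS S) (f : Dir S) : ∃ φ : Dir S, f = HpD hS f + φ ∧ SqS φ.1 ∧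
    Orth (HpD hS f) :=
  (exists_decomp (C := hS.gap.choose) hS.gap.choose_spec.2 f).choose_spec

theorem Hp_harm (hS : HypS S) (f : Dir S) : avg S (HpD hS f).1 = (HpD hS f).1 := by
  obtain ⟨φ, -, -, ho⟩ := Hp_spec hS f
  exact avg_eq_of_harm hS fun y => ho.harm hS.symS y

theorem Hp_sub (hS : HypS S) (f : Dir S) : SqS (f.1 - (HpD hS f).1) := by
  obtain ⟨φ, h, hφ, -⟩ := Hp_spec hS f
  have : f.1 - (HpD hS f).1 = φ.1 := by
    have h2 : f.1 = (HpD hS f).1 + φ.1 := by
      have := congrArg Subtype.val h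
      exact this
    rw [h2]; ring
  rw [this]; exact hφ

omit [Group G] in
theorem sqS_tendsto {f : G → ℝ} (hf : SqS f) : Tendsto f cofinite (𝓝 0) := by
  have h4 := (hf.tendsto_cofinite_zero).sqrt
  simp only [Real.sqrt_sq_eq_abs, Real.sqrt_zero] at h4
  exact (tendsto_zero_iff_abs_tendsto_zero _).2 h4

/-- `f - Hf` vanishes at infinity -/
theorem Hp_infty (hS : HypS S) (f : Dir S) :
    Tendsto (fun x => f.1 x - (HpD hS f).1 x) cofinite (𝓝 0) := sqS_tendsto (Hp_sub hS f)

/-- `Pⁿ f → H f` pointwise -/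
theorem iter_tendsto (hS : HypS S) (f : Dir S) (x : G) :
    Tendsto (fun n => (avg S)^[n] f.1 x) atTop (𝓝 ((HpD hS f).1 x)) := by
  have h1 := iter_l2 hS (Hp_sub hS f) x
  have h2 : ∀ n, (avg S)^[n] f.1 x = (avg S)^[n] (f.1 - (HpD hS f).1) x + (HpD hS f).1 x := by
    intro n
    rw [iter_sub, iter_harm (Hp_harm hS f)]
    simp only [Pi.sub_apply, sub_add_cancel]
  have h3 := h1.add_const ((HpD hS f).1 x)
  rw [zero_add] at h3
  exact h3.congr fun n => (h2 n).symm

theorem Hp_mono (hS : HypS S) {f g : Dir S} (h : ∀ x, f.1 x ≤ g.1 x) (x : G) :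
    (HpD hS f).1 x ≤ (HpD hS g).1 x :=
  le_of_tendsto_of_tendsto' (iter_tendsto hS f x) (iter_tendsto hS g x) fun n => iter_mono h n x

theorem Hp_add (hS : HypS S) (f g : Dir S) (x : G) :
    (HpD hS (f + g)).1 x = (HpD hS f).1 x + (HpD hS g).1 x := by
  refine tendsto_nhds_unique (iter_tendsto hS (f + g) x) ?_
  refine ((iter_tendsto hS f x).add (iter_tendsto hS g x)).congr fun n => ?_
  have : (f + g).1 = f.1 + g.1 := rfl
  rw [this, iter_add]; rfl

theorem Hp_sub' (hS : HypS S) (f g : Dir S) (x : G) :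
    (HpD hS (f - g)).1 x = (HpD hS f).1 x - (HpD hS g).1 x := by
  refine tendsto_nhds_unique (iter_tendsto hS (f - g) x) ?_
  refine ((iter_tendsto hS f x).sub (iter_tendsto hS g x)).congr fun n => ?_
  have : (f - g).1 = f.1 - g.1 := rfl
  rw [this, iter_sub]; rfl

theorem Hp_le (hS : HypS S) {f : Dir S} {c : ℝ} (h : ∀ x, f.1 x ≤ c) (x : G) :
    (HpD hS f).1 x ≤ c := by
  refine le_of_tendsto' (iter_tendsto hS f x) fun n => ?_
  have h1 := iter_mono (S := S) (f := f.1) (g := fun _ => c) h n x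
  rwa [iter_const hS] at h1

theorem Hp_trD (hS : HypS S) (g : G) (f : Dir S) (x : G) :
    (HpD hS (trD g f)).1 x = (HpD hS f).1 (g⁻¹ * x) := by
  refine tendsto_nhds_unique (iter_tendsto hS (trD g f) x) ?_
  refine (iter_tendsto hS f (g⁻¹ * x)).congr fun n => ?_
  have : (trD g f).1 = fun y => f.1 (g⁻¹ * y) := rfl
  rw [this, iter_trans]

/-- gradients vanish at infinity -/
theorem dir_step_tendsto (f : Dir S) {s : G} (hs : s ∈ S) :
    Tendsto (fun x => f.1 (x * s) - f.1 x) cofinite (𝓝 0) := by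
  have h := f.2
  rw [mem_Dir, memℓp_gen_iff (by norm_num)] at h
  have h2 := h.tendsto_cofinite_zero
  have h3 : Function.Injective (fun x : G => ((⟨s, hs⟩ : S), x)) := fun a b hab =>
    (Prod.ext_iff.1 hab).2
  have h4 := h2.comp h3.tendsto_cofinite
  have h5 : Tendsto (fun x => (f.1 (x * s) - f.1 x) ^ 2) cofinite (𝓝 0) := by
    refine h4.congr fun x => ?_
    simp only [Function.comp]
    rw [ENNReal.toReal_ofNat, Real.rpow_ofNat, Real.norm_eq_abs, sq_abs]
  have h6 := h5.sqrt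
  simp only [Real.sqrt_sq_eq_abs, Real.sqrt_zero] at h6
  exact (tendsto_zero_iff_abs_tendsto_zero _).2 h6

end Vale.Agent.P239.F
end

section

/-!
Module C0, part b: points, cut-offs, the vanishing of harmonic measure of points.
-/

namespace Vale.Agent.P239.F

open Filter Topology Set
open Vale.Agent.P239
open scoped RealInnerProductSpace

variable {G : Type*} [Group G] {S : Finset G}

/-! ### closure properties of `Dir` -/

theorem mem_Dir_of_le2 {f g : G → ℝ} (hf : f ∈ Dir S) (hg : g ∈ Dir S) {k : G → ℝ}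
    (h : ∀ x, ∀ s ∈ S, |k (x * s) - k x| ≤ |f (x * s) - f x| + |g (x * s) - g x|) :
    k ∈ Dir S := by
  rw [mem_Dir_iff] at hf hg ⊢
  intro s hs
  refine Summable.of_nonneg_of_le (fun x => sq_nonneg _) (fun x => ?_)
    (((hf s hs).mul_left 2).add ((hg s hs).mul_left 2))
  have h1 := h x s hs
  have h2 : |k (x * s) - k x| ^ 2 ≤ (|f (x * s) - f x| + |g (x * s) - g x|) ^ 2 :=
    pow_le_pow_left₀ (abs_nonneg _) h1 2
  rw [sq_abs] at h2
  have h3 := sq_abs (f (x * s) - f x)
  have h4 := sq_abs (g (x * s) - g x)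
  linarith only [sq_nonneg (|f (x * s) - f x| - |g (x * s) - g x|), h4, h3, h2]

theorem const_mem_Dir (c : ℝ) : (fun _ : G => c) ∈ Dir S := by
  rw [mem_Dir_iff]
  intro s _
  simp only [sub_self, ne_eq, OfNat.ofNat_ne_zero, not_false_eq_true, zero_pow]
  exact summable_zero

theorem max_mem_Dir {f g : G → ℝ} (hf : f ∈ Dir S) (hg : g ∈ Dir S) :
    (fun x => max (f x) (g x)) ∈ Dir S :=
  mem_Dir_of_le2 hf hg fun _ _ _ => (abs_max_sub_max_le_max _ _ _ _).trans
    (max_le_add_of_nonneg (abs_nonneg _) (abs_nonneg _))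

theorem min_mem_Dir {f g : G → ℝ} (hf : f ∈ Dir S) (hg : g ∈ Dir S) :
    (fun x => min (f x) (g x)) ∈ Dir S :=
  mem_Dir_of_le2 hf hg fun _ _ _ => (abs_min_sub_min_le_max _ _ _ _).trans
    (max_le_add_of_nonneg (abs_nonneg _) (abs_nonneg _))

theorem abs_mem_Dir {f : G → ℝ} (hf : f ∈ Dir S) : (fun x => |f x|) ∈ Dir S :=
  mem_Dir_of_le2 hf (const_mem_Dir 0) fun x s _ => by
    simpa only [sub_self, abs_zero, add_zero] using abs_abs_sub_abs_le_abs_sub (f (x * s)) (f x)

theorem sub_const_mem_Dir {f : G → ℝ} (hf : f ∈ Dir S) (c : ℝ) : (fun x => f x - c) ∈ Dir S :=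
  mem_Dir_of_le2 hf (const_mem_Dir 0) fun x s _ => by simp only [sub_sub_sub_cancel_right, sub_self, abs_zero, add_zero, Std.le_refl]

theorem const_mul_mem_Dir {f : G → ℝ} (hf : f ∈ Dir S) (c : ℝ) : (fun x => c * f x) ∈ Dir S :=
  (Dir S).smul_mem c hf

/-! ### the coordinates `hb` -/

section HB

variable (hS : Subgroup.closure (S : Set G) = ⊤)

theorem hb_eq0 (x y z : G) : hb hS z x y =
    (gp hS x x - gp hS y y + 2 * (pot hS x).1 1 - 2 * (pot hS y).1 1)
      - 2 * ((pot hS x).1 z - (pot hS y).1 z) := by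
  rw [hb, res_eq, res_eq, gp_eq hS x z, gp_eq hS y z]; ring

theorem hb_mem_Dir (x y : G) : (fun z => hb hS z x y) ∈ Dir S := by
  have h1 : (fun z => (pot hS x).1 z - (pot hS y).1 z) ∈ Dir S := (pot hS x - pot hS y).2
  have h2 : (fun z => 2 * ((pot hS x).1 z - (pot hS y).1 z)) ∈ Dir S := const_mul_mem_Dir h1 2
  refine mem_Dir_of_le2 h2 (const_mem_Dir 0) fun z s _ => ?_
  rw [hb_eq0, hb_eq0]
  simp only [sub_self, abs_zero, add_zero]
  rw [← abs_neg]
  exact le_of_eq (congrArg abs (by ring))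

theorem hb_mul0 (g z : G) : hb hS (g * z) = act g (hb hS z) := by
  funext x y
  rw [act, hb, hb, ← res_mul hS g (g⁻¹ * x) z, ← res_mul hS g (g⁻¹ * y) z, mul_inv_cancel_left,
    mul_inv_cancel_left]

omit [Group G] in
theorem dist_mem_nhds (β : G → G → ℝ) (x y : G) {ε : ℝ} (hε : 0 < ε) :
    {γ : G → G → ℝ | |γ x y - β x y| < ε} ∈ 𝓝 β := by
  have h : Continuous fun γ : G → G → ℝ => γ x y := (continuous_apply y).comp (continuous_apply x)
  have := h.continuousAt.preimage_mem_nhds (Metric.ball_mem_nhds (β x y) hε)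
  refine mem_of_superset this fun γ hγ => ?_
  simpa [Real.dist_eq] using hγ

omit [Group G] in
/-- induction principle for neighbourhoods -/
theorem nhds_induct {β : G → G → ℝ} {p : Set (G → G → ℝ) → Prop}
    (h0 : ∀ x y, ∀ ε > 0, p {γ | |γ x y - β x y| < ε}) (hu : p univ)
    (hm : ∀ O O', O ⊆ O' → p O → p O') (hi : ∀ O O', p O → p O' → p (O ∩ O'))
    {O : Set (G → G → ℝ)} (hO : O ∈ 𝓝 β) : p O := by
  let F : Filter (G → G → ℝ) :=
    { sets := {O | p O}
      univ_sets := hu
      sets_of_superset := fun h1 h2 => hm _ _ h2 h1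
      inter_sets := fun h1 h2 => hi _ _ h1 h2 }
  have h : F ≤ 𝓝 β := by
    have h1 : Tendsto (fun γ : G → G → ℝ => γ) F (𝓝 β) := by
      rw [tendsto_pi_nhds]
      intro x
      rw [tendsto_pi_nhds]
      intro y
      rw [Metric.tendsto_nhds]
      intro ε hε
      have := h0 x y ε hε
      show p _
      simpa [Real.dist_eq] using this
    exact h1
  exact h hO

/-- cut-off functions at the point `β` -/
def Cut0 (β : G → G → ℝ) (f : Dir S) : Prop :=
  (∀ z, 0 ≤ f.1 z ∧ f.1 z ≤ 1) ∧ ∀ᶠ z in comap (hb hS) (𝓝 β), f.1 z = 0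

theorem Cut0.max {β : G → G → ℝ} {f g : Dir S} (hf : Cut0 hS β f) (hg : Cut0 hS β g) :
    Cut0 hS β ⟨fun x => Max.max (f.1 x) (g.1 x), max_mem_Dir f.2 g.2⟩ := by
  refine ⟨fun z => ⟨le_max_of_le_left (hf.1 z).1, max_le (hf.1 z).2 (hg.1 z).2⟩, ?_⟩
  filter_upwards [hf.2, hg.2] with z h1 h2
  simp [h1, h2]

theorem cut0_zero (β : G → G → ℝ) : Cut0 hS β 0 :=
  ⟨fun z => ⟨le_rfl, zero_le_one⟩, Eventually.of_forall fun _ => rfl⟩

theorem exists_cut0 {β : G → G → ℝ} {O : Set (G → G → ℝ)} (hO : O ∈ 𝓝 β) :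
    ∃ f : Dir S, Cut0 hS β f ∧ ∀ z, hb hS z ∉ O → f.1 z = 1 := by
  refine nhds_induct (p := fun O => ∃ f : Dir S, Cut0 hS β f ∧ ∀ z, hb hS z ∉ O → f.1 z = 1)
    ?_ ?_ ?_ ?_ hO
  · intro x y ε hε
    let k : G → ℝ := fun z => min 1 (Max.max 0 ((2 / ε) * (|hb hS z x y - β x y| - ε / 2)))
    have hk : k ∈ Dir S := min_mem_Dir (const_mem_Dir 1) (max_mem_Dir (const_mem_Dir 0)
      (const_mul_mem_Dir (sub_const_mem_Dir (abs_mem_Dir (sub_const_mem_Dir
        (hb_mem_Dir hS x y) _)) _) _))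
    refine ⟨⟨k, hk⟩, ⟨fun z => ⟨le_min zero_le_one (le_max_left _ _), min_le_left _ _⟩, ?_⟩, ?_⟩
    · refine mem_of_superset (preimage_mem_comap (dist_mem_nhds β x y (half_pos hε)))
        fun z hz => ?_
      have hz' : |hb hS z x y - β x y| < ε / 2 := hz
      show min 1 (Max.max 0 ((2 / ε) * (|hb hS z x y - β x y| - ε / 2))) = 0
      have h1 : (2 / ε) * (|hb hS z x y - β x y| - ε / 2) ≤ 0 :=
        mul_nonpos_of_nonneg_of_nonpos (by positivity) (by linarith only [hz'])
      rw [max_eq_left h1, min_eq_right zero_le_one]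
    · intro z hz
      have hz' : ε ≤ |hb hS z x y - β x y| := not_lt.1 hz
      show min 1 (Max.max 0 ((2 / ε) * (|hb hS z x y - β x y| - ε / 2))) = 1
      have h1 : 1 ≤ (2 / ε) * (|hb hS z x y - β x y| - ε / 2) := by
        rw [div_mul_eq_mul_div, le_div_iff₀ hε]; linarith only [hz']
      rw [max_eq_right (zero_le_one.trans h1), min_eq_left h1]
  · exact ⟨0, cut0_zero hS β, fun z hz => absurd (mem_univ _) hz⟩
  · rintro O O' h ⟨f, hf, hf'⟩
    exact ⟨f, hf, fun z hz => hf' z fun h2 => hz (h h2)⟩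
  · rintro O O' ⟨f, hf, hf'⟩ ⟨g, hg, hg'⟩
    refine ⟨_, hf.max hS hg, fun z hz => ?_⟩
    show Max.max (f.1 z) (g.1 z) = 1
    by_cases h : hb hS z ∈ O
    · have h2 : hb hS z ∉ O' := fun h2 => hz ⟨h, h2⟩
      rw [hg' z h2]; exact max_eq_right (hf.1 z).2
    · rw [hf' z h]; exact max_eq_left (hg.1 z).2

/-! ### action on points -/

theorem act_act0 (g h : G) (β : G → G → ℝ) : act g (act h β) = act (g * h) β := by
  funext x y
  simp only [act, mul_inv_rev, mul_assoc]

theorem act_one0 (β : G → G → ℝ) : act 1 β = β := by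
  funext x y
  simp only [act, inv_one, one_mul]

theorem continuous_act0 (g : G) : Continuous (act g : (G → G → ℝ) → G → G → ℝ) :=
  continuous_pi fun x => continuous_pi fun y =>
    (continuous_apply (g⁻¹ * y)).comp (continuous_apply (g⁻¹ * x))

theorem Cut0.tr {β : G → G → ℝ} {f : Dir S} (hf : Cut0 hS β f) (g : G) :
    Cut0 hS (act g β) (trD g f) := by
  refine ⟨fun z => hf.1 (g⁻¹ * z), ?_⟩
  obtain ⟨O, hO, h⟩ := mem_comap.1 hf.2
  refine mem_comap.2 ⟨act g⁻¹ ⁻¹' O, ?_, fun z hz => ?_⟩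
  · refine (continuous_act0 g⁻¹).continuousAt.preimage_mem_nhds ?_
    rw [act_act0, inv_mul_cancel, act_one0]; exact hO
  · have h1 : g⁻¹ * z ∈ hb hS ⁻¹' O := by
      show hb hS (g⁻¹ * z) ∈ O
      rw [hb_mul0]; exact hz
    exact h h1

/-! ### harmonic measure of points -/

/-- the supremum of the harmonic parts of the cut-offs at `β` -/
noncomputable def top (hp : HypS S) (β : G → G → ℝ) (x : G) : ℝ :=
  ⨆ f : {f : Dir S // Cut0 hp.gen β f}, (HpD hp f.1).1 x

theorem top_bdd (hp : HypS S) (β : G → G → ℝ) (x : G) :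
    BddAbove (range fun f : {f : Dir S // Cut0 hp.gen β f} => (HpD hp f.1).1 x) := by
  refine ⟨1, ?_⟩
  rintro _ ⟨f, rfl⟩
  exact Hp_le hp (fun z => (f.2.1 z).2) x

theorem le_top (hp : HypS S) {β : G → G → ℝ} {f : Dir S} (hf : Cut0 hp.gen β f) (x : G) :
    (HpD hp f).1 x ≤ top hp β x := le_ciSup (top_bdd hp β x) ⟨f, hf⟩

instance (hS : Subgroup.closure (S : Set G) = ⊤) (β : G → G → ℝ) :
    Nonempty {f : Dir S // Cut0 hS β f} := ⟨⟨0, cut0_zero hS β⟩⟩

theorem top_le_one (hp : HypS S) (β : G → G → ℝ) (x : G) : top hp β x ≤ 1 :=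
  ciSup_le fun f => Hp_le hp (fun z => (f.2.1 z).2) x

theorem exists_near_top (hp : HypS S) (β : G → G → ℝ) (x : G) {ε : ℝ} (hε : 0 < ε) :
    ∃ f : Dir S, Cut0 hp.gen β f ∧ top hp β x - ε < (HpD hp f).1 x := by
  obtain ⟨f, hf⟩ := exists_lt_of_lt_ciSup (show top hp β x - ε < top hp β x by linarith)
  exact ⟨f.1, f.2, hf⟩

/-- simultaneous approximation on a finite set -/
theorem exists_near_top_finset (hp : HypS S) (β : G → G → ℝ) (A : Finset G) {ε : ℝ}
    (hε : 0 < ε) : ∃ f : Dir S, Cut0 hp.gen β f ∧ ∀ x ∈ A, top hp β x - ε < (HpD hp f).1 x := by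
  classical
  induction A using Finset.induction_on with
  | empty => exact ⟨0, cut0_zero hp.gen β, fun x hx => by simp at hx⟩
  | insert a A ha ih =>
    obtain ⟨f, hf, hf'⟩ := ih
    obtain ⟨g, hg, hg'⟩ := exists_near_top hp β a hε
    refine ⟨_, hf.max hp.gen hg, fun x hx => ?_⟩
    rcases Finset.mem_insert.1 hx with rfl | hx
    · exact hg'.trans_le (Hp_mono hp (fun z => le_max_right _ _) x)
    · exact (hf' x hx).trans_le (Hp_mono hp (fun z => le_max_left _ _) x)

theorem top_harm (hp : HypS S) (β : G → G → ℝ) : avg S (top hp β) = top hp β := by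
  classical
  funext x
  apply le_antisymm
  · refine le_of_forall_pos_le_add fun ε hε => ?_
    obtain ⟨f, hf, hf'⟩ := exists_near_top_finset hp β (S.image fun s => x * s) hε
    have h1 : avg S (top hp β) x ≤ avg S (fun y => (HpD hp f).1 y + ε) x := by
      refine div_le_div_of_nonneg_right (Finset.sum_le_sum fun s hs => ?_) (Nat.cast_nonneg _)
      have := hf' (x * s) (Finset.mem_image_of_mem _ hs)
      linarith
    have h2 : avg S (fun y => (HpD hp f).1 y + ε) x = (HpD hp f).1 x + ε := by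
      have e : (fun y => (HpD hp f).1 y + ε) = (HpD hp f).1 + fun _ => ε := rfl
      rw [e, avg_add, Hp_harm, avg_const hp]; rfl
    rw [h2] at h1
    exact h1.trans (add_le_add (le_top hp hf x) le_rfl)
  · refine ciSup_le fun f => ?_
    have h1 : (HpD hp f.1).1 x = avg S (HpD hp f.1).1 x := by rw [Hp_harm]
    rw [h1]
    exact avg_mono (fun y => le_top hp f.2 y) x

theorem top_act (hp : HypS S) (g : G) (β : G → G → ℝ) (x : G) :
    top hp (act g β) x = top hp β (g⁻¹ * x) := by
  have key : ∀ (g : G) (β : G → G → ℝ) (x : G), top hp β (g⁻¹ * x) ≤ top hp (act g β) x := by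
    intro g β x
    refine ciSup_le fun f => ?_
    rw [← Hp_trD]
    exact le_top hp (f.2.tr hp.gen g) x
  refine le_antisymm ?_ (key g β x)
  have h := key g⁻¹ (act g β) (g⁻¹ * x)
  rw [inv_inv, mul_inv_cancel_left, act_act0, inv_mul_cancel, act_one0] at h
  exact h

theorem Hp_const (hp : HypS S) (c : ℝ) (x : G) :
    (HpD hp (⟨fun _ => c, const_mem_Dir c⟩ : Dir S)).1 x = c := by
  refine tendsto_nhds_unique (iter_tendsto hp _ x) ?_
  simp only [iter_const hp]
  exact tendsto_const_nhds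

theorem Hp_sum (hp : HypS S) {ι : Type*} (s : Finset ι) (f : ι → Dir S) (x : G) :
    (HpD hp (∑ i ∈ s, f i)).1 x = ∑ i ∈ s, (HpD hp (f i)).1 x := by
  classical
  induction s using Finset.induction_on with
  | empty =>
    simp only [Finset.sum_empty]
    have := Hp_const hp (0 : ℝ) x
    exact this
  | insert a s ha ih => rw [Finset.sum_insert ha, Hp_add, ih, Finset.sum_insert ha]

/-- harmonic measures of finitely many points sum to at most one -/
theorem sum_top (hp : HypS S) (B : Finset (G → G → ℝ)) (x : G) :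
    (B.card : ℝ) - 1 ≤ ∑ β ∈ B, top hp β x := by
  classical
  obtain ⟨U, hU, hd⟩ := (B.finite_toSet).t2_separation
  choose f hf hf' using fun β : G → G → ℝ =>
    exists_cut0 hp.gen (β := β) (O := U β) ((hU β).2.mem_nhds (hU β).1)
  have h1 : ∀ z, (B.card : ℝ) - 1 ≤ ∑ β ∈ B, (f β).1 z := by
    intro z
    by_cases hz : ∃ β ∈ B, hb hp.gen z ∈ U β
    · obtain ⟨β, hβ, hz⟩ := hz
      rw [← Finset.add_sum_erase B _ hβ]
      have h2 : ∑ γ ∈ B.erase β, (f γ).1 z = ∑ γ ∈ B.erase β, (1 : ℝ) := by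
        refine Finset.sum_congr rfl fun γ hγ => hf' γ z fun hzγ => ?_
        have hne := Finset.ne_of_mem_erase hγ
        exact Set.disjoint_left.1 (hd (Finset.mem_of_mem_erase hγ) hβ hne) hzγ hz
      rw [h2, Finset.sum_const, nsmul_eq_mul, mul_one, Finset.card_erase_of_mem hβ]
      have h3 := ((hf β).1 z).1
      have h4 : 1 ≤ B.card := Finset.card_pos.2 ⟨β, hβ⟩
      rw [Nat.cast_sub h4, Nat.cast_one]
      linarith only [h3]
    · have h2 : ∑ γ ∈ B, (f γ).1 z = ∑ γ ∈ B, (1 : ℝ) :=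
        Finset.sum_congr rfl fun γ hγ => hf' γ z fun h => hz ⟨γ, hγ, h⟩
      rw [h2, Finset.sum_const, nsmul_eq_mul, mul_one]
      linarith
  have h2 : (B.card : ℝ) - 1 ≤ ∑ β ∈ B, (HpD hp (f β)).1 x := by
    rw [← Hp_sum, ← Hp_const hp ((B.card : ℝ) - 1) x]
    refine Hp_mono hp (fun z => ?_) x
    have e : (∑ i ∈ B, f i).1 z = ∑ i ∈ B, (f i).1 z := by
      rw [AddSubmonoidClass.coe_finsetSum, Finset.sum_apply]
    show (B.card : ℝ) - 1 ≤ (∑ i ∈ B, f i).1 z
    rw [e]; exact h1 z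
  exact h2.trans (Finset.sum_le_sum fun β _ => le_top hp (hf β) x)

/-- strong maximum principle -/
theorem const_of_max (hp : HypS S) {h : G → ℝ} (hh : avg S h = h) {x : G}
    (hx : ∀ y, h y ≤ h x) (y : G) : h y = h x := by
  have hstep : ∀ p, h p = h x → ∀ s ∈ S, h (p * s) = h x := by
    intro p hp' s hs
    have h0 : ∀ t ∈ S, h (p * t) - h p ≤ 0 := fun t _ => by
      rw [hp']; linarith [hx (p * t)]
    have h1 := (Finset.sum_eq_zero_iff_of_nonpos h0).1 (harm_of_avg_eq hp hh p) s hs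
    rw [hp'] at h1
    linarith only [h1]
  have hall : ∀ g : G, h (x * g) = h x := by
    intro g
    have hg : g ∈ Subgroup.closure (S : Set G) := by rw [hp.gen]; trivial
    induction hg using Subgroup.closure_induction_right with
    | one => rw [mul_one]
    | mul_right g _ s hs ih =>
      rw [← mul_assoc]; exact hstep _ ih s hs
    | mul_inv_cancel g _ s hs ih =>
      rw [← mul_assoc]; exact hstep _ ih s⁻¹ (hp.symS s hs)
  have := hall (x⁻¹ * y)
  rwa [mul_inv_cancel_left] at this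

/-- **(NA)** points with infinite orbit have harmonic measure zero -/
theorem top_eq_one (hp : HypS S) {β : G → G → ℝ} (hβ : (range fun g => act g β).Infinite)
    (x : G) : top hp β x = 1 := by
  classical
  by_contra hne
  have hc : 0 < 1 - top hp β x := by
    have := lt_of_le_of_ne (top_le_one hp β x) hne
    linarith only [this]
  set c := 1 - top hp β x with hcdef
  -- points of the orbit with defect at least `c`
  have hfin : ∀ B : Finset (G → G → ℝ), (∀ γ ∈ B, c ≤ 1 - top hp γ 1) →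
      (B.card : ℝ) ≤ 1 / c := by
    intro B hB
    have h1 := sum_top hp B 1
    have h2 : ∑ γ ∈ B, top hp γ 1 ≤ ∑ γ ∈ B, (1 - c) :=
      Finset.sum_le_sum fun γ hγ => by linarith [hB γ hγ]
    rw [Finset.sum_const, nsmul_eq_mul] at h2
    rw [le_div_iff₀ hc]
    linarith
  have hset : {γ ∈ range fun g => act g β | c ≤ 1 - top hp γ 1}.Finite := by
    by_contra hinf
    obtain ⟨n, hn⟩ := exists_nat_gt (1 / c)
    obtain ⟨B, hB, hcard⟩ := Set.Infinite.exists_subset_card_eq hinf n
    have := hfin B fun γ hγ => (hB hγ).2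
    rw [hcard] at this
    linarith only [hn, this]
  -- a maximal one
  obtain ⟨γ, hγ, hmax⟩ := hset.exists_maximalFor (fun γ => 1 - top hp γ 1) _
    ⟨act x⁻¹ β, ⟨x⁻¹, rfl⟩, by rw [top_act, inv_inv, mul_one]⟩
  obtain ⟨⟨k, rfl⟩, hk⟩ := hγ
  have hmax' : ∀ g, 1 - top hp (act g β) 1 ≤ 1 - top hp (act k β) 1 := by
    intro g
    by_contra hlt
    push Not at hlt
    have h1 : act g β ∈ {γ ∈ range fun g => act g β | c ≤ 1 - top hp γ 1} :=
      ⟨⟨g, rfl⟩, hk.trans hlt.le⟩
    exact absurd (hmax h1 hlt.le) (not_le.2 hlt)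
  have hh : avg S (fun y => 1 - top hp β y) = fun y => 1 - top hp β y := by
    have e : (fun y => 1 - top hp β y) = (fun _ => (1 : ℝ)) - top hp β := rfl
    rw [e, avg_sub, avg_const hp, top_harm]
  have hconst : ∀ y, 1 - top hp β y = 1 - top hp β k⁻¹ := by
    refine const_of_max hp hh fun y => ?_
    have h1 := hmax' y⁻¹
    rw [top_act, top_act, inv_inv, mul_one, mul_one] at h1
    exact h1
  refine hβ (hset.subset ?_)
  rintro _ ⟨g, rfl⟩
  refine ⟨⟨g, rfl⟩, ?_⟩
  have h2 : top hp (act g β) 1 = top hp β x := by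
    rw [top_act, mul_one]
    have h3 := hconst g⁻¹
    have h4 := hconst x
    linarith only [h3, h4]
  rw [h2]

end HB

end Vale.Agent.P239.F
end

section

/-!
Module C0, part c: the harmonic function of a set whose boundary accumulates at finitely many
points of harmonic measure zero.
-/

namespace Vale.Agent.P239.F

open Filter Topology Set
open Vale.Agent.P239
open scoped RealInnerProductSpace

variable {G : Type*} [Group G] {S : Finset G}

/-! ### general properties of `phi` -/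

/-- the limit defining `phi` exists -/
def HasPhi (S : Finset G) (A : Set G) : Prop :=
  ∀ x, ∃ L : ℝ, Tendsto (fun n => ((avg S)^[n] (A.indicator 1)) x) atTop (𝓝 L)

theorem HasPhi.tendsto {A : Set G} (h : HasPhi S A) (x : G) :
    Tendsto (fun n => ((avg S)^[n] (A.indicator 1)) x) atTop (𝓝 (phi S A x)) :=
  tendsto_nhds_limUnder (h x)

theorem HasPhi.phi_eq {A : Set G} {x : G} {L : ℝ}
    (h : Tendsto (fun n => ((avg S)^[n] (A.indicator 1)) x) atTop (𝓝 L)) : phi S A x = L :=
  h.limUnder_eq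

omit [Group G] in
theorem ind_nonneg (A : Set G) (x : G) : 0 ≤ A.indicator (1 : G → ℝ) x := by
  by_cases h : x ∈ A
  · rw [indicator_of_mem h]; exact zero_le_one
  · rw [indicator_of_notMem h]

omit [Group G] in
theorem ind_le_one (A : Set G) (x : G) : A.indicator (1 : G → ℝ) x ≤ 1 := by
  by_cases h : x ∈ A
  · rw [indicator_of_mem h]; exact le_rfl
  · rw [indicator_of_notMem h]; exact zero_le_one

theorem HasPhi.nonneg (hp : HypS S) {A : Set G} (h : HasPhi S A) (x : G) : 0 ≤ phi S A x := by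
  refine ge_of_tendsto' (h.tendsto x) fun n => ?_
  have h1 := iter_mono (S := S) (ind_nonneg A) n x
  rwa [iter_const hp] at h1

theorem HasPhi.le_one (hp : HypS S) {A : Set G} (h : HasPhi S A) (x : G) : phi S A x ≤ 1 := by
  refine le_of_tendsto' (h.tendsto x) fun n => ?_
  have h1 := iter_mono (S := S) (ind_le_one A) n x
  rwa [iter_const hp] at h1

theorem HasPhi.harm {A : Set G} (h : HasPhi S A) : avg S (phi S A) = phi S A := by
  funext x
  have h1 : Tendsto (fun n => ((avg S)^[n + 1] (A.indicator 1)) x) atTop (𝓝 (phi S A x)) :=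
    (h.tendsto x).comp (tendsto_add_atTop_nat 1)
  have h2 : Tendsto (fun n => ((avg S)^[n + 1] (A.indicator 1)) x) atTop
      (𝓝 (avg S (phi S A) x)) := by
    have h3 : Tendsto (fun n => (∑ s ∈ S, ((avg S)^[n] (A.indicator 1)) (x * s)) / (S.card : ℝ))
        atTop (𝓝 ((∑ s ∈ S, phi S A (x * s)) / (S.card : ℝ))) :=
      (tendsto_finsetSum S fun s _ => h.tendsto (x * s)).div_const _
    refine h3.congr fun n => ?_
    rw [Function.iterate_succ_apply']; rfl
  exact tendsto_nhds_unique h2 h1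

theorem HasPhi.compl (hp : HypS S) {A : Set G} (h : HasPhi S A) :
    HasPhi S Aᶜ ∧ ∀ x, phi S A x + phi S Aᶜ x = 1 := by
  have h1 : ∀ x, Tendsto (fun n => ((avg S)^[n] (Aᶜ.indicator 1)) x) atTop
      (𝓝 (1 - phi S A x)) := by
    intro x
    have e : Aᶜ.indicator (1 : G → ℝ) = (fun _ => (1 : ℝ)) - A.indicator 1 := by
      funext y
      by_cases hy : y ∈ A
      · simp [hy]
      · simp [hy]
    have h2 : Tendsto (fun n => (1 : ℝ) - ((avg S)^[n] (A.indicator 1)) x) atTop
        (𝓝 (1 - phi S A x)) := (h.tendsto x).const_sub 1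
    refine h2.congr fun n => ?_
    rw [e, iter_sub, iter_const hp]; rfl
  refine ⟨fun x => ⟨_, h1 x⟩, fun x => ?_⟩
  rw [HasPhi.phi_eq (h1 x)]; ring

theorem HasPhi.mono {A B : Set G} (hA : HasPhi S A) (hB : HasPhi S B) (h : A ⊆ B) (x : G) :
    phi S A x ≤ phi S B x :=
  le_of_tendsto_of_tendsto' (hA.tendsto x) (hB.tendsto x) fun n =>
    iter_mono (fun y => indicator_le_indicator_of_subset h (fun _ => zero_le_one) y) n x

/-! ### finitely many points -/

section Pts

variable (hS : Subgroup.closure (S : Set G) = ⊤)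

/-- `A` accumulates only at the points of the finite set `B` -/
def ConvB (A : Set G) (B : Finset (G → G → ℝ)) : Prop :=
  Tendsto (hb hS) (cofinite ⊓ 𝓟 A) (⨆ β ∈ B, 𝓝 β)

/-- cut-offs at a finite set of points -/
def CutB (B : Finset (G → G → ℝ)) (f : Dir S) : Prop :=
  (∀ z, 0 ≤ f.1 z ∧ f.1 z ≤ 1) ∧ ∀ β ∈ B, ∀ᶠ z in comap (hb hS) (𝓝 β), f.1 z = 0

theorem convB_singleton {A : Set G} {β : G → G → ℝ} : ConvB hS A {β} ↔ Conv hS A β := by
  simp only [ConvB, Finset.mem_singleton, iSup_iSup_eq_left, Conv]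

theorem ConvB.mono {A A' : Set G} {B B' : Finset (G → G → ℝ)} (h : ConvB hS A B) (hA : A' ⊆ A)
    (hB : B ⊆ B') : ConvB hS A' B' :=
  (Tendsto.mono_left h (inf_le_inf_left _ (principal_mono.2 hA))).mono_right
    (biSup_mono fun _ hβ => hB hβ)

theorem ConvB.union {A A' : Set G} {B : Finset (G → G → ℝ)} (h : ConvB hS A B)
    (h' : ConvB hS A' B) : ConvB hS (A ∪ A') B := by
  have e : cofinite ⊓ 𝓟 (A ∪ A') = (cofinite ⊓ 𝓟 A) ⊔ (cofinite ⊓ 𝓟 A') := by
    rw [← sup_principal, inf_sup_left]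
  unfold ConvB
  rw [e]
  exact Tendsto.sup h h'

theorem convB_of_finite {A : Set G} (hA : A.Finite) (B : Finset (G → G → ℝ)) : ConvB hS A B := by
  have e : cofinite ⊓ 𝓟 A = ⊥ := by
    rw [← Filter.empty_mem_iff_bot, mem_inf_principal]
    refine mem_cofinite.2 (hA.subset fun x hx => ?_)
    by_contra h
    exact hx fun h2 => absurd h2 h
  unfold ConvB
  rw [e]
  exact tendsto_bot

/-- the defining property of accumulation: finitely many points of `A` off a neighbourhood -/
theorem ConvB.finite {A : Set G} {B : Finset (G → G → ℝ)} (h : ConvB hS A B)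
    {O : Set (G → G → ℝ)} (hO : ∀ β ∈ B, O ∈ 𝓝 β) : {x ∈ A | hb hS x ∉ O}.Finite := by
  have h1 : O ∈ (⨆ β ∈ B, 𝓝 β) := by
    simp only [mem_iSup]
    exact hO
  have h2 := h h1
  rw [mem_map, mem_inf_principal, mem_cofinite] at h2
  refine h2.subset fun x hx => ?_
  simp only [mem_compl_iff, mem_ofPred_eq]
  intro h3
  exact hx.2 (h3 hx.1)

theorem convB_iff {A : Set G} {B : Finset (G → G → ℝ)} : ConvB hS A B ↔
    ∀ O : Set (G → G → ℝ), (∀ β ∈ B, O ∈ 𝓝 β) → {x ∈ A | hb hS x ∉ O}.Finite := by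
  refine ⟨fun h O hO => h.finite hS hO, fun h O hO => ?_⟩
  simp only [mem_iSup] at hO
  rw [mem_map, mem_inf_principal, mem_cofinite]
  refine (h O hO).subset fun x hx => ?_
  simp only [mem_compl_iff, mem_ofPred_eq] at hx
  push Not at hx
  exact hx

/-- a cut-off kills all but finitely many points of a set accumulating at `B` -/
theorem ConvB.finite_ne {A : Set G} {B : Finset (G → G → ℝ)} (h : ConvB hS A B) {f : Dir S}
    (hf : CutB hS B f) : {x ∈ A | f.1 x ≠ 0}.Finite := by
  have h1 : ∀ᶠ z in cofinite ⊓ 𝓟 A, f.1 z = 0 := by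
    have h2 : cofinite ⊓ 𝓟 A ≤ ⨆ β ∈ B, comap (hb hS) (𝓝 β) := by
      have := tendsto_iff_comap.1 h
      simpa only [comap_iSup] using this
    refine h2 ?_
    simp only [mem_iSup]
    exact hf.2
  rw [eventually_inf_principal, eventually_cofinite] at h1
  refine h1.subset fun x hx => ?_
  simp only [mem_ofPred_eq]
  push Not
  exact hx

/-- the harmonic measure of `B` vanishes -/
def NB (hp : HypS S) (B : Finset (G → G → ℝ)) : Prop :=
  ∀ x, ∀ ε > 0, ∃ f : Dir S, CutB hp.gen B f ∧ 1 - ε < (HpD hp f).1 x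

theorem nb_of (hp : HypS S) {B : Finset (G → G → ℝ)} (hB : ∀ β ∈ B, ∀ x, top hp β x = 1) :
    NB hp B := by
  classical
  intro x ε hε
  have key : ∀ B' ⊆ B, ∃ f : Dir S, CutB hp.gen B' f ∧
      1 - ε * B'.card / (B.card + 1) ≤ (HpD hp f).1 x := by
    intro B'
    induction B' using Finset.induction_on with
    | empty =>
      intro _
      refine ⟨⟨fun _ => 1, const_mem_Dir 1⟩, ⟨fun z => ⟨zero_le_one, le_rfl⟩, fun β hβ => by
        simp at hβ⟩, ?_⟩
      rw [Hp_const]; simp
    | insert a B' ha ih =>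
      intro hsub
      obtain ⟨f, hf, hf'⟩ := ih ((Finset.subset_insert _ _).trans hsub)
      obtain ⟨g, hg, hg'⟩ := exists_near_top hp a x
        (show 0 < ε / (B.card + 1) by (clear * - hε; positivity))
      rw [hB a (hsub (Finset.mem_insert_self _ _)) x] at hg'
      refine ⟨⟨fun y => min (f.1 y) (g.1 y), min_mem_Dir f.2 g.2⟩,
        ⟨fun z => ⟨le_min (hf.1 z).1 (hg.1 z).1, (min_le_left _ _).trans (hf.1 z).2⟩,
          fun β hβ => ?_⟩, ?_⟩
      · rcases Finset.mem_insert.1 hβ with rfl | hβ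
        · filter_upwards [hg.2] with z hz
          show min (f.1 z) (g.1 z) = 0
          rw [hz]; exact min_eq_right (hf.1 z).1
        · filter_upwards [hf.2 β hβ] with z hz
          show min (f.1 z) (g.1 z) = 0
          rw [hz]; exact min_eq_left (hg.1 z).1
      · rw [Finset.card_insert_of_notMem ha]
        have h1 : ∀ y, (f + g - ⟨fun _ => (1 : ℝ), const_mem_Dir 1⟩ : Dir S).1 y ≤
            min (f.1 y) (g.1 y) := by
          intro y
          show f.1 y + g.1 y - 1 ≤ _
          refine le_min ?_ ?_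
          · linarith only [(hg.1 y).2]
          · linarith only [(hf.1 y).2]
        have h2 := Hp_mono hp (g := ⟨fun y => min (f.1 y) (g.1 y), min_mem_Dir f.2 g.2⟩) h1 x
        rw [Hp_sub', Hp_add, Hp_const] at h2
        push_cast
        have h3 : ε * (B'.card + 1) / (B.card + 1) =
            ε * B'.card / (B.card + 1) + ε / ((B.card : ℝ) + 1) := by ring
        rw [h3]
        linarith only [hf', hg', h2]
  obtain ⟨f, hf, hf'⟩ := key B le_rfl
  refine ⟨f, hf, lt_of_lt_of_le ?_ hf'⟩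
  have : ε * B.card / (B.card + 1) < ε := by
    rw [div_lt_iff₀ (by (clear * -; positivity))]; linarith only [hε]
  (clear * - this; linarith)

theorem adj_mul_r {x s : G} (hs : s ∈ S) : Adj S x (x * s) := ⟨s, hs, Or.inl rfl⟩

theorem mem_bd_left {A : Set G} {x s : G} (hs : s ∈ S) (h : ¬ (x ∈ A ↔ x * s ∈ A)) :
    x ∈ bd S A := ⟨x * s, adj_mul_r hs, h⟩

theorem mem_bd_right {A : Set G} {x s : G} (hs : s ∈ S) (h : ¬ (x ∈ A ↔ x * s ∈ A)) :
    x * s ∈ bd S A := ⟨x, (adj_mul_r hs).symm, fun h2 => h h2.symm⟩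

/-- cut-off indicator functions have finite energy -/
theorem ind_mem_Dir {A : Set G} {B : Finset (G → G → ℝ)} (hA : ConvB hS (bd S A) B) {f : Dir S}
    (hf : CutB hS B f) : A.indicator f.1 ∈ Dir S := by
  classical
  rw [mem_Dir_iff]
  intro s hs
  have hE := hA.finite_ne hS hf
  set E := {x ∈ bd S A | f.1 x ≠ 0} with hEdef
  have hE2 : (E ∪ {x | x * s ∈ E}).Finite := by
    refine hE.union (hE.preimage (fun a _ b _ hab => mul_right_cancel hab))
  have hsum1 : Summable fun x => (f.1 (x * s) - f.1 x) ^ 2 := mem_Dir_iff.1 f.2 s hs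
  have hsum2 : Summable (fun x => (E ∪ {x | x * s ∈ E}).indicator (1 : G → ℝ) x) :=
    summable_of_hasFiniteSupport (hE2.subset fun x hx => by
      by_contra h
      exact hx (indicator_of_notMem h _))
  refine Summable.of_nonneg_of_le (fun x => sq_nonneg _) (fun x => ?_) (hsum1.add hsum2)
  have hi := ind_nonneg (E ∪ {x | x * s ∈ E}) x
  by_cases h : x ∈ A ↔ x * s ∈ A
  · by_cases hx : x ∈ A
    · rw [indicator_of_mem hx, indicator_of_mem (h.1 hx)]
      linarith only [hi]
    · rw [indicator_of_notMem hx, indicator_of_notMem fun h2 => hx (h.2 h2)]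
      have := sq_nonneg (f.1 (x * s) - f.1 x)
      simp only [sub_self, ne_eq, OfNat.ofNat_ne_zero, not_false_eq_true, zero_pow]
      linarith only [hi, this]
  · have hb1 := mem_bd_left hs h
    have hb2 := mem_bd_right hs h
    have hsq := sq_nonneg (f.1 (x * s) - f.1 x)
    by_cases hx : x ∈ A
    · have hxs : x * s ∉ A := fun h2 => h ⟨fun _ => h2, fun _ => hx⟩
      rw [indicator_of_mem hx, indicator_of_notMem hxs]
      by_cases hfx : f.1 x = 0
      · rw [hfx]
        simp only [sub_zero, ne_eq, OfNat.ofNat_ne_zero, not_false_eq_true, zero_pow]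
        have := sq_nonneg (f.1 (x * s))
        linarith only [hi, this]
      · have hmem : x ∈ E ∪ {x | x * s ∈ E} := Or.inl ⟨hb1, hfx⟩
        rw [indicator_of_mem hmem]
        have h1 := hf.1 x
        show (0 - f.1 x) ^ 2 ≤ _ + 1
        nlinarith
    · have hxs : x * s ∈ A := by
        by_contra h2
        exact h ⟨fun h3 => absurd h3 hx, fun h3 => absurd h3 h2⟩
      rw [indicator_of_notMem hx, indicator_of_mem hxs]
      by_cases hfx : f.1 (x * s) = 0
      · rw [hfx]
        simp only [sub_zero, ne_eq, OfNat.ofNat_ne_zero, not_false_eq_true, zero_pow]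
        have := sq_nonneg (0 - f.1 x)
        linarith only [hi, this]
      · have hmem : x ∈ E ∪ {x | x * s ∈ E} := Or.inr ⟨hb2, hfx⟩
        rw [indicator_of_mem hmem]
        have h1 := hf.1 (x * s)
        show (f.1 (x * s) - 0) ^ 2 ≤ _ + 1
        nlinarith only [h1]

/-- comparison of `Pⁿ 1_A` with `Pⁿ (f 1_A)` -/
theorem iter_ind_bounds (hp : HypS S) {A : Set G} {B : Finset (G → G → ℝ)} {f : Dir S}
    (hf : CutB hS B f) (n : ℕ) (x : G) :
    (avg S)^[n] (A.indicator f.1) x ≤ (avg S)^[n] (A.indicator 1) x ∧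
      (avg S)^[n] (A.indicator 1) x ≤
        (avg S)^[n] (A.indicator f.1) x + (1 - (avg S)^[n] f.1 x) := by
  constructor
  · refine iter_mono (fun y => ?_) n x
    by_cases hy : y ∈ A
    · rw [indicator_of_mem hy, indicator_of_mem hy]; exact (hf.1 y).2
    · rw [indicator_of_notMem hy, indicator_of_notMem hy]
  · have h1 : (avg S)^[n] (A.indicator f.1) x + (1 - (avg S)^[n] f.1 x) =
        (avg S)^[n] (A.indicator f.1 + ((fun _ => (1 : ℝ)) - f.1)) x := by
      rw [iter_add, iter_sub, iter_const hp]; rfl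
    rw [h1]
    refine iter_mono (fun y => ?_) n x
    simp only [Pi.add_apply, Pi.sub_apply]
    by_cases hy : y ∈ A
    · rw [indicator_of_mem hy, indicator_of_mem hy]; simp
    · rw [indicator_of_notMem hy, indicator_of_notMem hy]
      linarith only [(hf.1 y).2]

/-- existence of the limit -/
theorem hasPhi_of (hp : HypS S) {A : Set G} {B : Finset (G → G → ℝ)} (hB : NB hp B)
    (hA : ConvB hp.gen (bd S A) B) : HasPhi S A := by
  intro x
  refine cauchySeq_tendsto_of_complete (Metric.cauchySeq_iff'.2 fun ε hε => ?_)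
  obtain ⟨f, hf, hfx⟩ := hB x (ε / 4) (by positivity)
  set k : Dir S := ⟨A.indicator f.1, ind_mem_Dir hp.gen hA hf⟩ with hk
  have t1 := iter_tendsto hp k x
  have t2 := iter_tendsto hp f x
  have e1 := (Metric.tendsto_atTop.1 t1) (ε / 16) (by positivity)
  have e2 := (Metric.tendsto_atTop.1 t2) (ε / 16) (by positivity)
  obtain ⟨N1, hN1⟩ := e1
  obtain ⟨N2, hN2⟩ := e2
  have key : ∀ n ≥ max N1 N2, |((avg S)^[n] (A.indicator 1)) x - (HpD hp k).1 x| < 3 * ε / 8 := by
    intro n hn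
    have a1 := abs_lt.1 (Real.dist_eq _ _ ▸ hN1 n ((le_max_left _ _).trans hn))
    have a2 := abs_lt.1 (Real.dist_eq _ _ ▸ hN2 n ((le_max_right _ _).trans hn))
    obtain ⟨b1, b2⟩ := iter_ind_bounds hp.gen hp (A := A) hf n x
    have a1' : (avg S)^[n] (A.indicator f.1) x = (avg S)^[n] k.1 x := rfl
    rw [a1'] at b1 b2
    rw [abs_lt]
    constructor <;> linarith only [a1, b1, hfx, a2, b2]
  refine ⟨max N1 N2, fun n hn => ?_⟩
  have k1 := abs_lt.1 (key n hn)
  have k2 := abs_lt.1 (key _ le_rfl)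
  rw [Real.dist_eq, abs_lt]
  constructor <;> linarith only [k1, k2]

/-- bounds for `phi` through a cut-off -/
theorem phi_bounds (hp : HypS S) {A : Set G} {B : Finset (G → G → ℝ)} (hA' : HasPhi S A)
    (hA : ConvB hp.gen (bd S A) B) {f : Dir S} (hf : CutB hp.gen B f) (x : G) :
    (HpD hp ⟨A.indicator f.1, ind_mem_Dir hp.gen hA hf⟩).1 x ≤ phi S A x ∧
      phi S A x ≤ (HpD hp ⟨A.indicator f.1, ind_mem_Dir hp.gen hA hf⟩).1 x
        + (1 - (HpD hp f).1 x) := by
  have t1 := iter_tendsto hp (⟨A.indicator f.1, ind_mem_Dir hp.gen hA hf⟩ : Dir S) x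
  have t2 := iter_tendsto hp f x
  constructor
  · exact le_of_tendsto_of_tendsto' t1 (hA'.tendsto x) fun n =>
      (iter_ind_bounds hp.gen hp hf n x).1
  · exact le_of_tendsto_of_tendsto' (hA'.tendsto x) (t1.add (t2.const_sub 1)) fun n =>
      (iter_ind_bounds hp.gen hp hf n x).2

/-- sets accumulating only at `B` have no harmonic measure -/
theorem iter_zero_of_conv (hp : HypS S) {D : Set G} {B : Finset (G → G → ℝ)} (hB : NB hp B)
    (hD : ConvB hp.gen D B) (x : G) :
    Tendsto (fun n => ((avg S)^[n] (D.indicator 1)) x) atTop (𝓝 0) := by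
  rw [Metric.tendsto_atTop]
  intro ε hε
  obtain ⟨f, hf, hfx⟩ := hB x (ε / 4) (by positivity)
  have hfin := hD.finite_ne hp.gen hf
  have hsq : SqS (D.indicator f.1) := by
    refine summable_of_hasFiniteSupport (hfin.subset fun y hy => ?_)
    by_cases hy' : y ∈ D
    · refine ⟨hy', fun h0 => hy ?_⟩
      show (D.indicator f.1 y) ^ 2 = 0
      rw [indicator_of_mem hy', h0]; simp
    · exfalso
      apply hy
      show (D.indicator f.1 y) ^ 2 = 0
      rw [indicator_of_notMem hy']; simp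
  obtain ⟨N1, hN1⟩ := (Metric.tendsto_atTop.1 (iter_l2 hp hsq x)) (ε / 4) (by positivity)
  obtain ⟨N2, hN2⟩ := (Metric.tendsto_atTop.1 (iter_tendsto hp f x)) (ε / 4) (by positivity)
  refine ⟨max N1 N2, fun n hn => ?_⟩
  have a1 := abs_lt.1 (Real.dist_eq _ _ ▸ hN1 n ((le_max_left _ _).trans hn))
  have a2 := abs_lt.1 (Real.dist_eq _ _ ▸ hN2 n ((le_max_right _ _).trans hn))
  obtain ⟨b1, b2⟩ := iter_ind_bounds hp.gen hp (A := D) hf n x
  have b3 := iter_mono (S := S) (ind_nonneg D) n x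
  rw [iter_const hp] at b3
  rw [Real.dist_eq, sub_zero, abs_of_nonneg b3]
  linarith only [hfx, a1, a2, b2]

/-- `phi` does not see sets accumulating only at `B` -/
theorem phi_congr_of (hp : HypS S) {A A' : Set G} {B : Finset (G → G → ℝ)} (hB : NB hp B)
    (hA : HasPhi S A) (hD : ConvB hp.gen (symmDiff A A') B) :
    HasPhi S A' ∧ ∀ x, phi S A' x = phi S A x := by
  have key : ∀ x, Tendsto (fun n => ((avg S)^[n] (A'.indicator 1)) x) atTop
      (𝓝 (phi S A x)) := by
    intro x
    have t := iter_zero_of_conv hp hB hD x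
    have h1 : ∀ n, |((avg S)^[n] (A'.indicator 1)) x - ((avg S)^[n] (A.indicator 1)) x| ≤
        ((avg S)^[n] ((symmDiff A A').indicator 1)) x := by
      intro n
      rw [abs_le]
      constructor
      · have h2 := iter_mono (S := S) (f := A.indicator 1)
          (g := A'.indicator 1 + (symmDiff A A').indicator 1) (fun y => ?_) n x
        · rw [iter_add] at h2
          simp only [Pi.add_apply] at h2
          linarith
        · simp only [Pi.add_apply]
          by_cases h1 : y ∈ A <;> by_cases h2 : y ∈ A' <;>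
            simp [h1, h2, Set.mem_symmDiff, indicator_apply]
      · have h2 := iter_mono (S := S) (f := A'.indicator 1)
          (g := A.indicator 1 + (symmDiff A A').indicator 1) (fun y => ?_) n x
        · rw [iter_add] at h2
          simp only [Pi.add_apply] at h2
          linarith
        · simp only [Pi.add_apply]
          by_cases h1 : y ∈ A <;> by_cases h2 : y ∈ A' <;>
            simp [h1, h2, Set.mem_symmDiff, indicator_apply]
    have h2 : Tendsto (fun n => ((avg S)^[n] (A'.indicator 1)) x -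
        ((avg S)^[n] (A.indicator 1)) x) atTop (𝓝 0) :=
      squeeze_zero_norm (fun n => h1 n) t
    have h3 := h2.add (hA.tendsto x)
    rw [zero_add] at h3
    exact h3.congr fun n => by ring
  exact ⟨fun x => ⟨_, key x⟩, fun x => HasPhi.phi_eq (key x)⟩

/-- **(LH)** off every neighbourhood of `B`, `phi - 1_A` vanishes at infinity -/
theorem phi_off_of (hp : HypS S) {A : Set G} {B : Finset (G → G → ℝ)}
    (hA' : HasPhi S A) (hA : ConvB hp.gen (bd S A) B) {O : Set (G → G → ℝ)}
    (hO : ∀ β ∈ B, O ∈ 𝓝 β) {ε : ℝ} (hε : 0 < ε) :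
    {x | hb hp.gen x ∉ O ∧ ε ≤ |phi S A x - A.indicator 1 x|}.Finite := by
  classical
  -- a cut-off equal to one off `O`
  obtain ⟨f, hf, hf1⟩ : ∃ f : Dir S, CutB hp.gen B f ∧ ∀ z, hb hp.gen z ∉ O → f.1 z = 1 := by
    choose! g hg hg' using fun β (hβ : β ∈ B) => exists_cut0 hp.gen (hO β hβ)
    have key : ∀ B' ⊆ B, ∃ f : Dir S, CutB hp.gen B' f ∧ ∀ z, hb hp.gen z ∉ O → f.1 z = 1 := by
      intro B'
      induction B' using Finset.induction_on with
      | empty =>
        intro _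
        exact ⟨⟨fun _ => 1, const_mem_Dir 1⟩, ⟨fun z => ⟨zero_le_one, le_rfl⟩, fun β hβ => by
          simp at hβ⟩, fun _ _ => rfl⟩
      | insert a B' ha ih =>
        intro hsub
        obtain ⟨f, hf, hf'⟩ := ih ((Finset.subset_insert _ _).trans hsub)
        have ha' := hsub (Finset.mem_insert_self a B')
        refine ⟨⟨fun y => min (f.1 y) ((g a).1 y), min_mem_Dir f.2 (g a).2⟩,
          ⟨fun z => ⟨le_min (hf.1 z).1 ((hg a ha').1 z).1, (min_le_left _ _).trans (hf.1 z).2⟩,
            fun β hβ => ?_⟩, fun z hz => ?_⟩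
        · rcases Finset.mem_insert.1 hβ with rfl | hβ
          · filter_upwards [(hg β ha').2] with z hz
            show min (f.1 z) ((g β).1 z) = 0
            rw [hz]; exact min_eq_right (hf.1 z).1
          · filter_upwards [hf.2 β hβ] with z hz
            show min (f.1 z) ((g a).1 z) = 0
            rw [hz]; exact min_eq_left ((hg a ha').1 z).1
        · show min (f.1 z) ((g a).1 z) = 1
          rw [hf' z hz, hg' a ha' z hz, min_self]
    exact key B le_rfl
  set k : Dir S := ⟨A.indicator f.1, ind_mem_Dir hp.gen hA hf⟩ with hk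
  have t1 := (Metric.tendsto_nhds.1 (Hp_infty hp k)) (ε / 2) (by positivity)
  have t2 := (Metric.tendsto_nhds.1 (Hp_infty hp f)) (ε / 2) (by positivity)
  rw [eventually_cofinite] at t1 t2
  refine (t1.union t2).subset fun x hx => ?_
  by_contra hc
  simp only [mem_union, mem_ofPred_eq, not_or, not_not] at hc
  obtain ⟨c1, c2⟩ := hc
  rw [Real.dist_eq, sub_zero] at c1 c2
  obtain ⟨b1, b2⟩ := phi_bounds hp hA' hA hf x
  have hfx := hf1 x hx.1
  have hkx : k.1 x = A.indicator 1 x := by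
    show A.indicator f.1 x = _
    by_cases hxA : x ∈ A
    · rw [indicator_of_mem hxA, indicator_of_mem hxA, hfx]; rfl
    · rw [indicator_of_notMem hxA, indicator_of_notMem hxA]
  have h3 := hx.2
  rw [hkx] at c1
  rw [hfx] at c2
  have c1' := abs_lt.1 c1
  have c2' := abs_lt.1 c2
  have h4 : |phi S A x - A.indicator 1 x| < ε := by
    rw [abs_lt]
    constructor <;> linarith only [b1, c1', b2, c2']
  linarith only [h3, h4]

end Pts

end Vale.Agent.P239.F
end

section

/-! Nesting of cuts with different centres. -/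

namespace Vale.Agent.P239.F.N

open Filter Topology Set
open Vale.Agent.P239 Vale.Agent.P239.F

variable {G : Type*} [Group G] {S T : Finset G} (hS : Subgroup.closure (S : Set G) = ⊤)

/-! ### translations on the right -/

theorem hb_eq (z a b : G) : hb hS z a b = gp hS a a - gp hS b b -
    2 * ((pot hS a - pot hS b).1 z - (pot hS a - pot hS b).1 1) := by
  have e : (pot hS a - pot hS b).1 z - (pot hS a - pot hS b).1 1 = gp hS a z - gp hS b z := by
    rw [gp_eq, gp_eq]
    change (pot hS a).1 z - (pot hS b).1 z - ((pot hS a).1 1 - (pot hS b).1 1) = _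
    ring
  rw [e]
  unfold hb
  rw [res_eq, res_eq]
  ring

include hS in
theorem dir_mul_tendsto (f : Dir S) (k : G) :
    Tendsto (fun x => f.1 (x * k) - f.1 x) cofinite (𝓝 0) := by
  have hk : k ∈ Subgroup.closure (S : Set G) := by rw [hS]; trivial
  induction hk using Subgroup.closure_induction_right with
  | one => simp only [mul_one, sub_self, tendsto_const_nhds]
  | mul_right x _ s hs ih =>
    have h1 := (dir_step_tendsto f hs).comp (mul_left_injective x).tendsto_cofinite
    have h2 := h1.add ih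
    rw [add_zero] at h2
    refine h2.congr fun z => ?_
    simp only [Function.comp]
    rw [← mul_assoc]
    ring
  | mul_inv_cancel x _ s hs ih =>
    have h1 := (dir_step_tendsto f hs).comp (mul_left_injective (x * s⁻¹)).tendsto_cofinite
    have h2 := ih.sub h1
    rw [sub_zero] at h2
    refine h2.congr fun z => ?_
    simp only [Function.comp]
    rw [mul_assoc, inv_mul_cancel_right]
    ring

theorem hb_mul_tendsto (k a b : G) :
    Tendsto (fun x => hb hS (x * k) a b - hb hS x a b) cofinite (𝓝 0) := by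
  have h := (dir_mul_tendsto hS (pot hS a - pot hS b) k).const_mul (-2)
  rw [mul_zero] at h
  refine h.congr fun x => ?_
  rw [hb_eq, hb_eq]
  ring

theorem tendsto_mul_nf (k : G) (β : G → G → ℝ) :
    Tendsto (fun x => x * k) (nf hS β) (nf hS β) := by
  have h1 : Tendsto (fun x : G => x * k) (nf hS β) cofinite :=
    ((mul_left_injective k).tendsto_cofinite).mono_left inf_le_left
  refine tendsto_inf.2 ⟨h1, tendsto_comap_iff.2 ?_⟩
  rw [tendsto_pi_nhds]
  intro a
  rw [tendsto_pi_nhds]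
  intro b
  have h2 : Tendsto (fun x => hb hS x a b) (nf hS β) (𝓝 (β a b)) := by
    have h3 : Tendsto (hb hS) (nf hS β) (𝓝 β) := tendsto_comap.mono_left inf_le_right
    exact (tendsto_pi_nhds.1 (tendsto_pi_nhds.1 h3 a)) b
  have h3 := ((hb_mul_tendsto hS k a b).mono_left (inf_le_left : nf hS β ≤ cofinite)).add h2
  rw [zero_add] at h3
  refine h3.congr fun x => ?_
  simp only [Function.comp]
  ring

variable {hS} in
theorem mem_nf_mul {A : Set G} {β : G → G → ℝ} (hA : A ∈ nf hS β) (k : G) :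
    {x | x * k ∈ A} ∈ nf hS β := tendsto_mul_nf hS k β hA

variable {hS} in
theorem adj_mem_nf {A : Set G} {β : G → G → ℝ} (hA : A ∈ nf hS β) :
    {x | ∀ y, Adj S x y → y ∈ A} ∈ nf hS β := by
  have h : (⋂ s ∈ S, ({x | x * s ∈ A} ∩ {x | x * s⁻¹ ∈ A})) ∈ nf hS β :=
    (Filter.biInter_finset_mem S).2 fun s _ => inter_mem (mem_nf_mul hA s) (mem_nf_mul hA s⁻¹)
  refine mem_of_superset h ?_
  intro x hx y hxy
  rw [mem_iInter₂] at hx
  obtain ⟨s, hs, h | h⟩ := hxy
  · rw [h]; exact (hx s hs).1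
  · have h2 := (hx s hs).2
    have : x * s⁻¹ = y := by rw [h]; group
    rw [Set.mem_ofPred_eq, this] at h2
    exact h2

/-! ### boundaries -/

theorem bd_compl (A : Set G) : bd S Aᶜ = bd S A := by
  ext x
  refine exists_congr fun y => and_congr_right fun _ => not_congr ?_
  exact not_iff_not

theorem isCut_compl {A : Set G} {β : G → G → ℝ} (h : IsCut hS A β) : IsCut hS Aᶜ β :=
  ⟨h.1, by rw [bd_compl]; exact h.2⟩

theorem nontriv_compl {A : Set G} {β : G → G → ℝ} (h : Nontriv hS A β) : Nontriv hS Aᶜ β :=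
  ⟨h.2, by rw [compl_compl]; exact h.1⟩

theorem _root_.Vale.Agent.P239.F.Nontriv.infinite {A : Set G} {β : G → G → ℝ} (h : Nontriv hS A β) : A.Infinite :=
  fun hA => h.1 (Conv.of_finite hS hA β)

theorem finite_of_bd (hyp : Hyp S T) {A : Set G} (h : (bd S A).Finite) : A.Finite ∨ Aᶜ.Finite :=
  hyp.oneEnd A h

/-- `x` is in the boundary of `A` for infinitely many `x` near `q`, else `A` is constant. -/
theorem bd_finite_of_nf (hlim : ∀ B : Set G, B.Infinite → (Lim hS B).Nonempty)
    {A : Set G} (h : ∀ q ∈ Lim hS univ, A ∈ nf hS q ∨ Aᶜ ∈ nf hS q) : (bd S A).Finite := by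
  by_contra hinf
  obtain ⟨q, hq⟩ := hlim _ hinf
  have hqu : q ∈ Lim hS univ := by
    rw [mem_lim] at hq ⊢
    intro O hO
    exact (hq O hO).mono fun x hx => ⟨trivial, hx.2⟩
  have key : ∀ B : Set G, B ∈ nf hS q → (bd S B)ᶜ ∈ nf hS q := by
    intro B hB
    refine mem_of_superset (inter_mem hB (adj_mem_nf hB)) ?_
    rintro x ⟨hx, hx2⟩ ⟨y, hxy, hne⟩
    exact hne ⟨fun _ => hx2 y hxy, fun _ => hx⟩
  have h2 : (bd S A)ᶜ ∈ nf hS q := by
    rcases h q hqu with h | h
    · exact key A h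
    · have := key Aᶜ h
      rwa [bd_compl] at this
  exact (conv_iff_lim hS).2 h2 hq


/-- Everything that is used about limit points. -/
def LimEx (hS : Subgroup.closure (S : Set G) = ⊤) : Prop :=
  ∀ B : Set G, B.Infinite → (Lim hS B).Nonempty

/-- `A` is constant near the point `β` as soon as its boundary does not accumulate at `β`. -/
def Dich (hS : Subgroup.closure (S : Set G) = ⊤) : Prop :=
  ∀ (A : Set G) (β : G → G → ℝ), β ∈ Lim hS univ → (bd S A)ᶜ ∈ nf hS β →
    A ∈ nf hS β ∨ Aᶜ ∈ nf hS β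

variable {hS}

theorem _root_.Vale.Agent.P239.F.IsCut.side (hd : Dich hS) {A : Set G} {β β' : G → G → ℝ} (hA : IsCut hS A β)
    (hβ' : β' ∈ Lim hS univ) (hne : β ≠ β') : A ∈ nf hS β' ∨ Aᶜ ∈ nf hS β' :=
  hd A β' hβ' (hA.2.compl_mem hS hne)

theorem nf_neBot {q : G → G → ℝ} (h : q ∈ Lim hS univ) : (nf hS q).NeBot := by
  refine ⟨fun h0 => ?_⟩
  have h1 : (∅ : Set G) ∈ nf hS q := by rw [h0]; exact mem_bot
  rw [mem_nf] at h1
  obtain ⟨O, hO, hfin⟩ := h1
  rw [mem_lim] at h
  exact h O hO (hfin.subset fun x hx => ⟨hx.2, id⟩)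

/-- The basic corner lemma. -/
theorem corner_finite (hyp : Hyp S T) (hl : LimEx hS) (hd : Dich hS) {A A' : Set G}
    {β β' : G → G → ℝ} (hA : IsCut hS A β) (hA' : IsCut hS A' β') (hn : Nontriv hS A β)
    (h1 : Aᶜ ∈ nf hS β') (h2 : A'ᶜ ∈ nf hS β) : (A ∩ A').Finite := by
  have hc : ∀ q ∈ Lim hS univ, (A ∩ A') ∈ nf hS q ∨ (A ∩ A')ᶜ ∈ nf hS q := by
    intro q hq
    by_cases hb : β = q
    · right
      subst hb
      exact mem_of_superset h2 fun x hx hx2 => hx hx2.2
    by_cases hb' : β' = q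
    · right
      subst hb'
      exact mem_of_superset h1 fun x hx hx2 => hx hx2.1
    rcases hA.side hd hq hb with h3 | h3
    · rcases hA'.side hd hq hb' with h4 | h4
      · exact Or.inl (inter_mem h3 h4)
      · exact Or.inr (mem_of_superset h4 fun x hx hx2 => hx hx2.2)
    · exact Or.inr (mem_of_superset h3 fun x hx hx2 => hx hx2.1)
  rcases finite_of_bd hyp (bd_finite_of_nf hS hl hc) with h | h
  · exact h
  · exfalso
    refine hn.2 (Conv.of_finite hS (h.subset ?_) β)
    exact compl_subset_compl.2 inter_subset_left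

/-- There is a third region. -/
theorem exists_third (hyp : Hyp S T) (hl : LimEx hS) (hd : Dich hS) {A A' : Set G}
    {β β' : G → G → ℝ} (hA : IsCut hS A β) (hA' : IsCut hS A' β') (hn : Nontriv hS A β)
    (hn' : Nontriv hS A' β') (hne : β ≠ β')
    (h1 : Aᶜ ∈ nf hS β') (h2 : A'ᶜ ∈ nf hS β) (hfin : (A ∩ A').Finite) :
    ∃ p ∈ Lim hS univ, β ≠ p ∧ β' ≠ p ∧ Aᶜ ∩ A'ᶜ ∈ nf hS p := by
  by_contra hcon
  push Not at hcon
  obtain ⟨O, O', hO, hO', hβO, hβO', hdis⟩ := t2_separation hne
  have hx1 : hb hS ⁻¹' O ∈ nf hS β :=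
    mem_inf_of_right (preimage_mem_comap (hO.mem_nhds hβO))
  have hx2 : (hb hS ⁻¹' O)ᶜ ∈ nf hS β' := by
    refine mem_of_superset (mem_inf_of_right (preimage_mem_comap (hO'.mem_nhds hβO'))) ?_
    intro x hx hx2
    exact Set.disjoint_left.1 hdis hx2 hx
  set B : Set G := A ∪ ((Aᶜ ∩ A'ᶜ) ∩ hb hS ⁻¹' O) with hB
  have hc : ∀ q ∈ Lim hS univ, B ∈ nf hS q ∨ Bᶜ ∈ nf hS q := by
    intro q hq
    by_cases hbq : β = q
    · left
      subst hbq
      filter_upwards [h2, hx1] with x hx hx'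
      by_cases hxA : x ∈ A
      · exact Or.inl hxA
      · exact Or.inr ⟨⟨hxA, hx⟩, hx'⟩
    by_cases hbq' : β' = q
    · right
      subst hbq'
      filter_upwards [h1, hx2] with x hx hx'
      rintro (h | h)
      · exact hx h
      · exact hx' h.2
    rcases hA.side hd hq hbq with h3 | h3
    · exact Or.inl (mem_of_superset h3 fun x hx => Or.inl hx)
    · rcases hA'.side hd hq hbq' with h4 | h4
      · right
        filter_upwards [h3, h4] with x hx hx'
        rintro (h | h)
        · exact hx h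
        · exact h.1.2 hx'
      · exact absurd (inter_mem h3 h4) (hcon q hq hbq hbq')
  rcases finite_of_bd hyp (bd_finite_of_nf hS hl hc) with h | h
  · exact hn.infinite hS (h.subset subset_union_left)
  · refine hn'.infinite hS ((h.union hfin).subset ?_)
    intro x hx
    by_cases hxA : x ∈ A
    · exact Or.inr ⟨hxA, hx⟩
    · refine Or.inl ?_
      rintro (h' | h')
      · exact hxA h'
      · exact h'.1.2 hx

end Vale.Agent.P239.F.N
end

section

/-! A set whose boundary does not accumulate at `β` is constant near `β`. -/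

namespace Vale.Agent.P239.F.N

open Filter Topology Set
open Vale.Agent.P239 Vale.Agent.P239.F
open scoped InnerProductSpace ENNReal

variable {G : Type*} [Group G] {S T : Finset G} {hS : Subgroup.closure (S : Set G) = ⊤}

omit [Group G] in
/-- Bounded families of vectors which converge coordinatewise converge weakly. -/
theorem exists_weak_lim {l : Filter G} [l.NeBot] {u : G → HS S} {M : ℝ}
    (hM : ∀ᶠ z in l, ‖u z‖ ≤ M)
    (hc : ∀ p : S × G, ∃ c : ℝ, Tendsto (fun z => u z p) l (𝓝 c)) (η : HS S) :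
    ∃ c, Tendsto (fun z => ⟪u z, η⟫_ℝ) l (𝓝 c) := by
  classical
  have hM0 : 0 ≤ M := by
    obtain ⟨z, hz⟩ := hM.exists
    exact (norm_nonneg _).trans hz
  rw [← cauchy_map_iff_exists_tendsto, Metric.cauchy_iff]
  refine ⟨inferInstance, fun ε hε => ?_⟩
  have hsum : HasSum (fun p : S × G => lp.single 2 p (η p)) η := lp.hasSum_single (by norm_num) η
  obtain ⟨K, hK⟩ := ((Metric.tendsto_nhds.1 hsum (ε / (4 * (M + 1))) (by positivity))).exists
  rw [dist_eq_norm, norm_sub_rev] at hK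
  choose c hc using hc
  have h1 : Tendsto (fun z => ∑ p ∈ K, u z p * η p) l (𝓝 (∑ p ∈ K, c p * η p)) :=
    tendsto_finsetSum _ fun p _ => (hc p).mul_const _
  have h2 := (Metric.tendsto_nhds.1 h1 (ε / 4) (by positivity)).and hM
  refine ⟨_, image_mem_map h2, ?_⟩
  have h3 : ∀ z, ⟪u z, η⟫_ℝ = ⟪u z, η - ∑ p ∈ K, lp.single 2 p (η p)⟫_ℝ +
      ∑ p ∈ K, u z p * η p := by
    intro z
    have h1 : ⟪u z, ∑ p ∈ K, lp.single 2 p (η p)⟫_ℝ = ∑ p ∈ K, u z p * η p := by
      rw [inner_sum]
      refine Finset.sum_congr rfl fun p _ => ?_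
      rw [lp.inner_single_right]
      simp only [RCLike.inner_apply, Real.ringHom_apply, mul_comm]
    rw [inner_sub_right, h1]
    ring
  have h4 : ∀ z, ‖u z‖ ≤ M → |⟪u z, η - ∑ p ∈ K, lp.single 2 p (η p)⟫_ℝ| ≤ ε / 4 := by
    intro z hz
    refine (abs_real_inner_le_norm _ _).trans ?_
    calc ‖u z‖ * ‖η - ∑ p ∈ K, lp.single 2 p (η p)‖ ≤ M * (ε / (4 * (M + 1))) :=
          mul_le_mul hz hK.le (norm_nonneg _) hM0
      _ ≤ ε / 4 := by
          rw [mul_div_assoc', div_le_div_iff₀ (by positivity) (by positivity)]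
          linarith only [hε]
  rintro _ ⟨z, ⟨hz1, hz2⟩, rfl⟩ _ ⟨z', ⟨hz1', hz2'⟩, rfl⟩
  rw [Real.dist_eq] at *
  beta_reduce
  rw [h3 z, h3 z']
  have a1 := h4 z hz2
  have a2 := h4 z' hz2'
  rw [abs_lt] at *
  rw [abs_le] at a1 a2
  constructor <;> linarith only [hz1, hz1', a1, a2]


theorem gp_eq_hb (z w : G) : gp hS z w = gpb hS 1 w (hb hS z) := by
  have h1 : gp hS 1 z = 0 := gp_one hS z
  have h2 : gp hS 1 w = 0 := gp_one hS w
  have h3 : gp hS 1 1 = 0 := gp_one hS 1
  have h4 : gp hS w z = gp hS z w := gp_comm hS w z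
  unfold gpb hb
  rw [res_eq, res_eq, res_eq, h1, h2, h3, h4]
  ring

theorem gp_tendsto (β : G → G → ℝ) (w : G) :
    Tendsto (fun z => gp hS z w) (nf hS β) (𝓝 (gpb hS 1 w β)) := by
  have h3 : Tendsto (hb hS) (nf hS β) (𝓝 β) := tendsto_comap.mono_left inf_le_right
  have h4 := (tendsto_pi_nhds.1 (tendsto_pi_nhds.1 h3 w)) 1
  have h5 := (h4.const_sub (res hS 1 w)).div_const 2
  exact h5.congr fun z => (gp_eq_hb z w).symm

/-- The case of a point at finite distance. -/
theorem dich_fin {β : G → G → ℝ} (hβ : β ∈ Lim hS univ) {B s : ℝ}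
    (hB : ∀ x, gpb hS 1 x β ≤ B) (hs : B < s) (hs0 : 0 ≤ s)
    (hslab : ∀ O ∈ 𝓝 β, ∀ᶠ z in nf hS β, ∀ w, s ≤ gp hS z w → hb hS w ∈ O)
    (hcut : ∀ O ∈ 𝓝 β, ∃ f : Dir S, (∀ x, 0 ≤ f.1 x ∧ f.1 x ≤ 1) ∧
      (∀ᶠ x in nf hS β, f.1 x = 0) ∧ ∀ x, hb hS x ∉ O → f.1 x = 1)
    {A : Set G} (hA : (bd S A)ᶜ ∈ nf hS β) : A ∈ nf hS β ∨ Aᶜ ∈ nf hS β := by
  classical
  have : (nf hS β).NeBot := nf_neBot hβ
  obtain ⟨O, hO, hF⟩ := (mem_nf hS).1 hA
  obtain ⟨f, hf01, hf0, hf1⟩ := hcut O hO
  set g : G → ℝ := fun x => (1 - f.1 x) * A.indicator 1 x with hg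
  -- `g` has finite energy
  have hgD : g ∈ Dir S := by
    rw [mem_Dir_iff]
    intro s' hs'
    have h1 := hasSum_slice f ⟨s', hs'⟩
    refine Summable.of_norm_bounded_eventually h1 ?_
    have h2 : {x | ¬ ‖(g (x * s') - g x) ^ 2‖ ≤ (f.1 (x * s') - f.1 x) ^ 2}.Finite := by
      refine (hF.union (hF.preimage ((mul_left_injective s').injOn))).subset ?_
      intro x hx
      by_contra hcon
      apply hx
      rw [Real.norm_eq_abs, abs_of_nonneg (sq_nonneg _)]
      rw [Set.mem_union, not_or] at hcon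
      obtain ⟨hc1, hc2⟩ := hcon
      have hc1' : ¬ (hb hS x ∈ O ∧ x ∉ (bd S A)ᶜ) := hc1
      have hc2' : ¬ (hb hS (x * s') ∈ O ∧ (x * s') ∉ (bd S A)ᶜ) := hc2
      by_cases hxA : (x ∈ A ↔ x * s' ∈ A)
      · by_cases hx1 : x ∈ A
        · have hx2 := hxA.1 hx1
          simp only [hg, Set.indicator_of_mem hx1, Set.indicator_of_mem hx2, Pi.one_apply,
            mul_one]
          refine le_of_eq ?_
          ring
        · have hx2 : x * s' ∉ A := fun h => hx1 (hxA.2 h)
          simp only [hg, Set.indicator_of_notMem hx2, mul_zero, Set.indicator_of_notMem hx1, sub_zero, zero_pow two_ne_zero]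
          exact sq_nonneg _
      · have hadj : Adj S x (x * s') := ⟨s', hs', Or.inl rfl⟩
        have hb1 : x ∈ bd S A := ⟨_, hadj, hxA⟩
        have hb2 : x * s' ∈ bd S A := ⟨_, hadj.symm, fun h => hxA h.symm⟩
        have e1 : f.1 x = 1 := hf1 x fun h => hc1' ⟨h, fun h' => h' hb1⟩
        have e2 : f.1 (x * s') = 1 := hf1 _ fun h => hc2' ⟨h, fun h' => h' hb2⟩
        simp only [hg, e2, sub_self, zero_mul, e1, ne_eq, OfNat.ofNat_ne_zero, not_false_eq_true, zero_pow, Std.le_refl]
    exact h2.subset (fun x hx => hx)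
  set gD : Dir S := ⟨g, hgD⟩ with hgD'
  -- the clamped potentials
  set u : G → Dir S := fun z => cD ((pot hS z).1 1) ((pot hS z).1 1 + s) (pot hS z) with hu
  have hab : ∀ z, (pot hS z).1 1 ≤ (pot hS z).1 1 + s := fun z => by linarith only [hs0]
  have hclp : ∀ z w, (u z).1 w = (pot hS z).1 1 + min s (gp hS z w) := by
    intro z w
    change clp _ _ _ = _
    have h0 := gp_nonneg hS z w
    rw [gp_eq] at h0 ⊢
    unfold clp
    rw [max_eq_right (le_min (hab z) (by linarith only [h0]))]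
    rcases le_total s ((pot hS z).1 w - (pot hS z).1 1) with h | h
    · rw [min_eq_left h, min_eq_left (by linarith only [h])]
    · rw [min_eq_right h, min_eq_right (by linarith only [h])]
      ring
  have hM : ∀ᶠ z in nf hS β, ‖grad S (u z)‖ ≤ Real.sqrt s := by
    refine Eventually.of_forall fun z => ?_
    refine Real.le_sqrt_of_sq_le ?_
    rw [← en_self]
    refine (en_le_of_contr (pot hS z) (u z) fun _ => clp_sq _ _).trans ?_
    rw [pot_isPot hS z]
    have h1 := (clp_mem (hab z) ((pot hS z).1 z)).2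
    have h2 := (clp_mem (hab z) ((pot hS z).1 1)).1
    change clp _ _ _ - clp _ _ _ ≤ _
    linarith only [h1, h2]
  have hc : ∀ p : S × G, ∃ c : ℝ, Tendsto (fun z => grad S (u z) p) (nf hS β) (𝓝 c) := by
    intro p
    have h1 := (gp_tendsto (hS := hS) β (p.2 * (p.1 : G)))
    have h2 := (gp_tendsto (hS := hS) β p.2)
    have h3 := ((tendsto_const_nhds (x := s)).min h1).sub ((tendsto_const_nhds (x := s)).min h2)
    refine ⟨_, h3.congr fun z => ?_⟩
    rw [grad_apply, hclp, hclp]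
    ring
  obtain ⟨c, hc⟩ := exists_weak_lim hM hc (grad S gD)
  -- the good set
  have hW : {w | w ∉ bd S A ∧ f.1 w = 0 ∧ ∀ y, Adj S w y → f.1 y = 0} ∈ nf hS β := by
    have h1 : {w | f.1 w = 0} ∈ nf hS β := hf0
    filter_upwards [hA, h1, adj_mem_nf h1] with w a1 a2 a3
    exact ⟨a1, a2, a3⟩
  obtain ⟨O₂, hO₂, hF₂⟩ := (mem_nf hS).1 hW
  have hsmall : ∀ᶠ z in nf hS β, ∀ w ∈ {x | hb hS x ∈ O₂ ∧ x ∉ {w | w ∉ bd S A ∧ f.1 w = 0 ∧
      ∀ y, Adj S w y → f.1 y = 0}}, gp hS z w < s := by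
    rw [Filter.eventually_all_finite hF₂]
    intro w _
    exact (tendsto_order.1 (gp_tendsto (hS := hS) β w)).2 s ((hB w).trans_lt hs)
  have hgood : ∀ᶠ z in nf hS β, ∀ w, s ≤ gp hS z w → w ∉ bd S A ∧ f.1 w = 0 ∧
      ∀ y, Adj S w y → f.1 y = 0 := by
    filter_upwards [hsmall, hslab O₂ hO₂] with z h1 h2 w hw
    by_contra hcon
    have := h1 w ⟨h2 w hw, hcon⟩
    linarith only [hw, this]
  have hval : ∀ᶠ z in nf hS β, A.indicator (1 : G → ℝ) z = ⟪grad S (u z), grad S gD⟫_ℝ + g 1 := by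
    filter_upwards [hgood, hf0] with z hz hfz
    have h1 : en S (pot hS z) gD = g z - g 1 := pot_isPot hS z gD
    have h2 : en S (pot hS z - u z) gD = 0 := by
      have h3 := hasSum_en S (pot hS z - u z) gD
      refine h3.unique ?_
      have h4 : ∀ p : S × G, ((pot hS z - u z).1 (p.2 * (p.1 : G)) - (pot hS z - u z).1 p.2) *
          (gD.1 (p.2 * (p.1 : G)) - gD.1 p.2) = 0 := by
        rintro ⟨s', x⟩
        have hadj : Adj S x (x * s') := ⟨s', s'.2, Or.inl rfl⟩
        have key : ∀ a b : G, Adj S a b → s ≤ gp hS z a → g b = g a := by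
          intro a b hab' ha
          obtain ⟨k1, k2, k3⟩ := hz a ha
          have k4 := k3 b hab'
          have k5 : (a ∈ A ↔ b ∈ A) := by
            by_contra hne
            exact k1 ⟨b, hab', hne⟩
          simp only [hg, k2, k4]
          by_cases haA : a ∈ A
          · rw [Set.indicator_of_mem haA, Set.indicator_of_mem (k5.1 haA)]
            rfl
          · rw [Set.indicator_of_notMem haA, Set.indicator_of_notMem fun h => haA (k5.2 h)]
        by_cases hx : s ≤ gp hS z x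
        · have := key x _ hadj hx
          change _ * (g _ - g _) = 0
          rw [this, sub_self, mul_zero]
        · by_cases hy : s ≤ gp hS z (x * s')
          · have := key _ x hadj.symm hy
            change _ * (g _ - g _) = 0
            rw [this, sub_self, mul_zero]
          · have e : ∀ w, ¬ s ≤ gp hS z w → (pot hS z - u z).1 w = 0 := by
              intro w hw
              change (pot hS z).1 w - (u z).1 w = 0
              rw [hclp, min_eq_right (not_le.1 hw).le, gp_eq]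
              ring
            change ((pot hS z - u z).1 (x * s') - (pot hS z - u z).1 x) * _ = 0
            rw [e _ hx, e _ hy, sub_zero, zero_mul]
      simp only [h4]
      exact hasSum_zero
    rw [en_sub_left, h1, sub_eq_zero] at h2
    have h5 : g z = A.indicator (1 : G → ℝ) z := by
      simp only [hg]
      rw [show f.1 z = 0 from hfz]
      ring
    rw [← h5]
    change g z = en S (u z) gD + g 1
    rw [← h2]
    ring
  have hlim : Tendsto (fun z => A.indicator (1 : G → ℝ) z) (nf hS β) (𝓝 (c + g 1)) :=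
    (hc.add_const (g 1)).congr' (hval.mono fun z hz => hz.symm)
  rcases lt_or_ge (1 / 4) (c + g 1) with h | h
  · left
    filter_upwards [(tendsto_order.1 hlim).1 _ h] with z hz
    by_contra hzA
    rw [Set.indicator_of_notMem hzA] at hz
    linarith only [hz]
  · right
    filter_upwards [(tendsto_order.1 hlim).2 (1 / 2) (by linarith only [h])] with z hz hzA
    rw [Set.indicator_of_mem hzA, Pi.one_apply] at hz
    linarith only [hz]

/-- The case of a point at infinite distance. -/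
theorem dich_inf {β : G → G → ℝ} {δ : ℝ}
    (hinf : ∀ N : ℝ, ∃ x, N < gpb hS 1 x β)
    (hshadow : ∀ O ∈ 𝓝 β, ∃ N : ℝ, ∀ w, N < gpb hS 1 w β → hb hS w ∈ O)
    (hfour : ∀ w x, min (gp hS w x) (gpb hS 1 x β) - δ ≤ gpb hS 1 w β)
    {A : Set G} (hA : (bd S A)ᶜ ∈ nf hS β) : A ∈ nf hS β ∨ Aᶜ ∈ nf hS β := by
  classical
  obtain ⟨O, hO, hF⟩ := (mem_nf hS).1 hA
  obtain ⟨N, hN⟩ := hshadow O hO
  obtain ⟨R, hR⟩ : ∃ R : ℝ, ∀ x ∈ {x | hb hS x ∈ O ∧ x ∉ (bd S A)ᶜ}, res hS 1 x ≤ R := by
    obtain ⟨R, hR⟩ := (hF.image (res hS 1)).bddAbove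
    exact ⟨R, fun x hx => hR ⟨x, hx, rfl⟩⟩
  set N' : ℝ := max (max (N + δ) R) 1 with hN'
  obtain ⟨x, hx⟩ := hinf N'
  have hN1 : 1 ≤ N' := le_max_right _ _
  have hN2 : N + δ ≤ N' := (le_max_left _ _).trans (le_max_left _ _)
  have hN3 : R ≤ N' := (le_max_right _ _).trans (le_max_left _ _)
  have hCb : ∀ w, N' < gp hS x w → w ∉ bd S A := by
    intro w hw hwb
    have h1 := hfour w x
    have h2 : N' - δ < gpb hS 1 w β := by
      refine lt_of_lt_of_le ?_ h1
      have hw' : N' < gp hS w x := by rwa [gp_comm]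
      have : N' < min (gp hS w x) (gpb hS 1 x β) := lt_min hw' hx
      linarith only [this]
    have h3 := hN w (by linarith only [hN2, h2])
    have h5 := hR w ⟨h3, fun h => h hwb⟩
    have h6 := gp_le hS w x
    rw [gp_comm, ← res_one] at h6
    linarith only [hN3, hw, h5, h6]
  have hcon : ∀ z, N' < gp hS x z → Con S {w | N' < gp hS x w} x z := by
    intro z hz
    have h := (pot_isPot hS x).con hS (t := (pot hS x).1 1 + N') (by linarith) (z := z)
      (by rw [gp_eq] at hz; linarith)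
    have e : {u | (pot hS x).1 1 + N' < (pot hS x).1 u} = {w | N' < gp hS x w} := by
      ext w
      change (pot hS x).1 1 + N' < (pot hS x).1 w ↔ N' < gp hS x w
      rw [gp_eq]
      constructor <;> intro h <;> linarith
    rwa [e] at h
  have hconst : ∀ z, N' < gp hS x z → (x ∈ A ↔ z ∈ A) := by
    intro z hz
    have h := hcon z hz
    clear hz
    induction h with
    | refl => exact Iff.rfl
    | tail _ hbc ih =>
      refine ih.trans ?_
      by_contra hne
      exact hCb _ hbc.1 ⟨_, hbc.2.2, hne⟩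
  have hev : ∀ᶠ z in nf hS β, N' < gp hS x z := by
    have h := (tendsto_order.1 (gp_tendsto (hS := hS) β x)).1 _ hx
    exact h.mono fun z hz => by rwa [gp_comm]
  by_cases hxA : x ∈ A
  · exact Or.inl (hev.mono fun z hz => (hconst z hz).1 hxA)
  · exact Or.inr (hev.mono fun z hz h => hxA ((hconst z hz).2 h))

end Vale.Agent.P239.F.N
end
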