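import Vale.Agent.P239.Bdl.B18
import Vale.Agent.P239.Bdl.B8
import Vale.Agent.P239.Bdl.B15
import Vale.Agent.P239.Bdl.B17
import Vale.Agent.P239.Bdl.B6

set_option linter.all false

section

/-!
Module C0, part d: translations of sets accumulating at points, boundaries at other scales,
the canonical set `HH`.
-/

namespace Vale.Agent.P239.F

open Filter Topology Set
open Vale.Agent.P239
open scoped RealInnerProductSpace

variable {G : Type*} [Group G] {S : Finset G}

/-- all right translates of a function of finite energy are asymptotic -/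
theorem dir_mul_tendsto0 (hS : Subgroup.closure (S : Set G) = ⊤) (f : Dir S) (g : G) :
    Tendsto (fun x => f.1 (x * g) - f.1 x) cofinite (𝓝 0) := by
  have hg : g ∈ Subgroup.closure (S : Set G) := by rw [hS]; trivial
  induction hg using Subgroup.closure_induction_right with
  | one => simp only [mul_one, sub_self]; exact tendsto_const_nhds
  | mul_right g _ s hs ih =>
    have h1 := (dir_step_tendsto f hs).comp (mul_left_injective g).tendsto_cofinite
    have h2 := h1.add ih
    rw [add_zero] at h2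
    refine h2.congr fun x => ?_
    simp only [Function.comp, mul_assoc]; ring
  | mul_inv_cancel g _ s hs ih =>
    have h1 := (dir_step_tendsto f hs).comp (mul_left_injective (g * s⁻¹)).tendsto_cofinite
    have h2 := ih.sub h1
    rw [sub_zero] at h2
    refine h2.congr fun x => ?_
    simp only [Function.comp, mul_assoc, inv_mul_cancel, mul_one]; ring

section

variable (hS : Subgroup.closure (S : Set G) = ⊤)

theorem hb_mul_right_tendsto0 (g x y : G) :
    Tendsto (fun z => hb hS (z * g) x y - hb hS z x y) cofinite (𝓝 0) :=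
  dir_mul_tendsto0 hS ⟨_, hb_mem_Dir hS x y⟩ g

/-- points off a neighbourhood whose translate is deep inside are finite in number -/
theorem near_shift {β : G → G → ℝ} {O : Set (G → G → ℝ)} (hO : O ∈ 𝓝 β) (g : G) :
    ∃ O' ∈ 𝓝 β, {x | hb hS x ∉ O ∧ hb hS (x * g) ∈ O'}.Finite := by
  refine nhds_induct (p := fun O => ∃ O' ∈ 𝓝 β,
    {x | hb hS x ∉ O ∧ hb hS (x * g) ∈ O'}.Finite) ?_ ?_ ?_ ?_ hO
  · intro x y ε hε
    refine ⟨_, dist_mem_nhds β x y (half_pos hε), ?_⟩
    have h1 := (Metric.tendsto_nhds.1 (hb_mul_right_tendsto0 hS g x y)) (ε / 2) (half_pos hε)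
    rw [eventually_cofinite] at h1
    refine h1.subset fun z hz => ?_
    have h2 : ¬ |hb hS z x y - β x y| < ε := hz.1
    have h3 : |hb hS (z * g) x y - β x y| < ε / 2 := hz.2
    show ¬ dist (hb hS (z * g) x y - hb hS z x y) 0 < ε / 2
    rw [Real.dist_eq, sub_zero, not_lt]
    rw [not_lt] at h2
    have h4 : |hb hS z x y - β x y| ≤ |hb hS (z * g) x y - β x y| +
        |hb hS (z * g) x y - hb hS z x y| := by
      have := abs_sub (hb hS (z * g) x y - β x y) (hb hS (z * g) x y - hb hS z x y)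
      refine le_trans (le_of_eq ?_) this
      congr 1; ring
    linarith only [h2, h3, h4]
  · exact ⟨univ, univ_mem, by simp⟩
  · rintro O1 O2 h12 ⟨O', hO', hf⟩
    exact ⟨O', hO', hf.subset fun x hx => ⟨fun h => hx.1 (h12 h), hx.2⟩⟩
  · rintro O1 O2 ⟨O1', hO1, hf1⟩ ⟨O2', hO2, hf2⟩
    refine ⟨O1' ∩ O2', inter_mem hO1 hO2, (hf1.union hf2).subset fun x hx => ?_⟩
    by_cases h : hb hS x ∈ O1
    · exact Or.inr ⟨fun h2 => hx.1 ⟨h, h2⟩, hx.2.2⟩
    · exact Or.inl ⟨h, hx.2.1⟩

/-- the same for finitely many points and a finite set of translates -/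
theorem near_shiftB {B : Finset (G → G → ℝ)} {O : Set (G → G → ℝ)} (hO : ∀ β ∈ B, O ∈ 𝓝 β)
    (F : Finset G) : ∃ O' : Set (G → G → ℝ), (∀ β ∈ B, O' ∈ 𝓝 β) ∧
      {x | hb hS x ∉ O ∧ ∃ g ∈ F, hb hS (x * g) ∈ O'}.Finite := by
  classical
  choose! O' hO' hf using fun β (hβ : β ∈ B) (g : G) => near_shift hS (hO β hβ) g
  refine ⟨⋃ β ∈ B, ⋂ g ∈ F, O' β g, fun β hβ => ?_, ?_⟩
  · refine mem_of_superset ((Filter.biInter_finset_mem F).2 fun g _ => hO' β hβ g) ?_
    exact subset_biUnion_of_mem (u := fun β => ⋂ g ∈ F, O' β g) hβ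
  · have hfin : (⋃ β ∈ B, ⋃ g ∈ F, {x | hb hS x ∉ O ∧ hb hS (x * g) ∈ O' β g}).Finite :=
      B.finite_toSet.biUnion fun β hβ => F.finite_toSet.biUnion fun g _ => hf β hβ g
    refine hfin.subset fun x hx => ?_
    obtain ⟨h1, g, hg, h2⟩ := hx
    simp only [mem_iUnion, mem_iInter] at h2
    obtain ⟨β, hβ, h2⟩ := h2
    simp only [mem_iUnion]
    exact ⟨β, hβ, g, hg, h1, h2 g hg⟩

/-- right translates accumulate at the same points -/
theorem ConvB.mul_right {D : Set G} {B : Finset (G → G → ℝ)} (h : ConvB hS D B) (g : G) :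
    ConvB hS {x | x * g ∈ D} B := by
  rw [convB_iff]
  intro O hO
  obtain ⟨O', hO', hf⟩ := near_shiftB hS hO {g}
  have h2 := (h.finite hS hO').preimage (f := fun x => x * g)
    (fun a _ b _ hab => mul_right_cancel hab)
  refine (hf.union h2).subset fun x hx => ?_
  by_cases hx' : hb hS (x * g) ∈ O'
  · exact Or.inl ⟨hx.2, g, Finset.mem_singleton_self g, hx'⟩
  · exact Or.inr ⟨hx.1, hx'⟩

/-- the set of points separated from their translate -/
theorem ConvB.sep (hsym : ∀ s ∈ S, s⁻¹ ∈ S) {A : Set G} {B : Finset (G → G → ℝ)}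
    (h : ConvB hS (bd S A) B) (g : G) : ConvB hS {x | ¬ (x ∈ A ↔ x * g ∈ A)} B := by
  have hg : g ∈ Subgroup.closure (S : Set G) := by rw [hS]; trivial
  have hstep : ∀ s ∈ S, ConvB hS {x | ¬ (x ∈ A ↔ x * s ∈ A)} B := fun s hs =>
    h.mono hS (fun x hx => mem_bd_left hs hx) (Finset.Subset.refl _)
  have hadd : ∀ g s : G, ConvB hS {x | ¬ (x ∈ A ↔ x * g ∈ A)} B →
      ConvB hS {x | ¬ (x ∈ A ↔ x * s ∈ A)} B →
      ConvB hS {x | ¬ (x ∈ A ↔ x * (g * s) ∈ A)} B := by
    intro g s h1 h2
    refine (h1.union hS (h2.mul_right hS g)).mono hS (fun x hx => ?_) (Finset.Subset.refl _)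
    by_contra hc
    simp only [mem_union, mem_ofPred_eq, not_or, not_not] at hc
    apply hx
    rw [hc.1, hc.2, mul_assoc]
  induction hg using Subgroup.closure_induction_right with
  | one =>
    refine (convB_of_finite hS finite_empty B).mono hS (fun x hx => ?_) (Finset.Subset.refl _)
    exact absurd (by rw [mul_one]) hx
  | mul_right g _ s hs ih => exact hadd g s ih (hstep s hs)
  | mul_inv_cancel g _ s hs ih => exact hadd g s⁻¹ ih (hstep s⁻¹ (hsym s hs))

/-- boundaries at all scales accumulate at the same points -/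
theorem ConvB.bdT (hsym : ∀ s ∈ S, s⁻¹ ∈ S) {A : Set G} {B : Finset (G → G → ℝ)}
    (h : ConvB hS (bd S A) B) (T : Finset G) : ConvB hS (bd T A) B := by
  classical
  have key : ∀ F : Finset G, ConvB hS {x | ∃ g ∈ F, ¬ (x ∈ A ↔ x * g ∈ A)} B := by
    intro F
    induction F using Finset.induction_on with
    | empty =>
      refine (convB_of_finite hS finite_empty B).mono hS (fun x hx => ?_) (Finset.Subset.refl _)
      obtain ⟨g, hg, -⟩ := hx
      simp at hg
    | insert a F _ ih =>
      refine ((h.sep hS hsym a).union hS ih).mono hS (fun x hx => ?_) (Finset.Subset.refl _)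
      obtain ⟨g, hg, hx⟩ := hx
      rcases Finset.mem_insert.1 hg with rfl | hg
      · exact Or.inl hx
      · exact Or.inr ⟨g, hg, hx⟩
  refine (key (T ∪ T.image (·⁻¹))).mono hS (fun x hx => ?_) (Finset.Subset.refl _)
  obtain ⟨y, ⟨t, ht, hy | hy⟩, hxy⟩ := hx
  · refine ⟨t, Finset.mem_union_left _ ht, ?_⟩
    rwa [← hy]
  · refine ⟨t⁻¹, Finset.mem_union_right _ (Finset.mem_image_of_mem _ ht), ?_⟩
    have : x * t⁻¹ = y := by rw [hy, mul_inv_cancel_right]
    rwa [this]

end

/-! ### the canonical set -/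

theorem mem_HH {A : Set G} {x : G} : x ∈ HH S A ↔ 1 / 2 < phi S A x := Iff.rfl

/-- `A` and `HH A` differ by a set accumulating at `B` only -/
theorem symmDiff_HH (hp : HypS S) {A : Set G} {B : Finset (G → G → ℝ)}
    (hA' : HasPhi S A) (hA : ConvB hp.gen (bd S A) B) :
    ConvB hp.gen (symmDiff A (HH S A)) B := by
  rw [convB_iff]
  intro O hO
  refine (phi_off_of hp hA' hA hO (ε := 1 / 2) (by norm_num)).subset fun x hx => ?_
  refine ⟨hx.2, ?_⟩
  rcases hx.1 with ⟨h1, h2⟩ | ⟨h1, h2⟩
  · rw [indicator_of_mem h1]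
    have h3 : phi S A x ≤ 1 / 2 := not_lt.1 h2
    rw [abs_sub_comm]
    refine le_trans ?_ (le_abs_self _)
    show 1 / 2 ≤ (1 : ℝ) - phi S A x
    linarith only [h3]
  · rw [indicator_of_notMem h2, sub_zero]
    exact (le_of_lt h1).trans (le_abs_self _)

theorem symmDiff_comm_convB {A A' : Set G} {B : Finset (G → G → ℝ)}
    (hS : Subgroup.closure (S : Set G) = ⊤) (h : ConvB hS (symmDiff A A') B) :
    ConvB hS (symmDiff A' A) B := by rwa [symmDiff_comm]

/-- the boundary of the canonical set accumulates at `B` only -/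
theorem HH_bd (hp : HypS S) {A : Set G} {B : Finset (G → G → ℝ)}
    (hA' : HasPhi S A) (hA : ConvB hp.gen (bd S A) B) (T : Finset G) :
    ConvB hp.gen (bd T (HH S A)) B := by
  have h0 : ConvB hp.gen (bd S (HH S A)) B := by
    have h1 := symmDiff_HH hp hA' hA
    classical
    have h2 : ConvB hp.gen (bd S A ∪ symmDiff A (HH S A) ∪
        {x | ∃ g ∈ S ∪ S.image (·⁻¹), x * g ∈ symmDiff A (HH S A)}) B := by
      refine (hA.union hp.gen h1).union hp.gen ?_
      have key : ∀ F : Finset G,
          ConvB hp.gen {x | ∃ g ∈ F, x * g ∈ symmDiff A (HH S A)} B := by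
        intro F
        induction F using Finset.induction_on with
        | empty =>
          refine (convB_of_finite hp.gen finite_empty B).mono hp.gen (fun x hx => ?_)
            (Finset.Subset.refl _)
          obtain ⟨g, hg, -⟩ := hx
          simp at hg
        | insert a F _ ih =>
          refine ((h1.mul_right hp.gen a).union hp.gen ih).mono hp.gen (fun x hx => ?_)
            (Finset.Subset.refl _)
          obtain ⟨g, hg, hx⟩ := hx
          rcases Finset.mem_insert.1 hg with rfl | hg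
          · exact Or.inl hx
          · exact Or.inr ⟨g, hg, hx⟩
      exact key _
    refine h2.mono hp.gen (fun x hx => ?_) (Finset.Subset.refl _)
    by_contra hc
    simp only [mem_union, not_or, mem_ofPred_eq] at hc
    push Not at hc
    obtain ⟨⟨c1, c2⟩, c3⟩ := hc
    obtain ⟨y, hxy, hne⟩ := hx
    have e1 : x ∈ A ↔ x ∈ HH S A := by
      rw [Set.mem_symmDiff] at c2
      (clear * - c2 hne; tauto)
    obtain ⟨s, hs, h | h⟩ := hxy
    · have c4 := c3 s (Finset.mem_union_left _ hs)
      rw [← h, Set.mem_symmDiff] at c4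
      have e2 : y ∈ A ↔ y ∈ HH S A := by (clear * - hne e1 c4; tauto)
      exact c1 ⟨y, ⟨s, hs, Or.inl h⟩, fun h3 => hne (e1.symm.trans (h3.trans e2))⟩
    · have hy : x * s⁻¹ = y := by rw [h, mul_inv_cancel_right]
      have c4 := c3 s⁻¹ (Finset.mem_union_right _ (Finset.mem_image_of_mem _ hs))
      rw [hy, Set.mem_symmDiff] at c4
      have e2 : y ∈ A ↔ y ∈ HH S A := by (clear * - hne e1 c4; tauto)
      exact c1 ⟨y, ⟨s, hs, Or.inr h⟩, fun h3 => hne (e1.symm.trans (h3.trans e2))⟩
  exact h0.bdT hp.gen hp.symS T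

/-- `phi` of the canonical set -/
theorem phi_HH (hp : HypS S) {A : Set G} {B : Finset (G → G → ℝ)} (hB : NB hp B)
    (hA : ConvB hp.gen (bd S A) B) : HasPhi S (HH S A) ∧ ∀ x, phi S (HH S A) x = phi S A x := by
  have hA' := hasPhi_of hp hB hA
  exact phi_congr_of hp hB hA' (symmDiff_HH hp hA' hA)

theorem ConvB.of_symmDiff (hS : Subgroup.closure (S : Set G) = ⊤) {A A' : Set G}
    {B : Finset (G → G → ℝ)} (h : ConvB hS (symmDiff A A') B) (hA : ConvB hS A B) :
    ConvB hS A' B := by
  refine (h.union hS hA).mono hS (fun x hx => ?_) (Finset.Subset.refl _)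
  by_cases hxA : x ∈ A
  · exact Or.inr hxA
  · exact Or.inl (Or.inr ⟨hx, hxA⟩)

theorem symmDiff_compl_compl (A A' : Set G) : symmDiff Aᶜ A'ᶜ = symmDiff A A' := by
  ext x
  simp only [Set.mem_symmDiff, mem_compl_iff]
  (clear * -; tauto)

/-- nontriviality passes to the canonical set -/
theorem HH_nontriv_of (hp : HypS S) {A : Set G} {β : G → G → ℝ}
    (hA' : HasPhi S A) (hA : Conv hp.gen (bd S A) β) (hn : Nontriv hp.gen A β) :
    Nontriv hp.gen (HH S A) β := by
  have h1 := symmDiff_HH hp hA' ((convB_singleton hp.gen).2 hA)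
  refine ⟨fun h => hn.1 ?_, fun h => hn.2 ?_⟩
  · exact (convB_singleton hp.gen).1 ((symmDiff_comm_convB hp.gen h1).of_symmDiff hp.gen
      ((convB_singleton hp.gen).2 h))
  · have h2 : ConvB hp.gen (symmDiff (HH S A)ᶜ Aᶜ) {β} := by
      rw [symmDiff_compl_compl]; exact symmDiff_comm_convB hp.gen h1
    exact (convB_singleton hp.gen).1 (h2.of_symmDiff hp.gen ((convB_singleton hp.gen).2 h))

end Vale.Agent.P239.F
end

section

/-!
Module C0, part h: domination by the harmonic function of a cut; the probability of staying in a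
set forever.
-/

namespace Vale.Agent.P239.F

open Filter Topology Set
open Vale.Agent.P239
open scoped RealInnerProductSpace

variable {G : Type*} [Group G] {S : Finset G}

/-- Domination: a harmonic function `0 ≤ h ≤ M` below `1 - phi A` is below `M (1 - phi A)`. -/
theorem dom_of (hp : HypS S) {A : Set G} {B : Finset (G → G → ℝ)} (hB : NB hp B)
    (hA' : HasPhi S A) (hA : ConvB hp.gen (bd S A) B) {h : G → ℝ} {M : ℝ}
    (hh : avg S h = h) (h0 : ∀ x, 0 ≤ h x) (hM : ∀ x, h x ≤ M)
    (h1 : ∀ x, h x ≤ 1 - phi S A x) (x : G) : h x ≤ M * (1 - phi S A x) := by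
  classical
  have hM0 : 0 ≤ M := (h0 x).trans (hM x)
  refine le_of_forall_pos_le_add fun ε hε => ?_
  obtain ⟨f, hf, hfx⟩ := hB x (ε / 2) (by positivity)
  -- a neighbourhood where `f` vanishes
  set O : Set (G → G → ℝ) := {γ | ∀ z, hb hp.gen z = γ → f.1 z = 0} with hO
  have hOn : ∀ β ∈ B, O ∈ 𝓝 β := by
    intro β hβ
    obtain ⟨O', hO', hsub⟩ := mem_comap.1 (hf.2 β hβ)
    refine mem_of_superset hO' fun γ hγ z hz => ?_
    exact hsub (show hb hp.gen z ∈ O' by rw [hz]; exact hγ)
  have hfin := phi_off_of hp hA' hA hOn (show 0 < ε / 2 by (clear * - hε; positivity))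
  set E := {x | hb hp.gen x ∉ O ∧ ε / 2 ≤ |phi S A x - A.indicator 1 x|} with hE
  -- pointwise bound
  have hpt : ∀ y, h y ≤ (M • Aᶜ.indicator (1 : G → ℝ) + ((fun _ : G => ε / 2) +
      (E.indicator (1 : G → ℝ) + ((fun _ : G => (1 : ℝ)) - f.1))) : G → ℝ) y := by
    intro y
    have hf1 := (hf.1 y).1
    have hf2 := (hf.1 y).2
    have hEn := ind_nonneg E y
    simp only [Pi.add_apply, Pi.smul_apply, smul_eq_mul, Pi.sub_apply]
    by_cases hy : y ∈ A
    · rw [indicator_of_notMem (Set.notMem_compl_iff.2 hy), mul_zero, zero_add]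
      by_cases hyE : y ∈ E
      · rw [indicator_of_mem hyE]
        have := h1 y
        have := hA'.nonneg hp y
        simp only [Pi.one_apply]
        (clear hB hA M hh h0 hM x hM0 hfx O hO hOn E hfin hE hf1 hEn hy hyE; linarith)
      · rw [indicator_of_notMem hyE]
        by_cases hyO : hb hp.gen y ∈ O
        · have h3 : f.1 y = 0 := hyO y rfl
          have := h1 y
          have := hA'.nonneg hp y
          (clear B hB hA M hh h0 hM x hM0 hf hfx hO hOn E hfin hE hf1 hf2 hEn hy hyE; linarith)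
        · have h3 : |phi S A y - A.indicator 1 y| < ε / 2 := by
            by_contra hcon
            exact hyE ⟨hyO, not_lt.1 hcon⟩
          rw [indicator_of_mem hy, Pi.one_apply] at h3
          have h4 := (abs_lt.1 h3).1
          have := h1 y
          linarith only [this, h4, hf2]
    · rw [indicator_of_mem (show y ∈ Aᶜ from hy), Pi.one_apply, mul_one]
      have := hM y
      linarith only [hε, hf2, hEn, this]
  obtain ⟨hc1, hc2⟩ := hA'.compl hp
  have hEconv : ConvB hp.gen E B := convB_of_finite hp.gen hfin B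
  have t1 := hc1.tendsto x
  have t2 := iter_zero_of_conv hp hB hEconv x
  have t3 := iter_tendsto hp f x
  have t : Tendsto (fun n => M * (avg S)^[n] (Aᶜ.indicator 1) x + (ε / 2 +
      ((avg S)^[n] (E.indicator 1) x + (1 - (avg S)^[n] f.1 x)))) atTop
      (𝓝 (M * phi S Aᶜ x + (ε / 2 + (0 + (1 - (HpD hp f).1 x))))) :=
    (t1.const_mul M).add (tendsto_const_nhds.add (t2.add (t3.const_sub 1)))
  have hle : ∀ n, h x ≤ M * (avg S)^[n] (Aᶜ.indicator 1) x + (ε / 2 +
      ((avg S)^[n] (E.indicator 1) x + (1 - (avg S)^[n] f.1 x))) := by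
    intro n
    have := iter_mono (S := S) hpt n x
    rw [iter_harm hh, iter_add, iter_add, iter_add, iter_sub, iter_smul, iter_const hp,
      iter_const hp] at this
    simpa only [Pi.add_apply, Pi.smul_apply, smul_eq_mul, Pi.sub_apply] using this
  have := ge_of_tendsto' t hle
  have h5 := hc2 x
  have h6 : phi S Aᶜ x = 1 - phi S A x := by linarith only [h5]
  rw [h6] at this
  linarith only [hfx, this]

/-! ### staying in a set -/

/-- one step of the walk killed outside `U` -/
noncomputable def kil (S : Finset G) (U : Set G) (f : G → ℝ) : G → ℝ := U.indicator (avg S f)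

/-- the probability of staying in `U` forever -/
noncomputable def stay (S : Finset G) (U : Set G) (x : G) : ℝ :=
  ⨅ n : ℕ, (kil S U)^[n] (U.indicator 1) x

theorem kil_mono {U : Set G} {f g : G → ℝ} (h : ∀ x, f x ≤ g x) (x : G) :
    kil S U f x ≤ kil S U g x := by
  unfold kil
  by_cases hx : x ∈ U
  · rw [indicator_of_mem hx, indicator_of_mem hx]; exact avg_mono h x
  · rw [indicator_of_notMem hx, indicator_of_notMem hx]

theorem avg_nonneg {f : G → ℝ} (h : ∀ x, 0 ≤ f x) (x : G) : 0 ≤ avg S f x :=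
  div_nonneg (Finset.sum_nonneg fun _ _ => h _) (Nat.cast_nonneg _)

theorem avg_le_one (hp : HypS S) {f : G → ℝ} (h : ∀ x, f x ≤ 1) (x : G) : avg S f x ≤ 1 := by
  have := avg_mono (S := S) (f := f) (g := fun _ => 1) h x
  rwa [avg_const hp] at this

theorem kil_iter_nonneg (U : Set G) (n : ℕ) (x : G) :
    0 ≤ (kil S U)^[n] (U.indicator 1) x := by
  induction n generalizing x with
  | zero => exact ind_nonneg U x
  | succ n ih =>
    rw [Function.iterate_succ_apply', kil]
    by_cases hx : x ∈ U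
    · rw [indicator_of_mem hx]; exact avg_nonneg ih x
    · rw [indicator_of_notMem hx]

theorem kil_iter_le (hp : HypS S) (U : Set G) (n : ℕ) (x : G) :
    (kil S U)^[n] (U.indicator 1) x ≤ U.indicator 1 x := by
  induction n generalizing x with
  | zero => exact le_rfl
  | succ n ih =>
    rw [Function.iterate_succ_apply', kil]
    by_cases hx : x ∈ U
    · rw [indicator_of_mem hx, indicator_of_mem hx]
      exact avg_le_one hp (fun y => (ih y).trans (ind_le_one U y)) x
    · rw [indicator_of_notMem hx, indicator_of_notMem hx]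

theorem kil_iter_anti (hp : HypS S) (U : Set G) (n : ℕ) (x : G) :
    (kil S U)^[n + 1] (U.indicator 1) x ≤ (kil S U)^[n] (U.indicator 1) x := by
  induction n generalizing x with
  | zero =>
    have := kil_iter_le hp U 1 x
    simpa only [zero_add, Function.iterate_one, Function.iterate_zero, id_eq, ge_iff_le] using this
  | succ n ih =>
    have e1 := Function.iterate_succ_apply' (kil S U) (n + 1) (U.indicator 1)
    have e2 := Function.iterate_succ_apply' (kil S U) n (U.indicator 1)
    rw [e1, congrFun e2 x]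
    exact kil_mono ih x

theorem stay_tendsto (hp : HypS S) (U : Set G) (x : G) :
    Tendsto (fun n => (kil S U)^[n] (U.indicator 1) x) atTop (𝓝 (stay S U x)) :=
  tendsto_atTop_ciInf (antitone_nat_of_succ_le fun n => kil_iter_anti hp U n x)
    ⟨0, by rintro _ ⟨n, rfl⟩; exact kil_iter_nonneg U n x⟩

theorem stay_nonneg (U : Set G) (x : G) : 0 ≤ stay S U x :=
  le_ciInf fun n => kil_iter_nonneg U n x

theorem stay_le (hp : HypS S) (U : Set G) (x : G) : stay S U x ≤ U.indicator 1 x :=
  le_of_tendsto' (stay_tendsto hp U x) fun n => kil_iter_le hp U n x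

theorem stay_le_one (hp : HypS S) (U : Set G) (x : G) : stay S U x ≤ 1 :=
  (stay_le hp U x).trans (ind_le_one U x)

theorem stay_of_notMem (hp : HypS S) {U : Set G} {x : G} (hx : x ∉ U) : stay S U x = 0 := by
  have h := stay_le hp U x
  rw [indicator_of_notMem hx] at h
  exact le_antisymm h (stay_nonneg U x)

/-- `stay` is harmonic inside `U` -/
theorem stay_harm (hp : HypS S) {U : Set G} {x : G} (hx : x ∈ U) :
    stay S U x = avg S (stay S U) x := by
  have h1 : Tendsto (fun n => (kil S U)^[n + 1] (U.indicator 1) x) atTop (𝓝 (stay S U x)) :=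
    (stay_tendsto hp U x).comp (tendsto_add_atTop_nat 1)
  have h2 : Tendsto (fun n => (kil S U)^[n + 1] (U.indicator 1) x) atTop
      (𝓝 (avg S (stay S U) x)) := by
    have h3 : Tendsto (fun n => (∑ s ∈ S, (kil S U)^[n] (U.indicator 1) (x * s)) / (S.card : ℝ))
        atTop (𝓝 ((∑ s ∈ S, stay S U (x * s)) / (S.card : ℝ))) :=
      (tendsto_finsetSum S fun s _ => stay_tendsto hp U (x * s)).div_const _
    refine h3.congr fun n => ?_
    rw [Function.iterate_succ_apply', kil, indicator_of_mem hx]; rfl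
  exact tendsto_nhds_unique h1 h2

/-- subharmonic minorants are below `stay` -/
theorem le_stay {U : Set G} {v : G → ℝ} (h1 : ∀ x, v x ≤ U.indicator 1 x)
    (h2 : ∀ x, v x ≤ kil S U v x) (x : G) : v x ≤ stay S U x := by
  have key : ∀ n y, v y ≤ (kil S U)^[n] (U.indicator 1) y := by
    intro n
    induction n with
    | zero => exact h1
    | succ n ih =>
      intro y
      rw [Function.iterate_succ_apply']
      exact (h2 y).trans (kil_mono ih y)
  exact le_ciInf fun n => key n x

/-- **(STAY)** -/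
theorem stay_ge (hp : HypS S) {φ : G → ℝ} (hφ : avg S φ = φ) (h1 : ∀ x, φ x ≤ 1) (x : G) :
    2 * φ x - 1 ≤ stay S {x | 1 / 2 < φ x} x := by
  set U : Set G := {x | 1 / 2 < φ x} with hU
  have hφ' : avg S (fun y => 2 * φ y - 1) = fun y => 2 * φ y - 1 := by
    have e : (fun y => 2 * φ y - 1) = (2 : ℝ) • φ - fun _ => (1 : ℝ) := by
      funext y; simp [smul_eq_mul]
    rw [e, avg_sub, avg_smul, avg_const hp, hφ]
  refine (le_max_left _ 0).trans (le_stay (v := fun y => max (2 * φ y - 1) 0) ?_ ?_ x)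
  · intro y
    by_cases hy : y ∈ U
    · rw [indicator_of_mem hy]
      exact max_le (by have := h1 y; simp only [Pi.one_apply]; linarith only [this]) zero_le_one
    · rw [indicator_of_notMem hy]
      have : φ y ≤ 1 / 2 := not_lt.1 hy
      exact max_le (by linarith only [this]) le_rfl
  · intro y
    unfold kil
    by_cases hy : y ∈ U
    · rw [indicator_of_mem hy]
      refine max_le ?_ (avg_nonneg (fun z => le_max_right _ _) y)
      have := avg_mono (S := S) (f := fun y => 2 * φ y - 1) (g := fun y => max (2 * φ y - 1) 0)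
        (fun z => le_max_left _ _) y
      rwa [hφ'] at this
    · rw [indicator_of_notMem hy]
      have : φ y ≤ 1 / 2 := not_lt.1 hy
      exact max_le (by linarith only [this]) le_rfl

/-- a lower bound of `stay` on the inner boundary layer extends to `U` -/
theorem stay_ge_of_boundary (hp : HypS S) {U : Set G} {c : ℝ} (hc1 : c ≤ 1)
    (hb : ∀ x ∈ U, (∃ s ∈ S, x * s ∉ U) → c ≤ stay S U x) : ∀ x ∈ U, c ≤ stay S U x := by
  have key : ∀ n, ∀ x ∈ U, c ≤ (kil S U)^[n] (U.indicator 1) x := by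
    intro n
    induction n with
    | zero => intro x hx; simp only [Function.iterate_zero, id_eq, indicator_of_mem hx,
        Pi.one_apply]; exact hc1
    | succ n ih =>
      intro x hx
      by_cases hxb : ∃ s ∈ S, x * s ∉ U
      · exact (hb x hx hxb).trans
          (ciInf_le ⟨0, by rintro _ ⟨n, rfl⟩; exact kil_iter_nonneg U n x⟩ _)
      · push Not at hxb
        rw [Function.iterate_succ_apply', kil, indicator_of_mem hx, avg,
          le_div_iff₀ hp.card_pos]
        have h2 : ∑ s ∈ S, c ≤ ∑ s ∈ S, (kil S U)^[n] (U.indicator 1) (x * s) :=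
          Finset.sum_le_sum fun s hs => ih _ (hxb s hs)
        rw [Finset.sum_const, nsmul_eq_mul] at h2
        linarith
  exact fun x hx => le_ciInf fun n => key n x hx

/-- `stay` vanishes on sets without harmonic measure -/
theorem stay_eq_zero (hp : HypS S) {U : Set G} {x : G}
    (h : Tendsto (fun n => (avg S)^[n] (U.indicator 1) x) atTop (𝓝 0)) : stay S U x = 0 := by
  have key : ∀ n y, (kil S U)^[n] (U.indicator 1) y ≤ (avg S)^[n] (U.indicator 1) y := by
    intro n
    induction n with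
    | zero => intro y; exact le_rfl
    | succ n ih =>
      intro y
      rw [Function.iterate_succ_apply', Function.iterate_succ_apply', kil]
      by_cases hy : y ∈ U
      · rw [indicator_of_mem hy]; exact avg_mono ih y
      · rw [indicator_of_notMem hy]
        have := iter_mono (S := S) (ind_nonneg U) (n + 1) y
        rw [iter_const hp, Function.iterate_succ_apply'] at this
        exact this
  exact le_antisymm (le_of_tendsto_of_tendsto' (stay_tendsto hp U x) h fun n => key n x)
    (stay_nonneg U x)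

/-- a Green-type function: superharmonic, at least one on a finite set, vanishing at infinity -/
theorem exists_green (hp : HypS S) {F : Set G} (hF : F.Finite) :
    ∃ w : G → ℝ, (∀ x, 0 ≤ w x) ∧ (∀ x ∈ F, 1 ≤ w x) ∧ (∀ x, avg S w x ≤ w x) ∧
      Tendsto w cofinite (𝓝 0) := by
  classical
  obtain ⟨q, hq0, hq1, hq⟩ := avg_contr hp
  set f : G → ℝ := F.indicator 1 with hf
  have hfs : SqS f := by
    refine summable_of_hasFiniteSupport (hF.subset fun y hy => ?_)
    by_contra hy'
    apply hy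
    show (F.indicator 1 y : ℝ) ^ 2 = 0
    rw [indicator_of_notMem hy']; simp
  have h1 : ∀ n, SqS ((avg S)^[n] f) ∧ ∑' x, (avg S)^[n] f x ^ 2 ≤ q ^ n * ∑' x, f x ^ 2 := by
    intro n
    induction n with
    | zero => exact ⟨hfs, by simp only [Function.iterate_zero, id_eq, pow_zero, one_mul, Std.le_refl]⟩
    | succ n ih =>
      rw [Function.iterate_succ_apply']
      obtain ⟨a1, a2⟩ := hq _ ih.1
      refine ⟨a1, a2.trans ?_⟩
      rw [pow_succ', mul_assoc]
      exact mul_le_mul_of_nonneg_left ih.2 hq0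
  set C : ℝ := ∑' x, f x ^ 2 with hC
  have hC0 : 0 ≤ C := tsum_nonneg fun _ => sq_nonneg _
  have hnn : ∀ n x, 0 ≤ (avg S)^[n] f x := by
    intro n x
    have := iter_mono (S := S) (ind_nonneg F) n x
    rwa [iter_const hp] at this
  have hb : ∀ n x, (avg S)^[n] f x ≤ Real.sqrt q ^ n * Real.sqrt C := by
    intro n x
    have h2 : (avg S)^[n] f x ^ 2 ≤ q ^ n * C :=
      ((h1 n).1.le_tsum x fun _ _ => sq_nonneg _).trans (h1 n).2
    have h3 : (Real.sqrt q ^ n * Real.sqrt C) ^ 2 = q ^ n * C := by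
      rw [mul_pow, ← pow_mul, mul_comm n 2, pow_mul, Real.sq_sqrt hq0, Real.sq_sqrt hC0]
    rw [← h3] at h2
    exact (pow_le_pow_iff_left₀ (hnn n x) (by (clear * -; positivity)) two_ne_zero).1 h2
  have hr1 : Real.sqrt q < 1 := by
    rw [Real.sqrt_lt' one_pos]; simpa only [one_pow] using hq1
  have hgeo : Summable fun n => Real.sqrt q ^ n * Real.sqrt C :=
    (summable_geometric_of_lt_one (Real.sqrt_nonneg q) hr1).mul_right _
  have hsum : ∀ x, Summable fun n => (avg S)^[n] f x := fun x =>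
    Summable.of_nonneg_of_le (fun n => hnn n x) (fun n => hb n x) hgeo
  refine ⟨fun x => ∑' n, (avg S)^[n] f x, fun x => tsum_nonneg fun n => hnn n x, ?_, ?_, ?_⟩
  · intro x hx
    have := (hsum x).le_tsum 0 fun n _ => hnn n x
    simpa only [hf, ge_iff_le, Function.iterate_zero, id_eq, hx, indicator_of_mem, Pi.one_apply] using this
  · intro x
    have e : avg S (fun x => ∑' n, (avg S)^[n] f x) x = ∑' n, (avg S)^[n + 1] f x := by
      rw [avg]
      rw [← Summable.tsum_finsetSum fun s _ => hsum (x * s)]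
      rw [← tsum_div_const]
      refine tsum_congr fun n => ?_
      rw [Function.iterate_succ_apply']; rfl
    rw [e]
    show _ ≤ ∑' n, (avg S)^[n] f x
    rw [(hsum x).tsum_eq_zero_add]
    have := hnn 0 x
    linarith
  · rw [Metric.tendsto_nhds]
    intro ε hε
    -- uniform tail
    obtain ⟨N, hN⟩ : ∃ N, ∑' n, Real.sqrt q ^ (n + N) * Real.sqrt C < ε / 2 := by
      have := tendsto_sum_nat_add fun n => Real.sqrt q ^ n * Real.sqrt C
      exact ((this.eventually_lt_const (show 0 < ε / 2 by (clear * - hε; positivity)))).exists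
    have hfinN : Tendsto (fun x => ∑ n ∈ Finset.range N, (avg S)^[n] f x) cofinite (𝓝 0) := by
      have : Tendsto (fun x => ∑ n ∈ Finset.range N, (avg S)^[n] f x) cofinite
          (𝓝 (∑ n ∈ Finset.range N, (0 : ℝ))) :=
        tendsto_finsetSum _ fun n _ => sqS_tendsto (h1 n).1
      simpa only [Finset.sum_const_zero] using this
    filter_upwards [(Metric.tendsto_nhds.1 hfinN) (ε / 2) (by positivity)] with x hx
    rw [Real.dist_eq, sub_zero] at hx ⊢
    have h4 : ∑' n, (avg S)^[n] f x = ∑ n ∈ Finset.range N, (avg S)^[n] f x +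
        ∑' n, (avg S)^[n + N] f x := ((hsum x).sum_add_tsum_nat_add N).symm
    have h5 : ∑' n, (avg S)^[n + N] f x ≤ ∑' n, Real.sqrt q ^ (n + N) * Real.sqrt C :=
      ((summable_nat_add_iff N).2 (hsum x)).tsum_le_tsum (fun n => hb (n + N) x)
        ((summable_nat_add_iff N).2 hgeo)
    have h6 : 0 ≤ ∑' n, (avg S)^[n + N] f x := tsum_nonneg fun n => hnn _ x
    have h7 : 0 ≤ ∑ n ∈ Finset.range N, (avg S)^[n] f x := Finset.sum_nonneg fun n _ => hnn n x
    rw [h4, abs_of_nonneg (by (clear * - h7 h6; positivity))]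
    rw [abs_of_nonneg h7] at hx
    linarith only [hN, hx, h5]

/-- restriction of `stay` to a subset with finite relative boundary -/
theorem stay_restrict (hp : HypS S) {U U' F : Set G} {w : G → ℝ} (hU : U' ⊆ U)
    (hF : ∀ x ∈ U', x ∉ F → ∀ s ∈ S, x * s ∈ U → x * s ∈ U') (hw0 : ∀ x, 0 ≤ w x)
    (hw1 : ∀ x ∈ F, 1 ≤ w x) (hw2 : ∀ x, avg S w x ≤ w x) {x : G} (hx : x ∈ U') :
    stay S U x - w x ≤ stay S U' x := by
  classical
  set k : G → ℝ := U'.indicator (fun y => stay S U y - w y) with hk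
  have hle : ∀ y, avg S k y ≤ avg S (fun y => max (k y) 0) y := avg_mono fun y => le_max_left _ _
  have key := le_stay (S := S) (U := U') (v := fun y => max (k y) 0) (fun y => ?_) (fun y => ?_) x
  · refine le_trans ?_ key
    refine le_trans (le_of_eq ?_) (le_max_left _ _)
    rw [hk, indicator_of_mem hx]
  · by_cases hy : y ∈ U'
    · rw [indicator_of_mem hy, hk]
      simp only [indicator_of_mem hy, Pi.one_apply]
      exact max_le (by have := stay_le_one hp U y; have := hw0 y; linarith) zero_le_one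
    · rw [indicator_of_notMem hy, hk]
      simp only [indicator_of_notMem hy, max_self, le_refl]
  · unfold kil
    by_cases hy : y ∈ U'
    · rw [indicator_of_mem hy]
      refine max_le ?_ (avg_nonneg (fun z => le_max_right _ _) y)
      by_cases hyF : y ∈ F
      · refine le_trans ?_ (avg_nonneg (fun z => le_max_right _ _) y)
        rw [hk, indicator_of_mem hy]
        have := stay_le_one hp U y
        have := hw1 y hyF
        (clear U' hU hF hw0 hw2 x hx k hk hle hy; linarith)
      · refine le_trans ?_ (hle y)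
        rw [hk, indicator_of_mem hy, stay_harm hp (hU hy)]
        have h1 : avg S (stay S U) y - avg S w y ≤ avg S k y := by
          rw [avg, avg, avg, ← sub_div, ← Finset.sum_sub_distrib]
          refine div_le_div_of_nonneg_right (Finset.sum_le_sum fun s hs => ?_) (Nat.cast_nonneg _)
          by_cases h2 : y * s ∈ U'
          · rw [hk, indicator_of_mem h2]
          · have h3 : y * s ∉ U := fun h => h2 (hF y hy hyF s hs h)
            rw [hk, indicator_of_notMem h2, stay_of_notMem hp h3]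
            linarith only [hw0 (y * s)]
        have h2 := hw2 y
        simp only [hk] at h1 ⊢
        linarith
    · rw [indicator_of_notMem hy, hk]
      simp only [indicator_of_notMem hy, max_self, le_refl]

/-- **(ONE)** In a set where `stay` is bounded below, a subset with finite relative boundary and
without harmonic measure is finite. -/
theorem finite_of_stay (hp : HypS S) {U U' F : Set G} {c : ℝ} (hc : 0 < c)
    (hst : ∀ x ∈ U, c ≤ stay S U x) (hU : U' ⊆ U) (hFf : F.Finite)
    (hF : ∀ x ∈ U', x ∉ F → ∀ s ∈ S, x * s ∈ U → x * s ∈ U')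
    (h0 : ∀ x, Tendsto (fun n => (avg S)^[n] (U'.indicator 1) x) atTop (𝓝 0)) : U'.Finite := by
  obtain ⟨w, hw0, hw1, hw2, hw3⟩ := exists_green hp hFf
  have h1 : ∀ x ∈ U', c ≤ w x := by
    intro x hx
    have h2 := stay_restrict hp hU hF hw0 hw1 hw2 hx
    rw [stay_eq_zero hp (h0 x)] at h2
    have := hst x (hU hx)
    linarith
  have h2 := (Metric.tendsto_nhds.1 hw3) c hc
  rw [eventually_cofinite] at h2
  refine h2.subset fun x hx => ?_
  have h3 := h1 x hx
  simp only [mem_ofPred_eq, Real.dist_eq, sub_zero, not_lt]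
  exact h3.trans (le_abs_self _)

end Vale.Agent.P239.F
end

section

/-!
Horofunctions, compactness and the convergence property.
-/

namespace Vale.Agent.P239.F

open Filter Topology Set
open Vale.Agent.P239
open scoped RealInnerProductSpace

variable {G : Type*} [Group G] {S : Finset G} (hS : Subgroup.closure (S : Set G) = ⊤)

/-- Horofunctions in terms of potentials. -/
theorem hb_eq (z a b : G) : hb hS z a b = res hS 1 a - res hS 1 b -
    2 * (((pot hS a).1 z - (pot hS a).1 1) - ((pot hS b).1 z - (pot hS b).1 1)) := by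
  rw [hb, res_eq, res_eq, res_one, res_one, gp_eq hS a z, gp_eq hS b z]
  ring

/-- Differences of potentials in terms of horofunctions. -/
theorem pot_sub_eq (z a b : G) : (pot hS a - pot hS b).1 z = (pot hS a - pot hS b).1 1 +
    (res hS 1 a - res hS 1 b - hb hS z a b) / 2 := by
  rw [hb_eq]
  change (pot hS a).1 z - (pot hS b).1 z = (pot hS a).1 1 - (pot hS b).1 1 + _
  ring

theorem abs_hb_le (z a b : G) : |hb hS z a b| ≤ res hS a b := by
  rw [hb, abs_le]
  have h1 := res_triangle hS a b z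
  have h2 := res_triangle hS b a z
  rw [res_comm hS b a] at h2
  constructor <;> linarith only [h1, h2]

theorem hb_anti (z a b : G) : hb hS z a b = - hb hS z b a := by
  rw [hb, hb]; ring

theorem act_hb (g z : G) : act g (hb hS z) = hb hS (g * z) := by
  funext x y
  simp only [act, hb]
  have h : ∀ x, res hS (g⁻¹ * x) z = res hS x (g * z) := by
    intro x
    rw [← res_mul hS g, mul_inv_cancel_left]
  rw [h, h]

theorem act_act (g h : G) (β : G → G → ℝ) : act g (act h β) = act (g * h) β := by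
  funext x y
  simp only [act, mul_inv_rev, mul_assoc]

theorem act_one (β : G → G → ℝ) : act 1 β = β := by
  funext x y
  simp only [act, inv_one, one_mul]

theorem continuous_act (g : G) : Continuous (act (G := G) g) :=
  continuous_pi fun x => continuous_pi fun y =>
    (continuous_apply (g⁻¹ * y)).comp (continuous_apply (g⁻¹ * x))

/-- The compact box containing all horofunctions. -/
theorem exists_lim_ultra {ι : Type*} (U : Ultrafilter ι) (z : ι → G → G → ℝ)
    (hz : ∀ i, ∀ a b, |z i a b| ≤ res hS a b) :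
    ∃ β : G → G → ℝ, Tendsto z U (𝓝 β) := by
  have hc : IsCompact (Set.pi univ fun a : G => Set.pi univ fun b : G =>
      Set.Icc (-(res hS a b)) (res hS a b)) :=
    isCompact_univ_pi fun a => isCompact_univ_pi fun b => isCompact_Icc
  obtain ⟨β, _, hβ⟩ := hc.ultrafilter_le_nhds (U.map z) (by
    rw [le_principal_iff]
    refine Ultrafilter.mem_map.2 (Filter.univ_mem' fun i => ?_)
    intro a _ b _
    exact abs_le.1 (hz i a b))
  exact ⟨β, hβ⟩

omit [Group G] in
theorem continuous_ev (a b : G) : Continuous fun β : G → G → ℝ => β a b :=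
  (continuous_apply b).comp (continuous_apply a)

theorem closure_abs_le {β : G → G → ℝ} (hβ : β ∈ closure (range (hb hS))) (a b : G) :
    |β a b| ≤ res hS a b := by
  have hcl : IsClosed {β : G → G → ℝ | |β a b| ≤ res hS a b} :=
    isClosed_le (continuous_abs.comp ((continuous_apply b).comp (continuous_apply a)))
      continuous_const
  have hsub : range (hb hS) ⊆ {β : G → G → ℝ | |β a b| ≤ res hS a b} := by
    rintro _ ⟨z, rfl⟩
    exact abs_hb_le hS z a b
  exact closure_minimal hsub hcl hβ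

theorem act_mem_closure (g : G) {β : G → G → ℝ} (hβ : β ∈ closure (range (hb hS))) :
    act g β ∈ closure (range (hb hS)) := by
  have h := mem_closure_image (f := act g) (continuous_act g).continuousAt hβ
  refine closure_mono ?_ h
  rintro _ ⟨_, ⟨z, rfl⟩, rfl⟩
  exact ⟨g * z, (act_hb hS g z).symm⟩

omit [Group G] in
theorem tendsto_val {ι : Type*} {l : Filter ι} {β : ι → G → G → ℝ} {x : G → G → ℝ} :
    Tendsto β l (𝓝 x) ↔ ∀ a b, Tendsto (fun i => β i a b) l (𝓝 (x a b)) := by
  rw [tendsto_pi_nhds]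
  exact forall_congr' fun a => tendsto_pi_nhds

/-- Right translation does not change limits. -/
theorem tendsto_hb_mulV {ι : Type*} {l : Filter ι} {k : ι → G} (hk : Tendsto k l cofinite)
    {x : G → G → ℝ} (hx : Tendsto (fun i => hb hS (k i)) l (𝓝 x)) (q : G) :
    Tendsto (fun i => hb hS (k i * q)) l (𝓝 x) := by
  rw [tendsto_val] at hx ⊢
  intro a b
  have h1 : ∀ k : G, hb hS (k * q) a b = hb hS k a b -
      2 * en S (trD k (pot hS q)) (pot hS a - pot hS b) := by
    intro k
    have hp : IsPot (k * q) k (trD k (pot hS q)) := by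
      have := (pot_isPot hS q).trans k
      rwa [mul_one] at this
    rw [hp, pot_sub_eq hS (k * q), pot_sub_eq hS k]
    ring
  have h2 := (tendsto_inner_trD (pot hS q) (grad S (pot hS a - pot hS b))).comp hk
  have h3 := (hx a b).sub (h2.const_mul 2)
  rw [mul_zero, sub_zero] at h3
  refine h3.congr fun i => ?_
  rw [h1]; rfl

theorem closure_anti {β : G → G → ℝ} (hβ : β ∈ closure (range (hb hS))) (a b : G) :
    β a b = - β b a := by
  have hcl : IsClosed {β : G → G → ℝ | β a b = - β b a} :=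
    isClosed_eq (continuous_ev a b) (continuous_ev b a).neg
  have hsub : range (hb hS) ⊆ {β : G → G → ℝ | β a b = - β b a} := by
    rintro _ ⟨z, rfl⟩
    exact hb_anti hS z a b
  exact closure_minimal hsub hcl hβ

/-- Different points are separated by a potential. -/
theorem exists_lt_of_ne {p q : G → G → ℝ} (hp : p ∈ closure (range (hb hS)))
    (hq : q ∈ closure (range (hb hS))) (hpq : p ≠ q) : ∃ a b, p a b < q a b := by
  by_contra hc
  push Not at hc
  apply hpq
  funext a b
  refine le_antisymm ?_ (hc a b)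
  have := hc b a
  rw [closure_anti hS hp b a, closure_anti hS hq b a] at this
  linarith only [this]

/-- The convergence property. -/
theorem conv_prop [Countable G] {F : Finset G} (hF : CrossProp S F) {ι : Type*} {l : Filter ι}
    {k : ι → G} (hk : Tendsto k l cofinite) {x y b : G → G → ℝ}
    (hx : Tendsto (fun i => hb hS (k i)) l (𝓝 x))
    (hy : Tendsto (fun i => hb hS (k i)⁻¹) l (𝓝 y)) {β : ι → G → G → ℝ}
    (hβ : ∀ i, β i ∈ closure (range (hb hS))) (hb' : Tendsto β l (𝓝 b)) (hne : b ≠ y) :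
    Tendsto (fun i => act (k i) (β i)) l (𝓝 x) := by
  rw [tendsto_iff_ultrafilter]
  intro U hU
  have hk := hk.mono_left hU
  have hx := hx.mono_left hU
  have hy := hy.mono_left hU
  have hb' := hb'.mono_left hU
  obtain ⟨x', hx'⟩ := exists_lim_ultra hS U (fun i => act (k i) (β i))
    (fun i => closure_abs_le hS (act_mem_closure hS _ (hβ i)))
  suffices h : x' = x by
    rw [← h]; exact hx'
  by_contra hxx
  have hxc : x ∈ closure (range (hb hS)) :=
    mem_closure_of_tendsto hx (Eventually.of_forall fun i => ⟨k i, rfl⟩)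
  have hyc : y ∈ closure (range (hb hS)) :=
    mem_closure_of_tendsto hy (Eventually.of_forall fun i => ⟨(k i)⁻¹, rfl⟩)
  have hbc : b ∈ closure (range (hb hS)) := by
    have := mem_closure_of_tendsto hb' (Eventually.of_forall hβ)
    rwa [closure_closure] at this
  have hxc' : x' ∈ closure (range (hb hS)) := by
    have := mem_closure_of_tendsto hx' (Eventually.of_forall fun i => act_mem_closure hS (k i) (hβ i))
    rwa [closure_closure] at this
  obtain ⟨a₁, b₁, h₁⟩ := exists_lt_of_ne hS hbc hyc hne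
  obtain ⟨a₂, b₂, h₂⟩ := exists_lt_of_ne hS hxc' hxc hxx
  set f := pot hS a₁ - pot hS b₁ with hf
  set g := pot hS a₂ - pot hS b₂ with hg
  set κ₁ : ℝ := f.1 1 + (res hS 1 a₁ - res hS 1 b₁) / 2 with hκ₁
  set κ₂ : ℝ := g.1 1 + (res hS 1 a₂ - res hS 1 b₂) / 2 with hκ₂
  have ef : ∀ z, f.1 z = κ₁ - hb hS z a₁ b₁ / 2 := fun z => by
    rw [hf, pot_sub_eq, hκ₁, hf]; ring
  have eg : ∀ z, g.1 z = κ₂ - hb hS z a₂ b₂ / 2 := fun z => by
    rw [hg, pot_sub_eq, hκ₂, hg]; ring
  obtain ⟨t₁, ht₁, ht₁'⟩ := exists_between (show κ₁ - y a₁ b₁ / 2 < κ₁ - b a₁ b₁ / 2 by linarith only [h₁])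
  obtain ⟨t₂, ht₂, ht₂'⟩ := exists_between ht₁'
  obtain ⟨s₁, hs₁, hs₁'⟩ := exists_between (show κ₂ - x a₂ b₂ / 2 < κ₂ - x' a₂ b₂ / 2 by linarith only [h₂])
  obtain ⟨s₂, hs₂, hs₂'⟩ := exists_between hs₁'
  have hkinv : Tendsto (fun i => (k i)⁻¹) U cofinite :=
    (inv_injective.tendsto_cofinite).comp hk
  have hfin := finite_cross hS hF (pot_sub_isPot hS a₁ b₁) (pot_sub_isPot hS a₂ b₂) ht₂ hs₂
  have hnot := hk.eventually (hfin.eventually_cofinite_notMem)
  -- limits of the two potentials
  have lf : ∀ {z : ι → G} {p : G → G → ℝ}, Tendsto (fun i => hb hS (z i)) U (𝓝 p) →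
      Tendsto (fun i => f.1 (z i)) U (𝓝 (κ₁ - p a₁ b₁ / 2)) := by
    intro z p hz
    simp only [ef]
    exact ((tendsto_val.1 hz a₁ b₁).div_const 2).const_sub κ₁
  have lg : ∀ {z : ι → G} {p : G → G → ℝ}, Tendsto (fun i => hb hS (z i)) U (𝓝 p) →
      Tendsto (fun i => g.1 (z i)) U (𝓝 (κ₂ - p a₂ b₂ / 2)) := by
    intro z p hz
    simp only [eg]
    exact ((tendsto_val.1 hz a₂ b₂).div_const 2).const_sub κ₂
  have lβ : Tendsto (fun i => κ₁ - β i a₁ b₁ / 2) U (𝓝 (κ₁ - b a₁ b₁ / 2)) :=
    ((tendsto_val.1 hb' a₁ b₁).div_const 2).const_sub κ₁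
  have lx' : Tendsto (fun i => κ₂ - act (k i) (β i) a₂ b₂ / 2) U (𝓝 (κ₂ - x' a₂ b₂ / 2)) :=
    ((tendsto_val.1 hx' a₂ b₂).div_const 2).const_sub κ₂
  -- the fourth kind of vertex
  have hp : ∀ᶠ i in (U : Filter ι), ∃ p : G, t₂ ≤ f.1 ((k i)⁻¹ * p) ∧ s₂ ≤ g.1 p := by
    filter_upwards [lβ.eventually (lt_mem_nhds ht₂'), lx'.eventually (lt_mem_nhds hs₂')]
      with i hi hi'
    have hopen1 : IsOpen {γ : G → G → ℝ | t₂ < κ₁ - act (k i)⁻¹ γ a₁ b₁ / 2} :=
      isOpen_lt continuous_const (continuous_const.sub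
        (((continuous_ev a₁ b₁).comp (continuous_act (k i)⁻¹)).div_const 2))
    have hopen2 : IsOpen {γ : G → G → ℝ | s₂ < κ₂ - γ a₂ b₂ / 2} :=
      isOpen_lt continuous_const (continuous_const.sub ((continuous_ev a₂ b₂).div_const 2))
    have hopen : IsOpen {γ : G → G → ℝ | t₂ < κ₁ - act (k i)⁻¹ γ a₁ b₁ / 2 ∧
        s₂ < κ₂ - γ a₂ b₂ / 2} := hopen1.inter hopen2
    have hmem : act (k i) (β i) ∈ {γ : G → G → ℝ | t₂ < κ₁ - act (k i)⁻¹ γ a₁ b₁ / 2 ∧
        s₂ < κ₂ - γ a₂ b₂ / 2} := by
      refine ⟨?_, hi'⟩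
      rw [act_act, inv_mul_cancel, act_one]
      exact hi
    obtain ⟨_, ⟨h1, h2⟩, ⟨p, rfl⟩⟩ :=
      mem_closure_iff.1 (act_mem_closure hS (k i) (hβ i)) _ hopen hmem
    rw [act_hb] at h1
    exact ⟨p, by rw [ef]; exact h1.le, by rw [eg]; exact h2.le⟩
  obtain ⟨i₀, hi₀, hi₁⟩ := (hp.and ((lf hy).eventually (gt_mem_nhds ht₁))).exists
  obtain ⟨q, hq₁, hq₂⟩ := hi₀
  have e1 := (lf (tendsto_hb_mulV hS hkinv hy q)).eventually (gt_mem_nhds ht₁)
  have e2 := (lg (tendsto_hb_mulV hS hk hx ((k i₀)⁻¹ * q))).eventually (gt_mem_nhds hs₁)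
  have e3 := (lg (tendsto_hb_mulV hS hk hx (k i₀)⁻¹)).eventually (gt_mem_nhds hs₁)
  obtain ⟨i, ⟨p, hp₁, hp₂⟩, e1, e2, e3, hni⟩ := (hp.and (e1.and (e2.and (e3.and hnot)))).exists
  refine hni ⟨p, q, k i * ((k i₀)⁻¹ * q), k i * (k i₀)⁻¹, hp₁, hp₂, e1.le, hq₂, ?_, e2.le, ?_,
    e3.le⟩
  · rw [inv_mul_cancel_left]; exact hq₁
  · rw [inv_mul_cancel_left]; exact hi₁.le

end Vale.Agent.P239.F
end

section

/-!
Depth of the canonical sets and of the complements of increasing unions of canonical sets.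
-/

namespace Vale.Agent.P239.F.H

open Filter Topology Set
open Vale.Agent.P239 Vale.Agent.P239.F
open scoped RealInnerProductSpace

variable {G : Type*} [Group G] {S : Finset G}

/-- a harmonic function with supremum one is close to one on neighbourhoods of infinite connected
sets -/
theorem depth_c (hp : HypS S) {φ : G → ℝ} (hφ : avg S φ = φ) (h1 : ∀ x, φ x ≤ 1)
    (hsup : ∀ ε > 0, ∃ x, 1 - ε < φ x) (N : Finset G) {c : ℝ} (hc : c < 1) :
    ∃ K : Set G, K.Infinite ∧ (∀ x ∈ K, ∀ y ∈ K, Con S K x y) ∧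
      ∀ x ∈ K, ∀ k ∈ N, c < φ (x * k) := by
  have := hp.inf
  obtain ⟨C, hC, hC'⟩ := P239.S.harnack_finset hp.gen hp.symS N
  have hc' : 0 < 1 - c := by (clear * - hc; linarith)
  have hh := harm_of_avg_eq hp hφ
  obtain ⟨x, hx⟩ := hsup ((1 - c) / C) (by (clear * - hc hC; positivity))
  refine ⟨{y | Con S {u | 1 - (1 - c) / C < φ u} x y},
    P239.S.comp_infinite hp.gen hp.symS φ hh hx, fun y hy z hz => P239.S.con_comp hy hz,
    fun y hy f hf => ?_⟩
  have hy' : 1 - (1 - c) / C < φ y := by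
    induction hy with
    | refl => exact hx
    | tail _ h _ => exact h.2.1
  have h2 := hC' (fun x => 1 - φ x) (fun x => by linarith only [h1 x]) (fun x => by
    have := hh x
    rw [← neg_eq_zero, ← Finset.sum_neg_distrib]
    rw [← this]
    exact Finset.sum_congr rfl fun s _ => by ring) y f hf
  have h3 : C * (1 - φ y) < 1 - c := by
    have : 1 - φ y < (1 - c) / C := by linarith only [hy']
    calc C * (1 - φ y) < C * ((1 - c) / C) := mul_lt_mul_of_pos_left this hC
      _ = 1 - c := by (clear * - hC hc'; field_simp)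
  linarith only [h2, h3]

theorem bd_compl (A : Set G) : bd S Aᶜ = bd S A := by
  ext x
  unfold bd
  simp only [mem_ofPred_eq, mem_compl_iff]
  refine exists_congr fun y => and_congr_right fun _ => ?_
  (clear * -; tauto)

/-- the infimum of a decreasing sequence of harmonic functions of cuts, if positive somewhere, has
supremum one -/
theorem inf_one (hp : HypS S) {A : ℕ → Set G} {B : ℕ → Finset (G → G → ℝ)}
    (hB : ∀ k, NB hp (B k)) (hphi : ∀ k, HasPhi S (A k))
    (hcut : ∀ k, ConvB hp.gen (bd S (A k)) (B k))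
    (hanti : ∀ k x, phi S (A (k + 1)) x ≤ phi S (A k) x) {y : G}
    (hy : 0 < ⨅ k, phi S (A k) y) :
    avg S (fun x => ⨅ k, phi S (A k) x) = (fun x => ⨅ k, phi S (A k) x) ∧
      (∀ x, 0 ≤ ⨅ k, phi S (A k) x) ∧ (∀ k x, (⨅ k, phi S (A k) x) ≤ phi S (A k) x) ∧
      ∀ ε > 0, ∃ x, 1 - ε < ⨅ k, phi S (A k) x := by
  have hbdd : ∀ x, BddBelow (Set.range fun k => phi S (A k) x) := fun x =>
    ⟨0, by rintro _ ⟨k, rfl⟩; exact (hphi k).nonneg hp x⟩
  have hlim : ∀ x, Tendsto (fun k => phi S (A k) x) atTop (𝓝 (⨅ k, phi S (A k) x)) := fun x =>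
    tendsto_atTop_ciInf (antitone_nat_of_succ_le fun k => hanti k x) (hbdd x)
  set ψ : G → ℝ := fun x => ⨅ k, phi S (A k) x with hψ
  have hψle : ∀ k x, ψ x ≤ phi S (A k) x := fun k x => ciInf_le (hbdd x) k
  have hψ0 : ∀ x, 0 ≤ ψ x := fun x => le_ciInf fun k => (hphi k).nonneg hp x
  have hψ1 : ∀ x, ψ x ≤ 1 := fun x => (hψle 0 x).trans ((hphi 0).le_one hp x)
  have hψh : avg S ψ = ψ := by
    funext x
    have t1 : Tendsto (fun k => avg S (phi S (A k)) x) atTop (𝓝 (avg S ψ x)) :=
      (tendsto_finsetSum S fun s _ => hlim (x * s)).div_const _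
    refine tendsto_nhds_unique t1 ((hlim x).congr fun k => ?_)
    rw [(hphi k).harm]
  set M : ℝ := ⨆ x, ψ x with hM
  have hMb : BddAbove (Set.range ψ) := ⟨1, by rintro _ ⟨x, rfl⟩; exact hψ1 x⟩
  have hle : ∀ x, ψ x ≤ M := fun x => le_ciSup hMb x
  have hkey : ∀ x, ψ x ≤ M * ψ x := by
    intro x
    have t : Tendsto (fun k => M * phi S (A k) x) atTop (𝓝 (M * ψ x)) := (hlim x).const_mul M
    refine ge_of_tendsto' t fun k => ?_
    obtain ⟨hc1, hc2⟩ := (hphi k).compl hp
    have e : ∀ z, 1 - phi S (A k)ᶜ z = phi S (A k) z := fun z => by linarith [hc2 z]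
    have := dom_of hp (hB k) hc1 (by rw [bd_compl]; exact hcut k) hψh hψ0 hle
      (fun z => by rw [e z]; exact hψle k z) x
    rwa [e x] at this
  have hM1 : 1 ≤ M := by
    have := hkey y
    have hy' : 0 < ψ y := hy
    (by_contra nlg; linarith [mul_pos (sub_pos.2 (not_le.1 nlg)) (sub_pos.2 hy), this])
  refine ⟨hψh, hψ0, hψle, fun ε hε => ?_⟩
  exact exists_lt_of_lt_ciSup (show 1 - ε < M by linarith only [hM1, hε])

/-- depth of the complement of an increasing union of canonical sets: all `phi (A k)` are above `c`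
on a neighbourhood of an infinite connected set -/
theorem depth_inf (hp : HypS S) {A : ℕ → Set G} {B : ℕ → Finset (G → G → ℝ)}
    (hB : ∀ k, NB hp (B k)) (hphi : ∀ k, HasPhi S (A k))
    (hcut : ∀ k, ConvB hp.gen (bd S (A k)) (B k))
    (hanti : ∀ k x, phi S (A (k + 1)) x ≤ phi S (A k) x) {y : G} {r : ℝ} (hr : 0 < r)
    (hy : ∀ k, r ≤ phi S (A k) y) (N : Finset G) {c : ℝ} (hc : c < 1) :
    ∃ K : Set G, K.Infinite ∧ (∀ x ∈ K, ∀ y ∈ K, Con S K x y) ∧
      ∀ x ∈ K, ∀ f ∈ N, ∀ k, c < phi S (A k) (x * f) := by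
  obtain ⟨h1, h2, h3, h4⟩ := inf_one hp hB hphi hcut hanti
    (lt_of_lt_of_le hr (le_ciInf hy))
  obtain ⟨K, hK, hK', hK''⟩ := depth_c hp h1 (fun x => (h3 0 x).trans ((hphi 0).le_one hp x)) h4 N hc
  exact ⟨K, hK, hK', fun x hx f hf k => (hK'' x hx f hf).trans_le (h3 k _)⟩

end Vale.Agent.P239.F.H
end

section

/-! Application of module B to the cuts of the group: finitely many centres across an edge. -/

namespace Vale.Agent.P239.F.BF

open Filter Topology Set
open Vale.Agent.P239 Vale.Agent.P239.F Vale.Agent.P239.F.N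
open scoped Pointwise

variable {G : Type*} [Group G]

/-- the type of points with the action of `G` -/
def Pnt (G : Type*) : Type _ := G → G → ℝ

noncomputable instance : MulAction G (Pnt G) where
  smul g β := (act g β : G → G → ℝ)
  one_smul β := F.act_one β
  mul_smul g h β := (F.act_act g h β).symm

variable {S T : Finset G} (hS : Subgroup.closure (S : Set G) = ⊤)

/-- the family of cuts -/
def TT : Set (Set G × Pnt G) :=
  {p | ∃ A : Set G, IsCut hS A p.2 ∧ Nontriv hS A p.2 ∧ (p.1 = HH S A ∨ p.1 = (HH S A)ᶜ)}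

theorem bd_compl' (M : Finset G) (A : Set G) : bd M Aᶜ = bd M A := by
  ext x
  refine exists_congr fun y => and_congr_right fun _ => not_congr ?_
  exact not_iff_not

/-! ### equivariance -/

theorem conv_smul (g : G) {A : Set G} {β : G → G → ℝ} (h : Conv hS A β) :
    Conv hS (g • A) (act g β) := by
  rw [conv_iff] at h ⊢
  intro O hO
  have hO' : act g ⁻¹' O ∈ 𝓝 β := (F.continuous_act g).continuousAt hO
  refine ((h _ hO').image fun x => g * x).subset ?_
  rintro x ⟨hx, hxO⟩
  refine ⟨g⁻¹ * x, ⟨?_, ?_⟩, mul_inv_cancel_left g x⟩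
  · rw [mem_smul_set_iff_inv_smul_mem] at hx
    exact hx
  · intro h'
    apply hxO
    have h2 : act g (hb hS (g⁻¹ * x)) ∈ O := h'
    rwa [F.act_hb, mul_inv_cancel_left] at h2

theorem lim_smul (g : G) {β : G → G → ℝ} (h : β ∈ Lim hS univ) : act g β ∈ Lim hS univ := by
  rw [mem_lim] at h ⊢
  intro O hO
  have hO' : act g ⁻¹' O ∈ 𝓝 β := (F.continuous_act g).continuousAt hO
  refine ((h _ hO').image (f := fun x => g * x) (fun a _ b _ hab => mul_left_cancel hab)).mono ?_
  rintro _ ⟨x, ⟨_, hx⟩, rfl⟩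
  refine ⟨trivial, ?_⟩
  have h2 : act g (hb hS x) ∈ O := hx
  rwa [F.act_hb] at h2

theorem bd_smul (g : G) (A : Set G) : bd S (g • A) = g • bd S A := by
  ext x
  rw [mem_smul_set_iff_inv_smul_mem]
  simp only [bd, mem_smul_set_iff_inv_smul_mem, smul_eq_mul, mem_ofPred_eq]
  constructor
  · rintro ⟨y, ⟨s, hs, hxy⟩, h⟩
    refine ⟨g⁻¹ * y, ⟨s, hs, ?_⟩, h⟩
    rcases hxy with h' | h'
    · left; rw [h', mul_assoc]
    · right; rw [h', mul_assoc]
  · rintro ⟨y, ⟨s, hs, hxy⟩, h⟩
    refine ⟨g * y, ⟨s, hs, ?_⟩, by rwa [inv_mul_cancel_left]⟩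
    rcases hxy with h' | h'
    · left
      rw [h', ← mul_assoc, mul_inv_cancel_left]
    · right
      rw [mul_assoc, ← h', mul_inv_cancel_left]

theorem isCut_smul (g : G) {A : Set G} {β : G → G → ℝ} (h : IsCut hS A β) :
    IsCut hS (g • A) (act g β) :=
  ⟨lim_smul hS g h.1, by rw [bd_smul]; exact conv_smul hS g h.2⟩

theorem conv_of_smul (g : G) {A : Set G} {β : G → G → ℝ} (h : Conv hS (g • A) (act g β)) :
    Conv hS A β := by
  have := conv_smul hS g⁻¹ h
  rwa [inv_smul_smul, F.act_act, inv_mul_cancel, F.act_one] at this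

theorem nontriv_smul (g : G) {A : Set G} {β : G → G → ℝ} (h : Nontriv hS A β) :
    Nontriv hS (g • A) (act g β) := by
  refine ⟨fun h' => h.1 (conv_of_smul hS g h'), fun h' => h.2 (conv_of_smul hS g ?_)⟩
  rwa [smul_set_compl]

theorem avg_iter_smul (g : G) (n : ℕ) (f : G → ℝ) (x : G) :
    (avg S)^[n] (fun y => f (g⁻¹ * y)) x = (avg S)^[n] f (g⁻¹ * x) := by
  induction n generalizing f with
  | zero => rfl
  | succ n ih =>
    rw [Function.iterate_succ_apply, Function.iterate_succ_apply, ← ih]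
    have : avg S (fun y => f (g⁻¹ * y)) = fun y => avg S f (g⁻¹ * y) := by
      funext y
      simp only [avg, mul_assoc]
    rw [this]

theorem phi_smul' (g : G) (A : Set G) (x : G) : phi S (g • A) x = phi S A (g⁻¹ * x) := by
  unfold phi
  congr 1
  funext n
  rw [← avg_iter_smul]
  have : (g • A).indicator (1 : G → ℝ) = fun y => A.indicator 1 (g⁻¹ * y) := by
    funext y
    by_cases hy : g⁻¹ * y ∈ A
    · rw [indicator_of_mem hy, indicator_of_mem]
      · rfl
      · rw [mem_smul_set_iff_inv_smul_mem]; exact hy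
    · rw [indicator_of_notMem hy, indicator_of_notMem]
      rw [mem_smul_set_iff_inv_smul_mem]; exact hy
  rw [this]

theorem HH_smul' (g : G) (A : Set G) : HH S (g • A) = g • HH S A := by
  ext x
  rw [mem_smul_set_iff_inv_smul_mem, mem_HH, mem_HH, phi_smul', smul_eq_mul]

/-! ### harmonicity in both forms -/

/-! ### fixed points -/

theorem pt_closure {β : G → G → ℝ} (h : β ∈ Lim hS univ) : β ∈ closure (range (hb hS)) := by
  rw [mem_closure_iff_clusterPt]
  refine ClusterPt.mono h (le_principal_iff.2 (Filter.mem_map.2 ?_))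
  exact Eventually.of_forall fun z => ⟨z, rfl⟩

/-- A nontrivial element fixes at most two points. -/
theorem fix_three [Countable G] {F : Finset G} (hF : CrossProp S F)
    (htf : ∀ g : G, g ≠ 1 → ∀ n : ℕ, n ≠ 0 → g ^ n ≠ 1) {h : G} (hh : h ≠ 1)
    {a b c : G → G → ℝ} (ha : a ∈ closure (range (hb hS))) (hb' : b ∈ closure (range (hb hS)))
    (hc : c ∈ closure (range (hb hS)))
    (hfa : act h a = a) (hfb : act h b = b) (hfc : act h c = c) : a = b ∨ b = c ∨ a = c := by
  set 𝒰 : Ultrafilter ℕ := hyperfilter ℕ with h𝒰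
  have hinj : Function.Injective fun n : ℕ => h ^ n := by
    have key : ∀ i j : ℕ, i < j → h ^ i ≠ h ^ j := by
      intro i j hij heq
      apply htf h hh (j - i) (by omega)
      have : h ^ j = h ^ i * h ^ (j - i) := by rw [← pow_add]; congr 1; omega
      rw [this] at heq
      exact (mul_eq_left.1 heq.symm)
    intro i j hij
    by_contra hne
    rcases lt_or_gt_of_ne hne with h' | h'
    · exact key i j h' hij
    · exact key j i h' hij.symm
  have hk : Tendsto (fun n : ℕ => h ^ n) 𝒰 cofinite :=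
    hinj.tendsto_cofinite.mono_left (Filter.hyperfilter_le_cofinite)
  obtain ⟨x, hxl⟩ := exists_lim_ultra hS 𝒰 (fun n : ℕ => hb hS (h ^ n))
    (fun n => abs_hb_le hS _)
  obtain ⟨y, hyl⟩ := exists_lim_ultra hS 𝒰 (fun n : ℕ => hb hS (h ^ n)⁻¹)
    (fun n => abs_hb_le hS _)
  have key : ∀ p : G → G → ℝ, p ∈ closure (range (hb hS)) → act h p = p → p ≠ y → p = x := by
    intro p hp hfp hne
    have h1 := conv_prop hS hF hk hxl hyl (β := fun _ => p) (fun _ => hp) tendsto_const_nhds hne
    have h2 : ∀ n : ℕ, act (h ^ n) p = p := by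
      intro n
      induction n with
      | zero => rw [pow_zero, Vale.Agent.P239.F.act_one]
      | succ n ih => rw [pow_succ, ← Vale.Agent.P239.F.act_act, hfp, ih]
    simp only [h2] at h1
    exact tendsto_nhds_unique tendsto_const_nhds h1
  by_cases h1 : a = y
  · by_cases h2 : b = y
    · exact Or.inl (h1.trans h2.symm)
    · by_cases h3 : c = y
      · exact Or.inr (Or.inr (h1.trans h3.symm))
      · exact Or.inr (Or.inl ((key b hb' hfb h2).trans (key c hc hfc h3).symm))
  · by_cases h2 : b = y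
    · by_cases h3 : c = y
      · exact Or.inr (Or.inl (h2.trans h3.symm))
      · exact Or.inr (Or.inr ((key a ha hfa h1).trans (key c hc hfc h3).symm))
    · exact Or.inl ((key a ha hfa h1).trans (key b hb' hfb h2).symm)

/-! ### the input -/

/-- what is used -/
structure BIn (hyp : Hyp S T) (F : Finset G) : Prop where
  cross : CrossProp S F
  nb : ∀ β ∈ Lim hyp.gen univ, NB hyp.toHypS {β}
  nest : ∀ (A B : Set G) (c d : G → G → ℝ), IsCut hyp.gen A c → Nontriv hyp.gen A c →
    IsCut hyp.gen B d → Nontriv hyp.gen B d → c ≠ d →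
    HH S A ⊆ HH S B ∨ HH S B ⊆ HH S A ∨ Disjoint (HH S A) (HH S B) ∨ HH S A ∪ HH S B = univ

variable {hyp : Hyp S T} {F : Finset G}

/-- Properties of a member of the family. -/
structure Mem (hyp : Hyp S T) (U : Set G) (c : G → G → ℝ) : Prop where
  pt : c ∈ Lim hyp.gen univ
  cb : ConvB hyp.gen (bd S U) {c}
  cbT : Conv hyp.gen (bd T U) c
  hasPhi : HasPhi S U
  lo : ∀ x ∈ U, 1 / 2 ≤ phi S U x
  hi : ∀ x, 1 / 2 < phi S U x → x ∈ U
  inf : U.Infinite
  infc : Uᶜ.Infinite

theorem BIn.mem (I : BIn hyp F) {U : Set G} {c : Pnt G} (h : (U, c) ∈ TT hyp.gen) :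
    Mem hyp U c := by
  obtain ⟨A, h1, h2, h3⟩ := h
  have hcb := (convB_singleton hyp.gen).2 h1.2
  have hB := I.nb c h1.1
  have hphi := hasPhi_of hyp.toHypS hB hcb
  have e1 : ConvB hyp.gen (bd S (HH S A)) {c} := HH_bd hyp.toHypS hphi hcb S
  have e2 : ConvB hyp.gen (bd T (HH S A)) {c} := HH_bd hyp.toHypS hphi hcb T
  obtain ⟨e3, e4⟩ := phi_HH hyp.toHypS hB hcb
  have e5 := HH_nontriv_of hyp.toHypS hphi h1.2 h2
  have i1 : (HH S A).Infinite := fun h => e5.1 (Conv.of_finite hyp.gen h c)
  have i2 : (HH S A)ᶜ.Infinite := fun h => e5.2 (Conv.of_finite hyp.gen h c)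
  rcases h3 with rfl | rfl
  · refine ⟨h1.1, e1, (convB_singleton hyp.gen).1 e2, e3, fun x hx => ?_, fun x hx => ?_, i1, i2⟩
    · rw [e4]; exact (mem_HH.1 hx).le
    · rw [e4] at hx; exact mem_HH.2 hx
  · obtain ⟨e6, e7⟩ := e3.compl hyp.toHypS
    refine ⟨h1.1, by rw [bd_compl']; exact e1, by rw [bd_compl']; exact (convB_singleton hyp.gen).1 e2,
      e6, fun x hx => ?_, fun x hx => ?_, i2, by rw [compl_compl]; exact i1⟩
    · have := e7 x
      have h4 : ¬ (1 / 2 < phi S A x) := hx
      rw [e4] at this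
      linarith only [h4, this]
    · intro h4
      have := e7 x
      have h5 := mem_HH.1 h4
      rw [e4] at this
      linarith only [h5, this, hx]

theorem BIn.cutFam [Countable G] (I : BIn hyp F) : P239S.CutFam (T : Set G) (TT hyp.gen) where
  smul := by
    rintro g U c ⟨A, h1, h2, h3⟩
    refine ⟨g • A, isCut_smul hyp.gen g h1, nontriv_smul hyp.gen g h2, ?_⟩
    rw [HH_smul']
    rcases h3 with h3 | h3
    · left; change g • U = _; rw [show U = HH S A from h3]
    · right; change g • U = _; rw [show U = (HH S A)ᶜ from h3, smul_set_compl]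
  compl := by
    rintro U c ⟨A, h1, h2, h3⟩
    refine ⟨A, h1, h2, ?_⟩
    rcases h3 with h3 | h3
    · right; change Uᶜ = _; rw [show U = HH S A from h3]
    · left; change Uᶜ = _; rw [show U = (HH S A)ᶜ from h3, compl_compl]
  nested := by
    rintro U V c d ⟨A, h1, h2, h3⟩ ⟨B, h4, h5, h6⟩ hcd
    have h := I.nest A B c d h1 h2 h4 h5 hcd
    change U = _ ∨ U = _ at h3
    change V = _ ∨ V = _ at h6
    rcases h3 with rfl | rfl <;> rcases h6 with rfl | rfl
    · rcases h with h | h | h | h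
      · exact Or.inl h
      · exact Or.inr (Or.inl h)
      · exact Or.inr (Or.inr (Or.inl h.inter_eq))
      · exact Or.inr (Or.inr (Or.inr h))
    · rcases h with h | h | h | h
      · refine Or.inr (Or.inr (Or.inl ?_))
        ext x; constructor
        · rintro ⟨a, b⟩; exact b (h a)
        · exact fun h => h.elim
      · refine Or.inr (Or.inr (Or.inr ?_))
        ext x; simp only [mem_union, mem_compl_iff, mem_univ, iff_true]
        by_cases hx : x ∈ HH S B
        · exact Or.inl (h hx)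
        · exact Or.inr hx
      · exact Or.inl fun x hx hx' => Set.disjoint_left.1 h hx hx'
      · refine Or.inr (Or.inl fun x hx => ?_)
        have : x ∈ HH S A ∪ HH S B := h ▸ mem_univ x
        exact this.resolve_right hx
    · rcases h with h | h | h | h
      · refine Or.inr (Or.inr (Or.inr ?_))
        ext x; simp only [mem_union, mem_compl_iff, mem_univ, iff_true]
        by_cases hx : x ∈ HH S A
        · exact Or.inr (h hx)
        · exact Or.inl hx
      · refine Or.inr (Or.inr (Or.inl ?_))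
        ext x; constructor
        · rintro ⟨a, b⟩; exact a (h b)
        · exact fun h => h.elim
      · exact Or.inr (Or.inl fun x hx hx' => Set.disjoint_left.1 h hx' hx)
      · refine Or.inl fun x hx => ?_
        have : x ∈ HH S A ∪ HH S B := h ▸ mem_univ x
        exact this.resolve_left hx
    · rcases h with h | h | h | h
      · exact Or.inr (Or.inl (compl_subset_compl.2 h))
      · exact Or.inl (compl_subset_compl.2 h)
      · refine Or.inr (Or.inr (Or.inr ?_))
        rw [← compl_inter, h.inter_eq, compl_empty]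
      · refine Or.inr (Or.inr (Or.inl ?_))
        rw [← compl_union, h, compl_univ]
  fin := by
    intro U V c d hU hV hcd
    have h1 := (I.mem hU).cbT
    have h2 := (I.mem hV).cbT
    refine (h1.finite_inter hyp.gen (h2.compl_mem hyp.gen (Ne.symm hcd))).subset ?_
    rintro x ⟨hxU, hxV, y, hxy, hyU, hyV⟩
    have hadj : Adj T x y := ⟨x⁻¹ * y, hxy, Or.inl (mul_inv_cancel_left x y).symm⟩
    exact ⟨⟨y, hadj, fun h => hyU (h.1 hxU)⟩, ⟨y, hadj, fun h => hyV (h.1 hxV)⟩⟩
  inf := by
    intro U c hU hfin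
    have hm := I.mem hU
    set D := P239S.Ov (T : Set G) U U with hD
    have hfin' : (bd S U).Finite := by
      refine (hfin.union (S.finite_toSet.biUnion (t := fun s => (fun x => x * s) '' D)
        fun s _ => hfin.image _)).subset ?_
      rintro x ⟨y, hxy, hne⟩
      have hxy' : x⁻¹ * y ∈ S := by
        obtain ⟨s, hs, h | h⟩ := hxy
        · rw [h, inv_mul_cancel_left]; exact hs
        · rw [h]
          have : (y * s)⁻¹ * y = s⁻¹ := by group
          rw [this]; exact hyp.symS s hs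
      have hyx' : y⁻¹ * x ∈ S := by
        have := hyp.symS _ hxy'
        rwa [mul_inv_rev, inv_inv] at this
      by_cases hx : x ∈ U
      · left
        have hy : y ∉ U := fun hy => hne ⟨fun _ => hy, fun _ => hx⟩
        exact ⟨hx, hx, y, hyp.sub hxy', hy, hy⟩
      · right
        have hy : y ∈ U := by
          by_contra hy
          exact hne ⟨fun h => absurd h hx, fun h => absurd h hy⟩
        simp only [mem_iUnion]
        exact ⟨y⁻¹ * x, hyx', y, ⟨hy, hy, x, hyp.sub hyx', hx, hx⟩, mul_inv_cancel_left y x⟩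
    rcases hyp.oneEnd U hfin' with h | h
    · exact hm.inf h
    · exact hm.infc h
  three := by
    rintro h U V W a b c hh ha hb' hc hfa hfb hfc
    exact fix_three hyp.gen I.cross hyp.tf hh (pt_closure hyp.gen (I.mem ha).pt)
      (pt_closure hyp.gen (I.mem hb').pt) (pt_closure hyp.gen (I.mem hc).pt) hfa hfb hfc

theorem BIn.deepFam (I : BIn hyp F) : P239S.DeepFam S (TT hyp.gen) where
  deep1 := by
    intro U c hU N
    have hm := I.mem hU
    have hB := I.nb c hm.pt
    obtain ⟨A, h1, h2, h3⟩ := hU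
    -- constant sequence
    have hc1 : HasPhi S (U) := hm.hasPhi
    have hpos : ∃ y, 1 / 2 ≤ phi S U y := by
      obtain ⟨y, hy⟩ := hm.inf.nonempty
      exact ⟨y, hm.lo y hy⟩
    obtain ⟨y, hy⟩ := hpos
    obtain ⟨K, hK, hK', hK''⟩ := H.depth_inf hyp.toHypS (A := fun _ => U) (B := fun _ => {c})
      (fun _ => hB) (fun _ => hc1) (fun _ => hm.cb) (fun _ _ => le_rfl) (y := y)
      (r := 1 / 2) (by norm_num) (fun _ => hy) N (c := 1 / 2) (by norm_num)
    exact ⟨K, hK, hK', fun x hx f hf => hm.hi _ (hK'' x hx f hf 0)⟩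
  deep2 := by
    intro U c hU hc hmono hy N
    obtain ⟨y, hy⟩ := hy
    have hm := fun n => I.mem (hU n)
    have hcompl : ∀ n, HasPhi S (U n)ᶜ ∧ ∀ x, phi S (U n) x + phi S (U n)ᶜ x = 1 := fun n =>
      (hm n).hasPhi.compl hyp.toHypS
    have hlow : ∀ n, 1 / 2 ≤ phi S (U n)ᶜ y := by
      intro n
      by_contra hcon
      refine hy n ((hm n).hi y ?_)
      have := (hcompl n).2 y
      linarith only [this, hcon]
    obtain ⟨K, hK, hK', hK''⟩ := H.depth_inf hyp.toHypS (A := fun n => (U n)ᶜ)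
      (B := fun n => {c n}) (fun n => I.nb _ (hm n).pt) (fun n => (hcompl n).1)
      (fun n => by rw [bd_compl']; exact (hm n).cb)
      (fun n x => (hcompl (n + 1)).1.mono (hcompl n).1 (compl_subset_compl.2 (hmono n)) x) (y := y)
      (r := 1 / 2) (by norm_num) hlow N (c := 1 / 2) (by norm_num)
    refine ⟨K, hK, hK', fun x hx f hf n h => ?_⟩
    have h1 := hK'' x hx f hf n
    have h2 := (hm n).lo _ h
    have h3 := (hcompl n).2 (x * f)
    linarith only [h3, h2, h1]

/-- Finitely many centres separate two vertices. -/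
theorem BIn.fin [Countable G] (I : BIn hyp F) (x y : G) :
    {c : G → G → ℝ | ∃ A : Set G, IsCut hyp.gen A c ∧ Nontriv hyp.gen A c ∧
      x ∈ HH S A ∧ y ∉ HH S A}.Finite := by
  have h1T : (1 : G) ∈ T := hyp.sub hyp.oneS
  have hcap : P239S.CapProp S T :=
    P239.S.cap h1T hyp.symS hyp.symT hyp.sub hyp.oneEnd hyp.exS hyp.fill
  refine (P239S.discrete hcap hyp.symS hyp.gen hyp.sub hyp.symT h1T hyp.tf I.cutFam I.deepFam
    x y).subset ?_
  rintro c ⟨A, h1, h2, h3, h4⟩
  exact ⟨HH S A, ⟨A, h1, h2, Or.inl rfl⟩, h3, h4⟩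

end Vale.Agent.P239.F.BF
end

section

/-!
Module C0, part e: walls of superlevel sets of harmonic functions have infinite components.
-/

namespace Vale.Agent.P239.F

open Filter Topology Set
open Vale.Agent.P239

variable {G : Type*} [Group G] {S T : Finset G}

/-- the strict maximum principle for finite sets -/
theorem false_of_finite_max (hp : HypS S) {h : G → ℝ} (hh : avg S h = h) {E : Set G}
    (hE : E.Finite) (hne : E.Nonempty)
    (hb : ∀ x ∈ E, ∀ s ∈ S, x * s ∉ E → h (x * s) < h x) : False := by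
  obtain ⟨m, hmE, hm⟩ := hE.exists_maximalFor h E hne
  have hm' : ∀ y ∈ E, h y ≤ h m := fun y hy => by
    rcases le_total (h y) (h m) with h1 | h1
    · exact h1
    · exact hm hy h1
  have key : ∀ x ∈ E, h x = h m → ∀ s ∈ S, x * s ∈ E ∧ h (x * s) = h m := by
    intro x hx hxm s hs
    have h1 : ∑ s ∈ S, (h x - h (x * s)) = 0 := by
      have h2 := harm_of_avg_eq hp hh x
      rw [← neg_eq_zero, ← Finset.sum_neg_distrib]
      rw [← h2]
      exact Finset.sum_congr rfl fun _ _ => by ring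
    have hnn : ∀ s ∈ S, 0 ≤ h x - h (x * s) := by
      intro s hs
      by_cases hxs : x * s ∈ E
      · have := hm' _ hxs; linarith
      · have := hb x hx s hs hxs; linarith only [this]
    have h3 := (Finset.sum_eq_zero_iff_of_nonneg hnn).1 h1 s hs
    have hin : x * s ∈ E := by
      by_contra hxs
      have := hb x hx s hs hxs; linarith only [h3, this]
    exact ⟨hin, by linarith only [hxm, h3]⟩
  have hall : ∀ g : G, g ∈ E ∧ h g = h m := by
    intro g
    have hg : m⁻¹ * g ∈ Subgroup.closure (S : Set G) := by rw [hp.gen]; trivial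
    have key2 : ∀ k ∈ Subgroup.closure (S : Set G), m * k ∈ E ∧ h (m * k) = h m := by
      intro k hk
      induction hk using Subgroup.closure_induction_right with
      | one => rw [mul_one]; exact ⟨hmE, rfl⟩
      | mul_right k _ s hs ih =>
        rw [← mul_assoc]; exact key _ ih.1 ih.2 s hs
      | mul_inv_cancel k _ s hs ih =>
        rw [← mul_assoc]; exact key _ ih.1 ih.2 s⁻¹ (hp.symS s hs)
    have := key2 _ hg
    rwa [mul_inv_cancel_left] at this
  have := hp.inf
  exact Set.infinite_univ (hE.subset fun g _ => (hall g).1)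

end Vale.Agent.P239.F
end

section

/-!
Module C0, part f: the harmonic function and the canonical set of a cut, final form.
`Orb` = all orbits of points are infinite.
-/

namespace Vale.Agent.P239.F

open Filter Topology Set
open Vale.Agent.P239
open scoped Pointwise

variable {G : Type*} [Group G] {S : Finset G}

/-- all orbits of points are infinite -/
def Orb (hS : Subgroup.closure (S : Set G) = ⊤) : Prop :=
  ∀ β ∈ Lim hS univ, (range fun g : G => act g β).Infinite

/-! ### equivariance, for all sets -/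

section

variable (hp : HypS S) (ho : Orb hp.gen)

include ho in
theorem nb_orb {β : G → G → ℝ} (hβ : β ∈ Lim hp.gen univ) : NB hp {β} := by
  refine nb_of hp fun γ hγ x => ?_
  rw [Finset.mem_singleton] at hγ
  subst hγ
  exact top_eq_one hp (ho γ hβ) x

theorem cut_convB {A : Set G} {β : G → G → ℝ} (hA : IsCut hp.gen A β) :
    ConvB hp.gen (bd S A) {β} := (convB_singleton hp.gen).2 hA.2

variable {A B : Set G} {β β' : G → G → ℝ}

include ho

theorem cut_hasPhi (hA : IsCut hp.gen A β) : HasPhi S A :=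
  hasPhi_of hp (nb_orb hp ho hA.1) (cut_convB hp hA)

theorem phi_harm (hA : IsCut hp.gen A β) : avg S (phi S A) = phi S A :=
  (cut_hasPhi hp ho hA).harm

theorem phi_le_one (hA : IsCut hp.gen A β) (x : G) : phi S A x ≤ 1 :=
  (cut_hasPhi hp ho hA).le_one hp x

theorem phi_compl (hA : IsCut hp.gen A β) (x : G) : phi S Aᶜ x = 1 - phi S A x := by
  have := ((cut_hasPhi hp ho hA).compl hp).2 x
  linarith

/-- comparison up to a set accumulating at one point -/
theorem phi_le_of (hA : HasPhi S A) (hB : HasPhi S B) (hβ : β ∈ Lim hp.gen univ)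
    (h : Conv hp.gen (A \ B) β) (x : G) : phi S A x ≤ phi S B x := by
  have h1 : ConvB hp.gen (symmDiff A (A ∩ B)) {β} := by
    refine (convB_singleton hp.gen).2 ?_
    refine (show Conv hp.gen (symmDiff A (A ∩ B)) β from ?_)
    have : symmDiff A (A ∩ B) = A \ B := by
      ext y
      rw [Set.mem_symmDiff, mem_inter_iff, Set.mem_sdiff]
      (clear * -; tauto)
    rwa [this]
  obtain ⟨h2, h3⟩ := phi_congr_of hp (nb_orb hp ho hβ) hA h1
  rw [← h3 x]
  exact h2.mono hB inter_subset_right x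

theorem phi_mono' (hA : IsCut hp.gen A β) (hB : IsCut hp.gen B β')
    (h : Conv hp.gen (A \ B) β) (x : G) : phi S A x ≤ phi S B x :=
  phi_le_of hp ho (cut_hasPhi hp ho hA) (cut_hasPhi hp ho hB) hA.1 h x

/-- the canonical set differs from the cut only near the centre -/
theorem HH_near (hA : IsCut hp.gen A β) : Conv hp.gen (symmDiff (HH S A) A) β :=
  (convB_singleton hp.gen).1 (symmDiff_comm_convB hp.gen
    (symmDiff_HH hp (cut_hasPhi hp ho hA) (cut_convB hp hA)))

theorem HH_mono (hA : IsCut hp.gen A β) (hB : IsCut hp.gen B β)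
    (h : Conv hp.gen (A \ B) β) : HH S A ⊆ HH S B := fun x hx => by
  rw [mem_HH] at hx ⊢
  exact hx.trans_le (phi_mono' hp ho hA hB h x)

theorem phi_add_le_one (hA : IsCut hp.gen A β) (hB : IsCut hp.gen B β') {γ : G → G → ℝ}
    (hγ : γ ∈ Lim hp.gen univ) (h : Conv hp.gen (A ∩ B) γ) (x : G) :
    phi S A x + phi S B x ≤ 1 := by
  have h1 := phi_le_of hp ho (A := A) (B := Bᶜ) (cut_hasPhi hp ho hA)
    ((cut_hasPhi hp ho hB).compl hp).1 hγ (by rwa [sdiff_compl]) x
  rw [phi_compl hp ho hB] at h1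
  linarith only [h1]

theorem HH_disj (hA : IsCut hp.gen A β) (hB : IsCut hp.gen B β)
    (h : Conv hp.gen (A ∩ B) β) : Disjoint (HH S A) (HH S B) := by
  rw [Set.disjoint_left]
  intro x hx hx'
  rw [mem_HH] at hx hx'
  have := phi_add_le_one hp ho hA hB hA.1 h x
  linarith

/-- unions of components of the canonical set do not converge to the centre -/
theorem HH_comp (hA : IsCut hp.gen A β) {C : Set G} (hC : C ⊆ HH S A) (hne : C.Nonempty)
    (hcl : ∀ x ∈ C, ∀ y ∈ HH S A, Adj S x y → y ∈ C) : ¬ Conv hp.gen C β := by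
  intro hconv
  set v : G → ℝ := C.indicator (fun x => phi S A x - 1 / 2) with hv
  have hsub : ∀ x, v x ≤ avg S v x := by
    intro x
    by_cases hx : x ∈ C
    · have h1 : v x = phi S A x - 1 / 2 := indicator_of_mem hx _
      have h2 : avg S (phi S A - fun _ => (1 / 2 : ℝ)) x = phi S A x - 1 / 2 := by
        rw [avg_sub, phi_harm hp ho hA, avg_const hp]; rfl
      rw [h1, ← h2]
      show (∑ s ∈ S, (phi S A - (fun _ => (1 / 2 : ℝ)) : G → ℝ) (x * s)) / S.card ≤
        (∑ s ∈ S, v (x * s)) / S.card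
      refine div_le_div_of_nonneg_right (Finset.sum_le_sum fun s hs => ?_) (Nat.cast_nonneg _)
      show phi S A (x * s) - 1 / 2 ≤ v (x * s)
      by_cases hxs : x * s ∈ C
      · rw [hv, indicator_of_mem hxs]
      · rw [hv, indicator_of_notMem hxs]
        have h3 : x * s ∉ HH S A := fun h => hxs (hcl x hx _ h ⟨s, hs, Or.inl rfl⟩)
        rw [mem_HH, not_lt] at h3
        (clear * - h3; linarith only [h3])
    · rw [hv, indicator_of_notMem hx]
      refine div_nonneg (Finset.sum_nonneg fun s _ => ?_) (Nat.cast_nonneg _)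
      refine indicator_nonneg (fun y hy => ?_) _
      have := mem_HH.1 (hC hy)
      linarith only [this]
  have hiter : ∀ n x, v x ≤ ((avg S)^[n] v) x := by
    intro n
    induction n with
    | zero => intro x; exact le_rfl
    | succ n ih =>
      intro x
      rw [Function.iterate_succ_apply']
      exact (hsub x).trans (avg_mono ih x)
  have hle : ∀ x, v x ≤ C.indicator (1 : G → ℝ) x := by
    intro x
    by_cases hx : x ∈ C
    · rw [hv, indicator_of_mem hx, indicator_of_mem hx]
      have := phi_le_one hp ho hA x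
      show phi S A x - 1 / 2 ≤ 1
      linarith only [this]
    · rw [hv, indicator_of_notMem hx, indicator_of_notMem hx]
  obtain ⟨x, hx⟩ := hne
  have hz := iter_zero_of_conv hp (nb_orb hp ho hA.1) ((convB_singleton hp.gen).2 hconv) x
  have h1 : v x ≤ 0 := ge_of_tendsto' hz fun n => (hiter n x).trans (iter_mono hle n x)
  rw [hv, indicator_of_mem hx] at h1
  have := mem_HH.1 (hC hx)
  linarith only [h1, this]

end

end Vale.Agent.P239.F
end

section

/-! Assembly of the structure `CIn`. -/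

namespace Vale.Agent.P239.F.BF

open Filter Topology Set
open Vale.Agent.P239 Vale.Agent.P239.F Vale.Agent.P239.F.N
open scoped Pointwise

variable {G : Type*} [Group G] {S T : Finset G}

/-! ### the staying probability -/

theorem kil_smul (g : G) (U : Set G) (f : G → ℝ) (x : G) :
    kil S (g • U) (fun y => f (g⁻¹ * y)) x = kil S U f (g⁻¹ * x) := by
  unfold kil
  by_cases hx : g⁻¹ * x ∈ U
  · have hx' : x ∈ g • U := by rw [mem_smul_set_iff_inv_smul_mem]; exact hx
    rw [indicator_of_mem hx, indicator_of_mem hx']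
    simp only [avg, mul_assoc]
  · have hx' : x ∉ g • U := by rw [mem_smul_set_iff_inv_smul_mem]; exact hx
    rw [indicator_of_notMem hx, indicator_of_notMem hx']

theorem stay_smul (g : G) (U : Set G) (x : G) : stay S (g • U) x = stay S U (g⁻¹ * x) := by
  have key : ∀ n, (kil S (g • U))^[n] ((g • U).indicator 1) =
      fun y => (kil S U)^[n] (U.indicator 1) (g⁻¹ * y) := by
    intro n
    induction n with
    | zero =>
      funext y
      by_cases hx : g⁻¹ * y ∈ U
      · have hx' : y ∈ g • U := by rw [mem_smul_set_iff_inv_smul_mem]; exact hx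
        simp only [Function.iterate_zero, id_eq]
        rw [indicator_of_mem hx, indicator_of_mem hx']; rfl
      · have hx' : y ∉ g • U := by rw [mem_smul_set_iff_inv_smul_mem]; exact hx
        simp only [Function.iterate_zero, id_eq]
        rw [indicator_of_notMem hx, indicator_of_notMem hx']
    | succ n ih =>
      funext y
      rw [Function.iterate_succ_apply', Function.iterate_succ_apply', ih, kil_smul]
  unfold stay
  congr 1
  funext n
  rw [key]

theorem exists_lower {F : Set G} (hF : F.Finite) (P : G → Prop) (f : G → ℝ)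
    (hpos : ∀ x, P x → 0 < f x) : ∃ c : ℝ, 0 < c ∧ c ≤ 1 ∧ ∀ x ∈ F, P x → c ≤ f x := by
  induction F, hF using Set.Finite.induction_on with
  | empty => exact ⟨1, one_pos, le_rfl, fun x hx => hx.elim⟩
  | @insert a s _ _ ih =>
    obtain ⟨c, h1, h2, h3⟩ := ih
    by_cases ha : P a
    · refine ⟨min c (f a), lt_min h1 (hpos a ha), (min_le_left _ _).trans h2, ?_⟩
      rintro x (rfl | hx) hP
      · exact min_le_right _ _
      · exact (min_le_left _ _).trans (h3 x hx hP)
    · refine ⟨c, h1, h2, ?_⟩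
      rintro x (rfl | hx) hP
      · exact absurd hP ha
      · exact h3 x hx hP

section

variable (hp : HypS S) (ho : Orb hp.gen)

include ho

theorem HH_stay (A C : Set G) (β : G → G → ℝ) (F : Set G) (hA : IsCut hp.gen A β) (hF : F.Finite)
    (hco : ∀ x ∈ HH S A, x ∈ bd S (HH S A) → ∃ g : G, g • HH S A = HH S A ∧ g * x ∈ F)
    (hC : C ⊆ HH S A) (hb' : {x | x ∈ C ∧ ∃ y ∈ HH S A \ C, Adj S x y}.Finite)
    (hconv : Conv hp.gen C β) : C.Finite := by
  have hpos : ∀ x, x ∈ HH S A → 0 < stay S (HH S A) x := by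
    intro x hx
    have h1 := stay_ge hp (phi_harm hp ho hA) (fun x => phi_le_one hp ho hA x) x
    have h2 := mem_HH.1 hx
    have h3 : stay S {x | 1 / 2 < phi S A x} x = stay S (HH S A) x := rfl
    rw [h3] at h1
    linarith only [h2, h1]
  obtain ⟨c, hc0, hc1, hc⟩ := exists_lower hF (fun x => x ∈ HH S A) (stay S (HH S A)) hpos
  have hst : ∀ x ∈ HH S A, c ≤ stay S (HH S A) x := by
    refine stay_ge_of_boundary hp hc1 ?_
    rintro x hx ⟨s, hs, hxs⟩
    obtain ⟨g, hg, hgx⟩ := hco x hx ⟨x * s, ⟨s, hs, Or.inl rfl⟩, fun h => hxs (h.1 hx)⟩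
    have h1 : g * x ∈ HH S A := by
      rw [← hg]
      exact smul_mem_smul_set hx
    have h2 := hc _ hgx h1
    have h3 := stay_smul (S := S) g (HH S A) (g * x)
    rw [hg, inv_mul_cancel_left] at h3
    rwa [h3] at h2
  refine finite_of_stay hp hc0 hst hC hb' ?_
    (fun x => iter_zero_of_conv hp (nb_orb hp ho hA.1) ((convB_singleton hp.gen).2 hconv) x)
  intro x hx hxF s hs hxs
  by_contra hcon
  exact hxF ⟨hx, x * s, ⟨hxs, hcon⟩, s, hs, Or.inl rfl⟩

end

/-! ### compactness -/

variable (hS : Subgroup.closure (S : Set G) = ⊤)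

theorem lim_nonempty (A : Set G) (hA : A.Infinite) : (Lim hS A).Nonempty := by
  have := hA.cofinite_inf_principal_neBot
  obtain ⟨β, hβ⟩ := exists_lim_ultra hS (Ultrafilter.of (cofinite ⊓ 𝓟 A)) (hb hS)
    (fun n => abs_hb_le hS _)
  exact ⟨β, (hβ.mapClusterPt).mono (Ultrafilter.of_le _)⟩

theorem conv_iff' (A : Set G) (β : G → G → ℝ) : Conv hS A β ↔ ∀ β' ∈ Lim hS A, β' = β := by
  constructor
  · intro h β' hβ'
    by_contra hne
    exact (conv_iff_lim hS).2 (h.compl_mem hS (Ne.symm hne)) hβ'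
  · intro h
    unfold Conv
    rw [tendsto_iff_ultrafilter]
    intro U hU
    obtain ⟨β', hβ'⟩ := exists_lim_ultra hS U (hb hS) (fun n => abs_hb_le hS _)
    have h1 : β' ∈ Lim hS A := hβ'.mapClusterPt.mono hU
    rw [← h β' h1]
    exact hβ'

theorem exists_limP (U : Ultrafilter G) (q : G → G → G → ℝ) (hq : ∀ n, q n ∈ Lim hS univ) :
    ∃ β ∈ Lim hS univ, Tendsto q U (𝓝 β) := by
  obtain ⟨β, hβ⟩ := exists_lim_ultra hS U q
    (fun n => closure_abs_le hS (pt_closure hS (hq n)))
  refine ⟨β, ?_, hβ⟩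
  rw [mem_lim]
  intro O hO
  obtain ⟨O', hO', hop, hmem⟩ := mem_nhds_iff.1 hO
  obtain ⟨n, hn⟩ := (hβ.eventually (hop.mem_nhds hmem)).exists
  exact ((mem_lim hS).1 (hq n) O' (hop.mem_nhds hn)).mono fun x hx => ⟨trivial, hO' hx.2⟩

/-- **Assembly of `CIn`.** -/
theorem cIn_of [Countable G] (hyp : Hyp S T) {F : Finset G} (hF : CrossProp S F)
    (orb : Orb hyp.gen)
    (ne_hb : ∀ β ∈ Lim hyp.gen univ, ∀ z : G, β ≠ hb hyp.gen z)
    (const_near : ∀ β ∈ Lim hyp.gen univ, ∀ A : Set G, β ∉ Lim hyp.gen (bd S A) →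
      β ∉ Lim hyp.gen A ∨ β ∉ Lim hyp.gen Aᶜ)
    (fin_act : ∀ (U : Ultrafilter G) (k : G → G) (c x : G → G → ℝ), c ∈ Lim hyp.gen univ →
      IsFin hyp.gen c → Tendsto k U cofinite → Tendsto (fun n => hb hyp.gen (k n)) U (𝓝 x) →
      Tendsto (fun n => act (k n) c) U (𝓝 x))
    (cm : ∀ (g s : G) (a b : G → G → ℝ), a ∈ Lim hyp.gen univ → b ∈ Lim hyp.gen univ → a ≠ b →
      Tendsto (fun n : ℕ => hb hyp.gen (g ^ n)) atTop (𝓝 a) →
      Tendsto (fun n : ℕ => hb hyp.gen (g⁻¹ ^ n)) atTop (𝓝 b) → act s b = b → act s a = a)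
    (nest : ∀ (A B : Set G) (c d : G → G → ℝ), IsCut hyp.gen A c → Nontriv hyp.gen A c →
      IsCut hyp.gen B d → Nontriv hyp.gen B d → c ≠ d →
      HH S A ⊆ HH S B ∨ HH S B ⊆ HH S A ∨ Disjoint (HH S A) (HH S B) ∨
        HH S A ∪ HH S B = univ) : CIn hyp.gen T where
  hyp := hyp
  lim_nonempty := lim_nonempty hyp.gen
  conv_iff := conv_iff' hyp.gen
  exists_lim := fun U k => exists_lim_ultra hyp.gen U (fun n => hb hyp.gen (k n))
    (fun n => abs_hb_le hyp.gen _)
  exists_limP := exists_limP hyp.gen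
  ne_hb := ne_hb
  shift := fun U k β s hk h => tendsto_hb_mulV hyp.gen hk h s
  act_hb := fun g z => Vale.Agent.P239.F.act_hb hyp.gen g z
  const_near := const_near
  cvg := by
    intro U k w x y q hk hx hy hw hne
    have := conv_prop hyp.gen hF hk hx hy (β := fun n => hb hyp.gen (w n))
      (fun n => subset_closure ⟨w n, rfl⟩) hw hne
    simpa only [Vale.Agent.P239.F.act_hb] using this
  cvgP := by
    intro U k p x y q hk hp hx hy hpq hne
    exact conv_prop hyp.gen hF hk hx hy (β := p) (fun n => pt_closure hyp.gen (hp n)) hpq hne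
  fin_act := fin_act
  cm := cm
  orb := orb
  two := by
    have hinf : (univ : Set G).Infinite := by
      have := hyp.inf
      exact Set.infinite_univ
    obtain ⟨β, hβ⟩ := lim_nonempty hyp.gen univ hinf
    refine ⟨β, hβ, ?_⟩
    by_contra hcon
    push Not at hcon
    refine orb β hβ ((Set.finite_singleton β).subset ?_)
    rintro _ ⟨g, rfl⟩
    exact (hcon _ (lim_smul hyp.gen g hβ)).symm
  HH_smul := fun g A => HH_smul' g A
  HH_near := fun A β hA => HH_near hyp.toHypS orb hA
  HH_mono := fun A B β hA hB h => HH_mono hyp.toHypS orb hA hB h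
  HH_disj := fun A B β hA hB h => HH_disj hyp.toHypS orb hA hB h
  HH_comp := fun A C β hA hC hne hcl => HH_comp hyp.toHypS orb hA hC hne hcl
  HH_stay := HH_stay hyp.toHypS orb
  nest := nest
  fin := by
    intro x y hxy
    have I : BIn hyp F := ⟨hF, fun β hβ => nb_orb hyp.toHypS orb hβ, nest⟩
    refine (I.fin x y).subset ?_
    rintro c ⟨_, A, h1, h2, h3, h4⟩
    exact ⟨A, h1, h2, h3, h4⟩

end Vale.Agent.P239.F.BF
end

section

/-!
Orbits of points are infinite; (CM).
-/

namespace Vale.Agent.P239.F.P0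

open Filter Topology Set
open Vale.Agent.P239 Vale.Agent.P239.F Vale.Agent.P239.F.D
open scoped RealInnerProductSpace

variable {G : Type*} [Group G] {S T : Finset G}

/-- the vertices do not converge to one point -/
theorem not_tendsto (hp : HypS S) (hd : HasHD S) (β : G → G → ℝ) :
    ¬ Tendsto (hb hp.gen) cofinite (𝓝 β) := by
  intro hβ
  obtain ⟨u, hu, x, y, hxy⟩ := hd
  have hinf := hp.inf
  -- every potential has a limit at infinity
  have hlim : ∀ z : G, ∃ L : ℝ, Tendsto (fun w => (pot hp.gen z).1 w) cofinite (𝓝 L) := by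
    intro z
    have h1 : Tendsto (fun w => hb hp.gen w z 1) cofinite (𝓝 (β z 1)) :=
      (tendsto_pi_nhds.1 (tendsto_pi_nhds.1 hβ z)) 1
    refine ⟨(gp hp.gen z z - β z 1) / 2 + (pot hp.gen z).1 1, ?_⟩
    refine (((h1.const_sub (gp hp.gen z z)).div_const 2).add_const _).congr fun w => ?_
    rw [D.hb_eq, gp_one, gp_one, gp_eq hp.gen z w]
    ring
  -- the harmonic part of a potential is constant
  have hconst : ∀ z : G, ∃ L : ℝ, ∀ w, (HpD hp (pot hp.gen z)).1 w = L := by
    intro z
    obtain ⟨L, hL⟩ := hlim z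
    have h1 : Tendsto (fun w => (HpD hp (pot hp.gen z)).1 w) cofinite (𝓝 L) := by
      have h2 := hL.sub (Hp_infty hp (pot hp.gen z))
      rw [sub_zero] at h2
      exact h2.congr fun w => by ring
    have key : ∀ h : G → ℝ, avg S h = h → ∀ L, Tendsto h cofinite (𝓝 L) → ∀ w, h w ≤ L := by
      intro h hh L hL w
      by_contra hlt
      push Not at hlt
      have hfin : {v | h w ≤ h v}.Finite := by
        have h3 := hL.eventually_lt_const hlt
        rw [eventually_cofinite] at h3
        exact h3.subset fun v (hv : h w ≤ h v) => not_lt.2 hv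
      refine false_of_finite_max hp hh hfin ⟨w, show h w ≤ h w from le_rfl⟩ ?_
      intro v hv s hs hvs
      have hv' : h w ≤ h v := hv
      have hvs' : ¬ h w ≤ h (v * s) := hvs
      exact (not_le.1 hvs').trans_le hv'
    refine ⟨L, fun w => le_antisymm (key _ (Hp_harm hp _) L h1 w) ?_⟩
    have h2 := key (fun w => - (HpD hp (pot hp.gen z)).1 w) ?_ (-L) h1.neg w
    · have h3 : -(HpD hp (pot hp.gen z)).1 w ≤ -L := h2
      linarith
    · have h3 : (fun w => - (HpD hp (pot hp.gen z)).1 w) =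
        (-1 : ℝ) • (HpD hp (pot hp.gen z)).1 := by ext w; simp only [Pi.smul_apply, smul_eq_mul, neg_mul, one_mul]
      rw [h3, avg_smul, Hp_harm]
  have horth := orth_of_harm hp.symS hu
  have hall : ∀ z, u.1 z = u.1 1 := by
    intro z
    obtain ⟨φ, hφ, hφ2, -⟩ := Hp_spec hp (pot hp.gen z)
    obtain ⟨L, hL⟩ := hconst z
    have h1 := pot_isPot hp.gen z u
    have h2 : en S (pot hp.gen z) u = 0 := by
      rw [hφ, en_add_left, en_comm S φ u, horth φ hφ2, add_zero, en]
      have h3 : grad S (HpD hp (pot hp.gen z)) = 0 := by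
        refine lp.ext (funext fun p => ?_)
        rw [grad_apply, hL, hL, sub_self]; rfl
      rw [h3, inner_zero_left]
    rw [h2] at h1
    linarith only [h1]
  exact hxy ((hall x).trans (hall y).symm)

/-- ultrafilter description of the points at infinity -/
theorem mem_Lim_univ (hS : Subgroup.closure (S : Set G) = ⊤) {β : G → G → ℝ} :
    β ∈ Lim hS univ ↔ ∃ U : Ultrafilter G, (U : Filter G) ≤ cofinite ∧
      Tendsto (hb hS) U (𝓝 β) := by
  constructor
  · intro h
    have h1 : MapClusterPt β (cofinite ⊓ 𝓟 univ) (hb hS) := h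
    obtain ⟨U, hU, hU2⟩ := mapClusterPt_iff_ultrafilter.1 h1
    exact ⟨U, hU.trans inf_le_left, hU2⟩
  · rintro ⟨U, h1, h3⟩
    exact mapClusterPt_iff_ultrafilter.2 ⟨U, le_inf h1 (by simp only [principal_univ, _root_.le_top]), h3⟩

/-- there are two points at infinity -/
theorem two (hp : HypS S) (hd : HasHD S) :
    ∃ β ∈ Lim hp.gen univ, ∃ β' ∈ Lim hp.gen univ, β ≠ β' := by
  have hinf := hp.inf
  obtain ⟨β, -, hβ⟩ := exists_lim hp.gen (hyperfilter G) (fun z => z)
  have hβL : β ∈ Lim hp.gen univ := (mem_Lim_univ hp.gen).2 ⟨hyperfilter G, hyperfilter_le_cofinite, hβ⟩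
  by_contra hcon
  push Not at hcon
  refine not_tendsto hp hd β ?_
  rw [tendsto_iff_ultrafilter]
  intro U hU
  obtain ⟨γ, -, hγ⟩ := exists_lim hp.gen U (fun z => z)
  have hγL : γ ∈ Lim hp.gen univ := (mem_Lim_univ hp.gen).2 ⟨U, hU, hγ⟩
  rw [hcon β hβL γ hγL]
  exact hγ

/-- there are infinitely many points at infinity -/
theorem lim_infinite (hp : HypS S) (hoe : OneEnded S) (hd : HasHD S) :
    (Lim hp.gen univ).Infinite := by
  intro hfin
  obtain ⟨a, ha, b, hb', hab⟩ := two hp hd
  -- separate `a` from the other points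
  have hfin' : (Lim hp.gen univ \ {a}).Finite := hfin.subset sdiff_subset
  obtain ⟨O, O', hO, hO', haO, hsub, hdis⟩ :=
    SeparatedNhds.of_isCompact_isCompact (isCompact_singleton (x := a)) hfin'.isCompact
      (by rw [disjoint_singleton_left]; exact fun h => h.2 rfl)
  have haO' : a ∈ O := haO rfl
  have hpts : ∀ q ∈ Lim hp.gen univ, q ≠ a → q ∈ O' := fun q hq hne => hsub ⟨hq, hne⟩
  have hbd : {x | ∃ y, Adj S x y ∧ ¬ (x ∈ {z | hb hp.gen z ∈ O} ↔ y ∈ {z | hb hp.gen z ∈ O})}.Finite := by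
    by_contra hinf
    have hinf : Set.Infinite _ := hinf
    have hsubset : {x | ∃ y, Adj S x y ∧
        ¬ (x ∈ {z | hb hp.gen z ∈ O} ↔ y ∈ {z | hb hp.gen z ∈ O})} ⊆
        (⋃ s ∈ S, {x | ¬ (hb hp.gen x ∈ O ↔ hb hp.gen (x * s) ∈ O)}) ∪
        (⋃ s ∈ S, {x | ¬ (hb hp.gen x ∈ O ↔ hb hp.gen (x * s⁻¹) ∈ O)}) := by
      rintro x ⟨y, ⟨s, hs, h | h⟩, hne⟩
      · left; rw [mem_iUnion₂]; exact ⟨s, hs, by rw [mem_ofPred_eq, ← h]; exact hne⟩
      · right; rw [mem_iUnion₂]
        refine ⟨s, hs, ?_⟩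
        have : x * s⁻¹ = y := by rw [h, mul_inv_cancel_right]
        rw [mem_ofPred_eq, this]; exact hne
    have key : ∀ g : G, {x | ¬ (hb hp.gen x ∈ O ↔ hb hp.gen (x * g) ∈ O)}.Finite := by
      intro g
      by_contra hi
      have hi : Set.Infinite _ := hi
      have := hi.cofinite_inf_principal_neBot
      obtain ⟨U, hU⟩ := Ultrafilter.exists_le (cofinite ⊓
        𝓟 {x | ¬ (hb hp.gen x ∈ O ↔ hb hp.gen (x * g) ∈ O)})
      have hU1 : (U : Filter G) ≤ cofinite := hU.trans inf_le_left
      have hU2 : {x | ¬ (hb hp.gen x ∈ O ↔ hb hp.gen (x * g) ∈ O)} ∈ U :=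
        le_principal_iff.1 (hU.trans inf_le_right)
      obtain ⟨q, -, hq⟩ := exists_lim hp.gen U (fun z => z)
      have hqL : q ∈ Lim hp.gen univ := (mem_Lim_univ hp.gen).2 ⟨U, hU1, hq⟩
      have hq2 := tendsto_hb_mul hp.gen g (f := fun z => z) (l := (U : Filter G)) hU1 hq
      by_cases hqa : q = a
      · have h1 := hq (hO.mem_nhds (hqa ▸ haO'))
        have h2 := hq2 (hO.mem_nhds (hqa ▸ haO'))
        obtain ⟨x, hx⟩ := (U.neBot).nonempty_of_mem (inter_mem (inter_mem h1 h2) hU2)
        exact hx.2 ⟨fun _ => hx.1.2, fun _ => hx.1.1⟩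
      · have h1 := hq (hO'.mem_nhds (hpts q hqL hqa))
        have h2 := hq2 (hO'.mem_nhds (hpts q hqL hqa))
        obtain ⟨x, hx⟩ := (U.neBot).nonempty_of_mem (inter_mem (inter_mem h1 h2) hU2)
        refine hx.2 ⟨fun h => ?_, fun h => ?_⟩
        · exact absurd hx.1.1 (Set.disjoint_left.1 hdis h)
        · exact absurd hx.1.2 (Set.disjoint_left.1 hdis h)
    exact hinf (((S.finite_toSet.biUnion fun s _ => key s).union
      (S.finite_toSet.biUnion fun s _ => key s⁻¹)).subset hsubset)
  have hcl : ∀ q ∈ Lim hp.gen univ, ∀ W ∈ 𝓝 q, {x | hb hp.gen x ∈ W}.Infinite := by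
    intro q hq W hW hfin
    obtain ⟨U, hU, hUq⟩ := (mem_Lim_univ hp.gen).1 hq
    have h1 := hU hfin.compl_mem_cofinite
    have h2 : {x | hb hp.gen x ∈ W} ∈ U := hUq hW
    exact (Ultrafilter.compl_mem_iff_notMem.1 h1) h2
  rcases hoe _ hbd with h | h
  · exact hcl a ha O (hO.mem_nhds haO') h
  · refine hcl b hb' O' (hO'.mem_nhds (hpts b hb' (Ne.symm hab))) (h.subset fun x hx hx2 => ?_)
    exact Set.disjoint_left.1 hdis hx2 hx

/-! ### elements with two limit points -/

/-- `g` has the attracting point `a` and the repelling point `b` -/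
structure Lx (hS : Subgroup.closure (S : Set G) = ⊤) (g : G) (a b : G → G → ℝ) : Prop where
  ne : a ≠ b
  t1 : Tendsto (fun n : ℕ => hb hS (g ^ n)) atTop (𝓝 a)
  t2 : Tendsto (fun n : ℕ => hb hS (g⁻¹ ^ n)) atTop (𝓝 b)

section

variable {hS : Subgroup.closure (S : Set G) = ⊤} {g s : G} {a b : G → G → ℝ}

theorem Lx.inv (h : Lx hS g a b) : Lx hS g⁻¹ b a :=
  ⟨h.ne.symm, h.t2, by rw [inv_inv]; exact h.t1⟩

theorem Lx.pa (h : Lx hS g a b) : a ∈ Pt hS := Pt.of_tendsto h.t1

theorem Lx.pb (h : Lx hS g a b) : b ∈ Pt hS := Pt.of_tendsto h.t2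

theorem Lx.ne_one (h : Lx hS g a b) : g ≠ 1 := by
  rintro rfl
  have h1 := h.t1
  have h2 := h.t2
  simp only [one_pow, inv_one] at h1 h2
  exact h.ne (tendsto_nhds_unique h1 h2)

theorem pow_cofinite (htf : ∀ g : G, g ≠ 1 → ∀ n : ℕ, n ≠ 0 → g ^ n ≠ 1) (hg : g ≠ 1) :
    Tendsto (fun n : ℕ => g ^ n) atTop cofinite := by
  rw [← Nat.cofinite_eq_atTop]
  refine Function.Injective.tendsto_cofinite fun m n hmn => ?_
  have key : ∀ m n : ℕ, m < n → g ^ m ≠ g ^ n := by
    intro m n hlt heq
    refine htf g hg (n - m) (by omega) ?_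
    have : g ^ m * g ^ (n - m) = g ^ m * 1 := by
      rw [← pow_add, mul_one, heq]; congr 1; omega
    exact mul_left_cancel this
  rcases lt_trichotomy m n with h | h | h
  · exact absurd hmn (key m n h)
  · exact h
  · exact absurd hmn.symm (key n m h)

theorem Lx.fix_a (h : Lx hS g a b) : act g a = a := by
  have h1 : Tendsto (fun n : ℕ => act g (hb hS (g ^ n))) atTop (𝓝 (act g a)) :=
    ((D.continuous_act g).tendsto a).comp h.t1
  have h2 : Tendsto (fun n : ℕ => act g (hb hS (g ^ n))) atTop (𝓝 a) := by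
    refine (h.t1.comp (tendsto_add_atTop_nat 1)).congr fun n => ?_
    simp only [Function.comp]
    rw [act_hb, pow_succ']
  exact tendsto_nhds_unique h1 h2

theorem fix_inv {c : G → G → ℝ} (h : act g c = c) : act g⁻¹ c = c := by
  conv_lhs => rw [← h]
  rw [D.act_act, inv_mul_cancel, D.act_one]

theorem fix_mul {c : G → G → ℝ} (h : act g c = c) (h' : act s c = c) : act (g * s) c = c := by
  rw [← D.act_act, h', h]

theorem fix_pow {c : G → G → ℝ} (h : act g c = c) (n : ℕ) : act (g ^ n) c = c := by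
  induction n with
  | zero => rw [pow_zero, D.act_one]
  | succ n ih => rw [pow_succ]; exact fix_mul ih h

theorem Lx.fix_b (h : Lx hS g a b) : act g b = b := by
  have := fix_inv h.inv.fix_a
  rwa [inv_inv] at this

variable [Countable G] {F : Finset G} (hF : CrossProp S F)
  (htf : ∀ g : G, g ≠ 1 → ∀ n : ℕ, n ≠ 0 → g ^ n ≠ 1)

include hF htf in
/-- north-south dynamics -/
theorem Lx.tendsto_act (h : Lx hS g a b) {ι : Type*} {l : Filter ι} {k : ι → ℕ}
    (hk : Tendsto k l atTop) {p : G → G → ℝ} (hp : p ∈ Pt hS) (hpb : p ≠ b) :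
    Tendsto (fun i => act (g ^ k i) p) l (𝓝 a) := by
  refine cp_pt hS hF (k := fun i => g ^ k i) (x := a) (y := b) (p := fun _ => p)
    ((pow_cofinite htf h.ne_one).comp hk) (h.t1.comp hk) ?_ (fun _ => hp) tendsto_const_nhds hpb
  refine (h.t2.comp hk).congr fun i => ?_
  simp only [Function.comp, inv_pow]

include hF htf in
/-- **(CM)** an element fixing one end of `g` fixes the other -/
theorem cm (hg : Lx hS g a b) (hs : act s b = b) : act s a = a := by
  by_contra hne
  set a' := act s a with ha'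
  have ha'P : a' ∈ Pt hS := Pt.act hg.pa s
  have ha'b : a' ≠ b := fun h => hg.ne (act_inj (h.trans hs.symm))
  set g' := s * g * s⁻¹ with hg'
  have hfix : act g' a' = a' := by
    rw [ha', D.act_act, hg', inv_mul_cancel_right, ← D.act_act, hg.fix_a]
  have hfixb : act g' b = b := fix_mul (fix_mul hs hg.fix_b) (fix_inv hs)
  obtain ⟨u, hu, hlt⟩ : ∃ u : (G → G → ℝ) → ℝ, Continuous u ∧ u b < u a := by
    have : ∃ c d, a c d ≠ b c d := by
      by_contra hc
      push Not at hc
      exact hg.ne (funext fun c => funext fun d => hc c d)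
    obtain ⟨c, d, hcd⟩ := this
    rcases lt_or_gt_of_ne hcd with h | h
    · exact ⟨fun β => - β c d, (continuous_ev c d).neg, neg_lt_neg h⟩
    · exact ⟨fun β => β c d, continuous_ev c d, h⟩
  obtain ⟨t, ht1, ht2⟩ := exists_between hlt
  -- the points `z m = g'^(-m)` converge to `b`
  have hz : Tendsto (fun m : ℕ => hb hS (g'⁻¹ ^ m)) atTop (𝓝 b) := by
    have h1 : ∀ m : ℕ, g'⁻¹ ^ m = s * (g⁻¹ ^ m * s⁻¹) := by
      intro m
      have : g'⁻¹ = s * g⁻¹ * s⁻¹ := by rw [hg']; group
      rw [this, conj_pow, mul_assoc]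
    have h2 := tendsto_hb_mul hS s⁻¹ (pow_cofinite htf (inv_ne_one.2 hg.ne_one)) hg.t2
    have h3 := ((D.continuous_act s).tendsto b).comp h2
    rw [hs] at h3
    refine h3.congr fun m => ?_
    simp only [Function.comp]
    rw [act_hb, h1]
  have hex : ∀ m : ℕ, ∃ n : ℕ, t ≤ u (hb hS (g ^ n * g'⁻¹ ^ m)) := by
    intro m
    have h2 := (hu.tendsto a).comp
      (tendsto_hb_mul hS (g'⁻¹ ^ m) (pow_cofinite htf hg.ne_one) hg.t1)
    obtain ⟨n, hn⟩ := (h2.eventually_const_lt ht2).exists
    exact ⟨n, hn.le⟩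
  classical
  let N : ℕ → ℕ := fun m => Nat.find (hex m)
  have hN : ∀ m, t ≤ u (hb hS (g ^ N m * g'⁻¹ ^ m)) := fun m => Nat.find_spec (hex m)
  have hN' : ∀ m k, k < N m → u (hb hS (g ^ k * g'⁻¹ ^ m)) < t := fun m k hk =>
    not_le.1 (Nat.find_min (hex m) hk)
  have hpos : ∀ᶠ m : ℕ in atTop, 0 < N m := by
    have h2 := (hu.tendsto b).comp hz
    filter_upwards [h2.eventually_lt_const ht1] with m hm
    rw [Nat.pos_iff_ne_zero]
    intro h0
    have h3 := hN m
    rw [h0, pow_zero, one_mul] at h3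
    exact absurd hm (not_lt.2 h3)
  let U : Ultrafilter ℕ := hyperfilter ℕ
  have hU : (U : Filter ℕ) ≤ atTop := by
    rw [← Nat.cofinite_eq_atTop]; exact hyperfilter_le_cofinite
  -- `N m` is unbounded
  have hNtop : Tendsto N U atTop := by
    rw [← Nat.cofinite_eq_atTop]
    intro W hW
    rw [mem_cofinite] at hW
    rw [mem_map]
    by_contra hc
    have hc' : N ⁻¹' Wᶜ ∈ U := by
      rw [preimage_compl]
      exact Ultrafilter.compl_mem_iff_notMem.2 hc
    have hbi : (⋃ k ∈ Wᶜ, N ⁻¹' {k}) ∈ U := by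
      refine mem_of_superset hc' fun m hm => ?_
      rw [mem_iUnion₂]
      exact ⟨N m, hm, rfl⟩
    obtain ⟨k, -, hk⟩ := (Ultrafilter.finite_biUnion_mem_iff hW).1 hbi
    have h1 : Tendsto (fun m : ℕ => u (act (g ^ k) (hb hS (g'⁻¹ ^ m)))) U (𝓝 (u b)) := by
      have h2 := ((hu.comp (D.continuous_act (g ^ k))).tendsto b).comp (hz.mono_left hU)
      simp only [Function.comp, fix_pow hg.fix_b k] at h2
      exact h2
    have h2 : t ≤ u b := by
      refine ge_of_tendsto h1 ?_
      filter_upwards [hk] with m hm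
      have hm' : N m = k := hm
      have := hN m
      rw [hm', ← act_hb] at this
      exact this
    exact absurd ht1 (not_lt.2 h2)
  have hntop : Tendsto (fun m => N m - 1) U atTop := (tendsto_sub_atTop_nat 1).comp hNtop
  set h : ℕ → G := fun m => g ^ (N m - 1) * g'⁻¹ ^ m with hh
  have hact : Tendsto (fun m => act (h m) a') U (𝓝 a) := by
    refine (hg.tendsto_act hF htf hntop ha'P ha'b).congr fun m => ?_
    rw [hh]
    simp only
    rw [← D.act_act, fix_pow (fix_inv hfix) m]
  have hposU : ∀ᶠ m in (U : Filter ℕ), 0 < N m := hU hpos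
  by_cases hcof : Tendsto h U cofinite
  · obtain ⟨x, -, hx⟩ := exists_lim hS U h
    obtain ⟨y, -, hy⟩ := exists_lim hS U fun m => (h m)⁻¹
    have hxa : u x ≤ t := by
      refine le_of_tendsto ((hu.tendsto x).comp hx) ?_
      filter_upwards [hposU] with m hm
      exact (hN' m (N m - 1) (by omega)).le
    have hxb : t ≤ u (act g x) := by
      refine ge_of_tendsto ((hu.comp (D.continuous_act g)).tendsto x |>.comp hx) ?_
      filter_upwards [hposU] with m hm
      simp only [Function.comp]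
      rw [act_hb, hh]
      simp only
      rw [← mul_assoc, ← pow_succ', Nat.sub_add_cancel hm]
      exact hN m
    have hxa' : x ≠ a := fun he => absurd ht2 (not_lt.2 (he ▸ hxa))
    have hxb' : x ≠ b := by
      intro he
      rw [he, hg.fix_b] at hxb
      exact absurd ht1 (not_lt.2 hxb)
    have hfixh : ∀ m, act (h m) b = b := fun m =>
      fix_mul (fix_pow hg.fix_b _) (fix_pow (fix_inv hfixb) m)
    have hyb : y = b := by
      by_contra hyb
      have h1 := cp_pt hS hF hcof hx hy (p := fun _ => b) (fun _ => hg.pb) tendsto_const_nhds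
        (Ne.symm hyb)
      simp only [hfixh] at h1
      exact hxb' (tendsto_nhds_unique h1 tendsto_const_nhds)
    have h1 := cp_pt hS hF hcof hx hy (p := fun _ => a') (fun _ => ha'P) tendsto_const_nhds
      (by rw [hyb]; exact ha'b)
    exact hxa' (tendsto_nhds_unique h1 hact)
  · -- a value is taken infinitely often
    obtain ⟨W, hW, hc⟩ : ∃ W ∈ (cofinite : Filter G), h ⁻¹' W ∉ U := by
      by_contra hc
      push Not at hc
      exact hcof hc
    rw [mem_cofinite] at hW
    have hc' : h ⁻¹' Wᶜ ∈ U := by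
      rw [preimage_compl]
      exact Ultrafilter.compl_mem_iff_notMem.2 hc
    have hbi : (⋃ k ∈ Wᶜ, h ⁻¹' {k}) ∈ U := by
      refine mem_of_superset hc' fun m hm => ?_
      rw [mem_iUnion₂]
      exact ⟨h m, hm, rfl⟩
    obtain ⟨v, -, hv⟩ := (Ultrafilter.finite_biUnion_mem_iff hW).1 hbi
    obtain ⟨m, hm⟩ := (U.neBot).nonempty_of_mem hv
    have h2 : ∀ᶠ m' in (U : Filter ℕ), m < m' ∧ N m - 1 < N m' - 1 :=
      ((eventually_gt_atTop m).filter_mono hU).and (hntop.eventually (eventually_gt_atTop _))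
    obtain ⟨m', ⟨hm', h3, h4⟩⟩ := (U.neBot).nonempty_of_mem (inter_mem hv h2)
    have heq : g ^ (N m - 1) * g'⁻¹ ^ m = g ^ (N m' - 1) * g'⁻¹ ^ m' := by
      have e1 : h m = v := hm
      have e2 : h m' = v := hm'
      exact e1.trans e2.symm
    set l := (N m' - 1) - (N m - 1) with hl
    have hl1 : 1 ≤ l := by omega
    have heq2 : g ^ l = g' ^ (m' - m) := by
      have e1 : g ^ (N m' - 1) = g ^ (N m - 1) * g ^ l := by rw [← pow_add]; congr 1; (clear * - hS hex hl1; omega)
      have e2 : g'⁻¹ ^ m' = (g' ^ (m' - m))⁻¹ * g'⁻¹ ^ m := by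
        rw [← inv_pow, ← pow_add]; congr 1; omega
      rw [e1, e2, mul_assoc] at heq
      have e3 := mul_left_cancel heq
      have e4 : (1 : G) * g'⁻¹ ^ m = (g ^ l * (g' ^ (m' - m))⁻¹) * g'⁻¹ ^ m := by
        rw [one_mul, mul_assoc]; exact e3
      have e5 := mul_right_cancel e4
      exact (mul_inv_eq_one.1 e5.symm)
    have hfixl : ∀ j : ℕ, act (g ^ (l * j)) a' = a' := by
      intro j
      rw [pow_mul, heq2]
      exact fix_pow (fix_pow hfix _) j
    have h5 := hg.tendsto_act hF htf (k := fun j : ℕ => l * j) (l := atTop)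
      (tendsto_id.const_mul_atTop' (by omega)) ha'P ha'b
    simp only [hfixl] at h5
    exact hne (tendsto_nhds_unique tendsto_const_nhds h5)

end

/-- an ultrafilter picks one fibre of a map with finite range -/
theorem exists_fibre {α ι : Type*} {f : ι → α} (hf : (range f).Finite) (U : Ultrafilter ι) :
    ∃ γ ∈ range f, {i | f i = γ} ∈ U := by
  have hbi : (⋃ γ ∈ range f, {i | f i = γ}) ∈ U := by
    refine mem_of_superset univ_mem fun m _ => ?_
    rw [mem_iUnion₂]
    exact ⟨f m, ⟨m, rfl⟩, rfl⟩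
  exact (Ultrafilter.finite_biUnion_mem_iff hf).1 hbi

/-- **(ORB)** all orbits of points are infinite -/
theorem orb_infinite (hp : HypS S) (hoe : OneEnded S) (hd : HasHD S)
    (htf : ∀ g : G, g ≠ 1 → ∀ n : ℕ, n ≠ 0 → g ^ n ≠ 1) [Countable G] {δ : ℝ}
    (h4 : Four hp.gen δ) {F : Finset G} (hF : CrossProp S F) : Orb hp.gen := by
  intro β hβ hfin
  have hβP := Lim_subset hp.gen _ hβ
  refine lim_infinite hp hoe hd ?_
  by_cases hf : IsFin hp.gen β
  · refine hfin.subset fun x hx => ?_
    obtain ⟨U, hU, hUx⟩ := (mem_Lim_univ hp.gen).1 hx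
    obtain ⟨γ, hγ, hγU⟩ := exists_fibre hfin U
    have h1 := tendsto_act_fin h4 hβP hf (f := fun z => z) (l := (U : Filter G)) hU hUx
    have h2 : Tendsto (fun g : G => act g β) U (𝓝 γ) :=
      tendsto_const_nhds.congr' (by filter_upwards [hγU] with g hg using hg.symm)
    rw [tendsto_nhds_unique h1 h2]
    exact hγ
  · obtain ⟨x, hx, y, hy, hxy⟩ := two hp hd
    obtain ⟨g, -, a, -, b, -, hab, -, -, hga, hgb⟩ := exists_lox' h4 hF htf (⊤ : Subgroup G)
      (by rwa [Subgroup.coe_top]) (by rwa [Subgroup.coe_top]) hxy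
    have hg : Lx hp.gen g a b := ⟨hab, hga, hgb⟩
    obtain ⟨k, hk, hkβ⟩ : ∃ k : ℕ, 0 < k ∧ act (g ^ k) β = β := by
      have : Finite (range fun g : G => act g β) := hfin
      obtain ⟨i, j, hij, heq⟩ := Finite.exists_ne_map_eq_of_infinite
        (fun n : ℕ => (⟨act (g ^ n) β, ⟨g ^ n, rfl⟩⟩ : range fun g : G => act g β))
      have heq' : act (g ^ i) β = act (g ^ j) β := congrArg Subtype.val heq
      have key : ∀ i j : ℕ, i < j → act (g ^ i) β = act (g ^ j) β →
          act (g ^ (j - i)) β = β := by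
        intro i j hlt h
        refine act_inj (g := g ^ i) ?_
        rw [D.act_act, ← pow_add, Nat.add_sub_cancel' hlt.le]
        exact h.symm
      rcases lt_or_gt_of_ne hij with h | h
      · exact ⟨j - i, by omega, key i j h heq'⟩
      · exact ⟨i - j, by omega, key j i h heq'.symm⟩
    obtain ⟨g', a', hg'⟩ : ∃ g' a', Lx hp.gen g' a' β := by
      by_cases hb : β = b
      · exact ⟨g, a, hb ▸ hg⟩
      · have h1 := hg.tendsto_act hF htf (k := fun j : ℕ => k * j) (l := atTop)
          (tendsto_id.const_mul_atTop' hk) hβP hb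
        have h2 : ∀ j : ℕ, act (g ^ (k * j)) β = β := fun j => by
          rw [pow_mul]; exact fix_pow hkβ j
        simp only [h2] at h1
        have h3 : β = a := tendsto_nhds_unique tendsto_const_nhds h1
        exact ⟨g⁻¹, b, h3 ▸ hg.inv⟩
    have hr : ∀ γ : G → G → ℝ, ∃ r : G, γ ∈ range (fun g : G => act g β) → act r β = γ := by
      intro γ
      by_cases h : γ ∈ range (fun g : G => act g β)
      · obtain ⟨r, hr⟩ := h
        exact ⟨r, fun _ => hr⟩
      · exact ⟨1, fun h2 => absurd h2 h⟩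
    choose r hr using hr
    refine (hfin.union (hfin.image fun γ => act (r γ) a')).subset fun x hx => ?_
    obtain ⟨U, hU, hUx⟩ := (mem_Lim_univ hp.gen).1 hx
    obtain ⟨y, -, hUy⟩ := exists_lim hp.gen U fun z => z⁻¹
    obtain ⟨γ, hγ, hγU⟩ := exists_fibre hfin U
    by_cases hy : β = y
    · right
      refine ⟨γ, hγ, ?_⟩
      have h1 := cp_pt hp.gen hF (k := fun z : G => z) (l := (U : Filter G)) hU hUx hUy
        (p := fun _ => a') (fun _ => hg'.pa) tendsto_const_nhds (by rw [← hy]; exact hg'.ne)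
      refine tendsto_nhds_unique (tendsto_const_nhds.congr' ?_) h1
      filter_upwards [hγU] with z hz
      have hz' : act z β = γ := hz
      have h2 : act ((r γ)⁻¹ * z) β = β := by
        refine act_inj (g := r γ) ?_
        rw [D.act_act, mul_inv_cancel_left, hz', hr γ hγ]
      have h3 := congrArg (act (r γ)) (cm hF htf hg' h2)
      rw [D.act_act, mul_inv_cancel_left] at h3
      exact h3.symm
    · left
      have h1 := cp_pt hp.gen hF (k := fun z : G => z) (l := (U : Filter G)) hU hUx hUy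
        (p := fun _ => β) (fun _ => hβP) tendsto_const_nhds hy
      have h2 : Tendsto (fun g : G => act g β) U (𝓝 γ) :=
        tendsto_const_nhds.congr' (by filter_upwards [hγU] with g hg using hg.symm)
      rw [tendsto_nhds_unique h1 h2]
      exact hγ

end Vale.Agent.P239.F.P0
end

section

/-!
Slab lemma at points of finite type: if `z → β` then `{w | s ≤ gp z w} → β`.
-/

namespace Vale.Agent.P239.F

open Filter Topology Set
open Vale.Agent.P239
open scoped RealInnerProductSpace

variable {G : Type*} [Group G] {S : Finset G} (hS : Subgroup.closure (S : Set G) = ⊤)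

theorem tendsto_gp {ι : Type*} {l : Filter ι} {z : ι → G} {β : G → G → ℝ}
    (h : Tendsto (fun i => hb hS (z i)) l (𝓝 β)) (x : G) :
    Tendsto (fun i => gp hS (z i) x) l (𝓝 (gpb hS 1 x β)) := by
  have h1 := ((tendsto_val.1 h x 1).const_sub (res hS 1 x)).div_const 2
  refine h1.congr fun i => ?_
  have h2 := two_gp hS x (z i)
  rw [gp_comm hS (z i) x, hb]
  linarith only [h2]

/-- The slab lemma at points of finite type. -/
theorem slab_fin [Countable G] {F : Finset G} (hF : CrossProp S F) {β : G → G → ℝ}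
    (hβ : β ∈ closure (range (hb hS))) {C : ℝ} (hC : ∀ x, gpb hS 1 x β ≤ C) {s : ℝ} (hs : C < s)
    {O : Set (G → G → ℝ)} (hO : O ∈ 𝓝 β) :
    ∀ᶠ z in comap (hb hS) (𝓝 β), ∀ w, s ≤ gp hS z w → hb hS w ∈ O := by
  classical
  by_contra hcon
  rw [Filter.not_eventually] at hcon
  push Not at hcon
  set Bad : Set G := {z | ∃ w, s ≤ gp hS z w ∧ hb hS w ∉ O} with hBad
  have hne : (comap (hb hS) (𝓝 β) ⊓ 𝓟 Bad).NeBot := frequently_mem_iff_neBot.1 hcon
  let U : Ultrafilter G := Ultrafilter.of (comap (hb hS) (𝓝 β) ⊓ 𝓟 Bad)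
  have hU : (U : Filter G) ≤ comap (hb hS) (𝓝 β) ⊓ 𝓟 Bad := Ultrafilter.of_le _
  have hz : Tendsto (hb hS) U (𝓝 β) := tendsto_comap.mono_left (hU.trans inf_le_left)
  have hB : ∀ᶠ z in (U : Filter G), z ∈ Bad := (hU.trans inf_le_right) (mem_principal_self _)
  have hch : ∀ z, ∃ w, z ∈ Bad → s ≤ gp hS z w ∧ hb hS w ∉ O := by
    intro z
    by_cases hz : z ∈ Bad
    · obtain ⟨w, hw⟩ := hz
      exact ⟨w, fun _ => hw⟩
    · exact ⟨1, fun h => absurd h hz⟩
  choose w hw using hch
  obtain ⟨γ, hγ⟩ := exists_lim_ultra hS U (fun z => hb hS (w z)) (fun z => abs_hb_le hS _)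
  have hγc : γ ∈ closure (range (hb hS)) :=
    mem_closure_of_tendsto hγ (Eventually.of_forall fun i => ⟨w i, rfl⟩)
  have hne' : β ≠ γ := by
    rintro rfl
    obtain ⟨z, h1, h2⟩ := ((hγ.eventually hO).and hB).exists
    exact (hw z h2).2 h1
  obtain ⟨a, b, hab⟩ := exists_lt_of_ne hS hβ hγc hne'
  set g := pot hS a - pot hS b with hg
  set κ : ℝ := g.1 1 + (res hS 1 a - res hS 1 b) / 2 with hκ
  have eg : ∀ z, g.1 z = κ - hb hS z a b / 2 := fun z => by
    rw [hg, pot_sub_eq, hκ, hg]; ring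
  have lg : ∀ {z : G → G} {p : G → G → ℝ}, Tendsto (fun i => hb hS (z i)) U (𝓝 p) →
      Tendsto (fun i => g.1 (z i)) U (𝓝 (κ - p a b / 2)) := by
    intro z p hz
    simp only [eg]
    exact ((tendsto_val.1 hz a b).div_const 2).const_sub κ
  obtain ⟨s₁, hs₁, hs₁'⟩ := exists_between (show κ - γ a b / 2 < κ - β a b / 2 by linarith only [hab])
  obtain ⟨s₂, hs₂, hs₂'⟩ := exists_between hs₁'
  obtain ⟨t₁, ht₁, ht₁'⟩ := exists_between hs
  have hL : 0 < s - t₁ := by linarith only [ht₁']
  obtain ⟨E, η, hη, hslab⟩ := slab hS hF (pot_sub_isPot hS a b) hs₂ hL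
  have e1 := (lg (z := fun z => z) hz).eventually (lt_mem_nhds hs₂')
  have e2 := (lg (z := w) hγ).eventually (gt_mem_nhds hs₁)
  obtain ⟨z₀, hz₁, hz₂⟩ := (e1.and e2).exists
  have hlow : ∀ x : G, ∀ᶠ z in (U : Filter G), gp hS z x < t₁ := fun x =>
    (tendsto_gp hS hz x).eventually (gt_mem_nhds ((hC x).trans_lt ht₁))
  have e3 : ∀ᶠ z in (U : Filter G), ∀ u ∈ E, ∀ α ∈ F, gp hS z (u * α) < t₁ := by
    rw [Filter.eventually_all_finset]
    intro u _
    rw [Filter.eventually_all_finset]
    intro α _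
    exact hlow _
  obtain ⟨z, hzB, e1, e2, e3, e4, e5⟩ := (hB.and (e1.and (e2.and (e3.and
    ((hlow z₀).and (hlow (w z₀))))))).exists
  have hval : ∀ x, (pot hS z).1 x = (pot hS z).1 1 + gp hS z x := fun x => by
    rw [gp_eq]; ring
  have hsw := (hw z hzB).1
  have hzz : s ≤ gp hS z z := hsw.trans (gp_le hS z (w z))
  refine hslab z 1 (pot hS z) ((pot hS z).1 1 + t₁) (pot_isPot hS z) ?_ ?_
  · intro u hu α hα α' hα'
    have h1 : clp ((pot hS z).1 1 + t₁) ((pot hS z).1 1 + t₁ + (s - t₁)) ((pot hS z).1 (u * α)) =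
        (pot hS z).1 1 + t₁ :=
      clp_of_ge (by linarith only [ht₁']) (by rw [hval (u * α)]; linarith only [e3 u hu α hα])
    have h2 : clp ((pot hS z).1 1 + t₁) ((pot hS z).1 1 + t₁ + (s - t₁)) ((pot hS z).1 (u * α')) =
        (pot hS z).1 1 + t₁ :=
      clp_of_ge (by linarith only [ht₁']) (by rw [hval (u * α')]; linarith only [e3 u hu α' hα'])
    rw [h1, h2, sub_self, abs_zero]
    exact hη.le
  · refine ⟨z, z₀, w z, w z₀, ?_, e1.le, ?_, hz₁.le, ?_, e2.le, ?_, hz₂.le⟩
    · rw [hval z]; linarith only [hzz]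
    · rw [hval z₀]; linarith only [e4]
    · rw [hval (w z)]; linarith only [hsw]
    · rw [hval (w z₀)]; linarith only [e5]

end Vale.Agent.P239.F
end

section

/-! A set whose boundary does not accumulate at `β` is constant near `β`: final form. -/

namespace Vale.Agent.P239.F.N

open Filter Topology Set
open Vale.Agent.P239 Vale.Agent.P239.F
open scoped InnerProductSpace ENNReal

variable {G : Type*} [Group G] {S T : Finset G} (hS : Subgroup.closure (S : Set G) = ⊤)

/-- The shadow property (D3.19). -/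
def Shadow : Prop := ∀ (x : G) (ε : ℝ), 0 < ε →
  ∃ N : ℝ, ∀ w w' : G, N ≤ gp hS w w' → |gp hS x w - gp hS x w'| ≤ ε

variable {hS}

theorem lim_closure {β : G → G → ℝ} (hβ : β ∈ Lim hS univ) : β ∈ closure (range (hb hS)) := by
  have := nf_neBot hβ
  have h : Tendsto (hb hS) (nf hS β) (𝓝 β) := tendsto_comap.mono_left inf_le_right
  exact mem_closure_of_tendsto h (Eventually.of_forall fun z => ⟨z, rfl⟩)

theorem gp_tendsto' (β : G → G → ℝ) (w : G) :
    Tendsto (fun z => gp hS w z) (nf hS β) (𝓝 (gpb hS 1 w β)) :=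
  (gp_tendsto β w).congr fun z => gp_comm hS z w

/-- coordinates of points -/
theorem coord_eq {β : G → G → ℝ} (hβ : β ∈ Lim hS univ) (a b : G) :
    β a b = gp hS a a - gp hS b b - 2 * (gpb hS 1 a β - gpb hS 1 b β) := by
  have := nf_neBot hβ
  have h : Tendsto (hb hS) (nf hS β) (𝓝 β) := tendsto_comap.mono_left inf_le_right
  have h1 := (tendsto_pi_nhds.1 (tendsto_pi_nhds.1 h a) b)
  have h2 := (((gp_tendsto' (hS := hS) β a).sub (gp_tendsto' β b)).const_mul 2).const_sub
    (gp hS a a - gp hS b b)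
  refine tendsto_nhds_unique h1 (h2.congr fun z => ?_)
  unfold hb
  rw [res_eq, res_eq]
  ring

theorem shadow_nhds (hsh : Shadow hS) {β : G → G → ℝ} (hβ : β ∈ Lim hS univ)
    {O : Set (G → G → ℝ)} (hO : O ∈ 𝓝 β) : ∃ N : ℝ, ∀ w, N < gpb hS 1 w β → hb hS w ∈ O := by
  have := nf_neBot hβ
  have key : ∀ (x : G) (ε : ℝ), 0 < ε → ∃ N : ℝ, ∀ w, N < gpb hS 1 w β →
      |gp hS x w - gpb hS 1 x β| ≤ ε := by
    intro x ε hε
    obtain ⟨N, hN⟩ := hsh x ε hε
    refine ⟨N, fun w hw => ?_⟩
    have h1 := (tendsto_order.1 (gp_tendsto' (hS := hS) β w)).1 _ hw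
    have h2 := ((gp_tendsto' (hS := hS) β x).const_sub (gp hS x w)).abs
    exact le_of_tendsto h2 (h1.mono fun z hz => hN w z hz.le)
  refine nhds_induct (p := fun O => ∃ N : ℝ, ∀ w, N < gpb hS 1 w β → hb hS w ∈ O)
    ?_ ?_ ?_ ?_ hO
  · intro a b ε hε
    obtain ⟨N₁, h1⟩ := key a (ε / 8) (by positivity)
    obtain ⟨N₂, h2⟩ := key b (ε / 8) (by positivity)
    refine ⟨max N₁ N₂, fun w hw => ?_⟩
    have a1 := h1 w ((le_max_left _ _).trans_lt hw)
    have a2 := h2 w ((le_max_right _ _).trans_lt hw)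
    change |hb hS w a b - β a b| < ε
    have e : hb hS w a b - β a b = -2 * ((gp hS a w - gpb hS 1 a β) -
        (gp hS b w - gpb hS 1 b β)) := by
      rw [coord_eq hβ]
      unfold hb
      rw [res_eq, res_eq]
      ring
    rw [e, abs_lt]
    rw [abs_le] at a1 a2
    constructor <;> linarith only [hε, a1, a2]
  · exact ⟨0, fun w _ => mem_univ _⟩
  · rintro O O' h ⟨N, hN⟩
    exact ⟨N, fun w hw => h (hN w hw)⟩
  · rintro O O' ⟨N, hN⟩ ⟨N', hN'⟩
    exact ⟨max N N', fun w hw => ⟨hN w ((le_max_left _ _).trans_lt hw),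
      hN' w ((le_max_right _ _).trans_lt hw)⟩⟩

/-- **A set whose boundary does not accumulate at `β` is constant near `β`.** -/
theorem dich [Countable G] {F : Finset G} (hF : CrossProp S F) (hsh : Shadow hS) : Dich hS := by
  intro A β hβ hA
  have := nf_neBot hβ
  by_cases hfin : IsFin hS β
  · obtain ⟨C, hC⟩ := hfin
    refine dich_fin (B := C) (s := max C 0 + 1) hβ hC
      ((le_max_left C 0).trans_lt (lt_add_one _)) ((le_max_right C 0).trans (lt_add_one _).le)
      ?_ ?_ hA
    · intro O hO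
      have h := slab_fin hS hF (lim_closure hβ) hC
        ((le_max_left C 0).trans_lt (lt_add_one (max C 0))) hO
      exact h.filter_mono inf_le_right
    · intro O hO
      obtain ⟨f, hf, hf'⟩ := exists_cut0 hS hO
      exact ⟨f, hf.1, hf.2.filter_mono inf_le_right, hf'⟩
  · obtain ⟨δ, _, hδ⟩ := exists_four_point hS hF
    have h4 : Four hS δ := hδ
    refine dich_inf (δ := δ / 2) ?_ (fun O hO => shadow_nhds hsh hβ hO) ?_ hA
    · intro N
      by_contra hcon
      push Not at hcon
      exact hfin ⟨N, hcon⟩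
    · intro w x
      have h1 := ((tendsto_const_nhds (x := gp hS w x)).min (gp_tendsto' (hS := hS) β x)).sub_const
        (δ / 2)
      refine le_of_tendsto_of_tendsto' h1 (gp_tendsto' β w) fun z => ?_
      have := h4.gp w x z
      linarith only [this]

end Vale.Agent.P239.F.N
end

section

/-! Nesting of cuts with different centres, in strict form. -/

namespace Vale.Agent.P239.F.N

open Filter Topology Set
open Vale.Agent.P239 Vale.Agent.P239.F

variable {G : Type*} [Group G] {S T : Finset G}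

/-- Existence of limit points. -/
theorem limEx (hS : Subgroup.closure (S : Set G) = ⊤) : LimEx hS := by
  intro B hB
  have hne : (cofinite ⊓ 𝓟 B).NeBot := by
    rw [Filter.cofinite_inf_principal_neBot_iff]
    exact hB
  obtain ⟨β, _, hβ⟩ := D.exists_lim hS (Ultrafilter.of (cofinite ⊓ 𝓟 B)) id
  refine ⟨β, ?_⟩
  change MapClusterPt β (cofinite ⊓ 𝓟 B) (hb hS)
  exact MapClusterPt.mono (F := (Ultrafilter.of (cofinite ⊓ 𝓟 B) : Filter G)) hβ.mapClusterPt
    (Ultrafilter.of_le _)

/-- All points have harmonic measure zero. -/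
def NA (hp : HypS S) : Prop := ∀ β ∈ Lim hp.gen univ, NB hp {β}

theorem na_of (hp : HypS S)
    (horb : ∀ β ∈ Lim hp.gen univ, (range fun g : G => act g β).Infinite) : NA hp := by
  intro β hβ
  refine nb_of hp fun β' hβ' x => ?_
  rw [Finset.mem_singleton] at hβ'
  subst hβ'
  exact top_eq_one hp (horb _ hβ) x

variable {hp : HypS S}

theorem _root_.Vale.Agent.P239.F.IsCut.hasPhi (hna : NA hp) {A : Set G} {β : G → G → ℝ}
    (hA : IsCut hp.gen A β) : HasPhi S A :=
  hasPhi_of hp (hna β hA.1) ((convB_singleton hp.gen).2 hA.2)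

theorem _root_.Vale.Agent.P239.F.IsCut.phi_compl (hna : NA hp) {A : Set G} {β : G → G → ℝ}
    (hA : IsCut hp.gen A β) (x : G) : phi S Aᶜ x = 1 - phi S A x := by
  have := ((hA.hasPhi hna).compl hp).2 x
  linarith only [this]

/-- Near a point different from the centre where `A` is absent, `phi A` is small. -/
theorem phi_small (hna : NA hp) {A : Set G} {β p : G → G → ℝ}
    (hA : IsCut hp.gen A β) (hne : β ≠ p) (hAp : Aᶜ ∈ nf hp.gen p) {ε : ℝ} (hε : 0 < ε) :
    ∀ᶠ z in nf hp.gen p, phi S A z < ε := by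
  obtain ⟨O, O', hO, hO', hβO, hβO', hdis⟩ := t2_separation hne
  have h1 := phi_off_of hp (hA.hasPhi hna) ((convB_singleton hp.gen).2 hA.2)
    (O := O) (fun β' hβ' => by
      rw [Finset.mem_singleton] at hβ'
      subst hβ'
      exact hO.mem_nhds hβO) hε
  have h2 : {x | hb hp.gen x ∉ O ∧ ε ≤ |phi S A x - A.indicator 1 x|}ᶜ ∈ nf hp.gen p :=
    nf_cofinite hp.gen (by rwa [compl_compl]) p
  have h3 : hb hp.gen ⁻¹' O' ∈ nf hp.gen p :=
    mem_inf_of_right (preimage_mem_comap (hO'.mem_nhds hβO'))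
  filter_upwards [h2, h3, hAp] with z a1 a2 a3
  by_contra hcon
  refine a1 ⟨fun h => Set.disjoint_left.1 hdis h a2, ?_⟩
  rw [Set.indicator_of_notMem a3, sub_zero]
  exact (not_lt.1 hcon).trans (le_abs_self _)

/-- The main inequality. -/
theorem sum_lt (hyp : Hyp S T) (hna : NA hyp.toHypS) (hd : Dich hyp.gen) {A A' : Set G}
    {β β' : G → G → ℝ} (hA : IsCut hyp.gen A β) (hA' : IsCut hyp.gen A' β')
    (hn : Nontriv hyp.gen A β) (hn' : Nontriv hyp.gen A' β') (hne : β ≠ β')
    (h1 : Aᶜ ∈ nf hyp.gen β') (h2 : A'ᶜ ∈ nf hyp.gen β) (x : G) :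
    phi S A x + phi S A' x < 1 := by
  have hl := limEx hyp.gen
  have hfin := corner_finite hyp hl hd hA hA' hn h1 h2
  obtain ⟨p, hp, hp1, hp2, hp3⟩ := exists_third hyp hl hd hA hA' hn hn' hne h1 h2 hfin
  have hle : ∀ x, phi S A x + phi S A' x ≤ 1 := by
    intro x
    have t0 := iter_zero_of_conv hyp.toHypS (hna β hA.1)
      (convB_of_finite hyp.gen hfin _) x
    have t1 := (hA.hasPhi hna).tendsto x
    have t2 := (hA'.hasPhi hna).tendsto x
    have t3 := t0.const_add 1
    rw [add_zero] at t3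
    refine le_of_tendsto_of_tendsto' (t1.add t2) t3 fun n => ?_
    have h3 := iter_mono (S := S) (f := A.indicator (1 : G → ℝ) + A'.indicator 1)
      (g := (fun _ => (1 : ℝ)) + (A ∩ A').indicator 1) (fun y => ?_) n x
    · rw [iter_add, iter_add, iter_const hyp.toHypS] at h3
      exact h3
    · simp only [Pi.add_apply]
      by_cases a1 : y ∈ A <;> by_cases a2 : y ∈ A' <;> simp [a1, a2]
  by_contra hcon
  rw [not_lt] at hcon
  have hx : phi S A x + phi S A' x = 1 := le_antisymm (hle x) hcon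
  have hharm : avg S (phi S A + phi S A') = phi S A + phi S A' := by
    rw [avg_add, (hA.hasPhi hna).harm, (hA'.hasPhi hna).harm]
  have hall := const_of_max hyp.toHypS hharm (x := x) (fun y => by
    simp only [Pi.add_apply]
    rw [hx]
    exact hle y)
  have hpn := nf_neBot hp
  have e1 := phi_small hna hA hp1 (mem_of_superset hp3 fun y hy => hy.1) (ε := 1 / 4) (by norm_num)
  have e2 := phi_small hna hA' hp2 (mem_of_superset hp3 fun y hy => hy.2) (ε := 1 / 4)
    (by norm_num)
  obtain ⟨z, hz1, hz2⟩ := (e1.and e2).exists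
  have := hall z
  simp only [Pi.add_apply] at this
  rw [hx] at this
  linarith only [this, hz2, hz1]

/-- **Nesting of cuts with different centres.** -/
theorem nest_strict (hyp : Hyp S T) (hna : NA hyp.toHypS) (hd : Dich hyp.gen) {A A' : Set G}
    {β β' : G → G → ℝ} (hA : IsCut hyp.gen A β) (hn : Nontriv hyp.gen A β)
    (hA' : IsCut hyp.gen A' β') (hn' : Nontriv hyp.gen A' β') (hne : β ≠ β') :
    (∀ x, phi S A x < phi S A' x) ∨ (∀ x, phi S A' x < phi S A x) ∨
      (∀ x, phi S A x + phi S A' x < 1) ∨ (∀ x, 1 < phi S A x + phi S A' x) := by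
  rcases hA.side hd hA'.1 hne with h1 | h1
  · have h1' : Aᶜᶜ ∈ nf hyp.gen β' := by rwa [compl_compl]
    rcases hA'.side hd hA.1 hne.symm with h2 | h2
    · have h2' : A'ᶜᶜ ∈ nf hyp.gen β := by rwa [compl_compl]
      refine Or.inr (Or.inr (Or.inr fun x => ?_))
      have := sum_lt hyp hna hd (isCut_compl _ hA) (isCut_compl _ hA')
        (nontriv_compl _ hn) (nontriv_compl _ hn') hne h1' h2' x
      rw [hA.phi_compl hna, hA'.phi_compl hna] at this
      linarith
    · refine Or.inr (Or.inl fun x => ?_)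
      have := sum_lt hyp hna hd (isCut_compl _ hA) hA' (nontriv_compl _ hn) hn' hne h1' h2 x
      rw [hA.phi_compl hna] at this
      linarith only [this]
  · rcases hA'.side hd hA.1 hne.symm with h2 | h2
    · have h2' : A'ᶜᶜ ∈ nf hyp.gen β := by rwa [compl_compl]
      refine Or.inl fun x => ?_
      have := sum_lt hyp hna hd hA (isCut_compl _ hA') hn (nontriv_compl _ hn') hne h1 h2' x
      rw [hA'.phi_compl hna] at this
      linarith
    · exact Or.inr (Or.inr (Or.inl (sum_lt hyp hna hd hA hA' hn hn' hne h1 h2)))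

/-- The field `nest` of `CIn`. -/
theorem nest (hyp : Hyp S T) (hna : NA hyp.toHypS) (hd : Dich hyp.gen) (A B : Set G)
    (c d : G → G → ℝ) (hA : IsCut hyp.gen A c) (hn : Nontriv hyp.gen A c)
    (hB : IsCut hyp.gen B d) (hn' : Nontriv hyp.gen B d) (hne : c ≠ d) :
    HH S A ⊆ HH S B ∨ HH S B ⊆ HH S A ∨ Disjoint (HH S A) (HH S B) ∨ HH S A ∪ HH S B = univ := by
  rcases nest_strict hyp hna hd hA hn hB hn' hne with h | h | h | h
  · exact Or.inl fun x (hx : 1 / 2 < phi S A x) => lt_trans hx (h x)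
  · exact Or.inr (Or.inl fun x (hx : 1 / 2 < phi S B x) => lt_trans hx (h x))
  · refine Or.inr (Or.inr (Or.inl (Set.disjoint_left.2 fun x hx hx' => ?_)))
    have h1 : 1 / 2 < phi S A x := hx
    have h2 : 1 / 2 < phi S B x := hx'
    linarith [h x]
  · refine Or.inr (Or.inr (Or.inr (Set.eq_univ_of_forall fun x => ?_)))
    by_contra hcon
    rw [Set.mem_union, not_or] at hcon
    have h1 : ¬ 1 / 2 < phi S A x := hcon.1
    have h2 : ¬ 1 / 2 < phi S B x := hcon.2
    linarith only [h x, h2, h1]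

/-- The field `const_near` of `CIn`. -/
theorem const_near {hS : Subgroup.closure (S : Set G) = ⊤} (hd : Dich hS) (β : G → G → ℝ)
    (hβ : β ∈ Lim hS univ) (A : Set G) (h : β ∉ Lim hS (bd S A)) :
    β ∉ Lim hS A ∨ β ∉ Lim hS Aᶜ := by
  rw [conv_iff_lim] at h
  rw [conv_iff_lim, conv_iff_lim, compl_compl]
  exact (hd A β hβ h).symm

end Vale.Agent.P239.F.N
end

section

/-! Points at infinity are not vertices. -/

namespace Vale.Agent.P239.F.D

open Filter Topology Set
open Vale.Agent.P239 Vale.Agent.P239.F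

variable {G : Type*} [Group G] {S : Finset G} (hS : Subgroup.closure (S : Set G) = ⊤)

theorem lap_hb [DecidableEq G] (hsym : ∀ s ∈ S, s⁻¹ ∈ S) (z w : G) :
    ∑ s ∈ S, (hb hS w (z * s) z - (gp hS (z * s) (z * s) - gp hS z z)) =
      (Pi.single z (1 : ℝ) : G → ℝ) w - (Pi.single z (1 : ℝ) : G → ℝ) 1 := by
  have h1 := en_single hsym (pot hS w) z
  have h2 := pot_isPot hS w ⟨Pi.single z (1 : ℝ), (single_mem z).mem_Dir⟩
  rw [h2] at h1
  rw [h1, Finset.mul_sum]
  refine Finset.sum_congr rfl fun s _ => ?_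
  rw [hb_eq]
  have e1 : gp hS (z * s) w = (pot hS w).1 (z * s) - (pot hS w).1 1 := by
    rw [gp_comm, gp_eq]
  have e2 : gp hS z w = (pot hS w).1 z - (pot hS w).1 1 := by
    rw [gp_comm, gp_eq]
  rw [e1, e2]
  ring

theorem ne_hb (hsym : ∀ s ∈ S, s⁻¹ ∈ S) {β : G → G → ℝ} (hβ : β ∈ Lim hS univ) (z : G) :
    β ≠ hb hS z := by
  classical
  rintro rfl
  set Lf : (G → G → ℝ) → ℝ := fun β =>
    ∑ s ∈ S, (β (z * s) z - (gp hS (z * s) (z * s) - gp hS z z)) with hLf
  have hcont : Continuous Lf :=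
    continuous_finsetSum _ fun s _ => (continuous_ev _ _).sub continuous_const
  have hO : {β | Lf (hb hS z) - 1 / 2 < Lf β} ∈ 𝓝 (hb hS z) :=
    (isOpen_lt continuous_const hcont).mem_nhds (by
      change Lf (hb hS z) - 1 / 2 < Lf (hb hS z); linarith)
  have hfreq : ∃ᶠ x in (cofinite ⊓ 𝓟 univ : Filter G), hb hS x ∈ {β | Lf (hb hS z) - 1 / 2 < Lf β} :=
    mapClusterPt_iff_frequently.1 hβ _ hO
  have hne : ∀ᶠ x in (cofinite ⊓ 𝓟 univ : Filter G), x ≠ z := by
    refine Filter.Eventually.filter_mono inf_le_left ?_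
    rw [eventually_cofinite]
    refine (Set.finite_singleton z).subset fun x hx => ?_
    simpa using hx
  obtain ⟨x, hx, hxz⟩ := (hfreq.and_eventually hne).exists
  have h1 : Lf (hb hS x) = _ := lap_hb hS hsym z x
  have h2 : Lf (hb hS z) = _ := lap_hb hS hsym z z
  have h3 : Lf (hb hS z) - 1 / 2 < Lf (hb hS x) := hx
  rw [h1, h2, Pi.single_eq_same, Pi.single_eq_of_ne hxz] at h3
  linarith only [h3]

end Vale.Agent.P239.F.D
end
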