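import Vale.Agent.P239.Bdl.B8

set_option linter.all false

section

/-!
Module C, second half: elementary consequences of `CIn`.
-/

namespace Vale.Agent.P239.F

open Filter Topology Set
open Vale.Agent.P239
open scoped Pointwise

variable {G : Type*} [Group G] {S : Finset G} (hS : Subgroup.closure (S : Set G) = ⊤)

namespace E

theorem lim_mono {A B : Set G} (h : A ⊆ B) {β : G → G → ℝ} (hβ : β ∈ Lim hS A) : β ∈ Lim hS B :=
  MapClusterPt.mono hβ (inf_le_inf_left _ (principal_mono.2 h))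

theorem lim_univ {A : Set G} {β : G → G → ℝ} (hβ : β ∈ Lim hS A) : β ∈ Lim hS univ :=
  lim_mono hS (subset_univ _) hβ

/-- ultrafilter description of limit points -/
theorem mem_lim_iff {A : Set G} {β : G → G → ℝ} :
    β ∈ Lim hS A ↔ ∃ U : Ultrafilter G, (U : Filter G) ≤ cofinite ∧ A ∈ U ∧
      Tendsto (hb hS) U (𝓝 β) := by
  constructor
  · intro h
    have h1 : MapClusterPt β (cofinite ⊓ 𝓟 A) (hb hS) := h
    obtain ⟨U, hU, hU2⟩ := mapClusterPt_iff_ultrafilter.1 h1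
    exact ⟨U, hU.trans inf_le_left, le_principal_iff.1 (hU.trans inf_le_right), hU2⟩
  · rintro ⟨U, h1, h2, h3⟩
    exact mapClusterPt_iff_ultrafilter.2 ⟨U, le_inf h1 (le_principal_iff.2 h2), h3⟩

theorem mem_lim_of {A : Set G} {β : G → G → ℝ} {ι : Type*} (U : Ultrafilter ι) (k : ι → G)
    (h1 : Tendsto k U cofinite) (h2 : ∀ᶠ n in (U : Filter ι), k n ∈ A)
    (h3 : Tendsto (fun n => hb hS (k n)) U (𝓝 β)) : β ∈ Lim hS A :=
  (mem_lim_iff hS).2 ⟨U.map k, h1, h2, h3⟩

theorem lim_union {A B : Set G} {β : G → G → ℝ} (hβ : β ∈ Lim hS (A ∪ B)) :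
    β ∈ Lim hS A ∨ β ∈ Lim hS B := by
  obtain ⟨U, h1, h2, h3⟩ := (mem_lim_iff hS).1 hβ
  rcases Ultrafilter.union_mem_iff.1 h2 with h | h
  · exact Or.inl ((mem_lim_iff hS).2 ⟨U, h1, h, h3⟩)
  · exact Or.inr ((mem_lim_iff hS).2 ⟨U, h1, h, h3⟩)

theorem lim_finite {A : Set G} (hA : A.Finite) {β : G → G → ℝ} : β ∉ Lim hS A := by
  intro hβ
  obtain ⟨U, h1, h2, h3⟩ := (mem_lim_iff hS).1 hβ
  exact (Ultrafilter.compl_mem_iff_notMem.1 (h1 hA.compl_mem_cofinite)) h2

theorem infinite_of_lim {A : Set G} {β : G → G → ℝ} (h : β ∈ Lim hS A) : A.Infinite :=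
  fun hA => lim_finite hS hA h

end E

open E

variable {hS} {T : Finset G}

namespace CIn

variable (I : CIn hS T)

include I

theorem conv_of_lim {A : Set G} {β : G → G → ℝ} (h : ∀ β' ∈ Lim hS A, β' = β) : Conv hS A β :=
  (I.conv_iff A β).2 h

theorem eq_of_conv {A : Set G} {β β' : G → G → ℝ} (h : Conv hS A β) (h' : β' ∈ Lim hS A) :
    β' = β := (I.conv_iff A β).1 h _ h'

theorem conv_mono {A B : Set G} {β : G → G → ℝ} (h : A ⊆ B) (hB : Conv hS B β) : Conv hS A β :=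
  I.conv_of_lim fun _ h' => I.eq_of_conv hB (lim_mono hS h h')

theorem conv_union {A B : Set G} {β : G → G → ℝ} (hA : Conv hS A β) (hB : Conv hS B β) :
    Conv hS (A ∪ B) β :=
  I.conv_of_lim fun _ h' => (lim_union hS h').elim (I.eq_of_conv hA) (I.eq_of_conv hB)

/-- a non-convergent set has a limit point different from the centre -/
theorem exists_ne {A : Set G} {β : G → G → ℝ} (h : ¬ Conv hS A β) :
    ∃ p ∈ Lim hS A, p ≠ β := by
  by_contra hc
  push Not at hc
  exact h (I.conv_of_lim hc)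

theorem lim_shift {A B : Set G} (F : Finset G) (h : ∀ x ∈ A, ∃ s ∈ F, x * s ∈ B)
    {β : G → G → ℝ} (hβ : β ∈ Lim hS A) : β ∈ Lim hS B := by
  classical
  obtain ⟨U, h1, h2, h3⟩ := (mem_lim_iff hS).1 hβ
  have h4 : ∀ᶠ x in (U : Filter G), ∃ s ∈ F, x * s ∈ B := by
    filter_upwards [h2] with x hx using h x hx
  have h5 : ∃ s ∈ F, ∀ᶠ x in (U : Filter G), x * s ∈ B := by
    have h6 := (Ultrafilter.eventually_exists_mem_iff (f := U) (F.finite_toSet)
      (P := fun (s : G) (x : G) => x * s ∈ B)).1 (by simpa only [SetLike.mem_coe] using h4)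
    simpa only [SetLike.mem_coe] using h6
  obtain ⟨s, _, hs⟩ := h5
  exact mem_lim_of hS U (fun x => x * s) ((mul_left_injective s).tendsto_cofinite.comp
    (show Tendsto id (U : Filter G) cofinite from h1)) hs
    (I.shift U (fun x => x) β s h1 h3)

theorem conv_shift {A B : Set G} (F : Finset G) (h : ∀ x ∈ A, ∃ s ∈ F, x * s ∈ B)
    {β : G → G → ℝ} (hB : Conv hS B β) : Conv hS A β :=
  I.conv_of_lim fun _ h' => I.eq_of_conv hB (I.lim_shift F h h')

end CIn

end Vale.Agent.P239.F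
end

section

/-!
Module C, second half: equivariance.
-/

namespace Vale.Agent.P239.F

open Filter Topology Set
open Vale.Agent.P239
open scoped Pointwise

variable {G : Type*} [Group G] {S : Finset G} (hS : Subgroup.closure (S : Set G) = ⊤)

namespace E

theorem act_one (β : G → G → ℝ) : act 1 β = β := by
  funext x y; simp [act]

theorem act_act (g h : G) (β : G → G → ℝ) : act g (act h β) = act (g * h) β := by
  funext x y; simp only [act, mul_inv_rev, mul_assoc]

theorem act_inv_act (g : G) (β : G → G → ℝ) : act g⁻¹ (act g β) = β := by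
  rw [act_act, inv_mul_cancel, act_one]

theorem act_act_inv (g : G) (β : G → G → ℝ) : act g (act g⁻¹ β) = β := by
  rw [act_act, mul_inv_cancel, act_one]

theorem act_injective (g : G) : Function.Injective (act g) := fun β β' h => by
  rw [← act_inv_act g β, h, act_inv_act]

theorem continuous_act (g : G) : Continuous (act g) :=
  continuous_pi fun x => continuous_pi fun y =>
    (continuous_apply (g⁻¹ * y)).comp (continuous_apply (g⁻¹ * x))

theorem stb_one (c : G → G → ℝ) : (1 : G) ∈ Stb c := act_one c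

theorem stb_mul {c : G → G → ℝ} {g h : G} (hg : g ∈ Stb c) (hh : h ∈ Stb c) : g * h ∈ Stb c := by
  change act (g * h) c = c
  rw [← act_act, show act h c = c from hh, show act g c = c from hg]

theorem stb_inv {c : G → G → ℝ} {g : G} (hg : g ∈ Stb c) : g⁻¹ ∈ Stb c := by
  change act g⁻¹ c = c
  conv_lhs => rw [← show act g c = c from hg]
  exact act_inv_act g c

theorem bd_smul (g : G) (A : Set G) : bd S (g • A) = g • bd S A := by
  ext x
  rw [mem_smul_set_iff_inv_smul_mem]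
  simp only [bd, mem_smul_set_iff_inv_smul_mem, smul_eq_mul, mem_ofPred_eq]
  constructor
  · rintro ⟨y, hxy, h⟩
    refine ⟨g⁻¹ * y, ?_, h⟩
    obtain ⟨s, hs, h1 | h1⟩ := hxy
    · exact ⟨s, hs, Or.inl (by rw [h1, mul_assoc])⟩
    · exact ⟨s, hs, Or.inr (by rw [h1, mul_assoc])⟩
  · rintro ⟨y, hxy, h⟩
    refine ⟨g * y, ?_, by simpa only [inv_mul_cancel_left] using h⟩
    obtain ⟨s, hs, h1 | h1⟩ := hxy
    · exact ⟨s, hs, Or.inl (by rw [h1]; group)⟩
    · exact ⟨s, hs, Or.inr (by rw [mul_assoc, ← h1]; group)⟩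

theorem bd_compl (A : Set G) : bd S Aᶜ = bd S A := by
  ext x
  simp only [bd, mem_ofPred_eq, mem_compl_iff]
  constructor <;> rintro ⟨y, h1, h2⟩ <;> exact ⟨y, h1, by tauto⟩

variable {hS} {T : Finset G}

theorem isCut_compl {A : Set G} {β : G → G → ℝ} (h : IsCut hS A β) : IsCut hS Aᶜ β :=
  ⟨h.1, by rw [bd_compl]; exact h.2⟩

theorem nontriv_compl {A : Set G} {β : G → G → ℝ} (h : Nontriv hS A β) : Nontriv hS Aᶜ β :=
  ⟨h.2, by rw [compl_compl]; exact h.1⟩

end E

open E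

variable {hS} {T : Finset G}

namespace CIn

variable (I : CIn hS T)

include I

theorem lim_smul (g : G) {A : Set G} {β : G → G → ℝ} (h : β ∈ Lim hS A) :
    act g β ∈ Lim hS (g • A) := by
  obtain ⟨U, h1, h2, h3⟩ := (mem_lim_iff hS).1 h
  refine mem_lim_of hS U (fun x => g * x)
    ((mul_right_injective g).tendsto_cofinite.comp (show Tendsto id (U : Filter G) cofinite from h1))
    ?_ ?_
  · filter_upwards [h2] with x hx using smul_mem_smul_set hx
  · have := ((continuous_act g).tendsto β).comp h3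
    refine this.congr fun x => ?_
    exact I.act_hb g x

theorem lim_smul_iff (g : G) {A : Set G} {β : G → G → ℝ} :
    act g β ∈ Lim hS (g • A) ↔ β ∈ Lim hS A := by
  refine ⟨fun h => ?_, I.lim_smul g⟩
  have := I.lim_smul g⁻¹ h
  rwa [act_inv_act, inv_smul_smul] at this

theorem mem_pt_smul (g : G) {β : G → G → ℝ} (h : β ∈ Lim hS univ) : act g β ∈ Lim hS univ :=
  lim_univ hS (I.lim_smul g h)

theorem conv_smul (g : G) {A : Set G} {β : G → G → ℝ} (h : Conv hS A β) :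
    Conv hS (g • A) (act g β) := by
  refine I.conv_of_lim fun β' h' => ?_
  have h1 := I.lim_smul g⁻¹ h'
  rw [inv_smul_smul] at h1
  rw [← I.eq_of_conv h h1, act_act_inv]

theorem conv_smul_iff (g : G) {A : Set G} {β : G → G → ℝ} :
    Conv hS (g • A) (act g β) ↔ Conv hS A β := by
  refine ⟨fun h => ?_, I.conv_smul g⟩
  have := I.conv_smul g⁻¹ h
  rwa [act_inv_act, inv_smul_smul] at this

theorem isCut_smul (g : G) {A : Set G} {β : G → G → ℝ} (h : IsCut hS A β) :
    IsCut hS (g • A) (act g β) :=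
  ⟨I.mem_pt_smul g h.1, by rw [bd_smul]; exact I.conv_smul g h.2⟩

theorem nontriv_smul (g : G) {A : Set G} {β : G → G → ℝ} (h : Nontriv hS A β) :
    Nontriv hS (g • A) (act g β) := by
  refine ⟨fun h' => h.1 ((I.conv_smul_iff g).1 h'), fun h' => h.2 ((I.conv_smul_iff g).1 ?_)⟩
  rwa [smul_set_compl]

theorem cent_smul (g : G) {c : G → G → ℝ} (h : c ∈ Cent hS) : act g c ∈ Cent hS := by
  obtain ⟨A, h1, h2⟩ := h
  exact ⟨g • A, I.isCut_smul g h1, I.nontriv_smul g h2⟩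

theorem cent_pt {c : G → G → ℝ} (h : c ∈ Cent hS) : c ∈ Lim hS univ := by
  obtain ⟨A, h1, _⟩ := h
  exact h1.1

theorem ec_smul (g : G) (M : Finset G) {c : G → G → ℝ} {x y : G} (h : (x, y) ∈ Ec hS M c) :
    (g * x, g * y) ∈ Ec hS M (act g c) := by
  obtain ⟨h0, A, h1, h2, h3, h4⟩ := h
  refine ⟨?_, g • A, I.isCut_smul g h1, I.nontriv_smul g h2, ?_, ?_⟩
  · change (g * x)⁻¹ * (g * y) ∈ M
    rw [mul_inv_rev, mul_assoc, inv_mul_cancel_left]; exact h0
  · rw [I.HH_smul]; exact smul_mem_smul_set h3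
  · rw [I.HH_smul]
    intro h5
    rw [mem_smul_set_iff_inv_smul_mem] at h5
    simp only [smul_eq_mul, inv_mul_cancel_left] at h5
    exact h4 h5

theorem kp_smul (g : G) (c p : G → G → ℝ) : Kp hS (act g c) (act g p) = g • Kp hS c p := by
  ext x
  rw [mem_smul_set_iff_inv_smul_mem]
  constructor
  · intro h A h1 h2
    have := h (g • A) (I.isCut_smul g h1) (I.nontriv_smul g h2)
    rw [I.HH_smul, I.lim_smul_iff, mem_smul_set_iff_inv_smul_mem] at this
    exact this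
  · intro h A h1 h2
    have h3 := I.isCut_smul g⁻¹ h1
    have h4 := I.nontriv_smul g⁻¹ h2
    rw [act_inv_act] at h3 h4
    have := h (g⁻¹ • A) h3 h4
    rw [I.HH_smul, ← I.lim_smul_iff g, smul_inv_smul] at this
    rw [← this]
    simp only [smul_eq_mul, mem_smul_set_iff_inv_smul_mem, inv_inv, mul_inv_cancel_left]

theorem hp_smul (g : G) (c p : G → G → ℝ) : Hp hS (act g c) (act g p) = g • Hp hS c p := by
  rw [Hp, I.kp_smul, I.HH_smul, Hp]

end CIn

end Vale.Agent.P239.F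
end

section

/-!
Module C, second half: cofiniteness of the crossed edges, fixed points.
-/

namespace Vale.Agent.P239.F

open Filter Topology Set
open Vale.Agent.P239
open scoped Pointwise

variable {G : Type*} [Group G] {S : Finset G} {hS : Subgroup.closure (S : Set G) = ⊤}
  {T : Finset G}

open E

namespace CIn

variable (I : CIn hS T)

include I

/-- The stabilizer of `c` acts cofinitely on the vertices of the edges crossed by `c`. -/
theorem vc_cof (c : G → G → ℝ) :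
    ∃ F : Finset G, ∀ x ∈ Vc hS S c, ∃ s ∈ Stb c, ∃ f ∈ F, x = s * f := by
  classical
  have h1 : ∀ t : G, t ∈ S → ∃ F : Finset G, ∀ x, (x, x * t) ∈ Ec hS S c →
      ∃ s ∈ Stb c, ∃ f ∈ F, x = s * f := by
    intro t ht
    have hfin : {c' | ((1 : G), t) ∈ Ec hS S c'}.Finite := I.fin 1 t (by simpa using ht)
    have hex : ∀ c' : G → G → ℝ, ∃ x0 : G, (∃ x, act x⁻¹ c = c') → act x0⁻¹ c = c' := by
      intro c'
      by_cases h : ∃ x, act x⁻¹ c = c'
      · obtain ⟨x, hx⟩ := h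
        exact ⟨x, fun _ => hx⟩
      · exact ⟨1, fun h' => absurd h' h⟩
    choose ξ hξ using hex
    refine ⟨hfin.toFinset.image ξ, fun x hx => ?_⟩
    have h2 := I.ec_smul x⁻¹ S hx
    rw [inv_mul_cancel, inv_mul_cancel_left] at h2
    have h3 := hξ (act x⁻¹ c) ⟨x, rfl⟩
    refine ⟨x * (ξ (act x⁻¹ c))⁻¹, ?_, ξ (act x⁻¹ c), ?_, by group⟩
    · change act _ c = c
      rw [← act_act, h3, act_act_inv]
    · exact Finset.mem_image_of_mem _ (hfin.mem_toFinset.2 h2)
  choose! F hF using h1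
  let F0 : Finset G := S.biUnion F
  refine ⟨F0 ∪ F0 * S, fun x hx => ?_⟩
  obtain ⟨y, h | h⟩ := hx
  · have hs : x⁻¹ * y ∈ S := h.1
    obtain ⟨s, h1, f, h2, h3⟩ := hF _ hs x (by rw [mul_inv_cancel_left]; exact h)
    exact ⟨s, h1, f, Finset.mem_union_left _ (Finset.mem_biUnion.2 ⟨_, hs, h2⟩), h3⟩
  · have hs : y⁻¹ * x ∈ S := h.1
    obtain ⟨s, h1, f, h2, h3⟩ := hF _ hs y (by rw [mul_inv_cancel_left]; exact h)
    refine ⟨s, h1, f * (y⁻¹ * x), Finset.mem_union_right _ (Finset.mul_mem_mul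
      (Finset.mem_biUnion.2 ⟨_, hs, h2⟩) hs), ?_⟩
    rw [← mul_assoc, ← h3, mul_inv_cancel_left]

theorem pow_cofinite {g : G} (hg : g ≠ 1) : Tendsto (fun n : ℕ => g ^ n) atTop cofinite := by
  have hinj : Function.Injective (fun n : ℕ => g ^ n) := by
    intro m n hmn
    by_contra hne
    rcases lt_or_gt_of_ne hne with h | h
    · have := I.hyp.tf g hg (n - m) (by omega)
      apply this
      have h2 : g ^ m * g ^ (n - m) = g ^ m := by
        rw [← pow_add, Nat.add_sub_cancel' h.le]; exact hmn.symm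
      exact mul_eq_left.1 h2
    · have := I.hyp.tf g hg (m - n) (by omega)
      apply this
      have h2 : g ^ n * g ^ (m - n) = g ^ n := by
        rw [← pow_add, Nat.add_sub_cancel' h.le]; exact hmn
      exact mul_eq_left.1 h2
  rw [← Nat.cofinite_eq_atTop]
  exact hinj.tendsto_cofinite

end CIn

end Vale.Agent.P239.F
end

section

/-!
Module C, second half: uniform convergence property, loxodromic elements, uniform constancy near a
point.
-/

namespace Vale.Agent.P239.F.P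

open Filter Topology Set
open Vale.Agent.P239 Vale.Agent.P239.F Vale.Agent.P239.F.E
open scoped Pointwise

variable {G : Type*} [Group G] {S : Finset G}

theorem countable_of_gen (hS : Subgroup.closure (S : Set G) = ⊤) (hsym : ∀ s ∈ S, s⁻¹ ∈ S) :
    Countable G := by
  refine Function.Surjective.countable (f := fun l : List S => (l.map fun s : S => (s : G)).prod)
    fun x => ?_
  have hx : x ∈ Subgroup.closure (S : Set G) := by rw [hS]; trivial
  induction hx using Subgroup.closure_induction_right with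
  | one => exact ⟨[], rfl⟩
  | mul_right x _ s hs ih =>
    obtain ⟨l, hl⟩ := ih
    refine ⟨l ++ [⟨s, hs⟩], ?_⟩
    change (List.map (fun s : S => (s : G)) (l ++ [⟨s, hs⟩])).prod = x * s
    rw [List.map_append, List.prod_append]
    exact congrArg₂ _ hl (by rw [List.map_singleton, List.prod_singleton])
  | mul_inv_cancel x _ s hs ih =>
    obtain ⟨l, hl⟩ := ih
    refine ⟨l ++ [⟨s⁻¹, hsym s hs⟩], ?_⟩
    change (List.map (fun s : S => (s : G)) (l ++ [⟨s⁻¹, hsym s hs⟩])).prod = x * s⁻¹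
    rw [List.map_append, List.prod_append]
    exact congrArg₂ _ hl (by rw [List.map_singleton, List.prod_singleton])

variable {hS : Subgroup.closure (S : Set G) = ⊤} {T : Finset G} (I : CIn hS T)

include I

/-- uniform convergence property -/
theorem cvg_unif (U : Ultrafilter G) (k : G → G) {x y : G → G → ℝ}
    (hk : Tendsto k U cofinite) (hx : Tendsto (fun n => hb hS (k n)) U (𝓝 x))
    (hy : Tendsto (fun n => hb hS (k n)⁻¹) U (𝓝 y)) {O O' : Set (G → G → ℝ)} (hO : O ∈ 𝓝 x)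
    (hO' : O' ∈ 𝓝 y) :
    ∀ᶠ n in (U : Filter G), ∀ w : G, hb hS w ∉ O' → hb hS (k n * w) ∈ O := by
  by_contra hc
  have h1 : ∀ᶠ n in (U : Filter G), ∃ w : G, hb hS w ∉ O' ∧ hb hS (k n * w) ∉ O := by
    have := Ultrafilter.eventually_not.2 hc
    filter_upwards [this] with n hn
    push Not at hn
    exact hn
  obtain ⟨w, hw⟩ := h1.choice
  obtain ⟨q, hq⟩ := I.exists_lim U w
  have hqy : q ≠ y := by
    rintro rfl
    obtain ⟨n, hn, hn'⟩ := ((hq.eventually_mem hO').and hw).exists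
    exact hn'.1 hn
  have := I.cvg U k w x y q hk hx hy hq hqy
  obtain ⟨n, hn, hn'⟩ := ((this.eventually_mem hO).and hw).exists
  exact hn'.2 hn

/-- powers of an element converge -/
theorem pow_lim {g : G} (hg : g ≠ 1) {O O' : Set (G → G → ℝ)}
    (hd : Disjoint (closure O) (closure O')) {w1 w2 : G}
    (h1 : ∀ m : ℕ, hb hS (g ^ m * w1) ∈ O) (h2 : ∀ m : ℕ, hb hS (g⁻¹ ^ m * w2) ∈ O') :
    ∃ a ∈ Lim hS univ, a ∈ closure O ∧ act g a = a ∧
      Tendsto (fun m : ℕ => hb hS (g ^ m)) atTop (𝓝 a) := by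
  have hpow := I.pow_cofinite hg
  have hpow' := I.pow_cofinite (inv_ne_one.2 hg)
  -- limits along ultrafilters
  have key : ∀ V : Ultrafilter ℕ, (V : Filter ℕ) ≤ atTop → ∃ a ∈ Lim hS univ, a ∈ closure O ∧
      act g a = a ∧ Tendsto (fun m : ℕ => hb hS (g ^ m)) V (𝓝 a) ∧
      ∀ a' ∈ Lim hS univ, a' ∈ closure O → act g a' = a' → a' = a := by
    intro V hV
    obtain ⟨a, ha⟩ := I.exists_lim (V.map fun m => g ^ m) (fun x => x)
    obtain ⟨b, hb'⟩ := I.exists_lim (V.map fun m => g ^ m) (fun x => x⁻¹)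
    have hcof : Tendsto (fun x : G => x) (V.map fun m => g ^ m) cofinite :=
      hpow.mono_left hV
    have hcof' : Tendsto (fun x : G => x⁻¹) (V.map fun m => g ^ m) cofinite :=
      (inv_injective.tendsto_cofinite).comp hcof
    have haO : a ∈ closure O := by
      have := I.shift _ _ a w1 hcof ha
      refine mem_closure_of_tendsto this ?_
      exact Filter.Eventually.of_forall (f := (V : Filter ℕ)) fun m => h1 m
    have hbO : b ∈ closure O' := by
      have := I.shift _ _ b w2 hcof' hb'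
      refine mem_closure_of_tendsto this ?_
      refine Filter.Eventually.of_forall (f := (V : Filter ℕ)) fun m => ?_
      have := h2 m
      rwa [inv_pow] at this
    have hap : a ∈ Lim hS univ := mem_lim_of hS _ _ hcof (Eventually.of_forall fun _ => trivial) ha
    have hfix : act g a = a := by
      have e1 := ((continuous_act g).tendsto a).comp ha
      have e2 := I.shift _ _ a g hcof ha
      refine tendsto_nhds_unique (f := fun m : ℕ => hb hS (g ^ m * g)) (l := (V : Filter ℕ)) ?_ e2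
      refine Tendsto.congr (fun m => ?_) (show Tendsto (fun m : ℕ => act g (hb hS (g ^ m)))
        (V : Filter ℕ) (𝓝 (act g a)) from e1)
      rw [I.act_hb, ← pow_succ', pow_succ]
    refine ⟨a, hap, haO, hfix, ha, fun a' ha' haO' hfix' => ?_⟩
    have hne : a' ≠ b := fun h => Set.disjoint_left.1 hd haO' (h ▸ hbO)
    have hc := I.cvgP (V.map fun m => g ^ m) (fun x => x) (fun _ => a') a b a' hcof
      (fun _ => ha') ha hb' tendsto_const_nhds hne
    have hc' : Tendsto (fun m : ℕ => act (g ^ m) a') (V : Filter ℕ) (𝓝 a) := hc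
    have hfixn : ∀ m : ℕ, act (g ^ m) a' = a' := by
      intro m
      induction m with
      | zero => rw [pow_zero, act_one]
      | succ m ih => rw [pow_succ, ← act_act, hfix', ih]
    simp only [hfixn] at hc'
    exact tendsto_nhds_unique tendsto_const_nhds hc'
  obtain ⟨a, ha, haO, hfix, -, hu⟩ := key (hyperfilter ℕ)
    (by rw [← Nat.cofinite_eq_atTop]; exact hyperfilter_le_cofinite)
  refine ⟨a, ha, haO, hfix, ?_⟩
  rw [tendsto_iff_ultrafilter]
  intro V hV
  obtain ⟨a', ha', haO', hfix', ht, hu'⟩ := key V hV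
  rwa [hu' a ha haO hfix]

/-- elements with different attracting and repelling points are loxodromic -/
theorem lox_of (U : Ultrafilter G) (t : G → G) (ht : Tendsto t U cofinite)
    {x y : G → G → ℝ} (hx : Tendsto (fun n => hb hS (t n)) U (𝓝 x))
    (hy : Tendsto (fun n => hb hS (t n)⁻¹) U (𝓝 y)) (hxy : x ≠ y) :
    ∀ᶠ n in (U : Filter G), ∃ a ∈ Lim hS univ, ∃ b ∈ Lim hS univ, a ≠ b ∧ act (t n) a = a ∧
      act (t n) b = b ∧ Tendsto (fun m : ℕ => hb hS (t n ^ m)) atTop (𝓝 a) ∧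
      Tendsto (fun m : ℕ => hb hS ((t n)⁻¹ ^ m)) atTop (𝓝 b) := by
  have hcount := countable_of_gen I.hyp.gen I.hyp.symS
  obtain ⟨O, hxO, hO, O', hyO', hO', hd⟩ := exists_open_nhds_disjoint_closure hxy
  have hdis : Disjoint O O' := hd.mono subset_closure subset_closure
  have e1 := cvg_unif I U t ht hx hy (hO.mem_nhds hxO) (hO'.mem_nhds hyO')
  have hy' : Tendsto (fun n => hb hS ((t n)⁻¹)⁻¹) U (𝓝 x) := by simpa only [inv_inv] using hx
  have ht' : Tendsto (fun n => (t n)⁻¹) U cofinite := (inv_injective.tendsto_cofinite).comp ht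
  have e2 := cvg_unif I U (fun n => (t n)⁻¹) ht' hy hy' (hO'.mem_nhds hyO') (hO.mem_nhds hxO)
  have e3 : ∀ᶠ n in (U : Filter G), t n ≠ 1 :=
    ht.eventually ((Set.finite_singleton (1 : G)).compl_mem_cofinite)
  obtain ⟨n1, hn1⟩ := (hx.eventually_mem (hO.mem_nhds hxO)).exists
  obtain ⟨n2, hn2⟩ := (hy.eventually_mem (hO'.mem_nhds hyO')).exists
  filter_upwards [e1, e2, e3] with n h1 h2 h3
  have p1 : ∀ m : ℕ, hb hS (t n ^ m * t n1) ∈ O := by
    intro m
    induction m with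
    | zero => rwa [pow_zero, one_mul]
    | succ m ih =>
      rw [pow_succ', mul_assoc]
      exact h1 _ (Set.disjoint_left.1 hdis ih)
  have p2 : ∀ m : ℕ, hb hS ((t n)⁻¹ ^ m * (t n2)⁻¹) ∈ O' := by
    intro m
    induction m with
    | zero => rwa [pow_zero, one_mul]
    | succ m ih =>
      rw [pow_succ', mul_assoc]
      exact h2 _ (Set.disjoint_right.1 hdis ih)
  obtain ⟨a, ha, haO, hfa, hta⟩ := pow_lim I h3 hd p1 p2
  obtain ⟨b, hb', hbO, hfb, htb⟩ := pow_lim I (inv_ne_one.2 h3) hd.symm p2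
    (by rw [inv_inv]; exact p1)
  refine ⟨a, ha, b, hb', fun h => Set.disjoint_left.1 hd haO (h ▸ hbO), hfa, ?_, hta, htb⟩
  have := congrArg (act (t n)) hfb
  rwa [act_act_inv, eq_comm] at this

/-- A loxodromic element in a set closed under inverses with two limit points -/
theorem exists_lox_of {H : Set G} {x y : G → G → ℝ} (U : Ultrafilter G)
    (hU : (U : Filter G) ≤ cofinite)
    (hH : H ∈ U) (hx : Tendsto (fun n => hb hS n) U (𝓝 x))
    (hy : Tendsto (fun n => hb hS n⁻¹) U (𝓝 y)) (hxy : x ≠ y) :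
    ∃ g ∈ H, ∃ a ∈ Lim hS univ, ∃ b ∈ Lim hS univ, a ≠ b ∧ act g a = a ∧ act g b = b ∧
      Tendsto (fun m : ℕ => hb hS (g ^ m)) atTop (𝓝 a) ∧
      Tendsto (fun m : ℕ => hb hS (g⁻¹ ^ m)) atTop (𝓝 b) := by
  obtain ⟨g, hg, hg'⟩ := ((lox_of I U (fun n => n) hU hx hy hxy).and hH).exists
  exact ⟨g, hg', hg⟩

/-- Uniform constancy: if an equivalence relation changes along edges which do not accumulate at
`p` only, then all vertices near `p` are in one class. -/
theorem one_class {r : G → G → Prop} (hr : Equivalence r) {p : G → G → ℝ} (hp : p ∈ Lim hS univ)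
    (hD : p ∉ Lim hS {x | ∃ y, Adj S x y ∧ ¬ r x y}) : ∃ x0, p ∉ Lim hS {x | ¬ r x0 x} := by
  classical
  have hcount := countable_of_gen I.hyp.gen I.hyp.symS
  by_contra hcon
  push Not at hcon
  -- saturated sets are constant near `p`
  have hsat : ∀ B : Set G, (∀ x y, r x y → x ∈ B → y ∈ B) → p ∉ Lim hS B ∨ p ∉ Lim hS Bᶜ := by
    intro B hB
    refine I.const_near p hp B fun h => hD (lim_mono hS ?_ h)
    rintro x ⟨y, hxy, hne⟩
    exact ⟨y, hxy, fun hr' => hne ⟨hB x y hr', hB y x (hr.symm hr')⟩⟩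
  have hcls : ∀ x0, p ∉ Lim hS {x | r x0 x} := by
    intro x0
    rcases hsat {x | r x0 x} (fun x y hxy hx => hr.trans hx hxy) with h | h
    · exact h
    · exact absurd (hcon x0) h
  obtain ⟨O, hO⟩ := (𝓝 p).exists_antitone_basis
  have hfin : ∀ s : Finset G, ∀ n : ℕ, ∃ y, hb hS y ∈ O n ∧ ∀ x ∈ s, ¬ r x y := by
    intro s n
    have h1 : p ∉ Lim hS {y | ∃ x ∈ s, r x y} := by
      induction s using Finset.induction_on with
      | empty => simpa using lim_finite hS (A := (∅ : Set G)) Set.finite_empty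
      | insert a s _ ih =>
        intro h
        have : {y | ∃ x ∈ insert a s, r x y} = {y | r a y} ∪ {y | ∃ x ∈ s, r x y} := by
          ext y; simp only [Finset.mem_insert, exists_eq_or_imp, mem_ofPred_eq, mem_union]
        rw [this] at h
        rcases lim_union hS h with h | h
        · exact hcls a h
        · exact ih h
    have h2 : p ∈ Lim hS {y | ∃ x ∈ s, r x y}ᶜ := by
      have h3 : p ∈ Lim hS ({y | ∃ x ∈ s, r x y} ∪ {y | ∃ x ∈ s, r x y}ᶜ) := by
        rwa [Set.union_compl_self]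
      exact (lim_union hS h3).resolve_left h1
    obtain ⟨V, hV1, hV2, hV3⟩ := (mem_lim_iff hS).1 h2
    obtain ⟨y, hy1, hy2⟩ := ((hV3.eventually_mem (hO.1.mem_of_mem (i := n) trivial)).and hV2).exists
    refine ⟨y, hy1, fun x hx hxy => hy2 ⟨x, hx, hxy⟩⟩
  obtain ⟨f, hf1, hf2⟩ := exists_seq_of_forall_finset_exists
    (fun z : G × ℕ => hb hS z.1 ∈ O z.2) (fun z w => ¬ r z.1 w.1 ∧ z.2 < w.2) (by
      classical
      intro s hs
      obtain ⟨y, hy, hy'⟩ := hfin (s.image Prod.fst) ((s.sup Prod.snd) + 1)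
      refine ⟨(y, s.sup Prod.snd + 1), hy, fun x hx => ⟨hy' _ (Finset.mem_image_of_mem _ hx), ?_⟩⟩
      exact Nat.lt_succ_of_le (Finset.le_sup (f := Prod.snd) hx))
  have hmono : ∀ n, n ≤ (f n).2 := by
    intro n
    induction n with
    | zero => exact Nat.zero_le _
    | succ n ih => exact lt_of_le_of_lt ih (hf2 n (n + 1) (Nat.lt_succ_self n)).2
  have hlim : Tendsto (fun n => hb hS (f n).1) atTop (𝓝 p) := by
    rw [hO.1.tendsto_right_iff]
    intro i _
    filter_upwards [eventually_ge_atTop i] with n hn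
    exact hO.2 (hn.trans (hmono n)) (hf1 n)
  have hinj : Function.Injective fun n => (f n).1 := by
    intro m n hmn
    by_contra hne
    have hmn' : (f m).1 = (f n).1 := hmn
    rcases lt_or_gt_of_ne hne with h | h
    · exact (hf2 m n h).1 (hmn' ▸ hr.refl _)
    · exact (hf2 n m h).1 (hmn' ▸ hr.refl _)
  have hcof : Tendsto (fun n => (f n).1) atTop cofinite := by
    rw [← Nat.cofinite_eq_atTop]; exact hinj.tendsto_cofinite
  set V := hyperfilter ℕ with hV
  have hVle : (V : Filter ℕ) ≤ atTop := by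
    rw [← Nat.cofinite_eq_atTop]; exact hyperfilter_le_cofinite
  have h2 : Tendsto (fun n : ℕ => 2 * n) atTop atTop :=
    tendsto_atTop_mono (fun n => by simp only [id_eq]; (clear * -; omega)) tendsto_id
  have h3 : Tendsto (fun n : ℕ => 2 * n + 1) atTop atTop :=
    tendsto_atTop_mono (fun n => by simp only [id_eq]; omega) tendsto_id
  have hp1 : p ∈ Lim hS {y | ∃ n, r (f (2 * n)).1 y} :=
    mem_lim_of hS V (fun n => (f (2 * n)).1) ((hcof.comp h2).mono_left hVle)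
      (Eventually.of_forall fun n => ⟨n, hr.refl _⟩) ((hlim.comp h2).mono_left hVle)
  have hp2 : p ∈ Lim hS {y | ∃ n, r (f (2 * n)).1 y}ᶜ := by
    refine mem_lim_of hS V (fun n => (f (2 * n + 1)).1) ((hcof.comp h3).mono_left hVle)
      (Eventually.of_forall fun n => ?_) ((hlim.comp h3).mono_left hVle)
    rintro ⟨m, hm⟩
    rcases lt_or_gt_of_ne (show 2 * m ≠ 2 * n + 1 by omega) with h | h
    · exact (hf2 _ _ h).1 hm
    · exact (hf2 _ _ h).1 (hr.symm hm)
  rcases hsat {y | ∃ n, r (f (2 * n)).1 y} (fun x y hxy ⟨n, hn⟩ => ⟨n, hr.trans hn hxy⟩) with h | h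
  · exact h hp1
  · exact h hp2

end Vale.Agent.P239.F.P
end

section

/-!
Module C, second half: (PAR) the edges crossed by a centre converge to it.
-/

namespace Vale.Agent.P239.F.P

open Filter Topology Set
open Vale.Agent.P239 Vale.Agent.P239.F Vale.Agent.P239.F.E
open scoped Pointwise

variable {G : Type*} [Group G] {S : Finset G} {hS : Subgroup.closure (S : Set G) = ⊤}

variable (hS) in
/-- not separated by a nontrivial cut with centre `c` -/
def Rc (c : G → G → ℝ) (x y : G) : Prop :=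
  ∀ A : Set G, IsCut hS A c → Nontriv hS A c → (x ∈ HH S A ↔ y ∈ HH S A)

theorem rc_equiv (c : G → G → ℝ) : Equivalence (Rc hS c) where
  refl _ := fun _ _ _ => Iff.rfl
  symm h := fun A h1 h2 => (h A h1 h2).symm
  trans h h' := fun A h1 h2 => (h A h1 h2).trans (h' A h1 h2)

variable {T : Finset G} (I : CIn hS T)

include I

theorem conv_of_finite {A : Set G} (hA : A.Finite) (c : G → G → ℝ) : Conv hS A c :=
  I.conv_of_lim fun _ h => absurd h (lim_finite hS hA)

theorem adj_mem {x y : G} (h : Adj S x y) : x⁻¹ * y ∈ S ∧ y⁻¹ * x ∈ S := by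
  obtain ⟨s, hs, rfl | rfl⟩ := h
  · refine ⟨by rwa [inv_mul_cancel_left], ?_⟩
    have := I.hyp.symS s hs
    rwa [mul_inv_rev, mul_assoc, inv_mul_cancel, mul_one]
  · refine ⟨?_, by rwa [inv_mul_cancel_left]⟩
    have := I.hyp.symS s hs
    rwa [mul_inv_rev, mul_assoc, inv_mul_cancel, mul_one]

theorem rc_smul {c : G → G → ℝ} {g : G} (hg : g ∈ Stb c) {x y : G} (h : Rc hS c x y) :
    Rc hS c (g * x) (g * y) := by
  intro A h1 h2
  have h3 := I.isCut_smul g⁻¹ h1
  have h4 := I.nontriv_smul g⁻¹ h2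
  rw [show act g⁻¹ c = c from stb_inv hg] at h3 h4
  have := h _ h3 h4
  rw [I.HH_smul, mem_smul_set_iff_inv_smul_mem, mem_smul_set_iff_inv_smul_mem, inv_inv] at this
  exact this

theorem vc_of_adj {c : G → G → ℝ} {x y : G} (h : Adj S x y) (hr : ¬ Rc hS c x y) :
    x ∈ Vc hS S c := by
  unfold Rc at hr
  push Not at hr
  obtain ⟨A, h1, h2, h3⟩ := hr
  obtain ⟨m1, m2⟩ := adj_mem I h
  rcases h3 with ⟨hx, hy⟩ | ⟨hx, hy⟩
  · exact ⟨y, Or.inl ⟨m1, A, h1, h2, hx, hy⟩⟩
  · exact ⟨y, Or.inr ⟨m2, A, h1, h2, hy, hx⟩⟩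

theorem bd_sub_vc {A : Set G} {c : G → G → ℝ} (h1 : IsCut hS A c) (h2 : Nontriv hS A c) :
    bd S (HH S A) ⊆ Vc hS S c := by
  rintro x ⟨y, hxy, hne⟩
  exact vc_of_adj I hxy fun h => hne (h A h1 h2)

theorem not_conv_HH {A : Set G} {c : G → G → ℝ} (h1 : IsCut hS A c) (h2 : Nontriv hS A c) :
    ¬ Conv hS (HH S A) c ∧ ¬ Conv hS (HH S A)ᶜ c := by
  have hn := I.HH_near A c h1
  refine ⟨fun h => h2.1 (I.conv_mono ?_ (I.conv_union h hn)),
    fun h => h2.2 (I.conv_mono ?_ (I.conv_union h hn))⟩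
  · intro x hx
    by_cases hx' : x ∈ HH S A
    · exact Or.inl hx'
    · exact Or.inr (Or.inr ⟨hx, hx'⟩)
  · intro x hx
    by_cases hx' : x ∈ HH S A
    · exact Or.inr (Or.inl ⟨hx', hx⟩)
    · exact Or.inl hx'

theorem bd_HH_infinite {A : Set G} {c : G → G → ℝ} (h1 : IsCut hS A c) (h2 : Nontriv hS A c) :
    (bd S (HH S A)).Infinite := by
  intro hfin
  obtain ⟨n1, n2⟩ := not_conv_HH I h1 h2
  rcases I.hyp.oneEnd (HH S A) hfin with h | h
  · exact n1 (conv_of_finite I h c)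
  · exact n2 (conv_of_finite I h c)

theorem vc_infinite {c : G → G → ℝ} (hc : c ∈ Cent hS) : (Vc hS S c).Infinite := by
  obtain ⟨A, h1, h2⟩ := hc
  exact (bd_HH_infinite I h1 h2).mono (bd_sub_vc I h1 h2)

theorem stb_infinite {c : G → G → ℝ} (hc : c ∈ Cent hS) : (Stb c).Infinite := by
  obtain ⟨F, hF⟩ := I.vc_cof c
  intro hfin
  refine vc_infinite I hc ((hfin.mul F.finite_toSet).subset fun x hx => ?_)
  obtain ⟨s, hs, f, hf, rfl⟩ := hF x hx
  exact Set.mul_mem_mul hs hf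

theorem lim_vc_sub {c β : G → G → ℝ} (h : β ∈ Lim hS (Vc hS S c)) : β ∈ Lim hS (Stb c) := by
  classical
  obtain ⟨F, hF⟩ := I.vc_cof c
  refine I.lim_shift (F.image fun f => f⁻¹) (fun x hx => ?_) h
  obtain ⟨s, hs, f, hf, rfl⟩ := hF x hx
  exact ⟨f⁻¹, Finset.mem_image_of_mem _ hf, by rwa [mul_inv_cancel_right]⟩

/-- fixed points of a loxodromic element -/
theorem fix_lox {g : G} {a b c : G → G → ℝ} (hab : a ≠ b)
    (hta : Tendsto (fun m : ℕ => hb hS (g ^ m)) atTop (𝓝 a))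
    (htb : Tendsto (fun m : ℕ => hb hS (g⁻¹ ^ m)) atTop (𝓝 b))
    (hc : c ∈ Lim hS univ) (hgc : act g c = c) (hcb : c ≠ b) : c = a := by
  have hg : g ≠ 1 := by
    rintro rfl
    apply hab
    simp only [one_pow, inv_one] at hta htb
    exact tendsto_nhds_unique hta htb
  have hpow := I.pow_cofinite hg
  have hVle : (hyperfilter ℕ : Filter ℕ) ≤ atTop := by
    rw [← Nat.cofinite_eq_atTop]; exact hyperfilter_le_cofinite
  have ha' : Tendsto (fun x : G => hb hS x) ((hyperfilter ℕ).map fun m => g ^ m) (𝓝 a) :=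
    hta.mono_left hVle
  have hb'' : Tendsto (fun x : G => hb hS x⁻¹) ((hyperfilter ℕ).map fun m => g ^ m) (𝓝 b) := by
    have : Tendsto (fun m : ℕ => hb hS (g ^ m)⁻¹) (hyperfilter ℕ : Filter ℕ) (𝓝 b) := by
      simp only [inv_pow] at htb
      exact htb.mono_left hVle
    exact this
  have hcv := I.cvgP ((hyperfilter ℕ).map fun m => g ^ m) (fun x => x) (fun _ => c) a b c
    (hpow.mono_left hVle) (fun _ => hc) ha' hb'' tendsto_const_nhds hcb
  have hcv' : Tendsto (fun m : ℕ => act (g ^ m) c) (hyperfilter ℕ : Filter ℕ) (𝓝 a) := hcv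
  have hfix : ∀ m : ℕ, act (g ^ m) c = c := by
    intro m
    induction m with
    | zero => rw [pow_zero, act_one]
    | succ m ih => rw [pow_succ, ← act_act, hgc, ih]
  simp only [hfix] at hcv'
  exact tendsto_nhds_unique tendsto_const_nhds hcv'

/-- a second limit point of the stabilizer gives a second fixed point -/
theorem exists_fix {c x : G → G → ℝ} (hcp : c ∈ Lim hS univ) (hx : x ∈ Lim hS (Stb c))
    (hne : x ≠ c) : ∃ a ∈ Lim hS univ, a ≠ c ∧ ∀ s ∈ Stb c, act s a = a := by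
  obtain ⟨U, hU, hUs, hUx⟩ := (mem_lim_iff hS).1 hx
  obtain ⟨y, hy⟩ := I.exists_lim U (fun n => n⁻¹)
  have hyc : y = c := by
    by_contra h
    have h1 := I.cvgP U (fun n => n) (fun _ => c) x y c hU (fun _ => hcp) hUx hy
      tendsto_const_nhds (Ne.symm h)
    have h2 : Tendsto (fun n : G => act n c) U (𝓝 c) :=
      tendsto_const_nhds.congr' (by filter_upwards [hUs] with n hn using hn.symm)
    exact hne (tendsto_nhds_unique h1 h2)
  obtain ⟨g, hg, a, ha, b, hb', hab, -, -, hta, htb⟩ :=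
    exists_lox_of I U hU hUs hUx hy (by rw [hyc]; exact hne)
  by_cases hcb : c = b
  · subst hcb
    exact ⟨a, ha, hab, fun s hs => I.cm g s a c ha hcp hab hta htb hs⟩
  · have hca := fix_lox I hab hta htb hcp hg hcb
    subst hca
    exact ⟨b, hb', hab.symm, fun s hs => I.cm g⁻¹ s b c hb' hcp hab.symm htb
      (by rw [inv_inv]; exact hta) hs⟩

/-- the stabilizer of a centre converges to it -/
theorem eq_of_lim_stb {c : G → G → ℝ} (hc : c ∈ Cent hS) {x : G → G → ℝ}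
    (hx : x ∈ Lim hS (Stb c)) : x = c := by
  classical
  by_contra hne
  have hcp := I.cent_pt hc
  obtain ⟨a, hap, hac, hfix⟩ := exists_fix I hcp hx hne
  -- limit points of the stabilizer
  have hlim : ∀ β ∈ Lim hS (Stb c), β = a ∨ β = c := by
    intro β hβ
    obtain ⟨U, hU, hUs, hUx⟩ := (mem_lim_iff hS).1 hβ
    obtain ⟨y, hy⟩ := I.exists_lim U (fun n => n⁻¹)
    have key : ∀ q ∈ Lim hS univ, (∀ s ∈ Stb c, act s q = q) → q ≠ y → β = q := by
      intro q hq hqf hqy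
      have h1 := I.cvgP U (fun n => n) (fun _ => q) β y q hU (fun _ => hq) hUx hy
        tendsto_const_nhds hqy
      have h2 : Tendsto (fun n : G => act n q) U (𝓝 q) :=
        tendsto_const_nhds.congr' (by filter_upwards [hUs] with n hn using (hqf n hn).symm)
      exact tendsto_nhds_unique h1 h2
    by_cases h : a = y
    · exact Or.inr (key c hcp (fun s hs => hs) fun h' => hac (h.trans h'.symm))
    · exact Or.inl (key a hap hfix h)
  -- the side of the cut without `a`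
  obtain ⟨B, hB1, hB2, haB⟩ : ∃ B : Set G, IsCut hS B c ∧ Nontriv hS B c ∧ a ∉ Lim hS B := by
    obtain ⟨A, h1, h2⟩ := hc
    rcases I.const_near a hap A (fun h => hac (I.eq_of_conv h1.2 h)) with h | h
    · exact ⟨A, h1, h2, h⟩
    · exact ⟨Aᶜ, isCut_compl h1, nontriv_compl h2, h⟩
  have haH : a ∉ Lim hS (HH S B) := by
    intro h
    have : HH S B ⊆ B ∪ symmDiff (HH S B) B := by
      intro x hx
      by_cases hx' : x ∈ B
      · exact Or.inl hx'
      · exact Or.inr (Or.inl ⟨hx, hx'⟩)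
    rcases lim_union hS (lim_mono hS this h) with h' | h'
    · exact haB h'
    · exact hac (I.eq_of_conv (I.HH_near B c hB1) h')
  obtain ⟨n1, n2⟩ := not_conv_HH I hB1 hB2
  obtain ⟨p, hp, hpc⟩ := I.exists_ne n1
  have hpa : p ≠ a := fun h => haH (h ▸ hp)
  have hpp : p ∈ Lim hS univ := lim_univ hS hp
  have hpV : p ∉ Lim hS (Vc hS S c) := fun h => (hlim p (lim_vc_sub I h)).elim hpa hpc
  obtain ⟨x0, hx0⟩ := one_class I (rc_equiv (hS := hS) c) hpp (fun h => hpV (lim_mono hS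
    (by rintro x ⟨y, hxy, hr⟩; exact vc_of_adj I hxy hr) h))
  set K : Set G := {x | Rc hS c x0 x} with hK
  have hKc : {x | ¬ Rc hS c x0 x} = Kᶜ := rfl
  rw [hKc] at hx0
  have hKsub : K ⊆ HH S B := by
    obtain ⟨z, hz1, hz2⟩ : ∃ z ∈ HH S B, z ∈ K := by
      by_contra hcon
      push Not at hcon
      exact hx0 (lim_mono hS (fun z hz => hcon z hz) hp)
    intro x hx
    have h1 : Rc hS c z x := (rc_equiv c).trans ((rc_equiv c).symm hz2) hx
    exact (h1 B hB1 hB2).1 hz1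
  have hKlim : p ∈ Lim hS K := by
    have : p ∈ Lim hS (K ∪ Kᶜ) := by rwa [Set.union_compl_self]
    exact (lim_union hS this).resolve_right hx0
  have hKinf : K.Infinite := infinite_of_lim hS hKlim
  have hKcinf : Kᶜ.Infinite := by
    refine Set.Infinite.mono (compl_subset_compl.2 hKsub) fun h => n2 (conv_of_finite I h c)
  have hbd : (bd S K).Infinite := by
    intro h
    rcases I.hyp.oneEnd K h with h | h
    · exact hKinf h
    · exact hKcinf h
  -- inner boundary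
  set IB : Set G := {x | x ∈ K ∧ x ∈ Vc hS S c} with hIB
  have hIBinf : IB.Infinite := by
    intro hfin
    refine hbd ((hfin.union (hfin.mul S.finite_toSet)).subset ?_)
    rintro x ⟨y, hxy, hne⟩
    have hr : ¬ Rc hS c x y := fun h => hne
      ⟨fun hx => (rc_equiv c).trans hx h, fun hy => (rc_equiv c).trans hy ((rc_equiv c).symm h)⟩
    by_cases hx : x ∈ K
    · exact Or.inl ⟨hx, vc_of_adj I hxy hr⟩
    · have hy : y ∈ K := by
        by_contra hy
        exact hne ⟨fun h => absurd h hx, fun h => absurd h hy⟩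
      refine Or.inr ?_
      have hyx : Adj S y x := by
        obtain ⟨s, hs, h | h⟩ := hxy
        · exact ⟨s, hs, Or.inr h⟩
        · exact ⟨s, hs, Or.inl h⟩
      obtain ⟨m1, m2⟩ := adj_mem I hxy
      refine ⟨y, ⟨hy, vc_of_adj I hyx fun h => hr ((rc_equiv c).symm h)⟩, y⁻¹ * x, m2, ?_⟩
      change y * (y⁻¹ * x) = x
      rw [mul_inv_cancel_left]
  -- infinitely many stabilizer elements
  obtain ⟨F, hF⟩ := I.vc_cof c
  obtain ⟨f, -, hfinf⟩ : ∃ f ∈ F, {s | s ∈ Stb c ∧ s * f ∈ K}.Infinite := by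
    by_contra hcon
    push Not at hcon
    refine hIBinf (((F.finite_toSet.biUnion fun f hf =>
      ((hcon f hf).image (fun s => s * f)))).subset ?_)
    intro x hx
    obtain ⟨s, hs, f, hf, hxe⟩ := hF x hx.2
    simp only [mem_iUnion]
    exact ⟨f, hf, s, ⟨hs, by rw [← hxe]; exact hx.1⟩, hxe.symm⟩
  obtain ⟨u, hu⟩ := I.lim_nonempty _ hfinf
  obtain ⟨U, hU, hUs, hUu⟩ := (mem_lim_iff hS).1 hu
  obtain ⟨s1, hs1, hs1K⟩ := hfinf.nonempty
  have hcof : Tendsto (fun n : G => n) U cofinite := hU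
  have hσcof : Tendsto (fun n : G => n * s1⁻¹) U cofinite :=
    ((mul_left_injective s1⁻¹).tendsto_cofinite).comp hcof
  have hσicof : Tendsto (fun n : G => (n * s1⁻¹)⁻¹) U cofinite :=
    (inv_injective.tendsto_cofinite).comp hσcof
  have hσu := I.shift U (fun n => n) u s1⁻¹ hcof hUu
  obtain ⟨v, hv⟩ := I.exists_lim U (fun n => (n * s1⁻¹)⁻¹)
  have huK : u ∈ Lim hS K :=
    mem_lim_of hS U (fun n => n * f) ((mul_left_injective f).tendsto_cofinite.comp hcof)
      (by filter_upwards [hUs] with n hn using hn.2) (I.shift U (fun n => n) u f hcof hUu)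
  have hvK : v ∈ Lim hS K := by
    refine mem_lim_of hS U (fun n => (n * s1⁻¹)⁻¹ * (s1 * f))
      ((mul_left_injective (s1 * f)).tendsto_cofinite.comp hσicof) ?_
      (I.shift U _ v (s1 * f) hσicof hv)
    filter_upwards [hUs] with n hn
    have h1 : Rc hS c (n * f) (s1 * f) := (rc_equiv c).trans ((rc_equiv c).symm hn.2) hs1K
    have h2 : (n * s1⁻¹)⁻¹ ∈ Stb c := stb_inv (stb_mul hn.1 (stb_inv hs1))
    have h3 := rc_smul I h2 h1
    have h4 : (n * s1⁻¹)⁻¹ * (n * f) = s1 * f := by group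
    rw [h4] at h3
    exact (rc_equiv c).trans hs1K h3
  have haK : a ∉ Lim hS K := fun h => haH (lim_mono hS hKsub h)
  have hav : a ≠ v := fun h => haK (h ▸ hvK)
  have h1 := I.cvgP U (fun n => n * s1⁻¹) (fun _ => a) u v a hσcof (fun _ => hap) hσu hv
    tendsto_const_nhds hav
  have h2 : Tendsto (fun n : G => act (n * s1⁻¹) a) U (𝓝 a) :=
    tendsto_const_nhds.congr' (by
      filter_upwards [hUs] with n hn using (hfix _ (stb_mul hn.1 (stb_inv hs1))).symm)
  exact haK (tendsto_nhds_unique h1 h2 ▸ huK)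

/-- (PAR) for the stabilizer -/
theorem stb_conv {c : G → G → ℝ} (hc : c ∈ Cent hS) : Conv hS (Stb c) c :=
  I.conv_of_lim fun _ h => eq_of_lim_stb I hc h

/-- (PAR) for the crossed edges -/
theorem par {c : G → G → ℝ} (hc : c ∈ Cent hS) : Conv hS (Vc hS S c) c :=
  I.conv_of_lim fun _ h => eq_of_lim_stb I hc (lim_vc_sub I h)

end Vale.Agent.P239.F.P
end

section

/-!
Module C, second half: (NC) `k c` and `k` have the same limit for a centre `c`.
-/

namespace Vale.Agent.P239.F.P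

open Filter Topology Set
open Vale.Agent.P239 Vale.Agent.P239.F Vale.Agent.P239.F.E
open scoped Pointwise

variable {G : Type*} [Group G] {S : Finset G} {hS : Subgroup.closure (S : Set G) = ⊤}
variable {T : Finset G}

theorem stb_pow {c : G → G → ℝ} {g : G} (hg : g ∈ Stb c) (m : ℕ) : g ^ m ∈ Stb c := by
  induction m with
  | zero => rw [pow_zero]; exact stb_one c
  | succ m ih => rw [pow_succ]; exact stb_mul ih hg

omit [Group G] in
/-- an ultrafilter limit of group elements goes to infinity or is constant -/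
theorem cof_or_const {ι : Type*} (U : Ultrafilter ι) (w : ι → G) :
    Tendsto w U cofinite ∨ ∃ v, ∀ᶠ n in (U : Filter ι), w n = v := by
  rcases (U.map w).le_cofinite_or_eq_pure with h | ⟨v, hv⟩
  · exact Or.inl h
  · refine Or.inr ⟨v, ?_⟩
    have : ({v} : Set G) ∈ U.map w := by rw [hv]; exact Ultrafilter.mem_pure.2 rfl
    exact this

variable (I : CIn hS T)

include I

/-- powers of conjugates of elements of the stabilizer of a centre -/
theorem lim_conj_pow {c : G → G → ℝ} (hc : c ∈ Cent hS) {q : G} (hq : q ∈ Stb c) (hq1 : q ≠ 1)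
    (k : G) : Tendsto (fun m : ℕ => hb hS ((k * q * k⁻¹) ^ m)) atTop (𝓝 (act k c)) := by
  have h1 : Conv hS {x | x * k ∈ Stb c} c :=
    I.conv_shift {k} (fun x hx => ⟨k, Finset.mem_singleton_self _, hx⟩) (stb_conv I hc)
  have h2 : Tendsto (fun m : ℕ => q ^ m * k⁻¹) atTop (cofinite ⊓ 𝓟 {x | x * k ∈ Stb c}) := by
    refine tendsto_inf.2 ⟨(mul_left_injective k⁻¹).tendsto_cofinite.comp (I.pow_cofinite hq1),
      tendsto_principal.2 (Eventually.of_forall fun m => ?_)⟩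
    change q ^ m * k⁻¹ * k ∈ Stb c
    rw [inv_mul_cancel_right]
    exact stb_pow hq m
  have h3 := ((continuous_act k).tendsto c).comp ((show Tendsto _ _ _ from h1).comp h2)
  refine h3.congr fun m => ?_
  change act k (hb hS (q ^ m * k⁻¹)) = _
  rw [I.act_hb, conj_pow, mul_assoc]

/-- if `k c` is constant then `k` converges to this constant -/
theorem lim_of_const {c z : G → G → ℝ} (hc : c ∈ Cent hS) (U : Ultrafilter G) (k : G → G)
    (hk : Tendsto k U cofinite) (hz : ∀ᶠ n in (U : Filter G), act (k n) c = z) :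
    Tendsto (fun n => hb hS (k n)) U (𝓝 z) := by
  obtain ⟨n0, hn0⟩ := hz.exists
  have h2 : Tendsto (fun n => (k n0)⁻¹ * k n) U (cofinite ⊓ 𝓟 (Stb c)) := by
    refine tendsto_inf.2 ⟨(mul_right_injective (k n0)⁻¹).tendsto_cofinite.comp hk,
      tendsto_principal.2 ?_⟩
    filter_upwards [hz] with n hn
    change act ((k n0)⁻¹ * k n) c = c
    rw [← act_act, hn, ← hn0, act_inv_act]
  have h3 := ((continuous_act (k n0)).tendsto c).comp
    ((show Tendsto _ _ _ from stb_conv I hc).comp h2)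
  rw [hn0] at h3
  refine h3.congr fun n => ?_
  change act (k n0) (hb hS ((k n0)⁻¹ * k n)) = _
  rw [I.act_hb, mul_inv_cancel_left]

/-- (NC) -/
theorem nc {c : G → G → ℝ} (hc : c ∈ Cent hS) (U : Ultrafilter G) (k : G → G)
    {x : G → G → ℝ} (hk : Tendsto k U cofinite) (hx : Tendsto (fun n => hb hS (k n)) U (𝓝 x)) :
    Tendsto (fun n => act (k n) c) U (𝓝 x) := by
  have hcp := I.cent_pt hc
  obtain ⟨z, hz, htz⟩ := I.exists_limP U (fun n => act (k n) c) (fun n => I.mem_pt_smul _ hcp)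
  suffices h : z = x by rw [← h]; exact htz
  by_contra hzx
  -- a nontrivial element of the stabilizer
  obtain ⟨s, hs, hs1⟩ : ∃ s ∈ Stb c, s ≠ 1 := by
    by_contra hcon
    push Not at hcon
    exact stb_infinite I hc ((Set.finite_singleton (1 : G)).subset fun s hs => hcon s hs)
  have hsn : Tendsto (fun m : ℕ => hb hS (s ^ m)) atTop (𝓝 c) := by
    have := lim_conj_pow I hc hs hs1 1
    simpa only [one_mul, inv_one, mul_one, act_one] using this
  -- a continuous function separating `x` and `z`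
  obtain ⟨u, huc, huxz⟩ : ∃ u : (G → G → ℝ) → ℝ, Continuous u ∧ u x < u z := by
    have : ∃ a b, x a b ≠ z a b := by
      by_contra hcon
      push Not at hcon
      exact hzx (funext fun a => funext fun b => (hcon a b).symm)
    obtain ⟨a, b, hab⟩ := this
    have hcont : Continuous fun β : G → G → ℝ => β a b :=
      (continuous_apply b).comp (continuous_apply a)
    rcases lt_or_gt_of_ne hab with h | h
    · exact ⟨_, hcont, h⟩
    · exact ⟨fun β => - β a b, hcont.neg, by simpa only [neg_lt_neg_iff] using h⟩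
  obtain ⟨t, ht1, ht2⟩ := exists_between huxz
  -- the first crossing
  have hcr : ∀ᶠ n in (U : Filter G), ∃ m : ℕ, u (hb hS (k n * s ^ m)) < t ∧
      t ≤ u (hb hS (k n * s ^ m * s)) := by
    have e1 : ∀ᶠ n in (U : Filter G), u (hb hS (k n)) < t :=
      ((huc.tendsto x).comp hx).eventually (gt_mem_nhds ht1)
    have e2 : ∀ᶠ n in (U : Filter G), t < u (act (k n) c) :=
      ((huc.tendsto z).comp htz).eventually (lt_mem_nhds ht2)
    filter_upwards [e1, e2] with n h1 h2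
    classical
    have h3 : Tendsto (fun m : ℕ => u (hb hS (k n * s ^ m))) atTop (𝓝 (u (act (k n) c))) := by
      have := (huc.tendsto _).comp (((continuous_act (k n)).tendsto c).comp hsn)
      refine this.congr fun m => ?_
      change u (act (k n) (hb hS (s ^ m))) = _
      rw [I.act_hb]
    have h4 : ∃ m : ℕ, t ≤ u (hb hS (k n * s ^ m)) :=
      ((h3.eventually (lt_mem_nhds h2)).exists).imp fun m hm => hm.le
    have h5 := Nat.find_spec h4
    have h6 : Nat.find h4 ≠ 0 := by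
      intro h0
      rw [h0, pow_zero, mul_one] at h5
      linarith only [h1, h5]
    obtain ⟨m, hm⟩ := Nat.exists_eq_succ_of_ne_zero h6
    refine ⟨m, ?_, ?_⟩
    · have := Nat.find_min h4 (m := m) (by omega)
      exact not_le.1 this
    · rw [hm, Nat.succ_eq_add_one, pow_succ, ← mul_assoc] at h5
      exact h5
  obtain ⟨m, hm⟩ := hcr.choice
  have hsm : ∀ n, s ^ m n ∈ Stb c := fun n => stb_pow hs _
  have hwc : ∀ n, act (k n * s ^ m n) c = act (k n) c := fun n => by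
    rw [← act_act, show act (s ^ m n) c = c from hsm n]
  have hconst : ∀ z', (∀ᶠ n in (U : Filter G), act (k n) c = z') → False := by
    intro z' hz'
    have h1 := lim_of_const I hc U k hk hz'
    have h2 : z = z' := tendsto_nhds_unique htz
      (tendsto_const_nhds.congr' (by filter_upwards [hz'] with n hn using hn.symm))
    exact hzx (h2.trans (tendsto_nhds_unique h1 hx))
  rcases cof_or_const U (fun n => k n * s ^ m n) with hw | ⟨v, hv⟩
  swap
  · exact hconst (act v c) (by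
      filter_upwards [hv] with n hn
      rw [← hwc n, hn])
  obtain ⟨ω, hω⟩ := I.exists_lim U (fun n => k n * s ^ m n)
  have hωs := I.shift U _ ω s hw hω
  have hu1 : u ω ≤ t := le_of_tendsto ((huc.tendsto ω).comp hω)
    (by filter_upwards [hm] with n hn using hn.1.le)
  have hu2 : t ≤ u ω := ge_of_tendsto ((huc.tendsto ω).comp hωs)
    (by filter_upwards [hm] with n hn using hn.2)
  have hωx : ω ≠ x := by rintro rfl; linarith only [hu2, ht1]
  have hωz : ω ≠ z := by rintro rfl; linarith only [hu1, ht2]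
  have htk : ∀ n, k n * s ^ m n * (k n)⁻¹ * k n = k n * s ^ m n := fun n =>
    inv_mul_cancel_right _ _
  have htc : ∀ n, act (k n * s ^ m n * (k n)⁻¹) (act (k n) c) = act (k n) c := fun n => by
    rw [act_act, htk, hwc]
  rcases cof_or_const U (fun n => k n * s ^ m n * (k n)⁻¹) with ht | ⟨τ, hτ⟩
  swap
  · -- the conjugates are constant
    have hτ1 : τ ≠ 1 := by
      rintro rfl
      apply hωx
      refine tendsto_nhds_unique hω (hx.congr' ?_)
      filter_upwards [hτ] with n hn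
      rw [← htk n, hn, one_mul]
    obtain ⟨n0, hn0⟩ := hτ.exists
    refine hconst (act (k n0) c) ?_
    have key : ∀ n, k n * s ^ m n * (k n)⁻¹ = τ →
        Tendsto (fun j : ℕ => hb hS (τ ^ j)) atTop (𝓝 (act (k n) c)) := by
      intro n hn
      have h1 : s ^ m n ≠ 1 := by
        intro h
        rw [h, mul_one, mul_inv_cancel] at hn
        exact hτ1 hn.symm
      have := lim_conj_pow I hc (hsm n) h1 (k n)
      rwa [hn] at this
    filter_upwards [hτ] with n hn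
    exact tendsto_nhds_unique (key n hn) (key n0 hn0)
  · obtain ⟨α, hα⟩ := I.exists_lim U (fun n => k n * s ^ m n * (k n)⁻¹)
    obtain ⟨α', hα'⟩ := I.exists_lim U (fun n => (k n * s ^ m n * (k n)⁻¹)⁻¹)
    have c1 : x ≠ α' → α = ω := by
      intro h
      have h1 := I.cvg U _ k α α' x ht hα hα' hx h
      simp only [htk] at h1
      exact tendsto_nhds_unique h1 hω
    have c2 : z ≠ α' → α = z := by
      intro h
      have h1 := I.cvgP U _ (fun n => act (k n) c) α α' z ht (fun n => I.mem_pt_smul _ hcp) hα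
        hα' htz h
      simp only [htc] at h1
      exact tendsto_nhds_unique h1 htz
    have hαα : α ≠ α' := by
      by_cases h : x = α'
      · have h2 : α = z := c2 (fun h' => hzx (h'.trans h.symm))
        rw [h2, ← h]
        exact hzx
      · have h1 := c1 h
        intro h3
        have h4 : z ≠ α' := fun h' => hωz (h1.symm.trans (h3.trans h'.symm))
        exact hωz (h1.symm.trans (c2 h4))
    have hne1 : ∀ᶠ n in (U : Filter G), k n * s ^ m n * (k n)⁻¹ ≠ 1 :=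
      ht.eventually ((Set.finite_singleton (1 : G)).compl_mem_cofinite)
    obtain ⟨n, ⟨a, ha, b, hb', hab, -, -, hta, htb⟩, hn1⟩ :=
      ((lox_of I U _ ht hα hα' hαα).and hne1).exists
    have h1 : s ^ m n ≠ 1 := by
      intro h
      rw [h, mul_one, mul_inv_cancel] at hn1
      exact hn1 rfl
    have h2 := tendsto_nhds_unique hta (lim_conj_pow I hc (hsm n) h1 (k n))
    have h3 := lim_conj_pow I hc (stb_inv (hsm n)) (inv_ne_one.2 h1) (k n)
    have h4 : k n * (s ^ m n)⁻¹ * (k n)⁻¹ = (k n * s ^ m n * (k n)⁻¹)⁻¹ := by group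
    rw [h4] at h3
    exact hab (h2.trans (tendsto_nhds_unique htb h3).symm)

end Vale.Agent.P239.F.P
end

section

/-! Combinatorial part of the block construction: equivariant nested families of atoms,
orientations, the block of an orientation; it is connected and cofinite. -/

namespace Vale.Agent.P239.F

set_option linter.unusedSectionVars false

open Set
open Vale.Agent.P239

variable {G : Type*} [Group G] {Q : Type*}

/-- left translate of a set -/
def tr (g : G) (U : Set G) : Set G := {x | g⁻¹ * x ∈ U}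

theorem mem_tr {g : G} {U : Set G} {x : G} : x ∈ tr g U ↔ g⁻¹ * x ∈ U := Iff.rfl

theorem mul_mem_tr {g : G} {U : Set G} {x : G} : g * x ∈ tr g U ↔ x ∈ U := by
  rw [mem_tr, inv_mul_cancel_left]

theorem tr_mul (g h : G) (U : Set G) : tr (g * h) U = tr g (tr h U) := by
  ext x
  simp only [mem_tr, mul_inv_rev, mul_assoc]

theorem tr_one (U : Set G) : tr 1 U = U := by
  ext x
  simp [mem_tr]

theorem adj_mul {S : Finset G} {x y : G} (h : Adj S x y) (g : G) : Adj S (g * x) (g * y) := by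
  obtain ⟨s, hs, h | h⟩ := h
  · exact ⟨s, hs, Or.inl (by rw [h, mul_assoc])⟩
  · exact ⟨s, hs, Or.inr (by rw [h, mul_assoc])⟩

theorem rtg_symm {S : Finset G} {x y : G} (h : Relation.ReflTransGen (Adj S) x y) :
    Relation.ReflTransGen (Adj S) y x := by
  induction h with
  | refl => exact Relation.ReflTransGen.refl
  | tail _ h2 ih => exact Relation.ReflTransGen.head h2.symm ih

/-- Any two points are joined by a path. -/
theorem adj_path {S : Finset G} (hS : Subgroup.closure (S : Set G) = ⊤) (x y : G) :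
    Relation.ReflTransGen (Adj S) x y := by
  have key : ∀ g : G, ∀ x : G, Relation.ReflTransGen (Adj S) x (x * g) := by
    intro g
    have hg : g ∈ Subgroup.closure (S : Set G) := hS ▸ Subgroup.mem_top g
    induction hg using Subgroup.closure_induction with
    | mem s hs => exact fun x => Relation.ReflTransGen.single ⟨s, hs, Or.inl rfl⟩
    | one => intro x; rw [mul_one]
    | mul a b _ _ ha hb => intro x; rw [← mul_assoc]; exact (ha x).trans (hb (x * a))
    | inv a _ ha =>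
      intro x
      have h1 := ha (x * a⁻¹)
      rw [inv_mul_cancel_right] at h1
      exact rtg_symm h1
  have := key (x⁻¹ * y) x
  rwa [mul_inv_cancel_left] at this

/-- A nested family: at every `c` a set `At c` of pairwise disjoint sets. -/
structure AtomFam (S : Finset G) (At : Q → Set (Set G)) : Prop where
  disj : ∀ c, ∀ U ∈ At c, ∀ U' ∈ At c, U ≠ U' → Disjoint U U'
  ne : ∀ c, ∀ U ∈ At c, U.Nonempty
  two : ∀ c, ∃ U ∈ At c, ∃ U' ∈ At c, U ≠ U'
  fin : ∀ x y, Adj S x y → {c | ∃ U ∈ At c, x ∈ U ∧ y ∉ U}.Finite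
  conn : ∀ c, ∀ U ∈ At c, ∀ x ∈ U, ∀ y ∈ U, Con S U x y
  nest : ∀ c c', c ≠ c' → ∃ U ∈ At c, ∃ U' ∈ At c', U ∪ U' = univ
  strict : ∀ c c', c ≠ c' → ∀ U ∈ At c, U ∉ At c'

variable {S : Finset G} {At : Q → Set (Set G)}

theorem AtomFam.proper (h : AtomFam S At) {c : Q} {U : Set G} (hU : U ∈ At c) : ∃ x, x ∉ U := by
  obtain ⟨U₁, h1, U₂, h2, hne⟩ := h.two c
  by_cases hU1 : U = U₁
  · subst hU1
    obtain ⟨x, hx⟩ := h.ne c U₂ h2
    exact ⟨x, fun hxU => Set.disjoint_left.1 (h.disj c U hU U₂ h2 hne) hxU hx⟩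
  · obtain ⟨x, hx⟩ := h.ne c U₁ h1
    exact ⟨x, fun hxU => Set.disjoint_left.1 (h.disj c U hU U₁ h1 hU1) hxU hx⟩

theorem AtomFam.eq_of_mem (h : AtomFam S At) {c : Q} {U U' : Set G} (hU : U ∈ At c)
    (hU' : U' ∈ At c) {x : G} (hx : x ∈ U) (hx' : x ∈ U') : U = U' := by
  by_contra hne
  exact Set.disjoint_left.1 (h.disj c U hU U' hU' hne) hx hx'

theorem mem_of_union {U U' : Set G} (h : U ∪ U' = univ) {x : G} (hx : x ∉ U) : x ∈ U' :=
  ((mem_union _ _ _).1 (h.symm ▸ mem_univ x)).resolve_left hx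

theorem AtomFam.nest_unique (h : AtomFam S At) {c c' : Q} (hne : c ≠ c') {U V U' V' : Set G}
    (hU : U ∈ At c) (hV : V ∈ At c) (hU' : U' ∈ At c') (hV' : V' ∈ At c')
    (h1 : U ∪ U' = univ) (h2 : V ∪ V' = univ) : U = V := by
  by_contra hUV
  have hd := h.disj c U hU V hV hUV
  rw [union_comm] at h1 h2
  by_cases he : U' = V'
  · subst he
    obtain ⟨x, hx⟩ := h.proper hU'
    exact Set.disjoint_left.1 hd (mem_of_union h1 hx) (mem_of_union h2 hx)
  · have hd' := h.disj c' U' hU' V' hV' he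
    apply h.strict c c' hne V hV
    have : V = U' := by
      ext x
      constructor
      · intro hx
        by_contra hx'
        exact Set.disjoint_left.1 hd (mem_of_union h1 hx') hx
      · intro hx
        exact mem_of_union h2 (fun hx' => Set.disjoint_left.1 hd' hx hx')
    rw [this]
    exact hU'

open Classical in
/-- the atom at `c` in the direction of `c'` -/
noncomputable def tow (At : Q → Set (Set G)) (c c' : Q) : Set G :=
  if hc : ∃ U ∈ At c, ∃ U' ∈ At c', U ∪ U' = univ then hc.choose else ∅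

theorem AtomFam.tow_spec (h : AtomFam S At) {c c' : Q} (hne : c ≠ c') :
    tow At c c' ∈ At c ∧ ∃ U' ∈ At c', tow At c c' ∪ U' = univ := by
  unfold tow
  rw [dif_pos (h.nest c c' hne)]
  exact (h.nest c c' hne).choose_spec

theorem AtomFam.tow_mem (h : AtomFam S At) {c c' : Q} (hne : c ≠ c') : tow At c c' ∈ At c :=
  (h.tow_spec hne).1

theorem AtomFam.eq_tow (h : AtomFam S At) {c c' : Q} (hne : c ≠ c') {U U' : Set G}
    (hU : U ∈ At c) (hU' : U' ∈ At c') (hu : U ∪ U' = univ) : U = tow At c c' := by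
  obtain ⟨h1, V', h2, h3⟩ := h.tow_spec hne
  exact h.nest_unique hne hU h1 hU' h2 hu h3

theorem AtomFam.tow_union (h : AtomFam S At) {c c' : Q} (hne : c ≠ c') :
    tow At c c' ∪ tow At c' c = univ := by
  obtain ⟨h1, V', h2, h3⟩ := h.tow_spec hne
  rw [← h.eq_tow hne.symm h2 h1 (by rw [union_comm]; exact h3)]
  exact h3

/-- an atom different from the one in the direction of `c'` lies in the atom of `c'` directed to
`c` -/
theorem AtomFam.sub_tow (h : AtomFam S At) {c c' : Q} (hne : c ≠ c') {U : Set G} (hU : U ∈ At c)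
    (hU1 : U ≠ tow At c c') : U ⊆ tow At c' c := by
  intro x hx
  refine mem_of_union (h.tow_union hne) fun hx' => ?_
  exact hU1 (h.eq_of_mem hU (h.tow_mem hne) hx hx')

/-- of three elements at most one separates the other two -/
theorem AtomFam.three (h : AtomFam S At) {a b c : Q} (hab : a ≠ b) (hac : a ≠ c) (hbc : b ≠ c)
    (h1 : tow At b a ≠ tow At b c) : tow At a b = tow At a c := by
  by_contra h2
  have u1 := h.tow_union hab
  have u2 := h.tow_union hac
  have u3 := h.tow_union hbc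
  -- `A_c ⊆ C_b`, `B_c ⊆ C_a`
  have s1 : tow At a c ⊆ tow At b a := h.sub_tow hab (h.tow_mem hac) (Ne.symm h2)
  have s2 : tow At b a ⊆ tow At c b := h.sub_tow hbc (h.tow_mem hab.symm) h1
  have s3 : tow At b c ⊆ tow At a b := h.sub_tow hab.symm (h.tow_mem hbc) (Ne.symm h1)
  have s4 : tow At a b ⊆ tow At c a := h.sub_tow hac (h.tow_mem hab) h2
  by_cases h3 : tow At c a = tow At c b
  · obtain ⟨x, hx⟩ := h.proper (h.tow_mem hac.symm)
    rw [union_comm] at u3
    exact hx (s4 (s3 (mem_of_union u3 (h3 ▸ hx))))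
  · refine h.strict b c hbc _ (h.tow_mem hbc) ?_
    have : tow At b c = tow At c a := by
      refine subset_antisymm (s3.trans s4) fun x hx => ?_
      rw [union_comm] at u3
      refine mem_of_union u3 fun hx' => ?_
      exact h3 (h.eq_of_mem (h.tow_mem hac.symm) (h.tow_mem hbc.symm) hx hx')
    rw [this]
    exact h.tow_mem hac.symm

/-- only finitely many elements separate two points -/
theorem AtomFam.finCross (hS : Subgroup.closure (S : Set G) = ⊤) (h : AtomFam S At) (x y : G) :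
    {c | ∃ U ∈ At c, x ∈ U ∧ y ∉ U}.Finite := by
  induction adj_path hS x y with
  | refl =>
    refine Set.finite_empty.subset ?_
    rintro c ⟨U, _, h1, h2⟩
    exact (h2 h1).elim
  | @tail b z _ hbz ih =>
    refine (ih.union (h.fin b z hbz)).subset ?_
    rintro c ⟨U, hU, h1, h2⟩
    by_cases hb : b ∈ U
    · exact Or.inr ⟨U, hU, hb, h2⟩
    · exact Or.inl ⟨U, hU, h1, hb⟩

/-- Two elements are adjacent if nothing separates them. -/
def AdjQ (At : Q → Set (Set G)) (a b : Q) : Prop :=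
  a ≠ b ∧ ∀ c, c ≠ a → c ≠ b → tow At c a = tow At c b

/-- the orientation towards `a` whose value at `a` is the atom directed to `b` -/
noncomputable def ori (At : Q → Set (Set G)) (a b : Q) : Q → Set G :=
  fun c => open Classical in if c = a then tow At a b else tow At c a

theorem ori_self (a b : Q) : ori At a b a = tow At a b := if_pos rfl

theorem ori_ne (a b : Q) {c : Q} (hc : c ≠ a) : ori At a b c = tow At c a := if_neg hc

theorem ori_comm {a b : Q} (hab : AdjQ At a b) : ori At a b = ori At b a := by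
  funext c
  by_cases ha : c = a
  · subst ha
    rw [ori_self, ori_ne _ _ hab.1]
  · by_cases hb : c = b
    · subst hb
      rw [ori_self, ori_ne _ _ ha]
    · rw [ori_ne _ _ ha, ori_ne _ _ hb, hab.2 c ha hb]

/-- Existence of an adjacent element in a given direction. -/
theorem AtomFam.exists_adjQ (hS : Subgroup.closure (S : Set G) = ⊤) (h : AtomFam S At) {a c₀ : Q}
    (hne : a ≠ c₀) : ∃ b, AdjQ At a b ∧ tow At a b = tow At a c₀ := by
  classical
  let D : Set Q := {c | c ≠ a ∧ (c = c₀ ∨ tow At c a ≠ tow At c c₀)}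
  have hfin : D.Finite := by
    obtain ⟨U₁, hU₁, U₂, hU₂, hU⟩ := h.two a
    obtain ⟨V₁, hV₁, V₂, hV₂, hV⟩ := h.two c₀
    obtain ⟨x₁, hx₁⟩ := h.ne a U₁ hU₁
    obtain ⟨x₂, hx₂⟩ := h.ne a U₂ hU₂
    obtain ⟨y₁, hy₁⟩ := h.ne c₀ V₁ hV₁
    obtain ⟨y₂, hy₂⟩ := h.ne c₀ V₂ hV₂
    refine ((((h.finCross hS x₁ y₁).union (h.finCross hS x₁ y₂)).union
      ((h.finCross hS x₂ y₁).union (h.finCross hS x₂ y₂))).union
        (Set.finite_singleton c₀)).subset ?_
    rintro c ⟨hca, hc⟩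
    by_cases hc0 : c = c₀
    · exact Or.inr hc0
    have hc1 := hc.resolve_left hc0
    have e1 : x₁ ∈ tow At c a ∨ x₂ ∈ tow At c a := by
      by_cases hU1 : U₁ = tow At a c
      · exact Or.inr (h.sub_tow (Ne.symm hca) hU₂ (fun h' => hU (hU1.trans h'.symm)) hx₂)
      · exact Or.inl (h.sub_tow (Ne.symm hca) hU₁ hU1 hx₁)
    have e2 : y₁ ∈ tow At c c₀ ∨ y₂ ∈ tow At c c₀ := by
      by_cases hV1 : V₁ = tow At c₀ c
      · exact Or.inr (h.sub_tow (Ne.symm hc0) hV₂ (fun h' => hV (hV1.trans h'.symm)) hy₂)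
      · exact Or.inl (h.sub_tow (Ne.symm hc0) hV₁ hV1 hy₁)
    have e3 : ∀ z, z ∈ tow At c c₀ → z ∉ tow At c a := fun z hz hz' =>
      hc1 (h.eq_of_mem (h.tow_mem hca) (h.tow_mem hc0) hz' hz)
    refine Or.inl ?_
    rcases e1 with e1 | e1
    · refine Or.inl ?_
      rcases e2 with e2 | e2
      · exact Or.inl ⟨_, h.tow_mem hca, e1, e3 _ e2⟩
      · exact Or.inr ⟨_, h.tow_mem hca, e1, e3 _ e2⟩
    · refine Or.inr ?_
      rcases e2 with e2 | e2
      · exact Or.inl ⟨_, h.tow_mem hca, e1, e3 _ e2⟩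
      · exact Or.inr ⟨_, h.tow_mem hca, e1, e3 _ e2⟩
  have hDne : D.Nonempty := ⟨c₀, Ne.symm hne, Or.inl rfl⟩
  obtain ⟨b, hb⟩ := Set.Finite.exists_minimalFor (fun c => tow At c a) D hfin hDne
  have hba : b ≠ a := hb.1.1
  refine ⟨b, ⟨Ne.symm hba, ?_⟩, ?_⟩
  · intro c hca hcb
    by_contra hsep
    -- `c` separates `a` and `b`
    have h1 : tow At b c = tow At b a := h.three (Ne.symm hcb) hba hca (fun h' => hsep h'.symm)
    have h2 : tow At c a ⊆ tow At b c := h.sub_tow hcb (h.tow_mem hca) hsep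
    have hcD : c ∈ D := by
      refine ⟨hca, ?_⟩
      by_cases hc0 : c = c₀
      · exact Or.inl hc0
      refine Or.inr ?_
      rcases hb.1.2 with hb0 | hb0
      · subst hb0; exact hsep
      · by_cases hbc0 : b = c₀
        · subst hbc0; exact hsep
        have h3 : tow At c b = tow At c c₀ := by
          refine h.three hcb hc0 hbc0 ?_
          rw [h1]; exact hb0
        rw [← h3]; exact hsep
    rw [h1] at h2
    have h4 : tow At b a ⊆ tow At c a := hb.2 hcD h2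
    have h5 : tow At b a = tow At c a := subset_antisymm h4 h2
    exact h.strict b c (Ne.symm hcb) _ (h.tow_mem hba) (h5 ▸ h.tow_mem hca)
  · rcases hb.1.2 with hb0 | hb0
    · rw [hb0]
    · by_cases hbc0 : b = c₀
      · rw [hbc0]
      exact h.three (Ne.symm hba) hne hbc0 hb0

/-- Orientations. -/
structure Ori (At : Q → Set (Set G)) (v : Q → Set G) : Prop where
  mem : ∀ c, v c ∈ At c
  tw : ∀ c c', c ≠ c' → v c = tow At c c' ∨ v c' = tow At c' c
  fin : ∀ x, {c | x ∉ v c}.Finite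

theorem Ori.lam (h : AtomFam S At) {v : Q → Set G} (hv : Ori At v) {c c' : Q} {x : G}
    (hx : x ∉ v c) (hx' : x ∉ v c') : v c ⊆ v c' ∨ v c' ⊆ v c := by
  by_cases hcc : c = c'
  · subst hcc; exact Or.inl subset_rfl
  by_cases h1 : v c = tow At c c'
  · by_cases h2 : v c' = tow At c' c
    · have := h.tow_union hcc
      rw [← h1, ← h2] at this
      exact (hx' (mem_of_union this hx)).elim
    · refine Or.inr ?_
      rw [h1]
      exact h.sub_tow (Ne.symm hcc) (hv.mem c') h2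
  · have h2 := (hv.tw c c' hcc).resolve_left h1
    refine Or.inl ?_
    rw [h2]
    exact h.sub_tow hcc (hv.mem c) h1

theorem AtomFam.ori (hS : Subgroup.closure (S : Set G) = ⊤) (h : AtomFam S At) {a b : Q}
    (hab : a ≠ b) : Ori At (ori At a b) := by
  refine ⟨?_, ?_, ?_⟩
  · intro c
    by_cases hc : c = a
    · subst hc; rw [ori_self]; exact h.tow_mem hab
    · rw [ori_ne _ _ hc]; exact h.tow_mem hc
  · intro c c' hcc
    by_cases hc : c = a
    · subst hc; right; rw [ori_ne _ _ (Ne.symm hcc)]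
    · by_cases hc' : c' = a
      · subst hc'; left; rw [ori_ne _ _ hc]
      · rw [ori_ne _ _ hc, ori_ne _ _ hc']
        by_cases h1 : tow At c a = tow At c c'
        · exact Or.inl h1
        · exact Or.inr (h.three (Ne.symm hcc) hc' hc (Ne.symm h1)).symm
  · intro x
    obtain ⟨U₁, hU₁, U₂, hU₂, hU⟩ := h.two a
    obtain ⟨x₁, hx₁⟩ := h.ne a U₁ hU₁
    obtain ⟨x₂, hx₂⟩ := h.ne a U₂ hU₂
    refine (((h.finCross hS x₁ x).union (h.finCross hS x₂ x)).union
        (Set.finite_singleton a)).subset ?_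
    intro c hc
    by_cases hca : c = a
    · exact Or.inr hca
    change x ∉ F.ori At a b c at hc
    rw [ori_ne _ _ hca] at hc
    refine Or.inl ?_
    by_cases hU1 : U₁ = tow At a c
    · exact Or.inr ⟨_, h.tow_mem hca,
        h.sub_tow (Ne.symm hca) hU₂ (fun h' => hU (hU1.trans h'.symm)) hx₂, hc⟩
    · exact Or.inl ⟨_, h.tow_mem hca, h.sub_tow (Ne.symm hca) hU₁ hU1 hx₁, hc⟩

/-- the edges of the block -/
def Ev (S : Finset G) (v : Q → Set G) (x y : G) : Prop := Adj S x y ∧ ∀ c, x ∈ v c ∨ y ∈ v c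

/-- the vertices of the block -/
def Vv (S : Finset G) (v : Q → Set G) : Set G := {x | ∃ y, Ev S v x y}

/-- `c` is the exit centre of `x`: the first one, seen from the block, which excludes `x` -/
def Ex (v : Q → Set G) (x : G) (c : Q) : Prop := x ∉ v c ∧ ∀ c', x ∉ v c' → v c ⊆ v c'

variable {v : Q → Set G}

theorem Ev.symm {x y : G} (h : Ev S v x y) : Ev S v y x := ⟨h.1.symm, fun c => (h.2 c).symm⟩

theorem Ev.left {x y : G} (h : Ev S v x y) : x ∈ Vv S v := ⟨y, h⟩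

theorem Ev.right {x y : G} (h : Ev S v x y) : y ∈ Vv S v := ⟨x, h.symm⟩

theorem exists_ex (h : AtomFam S At) (hv : Ori At v) {x : G} {c : Q} (hx : x ∉ v c) :
    ∃ c, Ex v x c := by
  obtain ⟨b, hb⟩ := Set.Finite.exists_minimalFor (fun c => v c) {c | x ∉ v c} (hv.fin x) ⟨c, hx⟩
  refine ⟨b, hb.1, fun c' hc' => ?_⟩
  rcases hv.lam h hb.1 hc' with h1 | h1
  · exact h1
  · exact hb.2 hc' h1

theorem Ex.move (h : AtomFam S At) (hv : Ori At v) {x y : G} {c c₁ : Q} (hx : Ex v x c)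
    (hx1 : x ∉ v c₁) (hy1 : y ∉ v c₁) : Ex v y c := by
  have hy : y ∉ v c := fun hy => hy1 (hx.2 c₁ hx1 hy)
  refine ⟨hy, fun c' hc' => ?_⟩
  rcases hv.lam h hy hc' with h1 | h1
  · exact h1
  · exact hx.2 c' (fun h2 => hx.1 (h1 h2))

theorem Ex.wall {x y : G} {c : Q} (hx : Ex v x c) (hy : y ∈ v c) (c' : Q) :
    x ∈ v c' ∨ y ∈ v c' := by
  by_contra hcon
  push Not at hcon
  exact hcon.2 (hx.2 c' hcon.1 hy)

/-- The wall of a set which is connected and has connected complement is connected. -/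
theorem wall_con (hex : H1Ex S) {N V : Set G} (hN : ∀ x ∈ N, ∀ y ∈ N, Con S N x y)
    (hN' : ∀ x ∈ Nᶜ, ∀ y ∈ Nᶜ, Con S Nᶜ x y)
    (hV : ∀ x ∈ N, ∀ y ∉ N, Adj S x y → x ∈ V ∧ y ∈ V)
    {w y w' y' : G} (hw : w ∈ N) (hy : y ∉ N) (hwy : Adj S w y)
    (hw' : w' ∈ N) (hy' : y' ∉ N) (hwy' : Adj S w' y') : Con S V w w' := by
  classical
  let c : G → G → ZMod 2 := fun a b => if ¬ (a ∈ N ↔ b ∈ N) ∧ Con S V w a then 1 else 0
  have hadj : ∀ {a b : G}, a⁻¹ * b ∈ S → Adj S a b := fun {a b} h =>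
    ⟨_, h, Or.inl (by rw [mul_inv_cancel_left])⟩
  have hVV : ∀ {a b : G}, Adj S a b → ¬ (a ∈ N ↔ b ∈ N) → a ∈ V ∧ b ∈ V := by
    intro a b hab hne
    by_cases ha : a ∈ N
    · have hb : b ∉ N := fun hb => hne (iff_of_true ha hb)
      exact hV a ha b hb hab
    · have hb : b ∈ N := by
        by_contra hb
        exact hne (iff_of_false ha hb)
      exact (hV b hb a ha hab.symm).symm
  have hstep : ∀ {a b : G}, Adj S a b → a ∈ V → b ∈ V → (Con S V w a ↔ Con S V w b) := by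
    intro a b hab ha hb
    exact ⟨fun h => h.tail ⟨ha, hb, hab⟩, fun h => h.tail ⟨hb, ha, hab.symm⟩⟩
  obtain ⟨f, hf⟩ := hex c (by
    intro a b d hab hbd had
    have hab := hadj hab
    have hbd := hadj hbd
    have had := hadj had
    have e1 : (a ∈ N ↔ b ∈ N) ∨ (¬ (a ∈ N ↔ b ∈ N) ∧ (Con S V w a ↔ Con S V w b)) := by
      by_cases h : (a ∈ N ↔ b ∈ N)
      · exact Or.inl h
      · exact Or.inr ⟨h, hstep hab (hVV hab h).1 (hVV hab h).2⟩
    have e2 : (b ∈ N ↔ d ∈ N) ∨ (¬ (b ∈ N ↔ d ∈ N) ∧ (Con S V w b ↔ Con S V w d)) := by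
      by_cases h : (b ∈ N ↔ d ∈ N)
      · exact Or.inl h
      · exact Or.inr ⟨h, hstep hbd (hVV hbd h).1 (hVV hbd h).2⟩
    have e3 : (a ∈ N ↔ d ∈ N) ∨ (¬ (a ∈ N ↔ d ∈ N) ∧ (Con S V w a ↔ Con S V w d)) := by
      by_cases h : (a ∈ N ↔ d ∈ N)
      · exact Or.inl h
      · exact Or.inr ⟨h, hstep had (hVV had h).1 (hVV had h).2⟩
    simp only [c]
    have h11 : (1 : ZMod 2) + 1 = 0 := by decide
    by_cases ha : a ∈ N <;> by_cases hb : b ∈ N <;> by_cases hd : d ∈ N <;>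
      simp_all
    all_goals exact CharTwo.add_self_eq_zero _)
  have hconst : ∀ {A : Set G}, (∀ a ∈ A, ∀ b ∈ A, (a ∈ N ↔ b ∈ N)) → ∀ {a b : G},
      Con S A a b → f a = f b := by
    intro A hA a b hab
    induction hab with
    | refl => rfl
    | @tail b d _ hbd ih =>
      rw [ih]
      obtain ⟨hb, hd, s, hs, h | h⟩ := hbd
      · have h1 := hf b d (by rw [h, inv_mul_cancel_left]; exact hs)
        have h2 : c b d = 0 := if_neg fun h' => h'.1 (hA b hb d hd)
        rw [h2] at h1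
        exact CharTwo.add_eq_zero.1 h1.symm
      · have h1 := hf d b (by rw [h, inv_mul_cancel_left]; exact hs)
        have h2 : c d b = 0 := if_neg fun h' => h'.1 (hA d hd b hb)
        rw [h2] at h1
        exact (CharTwo.add_eq_zero.1 h1.symm).symm
  have hfN : f w = f w' := hconst (fun a ha b hb => iff_of_true ha hb) (hN w hw w' hw')
  have hfN' : f y = f y' := hconst (fun a ha b hb => iff_of_false ha hb) (hN' y hy y' hy')
  have hne : ∀ {a b : G}, a ∈ N → b ∉ N → ¬ (a ∈ N ↔ b ∈ N) := fun ha hb h => hb (h.1 ha)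
  have hsum : f w + f y = 1 := by
    obtain ⟨s, hs, h | h⟩ := hwy
    · rw [← hf w y (by rw [h, inv_mul_cancel_left]; exact hs)]
      exact if_pos ⟨hne hw hy, Relation.ReflTransGen.refl⟩
    · rw [add_comm, ← hf y w (by rw [h, inv_mul_cancel_left]; exact hs)]
      refine if_pos ⟨fun h' => hy (h'.2 hw), ?_⟩
      have hh := hV w hw y hy ⟨s, hs, Or.inr h⟩
      exact Relation.ReflTransGen.single ⟨hh.1, hh.2, ⟨s, hs, Or.inr h⟩⟩
  rw [hfN, hfN'] at hsum
  have hh := hV w' hw' y' hy' hwy'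
  obtain ⟨s, hs, h | h⟩ := id hwy'
  · rw [← hf w' y' (by rw [h, inv_mul_cancel_left]; exact hs)] at hsum
    by_contra hcon
    have : c w' y' = 0 := if_neg fun h' => hcon h'.2
    rw [this] at hsum
    exact absurd hsum (by decide)
  · rw [add_comm, ← hf y' w' (by rw [h, inv_mul_cancel_left]; exact hs)] at hsum
    by_contra hcon
    have : c y' w' = 0 := if_neg fun h' => hcon (h'.2.tail ⟨hh.2, hh.1, hwy'.symm⟩)
    rw [this] at hsum
    exact absurd hsum (by decide)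

theorem Con.mem_of_left {A : Set G} {x y : G} (h : Con S A x y) (hx : x ∈ A) : y ∈ A := by
  induction h with
  | refl => exact hx
  | tail _ h2 _ => exact h2.2.1

/-- connectivity inside one branch of the block -/
theorem branch_con (hS : Subgroup.closure (S : Set G) = ⊤) (hex : H1Ex S) (h : AtomFam S At)
    (hv : Ori At v) {z : G} {c : Q} (hz : Ex v z c) {w w' : G} (hw : Con S (v c)ᶜ z w)
    (hw' : Con S (v c)ᶜ z w') (hwV : w ∈ Vv S v) (hwV' : w' ∈ Vv S v) : Con S (Vv S v) w w' := by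
  let N : Set G := {u | Con S (v c)ᶜ z u}
  have hNv : ∀ u ∈ N, u ∉ v c := fun u hu => Con.mem_of_left hu hz.1
  have hExt : ∀ u ∈ N, Ex v u c := fun u hu => hz.move h hv hz.1 (hNv u hu)
  have hclosed : ∀ u ∈ N, ∀ u', Adj S u u' → u' ∉ v c → u' ∈ N := fun u hu u' hadj hu' =>
    Relation.ReflTransGen.tail hu ⟨hNv u hu, hu', hadj⟩
  have hNN : ∀ u ∈ N, Con S N z u := by
    intro u hu
    induction hu with
    | refl => exact Relation.ReflTransGen.refl
    | @tail b d hb hbd ih =>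
      exact ih.tail ⟨hb, Relation.ReflTransGen.tail hb hbd, hbd.2.2⟩
  have hN : ∀ x ∈ N, ∀ y ∈ N, Con S N x y := fun x hx y hy => (hNN x hx).symm.trans (hNN y hy)
  have hvN : v c ⊆ Nᶜ := fun u hu hu' => hNv u hu' hu
  obtain ⟨p₀, hp₀⟩ := h.ne c _ (hv.mem c)
  have hto : ∀ u, u ∉ N → ∃ p ∈ v c, Con S Nᶜ u p := by
    intro u
    refine Relation.ReflTransGen.head_induction_on
      (motive := fun u _ => u ∉ N → ∃ p ∈ v c, Con S Nᶜ u p) (adj_path hS u p₀) ?_ ?_
    · intro _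
      exact ⟨p₀, hp₀, Relation.ReflTransGen.refl⟩
    · intro a b hab _ ih ha
      by_cases hav : a ∈ v c
      · exact ⟨a, hav, Relation.ReflTransGen.refl⟩
      · have hb : b ∉ N := fun hb => ha (hclosed b hb a hab.symm hav)
        obtain ⟨p, hp, hcon⟩ := ih hb
        exact ⟨p, hp, Relation.ReflTransGen.head ⟨ha, hb, hab⟩ hcon⟩
  have hmono : ∀ {x y : G}, Con S (v c) x y → Con S Nᶜ x y := by
    intro x y hxy
    exact Relation.ReflTransGen.mono (fun a b hab => ⟨hvN hab.1, hvN hab.2.1, hab.2.2⟩) _ _ hxy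
  have hN' : ∀ x ∈ Nᶜ, ∀ y ∈ Nᶜ, Con S Nᶜ x y := by
    intro x hx y hy
    obtain ⟨p, hp, hxp⟩ := hto x hx
    obtain ⟨q, hq, hyq⟩ := hto y hy
    exact (hxp.trans (hmono (h.conn c _ (hv.mem c) p hp q hq))).trans hyq.symm
  have hV : ∀ x ∈ N, ∀ y ∉ N, Adj S x y → x ∈ Vv S v ∧ y ∈ Vv S v := by
    intro x hx y hy hxy
    have hyv : y ∈ v c := by
      by_contra hyv
      exact hy (hclosed x hx y hxy hyv)
    have he : Ev S v x y := ⟨hxy, fun c' => (hExt x hx).wall hyv c'⟩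
    exact ⟨he.left, he.right⟩
  obtain ⟨y, hy⟩ := hwV
  obtain ⟨y', hy'⟩ := hwV'
  have hyv : y ∈ v c := (hy.2 c).resolve_left (hNv w hw)
  have hyv' : y' ∈ v c := (hy'.2 c).resolve_left (hNv w' hw')
  exact wall_con hex hN hN' hV hw (hvN hyv) hy.1 hw' (hvN hyv') hy'.1

/-- The block is connected. -/
theorem block_conn (hS : Subgroup.closure (S : Set G) = ⊤) (hex : H1Ex S) (h : AtomFam S At)
    (hv : Ori At v) {x y : G} (hx : x ∈ Vv S v) (hy : y ∈ Vv S v) : Con S (Vv S v) x y := by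
  have key : ∀ z, Relation.ReflTransGen (Adj S) x z → ∀ w ∈ Vv S v,
      (w = z ∨ ∃ c, Ex v z c ∧ Con S (v c)ᶜ z w) → Con S (Vv S v) x w := by
    intro z hz
    induction hz with
    | refl =>
      rintro w hw (rfl | ⟨c, hc, hzw⟩)
      · exact Relation.ReflTransGen.refl
      · exact branch_con hS hex h hv hc Relation.ReflTransGen.refl hzw hx hw
    | @tail z z' _ hzz' ih =>
      intro w hw hcase
      by_cases hE : Ev S v z z'
      · have h1 : Con S (Vv S v) x z' :=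
          (ih z hE.left (Or.inl rfl)).tail ⟨hE.left, hE.right, hzz'⟩
        rcases hcase with rfl | ⟨c, hc, hzw⟩
        · exact h1
        · exact h1.trans (branch_con hS hex h hv hc Relation.ReflTransGen.refl hzw hE.right hw)
      · obtain ⟨c₁, hc₁⟩ : ∃ c₁, z ∉ v c₁ ∧ z' ∉ v c₁ := by
          by_contra hcon
          push Not at hcon
          exact hE ⟨hzz', fun c => or_iff_not_imp_left.2 (hcon c)⟩
        rcases hcase with rfl | ⟨c, hc, hzw⟩
        · obtain ⟨c, hc⟩ := exists_ex h hv hc₁.1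
          exact ih w hw (Or.inr ⟨c, hc, Relation.ReflTransGen.single
            ⟨hc.1, (hc.move h hv hc₁.1 hc₁.2).1, hzz'⟩⟩)
        · have hc' : Ex v z c := hc.move h hv hc₁.2 hc₁.1
          exact ih w hw (Or.inr ⟨c, hc', Relation.ReflTransGen.head ⟨hc'.1, hc.1, hzz'⟩ hzw⟩)
  exact key y (adj_path hS x y) y hy (Or.inl rfl)

section Act

variable [MulAction G Q]

/-- The stabiliser of an orientation. -/
def stab (v : Q → Set G) : Subgroup G where
  carrier := {g | ∀ c, v (g • c) = tr g (v c)}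
  mul_mem' := by
    intro a b ha hb c
    rw [mul_smul, ha, hb, tr_mul]
  one_mem' := by
    intro c
    rw [one_smul, tr_one]
  inv_mem' := by
    intro a ha c
    have h1 := ha (a⁻¹ • c)
    rw [smul_inv_smul] at h1
    rw [h1, ← tr_mul, inv_mul_cancel, tr_one]

theorem mem_stab {g : G} : g ∈ stab v ↔ ∀ c, v (g • c) = tr g (v c) := Iff.rfl

theorem stab_mem {g : G} (hg : g ∈ stab v) {x : G} {c : Q} : g * x ∈ v c ↔ x ∈ v (g⁻¹ • c) := by
  have h1 := mem_stab.1 hg (g⁻¹ • c)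
  rw [smul_inv_smul] at h1
  rw [h1, mul_mem_tr]

theorem block_inv {g : G} (hg : g ∈ stab v) {x : G} (hx : x ∈ Vv S v) : g * x ∈ Vv S v := by
  obtain ⟨y, hy, hc⟩ := hx
  refine ⟨g * y, adj_mul hy g, fun c => ?_⟩
  rw [stab_mem hg, stab_mem hg]
  exact hc _

/-- There are finitely many orbits of vertices of the block. -/
theorem block_cof (h : AtomFam S At)
    (heq : ∀ (g : G) (c : Q), ∀ U ∈ At c, tr g U ∈ At (g • c)) (hv : Ori At v) :
    ∃ reps : Finset G, ∀ x ∈ Vv S v, ∃ g ∈ stab v, ∃ f ∈ reps, x = g * f := by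
  classical
  let O : G → Set (Q → Set G) := fun t => {w | (∀ c, w c ∈ At c) ∧ ∀ c, 1 ∈ w c ∨ t ∈ w c}
  have hO : ∀ t, Adj S 1 t → (O t).Finite := by
    intro t ht
    let C : Set Q := {c | ∃ U ∈ At c, (1 : G) ∈ U ∧ t ∉ U} ∪ {c | ∃ U ∈ At c, t ∈ U ∧ (1 : G) ∉ U}
    have hC : C.Finite := (h.fin 1 t ht).union (h.fin t 1 ht.symm)
    refine Set.Finite.of_finite_image (f := fun w => {c | c ∈ C ∧ (1 : G) ∈ w c})
      (hC.finite_subsets.subset ?_) ?_
    · rintro _ ⟨w, _, rfl⟩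
      exact fun c hc => hc.1
    · intro w hw w' hw' hww
      funext c
      have hww : {c | c ∈ C ∧ (1 : G) ∈ w c} = {c | c ∈ C ∧ (1 : G) ∈ w' c} := hww
      by_cases hc : c ∈ C
      · by_cases h1 : (1 : G) ∈ w c
        · have h2 : c ∈ {c | c ∈ C ∧ (1 : G) ∈ w' c} := hww ▸ ⟨hc, h1⟩
          exact h.eq_of_mem (hw.1 c) (hw'.1 c) h1 h2.2
        · have h2 : (1 : G) ∉ w' c := by
            intro h2
            have h3 : c ∈ {c | c ∈ C ∧ (1 : G) ∈ w c} := hww.symm ▸ ⟨hc, h2⟩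
            exact h1 h3.2
          exact h.eq_of_mem (hw.1 c) (hw'.1 c) ((hw.2 c).resolve_left h1)
            ((hw'.2 c).resolve_left h2)
      · have h1 : ∀ U ∈ At c, (1 : G) ∈ U ∨ t ∈ U → (1 : G) ∈ U := by
          rintro U hU (h1 | h1)
          · exact h1
          · by_contra h2
            exact hc (Or.inr ⟨U, hU, h1, h2⟩)
        exact h.eq_of_mem (hw.1 c) (hw'.1 c) (h1 _ (hw.1 c) (hw.2 c)) (h1 _ (hw'.1 c) (hw'.2 c))
  have hfinT : {t : G | Adj S 1 t}.Finite := by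
    refine ((S.finite_toSet).union ((S.finite_toSet).image fun s => s⁻¹)).subset ?_
    rintro t ⟨s, hs, ht | ht⟩
    · left; rw [ht, one_mul]; exact hs
    · right; exact ⟨s, hs, (eq_inv_of_mul_eq_one_left ht.symm).symm⟩
  let wf : G → Q → Set G := fun x c => tr x⁻¹ (v (x • c))
  have hfin : (wf '' Vv S v).Finite := by
    refine (hfinT.biUnion (t := fun t => O t) fun t ht => hO t ht).subset ?_
    rintro _ ⟨x, ⟨y, hxy, hc⟩, rfl⟩
    refine Set.mem_biUnion (x := x⁻¹ * y) ?_ ⟨fun c => ?_, fun c => ?_⟩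
    · have := adj_mul hxy x⁻¹
      rwa [inv_mul_cancel] at this
    · have := heq x⁻¹ (x • c) _ (hv.mem (x • c))
      rwa [inv_smul_smul] at this
    · change x⁻¹⁻¹ * 1 ∈ v (x • c) ∨ x⁻¹⁻¹ * (x⁻¹ * y) ∈ v (x • c)
      rw [inv_inv, mul_one, mul_inv_cancel_left]
      exact hc _
  obtain ⟨R, hRV, hR⟩ := Set.exists_subset_bijOn (Vv S v) wf
  have hRfin : R.Finite := by
    refine Set.Finite.of_finite_image ?_ hR.injOn
    rw [hR.image_eq]
    exact hfin
  refine ⟨hRfin.toFinset, fun x hx => ?_⟩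
  obtain ⟨f, hf, hfx⟩ := hR.surjOn (Set.mem_image_of_mem wf hx)
  refine ⟨x * f⁻¹, ?_, f, hRfin.mem_toFinset.2 hf, by rw [inv_mul_cancel_right]⟩
  rw [mem_stab]
  intro c
  have h1 : tr f⁻¹ (v (f • (f⁻¹ • c))) = tr x⁻¹ (v (x • (f⁻¹ • c))) := congrFun hfx (f⁻¹ • c)
  rw [smul_inv_smul] at h1
  rw [tr_mul, h1, ← tr_mul, mul_inv_cancel, tr_one, mul_smul]

end Act

end Vale.Agent.P239.F
end

section

/-! Walls and branches of a block. -/

namespace Vale.Agent.P239.F

set_option linter.unusedSectionVars false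

open Set
open Vale.Agent.P239

variable {G : Type*} [Group G] {Q : Type*} {S : Finset G} {At : Q → Set (Set G)}

theorem ex_ori (h : AtomFam S At) {a b : Q} (hab : a ≠ b) {x : G} (hx : x ∉ tow At a b) :
    Ex (ori At a b) x a := by
  refine ⟨by rw [ori_self]; exact hx, fun c hc => ?_⟩
  by_cases hca : c = a
  · rw [hca]
  rw [ori_ne _ _ hca] at hc ⊢
  rw [ori_self]
  by_cases h1 : tow At a b = tow At a c
  · have := h.tow_union (Ne.symm hca)
    rw [← h1] at this
    exact (hc (mem_of_union this hx)).elim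
  · exact h.sub_tow (Ne.symm hca) (h.tow_mem hab) h1

/-- both sides of the wall at `a` lie in the block -/
theorem bd_sub_left (h : AtomFam S At) {a b : Q} (hab : a ≠ b) :
    bd S (tow At a b) ⊆ Vv S (ori At a b) := by
  rintro x ⟨y, hxy, hne⟩
  by_cases hx : x ∈ tow At a b
  · have hy : y ∉ tow At a b := fun hy => hne (iff_of_true hx hy)
    have := (ex_ori h hab hy).wall (y := x) (by rw [ori_self]; exact hx)
    exact ⟨y, hxy, fun c => (this c).symm⟩
  · have hy : y ∈ tow At a b := by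
      by_contra hy
      exact hne (iff_of_false hx hy)
    exact ⟨y, hxy, (ex_ori h hab hx).wall (by rw [ori_self]; exact hy)⟩

/-- both sides of the wall at `b` lie in the block -/
theorem bd_sub_right (h : AtomFam S At) {a b : Q} (hab : AdjQ At a b) :
    bd S (tow At b a) ⊆ Vv S (ori At a b) := by
  rw [ori_comm hab]
  exact bd_sub_left h (Ne.symm hab.1)

variable {v : Q → Set G}

section Act

variable [MulAction G Q]

end Act

end Vale.Agent.P239.F
end

section

/-!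
C6: the block of an adjacent pair of centres.
-/

namespace Vale.Agent.P239.F

open Filter Topology Set
open Vale.Agent.P239
open scoped Pointwise
open E

variable {G : Type*} [Group G] {S : Finset G} (hS : Subgroup.closure (S : Set G) = ⊤)

theorem tr_eq_smul (g : G) (A : Set G) : tr g A = g • A := by
  ext x
  rw [mem_smul_set_iff_inv_smul_mem]
  rfl

/-- the canonical sets of the atoms at the centre `c` -/
def AtC (c : Cent hS) : Set (Set G) := {U | ∃ p ∈ Lim hS univ, p ≠ c.1 ∧ U = Hp hS c.1 p}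

variable {hS} {T : Finset G}

theorem con_of_gen {A : Set G} (hA : A = univ) (x y : G) (hS : Subgroup.closure (S : Set G) = ⊤) :
    Con S A x y := by
  subst hA
  induction adj_path hS x y with
  | refl => exact Relation.ReflTransGen.refl
  | tail _ h ih => exact ih.tail ⟨trivial, trivial, h⟩

theorem adj_mono {S T : Finset G} (hST : S ⊆ T) {x y : G} (h : Adj S x y) : Adj T x y := by
  obtain ⟨s, hs, h⟩ := h
  exact ⟨s, hST hs, h⟩

theorem con_mono {S T : Finset G} (hST : S ⊆ T) {A : Set G} {x y : G} (h : Con S A x y) :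
    Con T A x y :=
  Relation.ReflTransGen.mono (fun _ _ hab => ⟨hab.1, hab.2.1, adj_mono hST hab.2.2⟩) _ _ h

theorem bd_mono {S T : Finset G} (hST : S ⊆ T) (A : Set G) : bd S A ⊆ bd T A := by
  rintro x ⟨y, hxy, h⟩
  exact ⟨y, adj_mono hST hxy, h⟩

/-- change of scale -/
theorem AtomFam.mono {Q : Type*} {At : Q → Set (Set G)}
    (hS : Subgroup.closure (S : Set G) = ⊤) (hST : S ⊆ T) (h : AtomFam S At) : AtomFam T At where
  disj := h.disj
  ne := h.ne
  two := h.two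
  fin := fun x y _ => h.finCross hS x y
  conn := fun c U hU x hx y hy => con_mono hST (h.conn c U hU x hx y hy)
  nest := h.nest
  strict := h.strict

theorem closure_mono_top {S T : Finset G} (hS : Subgroup.closure (S : Set G) = ⊤) (hST : S ⊆ T) :
    Subgroup.closure (T : Set G) = ⊤ :=
  eq_top_iff.2 (hS ▸ Subgroup.closure_mono (by exact_mod_cast hST))

namespace CIn

variable (I : CIn hS T)

/-- the action on the centres -/
@[reducible] def mulAct : MulAction G (Cent hS) where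
  smul g c := ⟨act g c.1, I.cent_smul g c.2⟩
  one_smul _ := Subtype.ext (act_one _)
  mul_smul g h c := Subtype.ext (act_act g h c.1).symm

theorem atC_smul (g : G) (c : Cent hS) (U : Set G) (hU : U ∈ AtC hS c) :
    tr g U ∈ AtC hS ⟨act g c.1, I.cent_smul g c.2⟩ := by
  obtain ⟨p, hp, hne, rfl⟩ := hU
  refine ⟨act g p, I.mem_pt_smul g hp, fun h => hne (act_injective g h), ?_⟩
  rw [I.hp_smul, tr_eq_smul]

include I in
/-- an infinite subset converging to `β` has `β` as limit point -/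
theorem lim_of_conv {A V : Set G} {β : G → G → ℝ} (hA : A.Infinite) (hAV : A ⊆ V)
    (hc : Conv hS A β) : β ∈ Lim hS V := by
  obtain ⟨β', hβ'⟩ := I.lim_nonempty A hA
  rw [← I.eq_of_conv hc hβ']
  exact lim_mono hS hAV hβ'

/-- The block of an adjacent pair, at any scale `M` containing `S`. -/
theorem block_of {At : Cent hS → Set (Set G)} (hfam : AtomFam S At)
    (heq : ∀ g c, ∀ U ∈ At c, tr g U ∈ At ⟨act g c.1, I.cent_smul g c.2⟩)
    (hbi : ∀ c : Cent hS, ∀ U ∈ At c, (bd S U).Infinite)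
    (hbc : ∀ c : Cent hS, ∀ U ∈ At c, Conv hS (bd S U) c.1)
    {M : Finset G} (hSM : S ⊆ M) (hex : H1Ex M) {a b : Cent hS} (hab : AdjQ At a b)
    (hbl : ∀ U ⊆ Vv M (ori At a b), ∀ β, Conv hS (bdIn M (Vv M (ori At a b)) U) β →
        Conv hS U β ∨ Conv hS (Vv M (ori At a b) \ U) β) : Nonempty (Block hS) := by
  let _ := I.mulAct
  have hori := hfam.ori hS hab.1
  have hfamM := hfam.mono hS hSM
  obtain ⟨reps, hreps⟩ := block_cof hfamM (fun g c U hU => heq g c U hU) hori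
  refine ⟨{ H := stab (ori At a b)
            V := Vv M (ori At a b)
            M := M
            reps := reps
            inv := fun h hh x hx => block_inv hh hx
            cof := hreps
            conn := fun x hx y hy =>
              block_conn (closure_mono_top hS hSM) hex hfamM hori hx hy
            two := ⟨a.1, ?_, b.1, ?_, fun h => hab.1 (Subtype.ext h)⟩
            bl := hbl }⟩
  · exact I.lim_of_conv (hbi a _ (hfam.tow_mem hab.1))
      ((bd_mono hSM _).trans (bd_sub_left hfamM hab.1)) (hbc a _ (hfam.tow_mem hab.1))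
  · exact I.lim_of_conv (hbi b _ (hfam.tow_mem (Ne.symm hab.1)))
      ((bd_mono hSM _).trans (bd_sub_right hfamM hab)) (hbc b _ (hfam.tow_mem (Ne.symm hab.1)))

include I in
/-- If there are no nontrivial cuts the whole group is a block. -/
theorem block_top (hC : Cent hS = ∅) : Nonempty (Block hS) := by
  refine ⟨{ H := ⊤
            V := univ
            M := S
            reps := {1}
            inv := fun h _ x _ => trivial
            cof := fun x _ => ⟨x, trivial, 1, Finset.mem_singleton_self 1, (mul_one x).symm⟩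
            conn := fun x _ y _ => con_of_gen rfl x y hS
            two := I.two
            bl := ?_ }⟩
  intro U _ β hβ
  have hbd : bdIn S univ U = bd S U := by
    ext x
    simp only [bdIn, mem_univ, true_and, mem_ofPred_eq, bd]
  rw [hbd] at hβ
  rw [← compl_eq_univ_sdiff]
  by_cases hpt : β ∈ Lim hS univ
  · by_contra hcon
    push Not at hcon
    have : β ∈ Cent hS := ⟨U, ⟨hpt, hβ⟩, hcon⟩
    rw [hC] at this
    exact this
  · have hfin : (bd S U).Finite := by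
      by_contra hinf
      obtain ⟨β', hβ'⟩ := I.lim_nonempty _ hinf
      rw [I.eq_of_conv hβ hβ'] at hβ'
      exact hpt (lim_univ hS hβ')
    rcases I.hyp.oneEnd U hfin with h | h
    · exact Or.inl (I.conv_of_lim fun β' h' => (lim_finite hS h h').elim)
    · exact Or.inr (I.conv_of_lim fun β' h' => (lim_finite hS h h').elim)

/-- Existence of a block, from C5 and C7, at any scale `M`. -/
theorem exists_block_scale {At : Cent hS → Set (Set G)} (hfam : AtomFam S At)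
    (heq : ∀ g c, ∀ U ∈ At c, tr g U ∈ At ⟨act g c.1, I.cent_smul g c.2⟩)
    (hbi : ∀ c : Cent hS, ∀ U ∈ At c, (bd S U).Infinite)
    (hbc : ∀ c : Cent hS, ∀ U ∈ At c, Conv hS (bd S U) c.1)
    {M : Finset G} (hSM : S ⊆ M) (hex : H1Ex M)
    (hbl : ∀ v, Ori At v → ∀ U ⊆ Vv M v, ∀ β,
      Conv hS (bdIn M (Vv M v) U) β → Conv hS U β ∨ Conv hS (Vv M v \ U) β) :
    Nonempty (Block hS) := by
  rcases (Cent hS).eq_empty_or_nonempty with hC | ⟨a, ha⟩
  · exact I.block_top hC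
  · obtain ⟨_, ⟨g, rfl⟩, hne⟩ := (I.orb a (I.cent_pt ha)).exists_notMem_finite
      (Set.finite_singleton a)
    have hne' : (⟨a, ha⟩ : Cent hS) ≠ ⟨act g a, I.cent_smul g ha⟩ := fun h =>
      hne (congrArg Subtype.val h).symm
    obtain ⟨b, hab, _⟩ := hfam.exists_adjQ hS hne'
    exact I.block_of hfam heq hbi hbc hSM hex hab (hbl _ (hfam.ori hS hab.1))

/-- Existence of a block, from C5 and C7, at the scale `T`. -/
theorem exists_blockT {At : Cent hS → Set (Set G)} (hfam : AtomFam S At)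
    (heq : ∀ g c, ∀ U ∈ At c, tr g U ∈ At ⟨act g c.1, I.cent_smul g c.2⟩)
    (hbi : ∀ c : Cent hS, ∀ U ∈ At c, (bd S U).Infinite)
    (hbc : ∀ c : Cent hS, ∀ U ∈ At c, Conv hS (bd S U) c.1)
    (hbl : ∀ v : Cent hS → Set G, Ori At v → ∀ U ⊆ Vv T v, ∀ β,
      Conv hS (bdIn T (Vv T v) U) β → Conv hS U β ∨ Conv hS (Vv T v \ U) β) :
    Nonempty (Block hS) :=
  I.exists_block_scale hfam heq hbi hbc I.hyp.sub I.hyp.exT hbl

end CIn

end Vale.Agent.P239.F
end

section

/-!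
C5: atoms at a centre.
-/

namespace Vale.Agent.P239.F

open Filter Topology Set
open Vale.Agent.P239
open scoped Pointwise
open E

theorem cofinite_cg {α : Type*} [Countable α] : (cofinite : Filter α).IsCountablyGenerated := by
  have h : (cofinite : Filter α) = ⨅ x : α, 𝓟 {x}ᶜ := by
    apply le_antisymm
    · exact le_iInf fun x => le_principal_iff.2 (finite_singleton x).compl_mem_cofinite
    · intro s hs
      rw [mem_cofinite] at hs
      have h2 : (⋂ x ∈ sᶜ, ({x}ᶜ : Set α)) ∈ ⨅ x : α, 𝓟 ({x}ᶜ : Set α) :=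
        (biInter_mem hs).2 fun x _ => mem_iInf_of_mem x (mem_principal_self _)
      refine mem_of_superset h2 fun y hy => ?_
      by_contra hys
      exact (mem_iInter₂.1 hy y hys) rfl
  rw [h]
  exact iInf.isCountablyGenerated _

/-- a countably generated filter deciding all sets contains a singleton -/
theorem exists_singleton_mem {α : Type*} (m : Filter α) [m.NeBot] (hm : m.IsCountablyGenerated)
    (hdec : ∀ W : Set α, W ∈ m ∨ Wᶜ ∈ m) : ∃ a, ({a} : Set α) ∈ m := by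
  by_contra hcon
  push Not at hcon
  have h1 : ∀ a : α, ({a} : Set α)ᶜ ∈ m := fun a => (hdec {a}).resolve_left (hcon a)
  have h2 : ∀ s : Set α, s.Finite → sᶜ ∈ m := by
    intro s hs
    have : (⋂ x ∈ s, ({x}ᶜ : Set α)) ∈ m := (biInter_mem hs).2 fun x _ => h1 x
    refine mem_of_superset this fun y hy hys => ?_
    exact (mem_iInter₂.1 hy y hys) rfl
  obtain ⟨x, hx⟩ := exists_seq_tendsto m
  have h3 : (range x).Infinite := by
    intro hfin
    have h4 := hx (h2 _ hfin)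
    obtain ⟨n, hn⟩ := (mem_map.1 h4 |> Filter.nonempty_of_mem)
    exact hn ⟨n, rfl⟩
  let f := h3.natEmbedding
  have hfinj : Function.Injective fun n : ℕ => (f n : α) := fun a b h =>
    f.injective (Subtype.ext h)
  let W : Set α := range fun n : ℕ => (f (2 * n) : α)
  have key : ∀ V : Set α, V ∈ m → (range x \ V).Finite := by
    intro V hV
    have h5 : {n | ¬ x n ∈ V}.Finite := by
      have := hx hV
      rw [mem_map, ← Nat.cofinite_eq_atTop, mem_cofinite] at this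
      exact this
    refine (h5.image x).subset ?_
    rintro _ ⟨⟨n, rfl⟩, hn⟩
    exact ⟨n, hn, rfl⟩
  rcases hdec W with h | h
  · refine (Set.infinite_range_of_injective (f := fun n : ℕ => (f (2 * n + 1) : α)) ?_)
      ((key W h).subset ?_)
    · intro a b hab
      have := hfinj hab
      omega
    · rintro _ ⟨n, rfl⟩
      refine ⟨(f (2 * n + 1)).2, ?_⟩
      rintro ⟨k, hk⟩
      have := hfinj hk
      omega
  · refine (Set.infinite_range_of_injective (f := fun n : ℕ => (f (2 * n) : α)) ?_)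
      ((key Wᶜ h).subset ?_)
    · intro a b hab
      have := hfinj hab
      (clear * - this; omega)
    · rintro _ ⟨n, rfl⟩
      exact ⟨(f (2 * n)).2, fun h' => h' ⟨n, rfl⟩⟩

variable {G : Type*} [Group G] {S : Finset G}

theorem countable_gen (hS : Subgroup.closure (S : Set G) = ⊤) (hsym : ∀ s ∈ S, s⁻¹ ∈ S) :
    Countable G := by
  refine Function.Surjective.countable (f := fun l : List S => (l.map fun s : S => (s : G)).prod)
    fun x => ?_
  have hx : x ∈ Subgroup.closure (S : Set G) := by rw [hS]; trivial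
  induction hx using Subgroup.closure_induction_right with
  | one => exact ⟨[], rfl⟩
  | mul_right x _ s hs ih =>
    obtain ⟨l, hl⟩ := ih
    refine ⟨l ++ [⟨s, hs⟩], ?_⟩
    change (List.map (fun s : S => (s : G)) (l ++ [⟨s, hs⟩])).prod = x * s
    rw [List.map_append, List.prod_append]
    exact congrArg₂ _ hl (by rw [List.map_singleton, List.prod_singleton])
  | mul_inv_cancel x _ s hs ih =>
    obtain ⟨l, hl⟩ := ih
    refine ⟨l ++ [⟨s⁻¹, hsym s hs⟩], ?_⟩
    change (List.map (fun s : S => (s : G)) (l ++ [⟨s⁻¹, hsym s hs⟩])).prod = x * s⁻¹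
    rw [List.map_append, List.prod_append]
    exact congrArg₂ _ hl (by rw [List.map_singleton, List.prod_singleton])

variable {hS : Subgroup.closure (S : Set G) = ⊤} {T : Finset G}

/-- the filter of vertices near the point `p` -/
noncomputable def nfC (hS : Subgroup.closure (S : Set G) = ⊤) (p : G → G → ℝ) : Filter G :=
  cofinite ⊓ comap (hb hS) (𝓝 p)

theorem mem_nfC {p : G → G → ℝ} {A : Set G} : A ∈ nfC hS p ↔ p ∉ Lim hS Aᶜ := by
  rw [Filter.mem_iff_ultrafilter, mem_lim_iff]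
  constructor
  · rintro h ⟨U, h1, h2, h3⟩
    exact Ultrafilter.compl_mem_iff_notMem.1 h2 (h U (le_inf h1 (tendsto_iff_comap.1 h3)))
  · intro h U hU
    by_contra hA
    exact h ⟨U, hU.trans inf_le_left, Ultrafilter.compl_mem_iff_notMem.2 hA,
      tendsto_iff_comap.2 (hU.trans inf_le_right)⟩

/-- the nontrivial cuts at `c` whose canonical set contains `x` -/
def sigC (hS : Subgroup.closure (S : Set G) = ⊤) (c : G → G → ℝ) (x : G) : Set (Set G) :=
  {A | IsCut hS A c ∧ Nontriv hS A c ∧ x ∈ HH S A}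

/-- the nontrivial cuts at `c` whose canonical set contains `G` near `p` -/
def sigpC (hS : Subgroup.closure (S : Set G) = ⊤) (c p : G → G → ℝ) : Set (Set G) :=
  {A | IsCut hS A c ∧ Nontriv hS A c ∧ p ∈ Lim hS (HH S A)}

theorem kp_eq (c p : G → G → ℝ) : Kp hS c p = {x | sigC hS c x = sigpC hS c p} := by
  ext x
  constructor
  · intro h
    ext A
    exact ⟨fun hA => ⟨hA.1, hA.2.1, (h A hA.1 hA.2.1).1 hA.2.2⟩,
      fun hA => ⟨hA.1, hA.2.1, (h A hA.1 hA.2.1).2 hA.2.2⟩⟩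
  · intro h A h1 h2
    have h3 : A ∈ sigC hS c x ↔ A ∈ sigpC hS c p := by rw [show sigC hS c x = sigpC hS c p from h]
    exact ⟨fun hx => (h3.1 ⟨h1, h2, hx⟩).2.2, fun hx => (h3.2 ⟨h1, h2, hx⟩).2.2⟩

theorem kp_eq_or_disj (c p q : G → G → ℝ) :
    Kp hS c p = Kp hS c q ∨ Disjoint (Kp hS c p) (Kp hS c q) := by
  rw [kp_eq, kp_eq]
  by_cases h : sigpC hS c p = sigpC hS c q
  · left; rw [h]
  · right
    refine Set.disjoint_left.2 fun x hx hx' => h ?_
    rw [← show sigC hS c x = sigpC hS c p from hx]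
    exact hx'

theorem symmDiff_compl' {α : Type*} (A B : Set α) : symmDiff Bᶜ Aᶜ = symmDiff B A := by
  ext x
  simp only [Set.mem_symmDiff, Set.mem_compl_iff]
  tauto

namespace CIn

variable (I : CIn hS T)

include I

theorem adj_iff {x y : G} : Adj S x y ↔ x⁻¹ * y ∈ S := by
  constructor
  · rintro ⟨s, hs, h | h⟩
    · rw [h, inv_mul_cancel_left]; exact hs
    · rw [h, mul_inv_rev, inv_mul_cancel_right]; exact I.hyp.symS s hs
  · intro h
    exact ⟨_, h, Or.inl (by rw [mul_inv_cancel_left])⟩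

/-- the boundary of the canonical set of a nontrivial cut consists of crossed vertices -/
theorem bd_HH_sub {A : Set G} {c : G → G → ℝ} (h1 : IsCut hS A c) (h2 : Nontriv hS A c) :
    bd S (HH S A) ⊆ Vc hS S c := by
  rintro x ⟨y, hxy, hne⟩
  by_cases hx : x ∈ HH S A
  · have hy : y ∉ HH S A := fun hy => hne (iff_of_true hx hy)
    exact ⟨y, Or.inl ⟨I.adj_iff.1 hxy, A, h1, h2, hx, hy⟩⟩
  · have hy : y ∈ HH S A := by
      by_contra hy
      exact hne (iff_of_false hx hy)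
    exact ⟨y, Or.inr ⟨I.adj_iff.1 hxy.symm, A, h1, h2, hy, hx⟩⟩

theorem near_cut {A B : Set G} {c : G → G → ℝ} (h1 : IsCut hS A c)
    (h2 : Conv hS (symmDiff B A) c) : IsCut hS B c := by
  refine ⟨h1.1, ?_⟩
  have h3 : Conv hS {x | ∃ s ∈ S, x * s ∈ symmDiff B A} c := I.conv_shift S (fun x hx => hx) h2
  refine I.conv_mono ?_ (I.conv_union (I.conv_union h1.2 h2) h3)
  rintro x ⟨y, hxy, hne⟩
  by_cases hx : (x ∈ B ↔ x ∈ A)
  · by_cases hy : (y ∈ B ↔ y ∈ A)
    · left; left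
      exact ⟨y, hxy, by rwa [← hx, ← hy]⟩
    · right
      refine ⟨x⁻¹ * y, I.adj_iff.1 hxy, ?_⟩
      rw [mul_inv_cancel_left, Set.mem_symmDiff]
      (clear * - hne hx hy; tauto)
  · left; right
    rw [Set.mem_symmDiff]
    (clear * - hne hx; tauto)

theorem near_lim {A B : Set G} {c p : G → G → ℝ} (h2 : Conv hS (symmDiff B A) c) (hpc : p ≠ c) :
    p ∈ Lim hS B ↔ p ∈ Lim hS A := by
  constructor
  · intro h
    have h3 : B ⊆ A ∪ symmDiff B A := by
      intro x hx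
      by_cases hA : x ∈ A
      · exact Or.inl hA
      · exact Or.inr (Or.inl ⟨hx, hA⟩)
    exact (lim_union hS (lim_mono hS h3 h)).resolve_right fun h4 => hpc (I.eq_of_conv h2 h4)
  · intro h
    have h3 : A ⊆ B ∪ symmDiff B A := by
      intro x hx
      by_cases hB : x ∈ B
      · exact Or.inl hB
      · exact Or.inr (Or.inr ⟨hx, hB⟩)
    exact (lim_union hS (lim_mono hS h3 h)).resolve_right fun h4 => hpc (I.eq_of_conv h2 h4)

theorem near_lim_compl {A B : Set G} {c p : G → G → ℝ} (h2 : Conv hS (symmDiff B A) c)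
    (hpc : p ≠ c) : p ∈ Lim hS Bᶜ ↔ p ∈ Lim hS Aᶜ :=
  I.near_lim (by rw [symmDiff_compl']; exact h2) hpc

theorem near_nontriv {A B : Set G} {c : G → G → ℝ} (h1 : Nontriv hS A c)
    (h2 : Conv hS (symmDiff B A) c) : Nontriv hS B c := by
  constructor
  · intro h
    obtain ⟨p, hp, hne⟩ := I.exists_ne h1.1
    exact hne (I.eq_of_conv h ((I.near_lim h2 hne).2 hp))
  · intro h
    obtain ⟨p, hp, hne⟩ := I.exists_ne h1.2
    exact hne (I.eq_of_conv h ((I.near_lim_compl h2 hne).2 hp))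

theorem HH_cut {A : Set G} {c : G → G → ℝ} (h1 : IsCut hS A c) : IsCut hS (HH S A) c :=
  I.near_cut h1 (I.HH_near A c h1)

theorem HH_nontriv {A : Set G} {c : G → G → ℝ} (h1 : IsCut hS A c) (h2 : Nontriv hS A c) :
    Nontriv hS (HH S A) c := I.near_nontriv h2 (I.HH_near A c h1)

/-- a set whose boundary converges to `c` is constant near the other points -/
theorem dich {B : Set G} {c p : G → G → ℝ} (h : Conv hS (bd S B) c) (hp : p ∈ Lim hS univ)
    (hpc : p ≠ c) : p ∈ Lim hS B ↔ p ∉ Lim hS Bᶜ := by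
  have h1 := I.const_near p hp B fun h' => hpc (I.eq_of_conv h h')
  have h2 : p ∈ Lim hS B ∨ p ∈ Lim hS Bᶜ := lim_union hS (by rw [union_compl_self]; exact hp)
  (clear * - hS h1 h2; tauto)

theorem bd_sigC_sub (c : G → G → ℝ) (W : Set (Set (Set G))) :
    bd S {x | sigC hS c x ∈ W} ⊆ Vc hS S c := by
  rintro x ⟨y, hxy, hne⟩
  have hne' : sigC hS c x ≠ sigC hS c y := by
    intro h
    apply hne
    change sigC hS c x ∈ W ↔ sigC hS c y ∈ W
    rw [h]
  obtain ⟨A, hA⟩ : ∃ A, ¬ (A ∈ sigC hS c x ↔ A ∈ sigC hS c y) := by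
    by_contra hcon
    push Not at hcon
    exact hne' (Set.ext hcon)
  have h12 : IsCut hS A c ∧ Nontriv hS A c := by
    by_contra hcon
    exact hA ⟨fun h => absurd ⟨h.1, h.2.1⟩ hcon, fun h => absurd ⟨h.1, h.2.1⟩ hcon⟩
  refine I.bd_HH_sub h12.1 h12.2 ⟨y, hxy, fun h => hA ?_⟩
  exact ⟨fun h' => ⟨h'.1, h'.2.1, h.1 h'.2.2⟩, fun h' => ⟨h'.1, h'.2.1, h.2 h'.2.2⟩⟩

variable (par : ∀ c ∈ Cent hS, Conv hS (Vc hS S c) c)

include par

/-- near a point different from the centre the signature is constant, namely the signature of the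
point -/
theorem kp_near {c p : G → G → ℝ} (hc : c ∈ Cent hS) (hp : p ∈ Lim hS univ) (hpc : p ≠ c) :
    p ∉ Lim hS (Kp hS c p)ᶜ := by
  have hcount : Countable G := countable_gen hS I.hyp.symS
  have hcg : (cofinite : Filter G).IsCountablyGenerated := cofinite_cg
  have hcg2 : (comap (hb hS) (𝓝 p)).IsCountablyGenerated := inferInstance
  have hcg3 : (nfC hS p).IsCountablyGenerated := Filter.Inf.isCountablyGenerated _ _
  have hne : (nfC hS p).NeBot := by
    refine ⟨fun h => ?_⟩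
    have h1 : (∅ : Set G) ∈ nfC hS p := by rw [h]; exact mem_bot
    rw [mem_nfC, compl_empty] at h1
    exact h1 hp
  obtain ⟨σ, hσ⟩ := exists_singleton_mem ((nfC hS p).map (sigC hS c)) inferInstance (by
    intro W
    rw [mem_map, mem_map]
    have h1 : Conv hS (bd S (sigC hS c ⁻¹' W)) c := I.conv_mono (I.bd_sigC_sub c W) (par c hc)
    have h2 := I.dich h1 hp hpc
    rw [mem_nfC, mem_nfC]
    rw [preimage_compl, compl_compl]
    (clear * - hS h2; tauto))
  rw [mem_map, mem_nfC] at hσ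
  have hK : p ∈ Lim hS (sigC hS c ⁻¹' {σ}) := by
    have h1 : p ∈ Lim hS (sigC hS c ⁻¹' {σ} ∪ (sigC hS c ⁻¹' {σ})ᶜ) := by
      rw [union_compl_self]; exact hp
    exact (lim_union hS h1).resolve_right hσ
  have hσ2 : σ = sigpC hS c p := by
    obtain ⟨z, hz⟩ := (infinite_of_lim hS hK).nonempty
    have hz : sigC hS c z = σ := hz
    ext A
    constructor
    · intro hA
      have hA' := hA
      rw [← hz] at hA'
      refine ⟨hA'.1, hA'.2.1, lim_mono hS (fun x hx => ?_) hK⟩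
      have hx : sigC hS c x = σ := hx
      rw [← hx] at hA
      exact hA.2.2
    · rintro ⟨h1, h2, h3⟩
      by_contra hA
      apply (I.dich (I.HH_cut h1).2 hp hpc).1 h3
      have hsub : sigC hS c ⁻¹' {σ} ⊆ (HH S A)ᶜ := by
        intro x hx hx'
        have hx : sigC hS c x = σ := hx
        rw [← hx] at hA
        exact hA ⟨h1, h2, hx'⟩
      exact lim_mono hS hsub hK
  rw [kp_eq, ← hσ2]
  exact hσ

theorem kp_lim {c p : G → G → ℝ} (hc : c ∈ Cent hS) (hp : p ∈ Lim hS univ) (hpc : p ≠ c) :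
    p ∈ Lim hS (Kp hS c p) := by
  have h1 : p ∈ Lim hS (Kp hS c p ∪ (Kp hS c p)ᶜ) := by rw [union_compl_self]; exact hp
  exact (lim_union hS h1).resolve_right (I.kp_near par hc hp hpc)

theorem kp_cut {c : G → G → ℝ} (p : G → G → ℝ) (hc : c ∈ Cent hS) : IsCut hS (Kp hS c p) c := by
  refine ⟨I.cent_pt hc, ?_⟩
  rw [kp_eq]
  exact I.conv_mono (I.bd_sigC_sub c {sigpC hS c p}) (par c hc)

omit par in
/-- a nontrivial cut has points on both sides -/
theorem exists_sides {c : G → G → ℝ} (hc : c ∈ Cent hS) : ∃ A, IsCut hS A c ∧ Nontriv hS A c ∧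
    ∃ q ∈ Lim hS univ, ∃ q' ∈ Lim hS univ, q ≠ c ∧ q' ≠ c ∧ q ∈ Lim hS (HH S A) ∧
      q' ∈ Lim hS (HH S A)ᶜ := by
  obtain ⟨A, h1, h2⟩ := hc
  obtain ⟨h3, h4⟩ := I.HH_nontriv h1 h2
  obtain ⟨q, hq, hqc⟩ := I.exists_ne h3
  obtain ⟨q', hq', hqc'⟩ := I.exists_ne h4
  exact ⟨A, h1, h2, q, lim_univ hS hq, q', lim_univ hS hq', hqc, hqc', hq, hq'⟩

theorem kp_nontriv {c p : G → G → ℝ} (hc : c ∈ Cent hS) (hp : p ∈ Lim hS univ) (hpc : p ≠ c) :
    Nontriv hS (Kp hS c p) c := by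
  refine ⟨fun h => hpc (I.eq_of_conv h (I.kp_lim par hc hp hpc)), fun h => ?_⟩
  obtain ⟨A, h1, h2, q, hq, q', hq', hqc, hqc', hqA, hqA'⟩ := I.exists_sides hc
  by_cases hpA : p ∈ Lim hS (HH S A)
  · have hsub : (HH S A)ᶜ ⊆ (Kp hS c p)ᶜ := fun x hx hx' => hx ((hx' A h1 h2).2 hpA)
    exact hqc' (I.eq_of_conv h (lim_mono hS hsub hqA'))
  · have hsub : HH S A ⊆ (Kp hS c p)ᶜ := fun x hx hx' => hpA ((hx' A h1 h2).1 hx)
    exact hqc (I.eq_of_conv h (lim_mono hS hsub hqA))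

theorem hp_cut {c : G → G → ℝ} (p : G → G → ℝ) (hc : c ∈ Cent hS) : IsCut hS (Hp hS c p) c :=
  I.HH_cut (I.kp_cut par p hc)

theorem hp_nontriv {c p : G → G → ℝ} (hc : c ∈ Cent hS) (hp : p ∈ Lim hS univ) (hpc : p ≠ c) :
    Nontriv hS (Hp hS c p) c :=
  I.HH_nontriv (I.kp_cut par p hc) (I.kp_nontriv par hc hp hpc)

theorem hp_symm {c : G → G → ℝ} (p : G → G → ℝ) (hc : c ∈ Cent hS) :
    Conv hS (symmDiff (Hp hS c p) (Kp hS c p)) c := I.HH_near _ c (I.kp_cut par p hc)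

theorem hp_near {c p : G → G → ℝ} (hc : c ∈ Cent hS) (hp : p ∈ Lim hS univ) (hpc : p ≠ c) :
    p ∉ Lim hS (Hp hS c p)ᶜ := by
  rw [I.near_lim_compl (I.hp_symm par p hc) hpc]
  exact I.kp_near par hc hp hpc

theorem hp_lim {c p : G → G → ℝ} (hc : c ∈ Cent hS) (hp : p ∈ Lim hS univ) (hpc : p ≠ c) :
    p ∈ Lim hS (Hp hS c p) := by
  rw [I.near_lim (I.hp_symm par p hc) hpc]
  exact I.kp_lim par hc hp hpc

theorem hp_nonempty {c p : G → G → ℝ} (hc : c ∈ Cent hS) (hp : p ∈ Lim hS univ) (hpc : p ≠ c) :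
    (Hp hS c p).Nonempty := (infinite_of_lim hS (I.hp_lim par hc hp hpc)).nonempty

omit par in
theorem conv_empty (c : G → G → ℝ) : Conv hS ∅ c :=
  I.conv_of_lim fun _ h => (lim_finite hS finite_empty h).elim

theorem hp_eq_or_disj {c : G → G → ℝ} (p q : G → G → ℝ) (hc : c ∈ Cent hS) :
    Hp hS c p = Hp hS c q ∨ Disjoint (Hp hS c p) (Hp hS c q) := by
  rcases kp_eq_or_disj (hS := hS) c p q with h | h
  · left; rw [Hp, h, Hp]
  · right
    refine I.HH_disj _ _ c (I.kp_cut par p hc) (I.kp_cut par q hc) ?_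
    rw [h.inter_eq]
    exact I.conv_empty c

/-- the points different from `c` in the limit of an atom are the points of the atom -/
theorem lim_hp_iff {c p q : G → G → ℝ} (hc : c ∈ Cent hS) (hq : q ∈ Lim hS univ) (hqc : q ≠ c) :
    q ∈ Lim hS (Hp hS c p) ↔ Kp hS c q = Kp hS c p := by
  rw [I.near_lim (I.hp_symm par p hc) hqc]
  constructor
  · intro h
    rcases kp_eq_or_disj (hS := hS) c q p with h1 | h1
    · exact h1
    · exact (I.kp_near par hc hq hqc (lim_mono hS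
        (fun x hx hx' => Set.disjoint_left.1 h1 hx' hx) h)).elim
  · intro h
    rw [← h]
    exact I.kp_lim par hc hq hqc

omit par in
/-- atoms are indecomposable -/
theorem kp_indec {c : G → G → ℝ} (p : G → G → ℝ) {C : Set G} (hC : IsCut hS C c) :
    Conv hS (Kp hS c p ∩ C) c ∨ Conv hS (Kp hS c p \ C) c := by
  by_cases h1 : Conv hS C c
  · exact Or.inl (I.conv_mono inter_subset_right h1)
  by_cases h2 : Conv hS Cᶜ c
  · exact Or.inr (I.conv_mono (fun x hx => hx.2) h2)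
  have hC2 : Nontriv hS C c := ⟨h1, h2⟩
  by_cases h3 : p ∈ Lim hS (HH S C)
  · right
    refine I.conv_mono (fun x hx => ?_) (I.HH_near C c hC)
    exact Or.inl ⟨(hx.1 C hC hC2).2 h3, hx.2⟩
  · left
    refine I.conv_mono (fun x hx => ?_) (I.HH_near C c hC)
    exact Or.inr ⟨hx.2, fun h => h3 ((hx.1 C hC hC2).1 h)⟩

theorem hp_indec {c : G → G → ℝ} (p : G → G → ℝ) (hc : c ∈ Cent hS) {C : Set G}
    (hC : IsCut hS C c) : Conv hS (Hp hS c p ∩ C) c ∨ Conv hS (Hp hS c p \ C) c := by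
  have h0 := I.hp_symm par p hc
  rcases I.kp_indec p hC with h | h
  · left
    refine I.conv_mono (fun x hx => ?_) (I.conv_union h h0)
    by_cases hK : x ∈ Kp hS c p
    · exact Or.inl ⟨hK, hx.2⟩
    · exact Or.inr (Or.inl ⟨hx.1, hK⟩)
  · right
    refine I.conv_mono (fun x hx => ?_) (I.conv_union h h0)
    by_cases hK : x ∈ Kp hS c p
    · exact Or.inl ⟨hK, hx.2⟩
    · exact Or.inr (Or.inl ⟨hx.1, hK⟩)

omit par in
/-- both sides of a nontrivial cut have infinite boundary -/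
theorem bd_infinite {A : Set G} {c : G → G → ℝ} (h : Nontriv hS A c) : (bd S A).Infinite := by
  intro hfin
  rcases I.hyp.oneEnd A hfin with h1 | h1
  · exact h.1 (I.conv_of_lim fun _ h' => (lim_finite hS h1 h').elim)
  · exact h.2 (I.conv_of_lim fun _ h' => (lim_finite hS h1 h').elim)

omit par in
theorem lim_bd {A : Set G} {c : G → G → ℝ} (h1 : IsCut hS A c) (h : Nontriv hS A c) :
    c ∈ Lim hS (bd S A) := I.lim_of_conv (I.bd_infinite h) subset_rfl h1.2

omit par in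
theorem lim_of_bd {A : Set G} {c : G → G → ℝ} (h : c ∈ Lim hS (bd S A)) : c ∈ Lim hS A := by
  refine I.lim_shift S ?_ h
  rintro x ⟨y, hxy, hne⟩
  by_cases hx : x ∈ A
  · exact ⟨1, I.hyp.oneS, by rwa [mul_one]⟩
  · have hy : y ∈ A := by
      by_contra hy
      exact hne (iff_of_false hx hy)
    exact ⟨x⁻¹ * y, I.adj_iff.1 hxy, by rwa [mul_inv_cancel_left]⟩

theorem hp_bdinf {c p : G → G → ℝ} (hc : c ∈ Cent hS) (hp : p ∈ Lim hS univ) (hpc : p ≠ c) :
    (bd S (Hp hS c p)).Infinite := I.bd_infinite (I.hp_nontriv par hc hp hpc)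

theorem lim_bd_hp {c p : G → G → ℝ} (hc : c ∈ Cent hS) (hp : p ∈ Lim hS univ) (hpc : p ≠ c) :
    c ∈ Lim hS (bd S (Hp hS c p)) :=
  I.lim_bd (I.hp_cut par p hc) (I.hp_nontriv par hc hp hpc)

theorem lim_hp_self {c p : G → G → ℝ} (hc : c ∈ Cent hS) (hp : p ∈ Lim hS univ) (hpc : p ≠ c) :
    c ∈ Lim hS (Hp hS c p) := I.lim_of_bd (I.lim_bd_hp par hc hp hpc)

theorem lim_hp_compl_self {c p : G → G → ℝ} (hc : c ∈ Cent hS) (hp : p ∈ Lim hS univ)
    (hpc : p ≠ c) : c ∈ Lim hS (Hp hS c p)ᶜ :=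
  I.lim_of_bd (by rw [bd_compl]; exact I.lim_bd_hp par hc hp hpc)

/-- the two atoms pointing towards each other cover the group -/
theorem hp_tow {c c' : G → G → ℝ} (hc : c ∈ Cent hS) (hc' : c' ∈ Cent hS) (hne : c ≠ c') :
    Hp hS c c' ∪ Hp hS c' c = univ := by
  have hp := I.cent_pt hc
  have hp' := I.cent_pt hc'
  have e1 := I.hp_near par hc hp' hne.symm
  have e2 := I.hp_near par hc' hp hne
  rcases I.nest _ _ c c' (I.kp_cut par c' hc) (I.kp_nontriv par hc hp' hne.symm)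
    (I.kp_cut par c hc') (I.kp_nontriv par hc' hp hne) hne with h | h | h | h
  · exact (e1 (lim_mono hS (compl_subset_compl.2 h) (I.lim_hp_compl_self par hc' hp hne))).elim
  · exact (e2 (lim_mono hS (compl_subset_compl.2 h)
      (I.lim_hp_compl_self par hc hp' hne.symm))).elim
  · exact (e1 (lim_mono hS (fun x hx hx' => Set.disjoint_left.1 h hx' hx)
      (I.lim_hp_self par hc' hp hne))).elim
  · exact h

/-- atoms are connected -/
theorem hp_conn {c : G → G → ℝ} (p : G → G → ℝ) (hc : c ∈ Cent hS) {x y : G}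
    (hx : x ∈ Hp hS c p) (hy : y ∈ Hp hS c p) : Con S (Hp hS c p) x y := by
  by_contra hxy
  let C : Set G := {z | Con S (Hp hS c p) x z}
  have hCU : C ⊆ Hp hS c p := fun z hz => Con.mem_of_left hz hx
  have hcl : ∀ z ∈ C, ∀ w ∈ Hp hS c p, Adj S z w → w ∈ C := fun z hz w hw hzw =>
    Relation.ReflTransGen.tail hz ⟨hCU hz, hw, hzw⟩
  have hbd : bd S C ⊆ bd S (Hp hS c p) := by
    rintro z ⟨w, hzw, hne⟩
    refine ⟨w, hzw, fun h => hne ⟨fun hz => hcl z hz w (h.1 (hCU hz)) hzw, fun hw =>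
      hcl w hw z (h.2 (hCU hw)) hzw.symm⟩⟩
  have hC : IsCut hS C c := ⟨I.cent_pt hc, I.conv_mono hbd (I.hp_cut par p hc).2⟩
  rcases I.hp_indec par p hc hC with h | h
  · refine I.HH_comp _ C c (I.kp_cut par p hc) hCU ⟨x, Relation.ReflTransGen.refl⟩ hcl ?_
    rwa [inter_eq_self_of_subset_right hCU] at h
  · refine I.HH_comp _ (Hp hS c p \ C) c (I.kp_cut par p hc) sdiff_subset ⟨y, hy, hxy⟩ ?_ h
    rintro z ⟨hz, hzC⟩ w hw hzw
    exact ⟨hw, fun hwC => hzC (hcl w hwC z hz hzw.symm)⟩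

/-- The atoms form a nested family. -/
theorem atomFam : AtomFam S (AtC hS) := by
  refine ⟨?_, ?_, ?_, ?_, ?_, ?_, ?_⟩
  · rintro c _ ⟨p, hp, hpc, rfl⟩ _ ⟨q, hq, hqc, rfl⟩ hne
    exact (I.hp_eq_or_disj par p q c.2).resolve_left hne
  · rintro c _ ⟨p, hp, hpc, rfl⟩
    exact I.hp_nonempty par c.2 hp hpc
  · intro c
    obtain ⟨A, h1, h2, q, hq, q', hq', hqc, hqc', hqA, hqA'⟩ := I.exists_sides c.2
    refine ⟨_, ⟨q, hq, hqc, rfl⟩, _, ⟨q', hq', hqc', rfl⟩, fun h => ?_⟩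
    have h3 : Kp hS c.1 q' ⊆ (HH S A)ᶜ := by
      intro x hx hxA
      exact (I.dich (I.HH_cut h1).2 hq' hqc').1 ((hx A h1 h2).1 hxA) hqA'
    have h4 : Kp hS c.1 q = Kp hS c.1 q' := by
      refine (I.lim_hp_iff par c.2 hq hqc).1 ?_
      rw [← h]
      exact I.hp_lim par c.2 hq hqc
    obtain ⟨x, hx⟩ := (infinite_of_lim hS (I.kp_lim par c.2 hq hqc)).nonempty
    exact h3 (h4 ▸ hx) ((hx A h1 h2).2 hqA)
  · intro x y hxy
    refine ((I.fin x y (I.adj_iff.1 hxy)).preimage (f := Subtype.val)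
      Subtype.val_injective.injOn).subset ?_
    rintro c ⟨_, ⟨p, hp, hpc, rfl⟩, hx, hy⟩
    exact ⟨I.adj_iff.1 hxy, _, I.kp_cut par p c.2, I.kp_nontriv par c.2 hp hpc, hx, hy⟩
  · rintro c _ ⟨p, hp, hpc, rfl⟩ x hx y hy
    exact I.hp_conn par p c.2 hx hy
  · intro c c' hne
    have hne' : c.1 ≠ c'.1 := fun h => hne (Subtype.ext h)
    exact ⟨_, ⟨c'.1, I.cent_pt c'.2, hne'.symm, rfl⟩, _, ⟨c.1, I.cent_pt c.2, hne', rfl⟩,
      I.hp_tow par c.2 c'.2 hne'⟩
  · rintro c c' hne _ ⟨p, hp, hpc, rfl⟩ ⟨q, hq, hqc, h⟩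
    apply hne
    refine Subtype.ext ?_
    refine I.eq_of_conv (I.hp_cut par q c'.2).2 ?_
    rw [← h]
    exact I.lim_bd_hp par c.2 hp hpc

theorem atC_bdinf (c : Cent hS) (U : Set G) (hU : U ∈ AtC hS c) : (bd S U).Infinite := by
  obtain ⟨p, hp, hpc, rfl⟩ := hU
  exact I.hp_bdinf par c.2 hp hpc

theorem atC_bd (c : Cent hS) (U : Set G) (hU : U ∈ AtC hS c) : Conv hS (bd S U) c.1 := by
  obtain ⟨p, hp, hpc, rfl⟩ := hU
  exact (I.hp_cut par p c.2).2

/-- the stabiliser of an atom acts cofinitely on its inner boundary -/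
theorem hp_cof {c p : G → G → ℝ} (hc : c ∈ Cent hS) (hp : p ∈ Lim hS univ) (hpc : p ≠ c) :
    ∃ F : Set G, F.Finite ∧ F ⊆ Hp hS c p ∧ ∀ x ∈ Hp hS c p, x ∈ bd S (Hp hS c p) →
      ∃ g : G, g • Hp hS c p = Hp hS c p ∧ act g c = c ∧ g * x ∈ F := by
  let X : Set G := {x | x ∈ Hp hS c p ∧ x ∈ bd S (Hp hS c p)}
  have hD : (⋃ t ∈ (S : Set G), {d | ((1 : G), t) ∈ Ec hS S d}).Finite :=
    S.finite_toSet.biUnion fun t ht => I.fin 1 t (by simpa using ht)
  let wf : G → Set G := fun x => x⁻¹ • Hp hS c p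
  have hfin : (wf '' X).Finite := by
    have hsub : ∀ d : G → G → ℝ, d ∈ Cent hS →
        {W | (1 : G) ∈ W ∧ ∃ q ∈ Lim hS univ, q ≠ d ∧ W = Hp hS d q}.Finite := by
      intro d hd
      refine Set.Subsingleton.finite ?_
      rintro _ ⟨h1, q, hq, hqd, rfl⟩ _ ⟨h1', q', hq', hqd', rfl⟩
      exact (I.hp_eq_or_disj par q q' hd).resolve_right fun h => Set.disjoint_left.1 h h1 h1'
    have hD' : ((⋃ t ∈ (S : Set G), {d | ((1 : G), t) ∈ Ec hS S d}) ∩ Cent hS).Finite :=
      hD.subset inter_subset_left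
    refine (hD'.biUnion (t := fun d => {W | (1 : G) ∈ W ∧ ∃ q ∈ Lim hS univ, q ≠ d ∧
      W = Hp hS d q}) fun d hd => hsub d hd.2).subset ?_
    rintro _ ⟨x, ⟨hx, y, hxy, hne⟩, rfl⟩
    have hy : y ∉ Hp hS c p := fun hy => hne (iff_of_true hx hy)
    have he : (x, y) ∈ Ec hS S c :=
      ⟨I.adj_iff.1 hxy, _, I.kp_cut par p hc, I.kp_nontriv par hc hp hpc, hx, hy⟩
    have he' := I.ec_smul x⁻¹ S he
    rw [inv_mul_cancel] at he'
    refine Set.mem_biUnion (x := act x⁻¹ c) ⟨?_, I.cent_smul x⁻¹ hc⟩ ⟨?_, act x⁻¹ p,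
      I.mem_pt_smul _ hp, fun h => hpc (act_injective _ h), ?_⟩
    · exact Set.mem_biUnion (x := x⁻¹ * y) (I.adj_iff.1 hxy) he'
    · rw [mem_smul_set_iff_inv_smul_mem, inv_inv, smul_eq_mul, mul_one]
      exact hx
    · exact (I.hp_smul x⁻¹ c p).symm
  obtain ⟨R, hRX, hR⟩ := Set.exists_subset_bijOn X wf
  have hRfin : R.Finite := by
    refine Set.Finite.of_finite_image ?_ hR.injOn
    rw [hR.image_eq]
    exact hfin
  refine ⟨R, hRfin, fun x hx => (hRX hx).1, fun x hx hxb => ?_⟩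
  obtain ⟨f, hf, hfx⟩ := hR.surjOn (Set.mem_image_of_mem wf (show x ∈ X from ⟨hx, hxb⟩))
  have hfx : f⁻¹ • Hp hS c p = x⁻¹ • Hp hS c p := hfx
  have hg : (f * x⁻¹) • Hp hS c p = Hp hS c p := by
    rw [mul_smul, ← hfx, smul_inv_smul]
  refine ⟨f * x⁻¹, hg, ?_, by rw [inv_mul_cancel_right]; exact hf⟩
  have h1 := I.conv_smul (f * x⁻¹) (I.hp_cut par p hc).2
  rw [← bd_smul, hg] at h1
  exact (I.eq_of_conv h1 (I.lim_bd_hp par hc hp hpc)).symm

/-- atoms are one-ended: a subset with finite inner boundary is finite or cofinite -/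
theorem hp_oneEnded {c p : G → G → ℝ} (hc : c ∈ Cent hS) (hp : p ∈ Lim hS univ) (hpc : p ≠ c)
    {C : Set G} (hC : C ⊆ Hp hS c p)
    (hfin : {x | x ∈ C ∧ ∃ y ∈ Hp hS c p \ C, Adj S x y}.Finite) :
    C.Finite ∨ (Hp hS c p \ C).Finite := by
  classical
  set U := Hp hS c p with hU
  set E : Set G := {x | x ∈ C ∧ ∃ y ∈ U \ C, Adj S x y} with hE
  have hfin2 : {y | ∃ x ∈ E, Adj S x y}.Finite := by
    refine (hfin.biUnion (t := fun x => (fun s => x * s) '' (S : Set G)) fun x _ =>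
      S.finite_toSet.image _).subset ?_
    rintro y ⟨x, hx, hxy⟩
    exact Set.mem_biUnion hx ⟨x⁻¹ * y, I.adj_iff.1 hxy, by simp only [mul_inv_cancel_left]⟩
  have hcut : IsCut hS C c := by
    refine ⟨I.cent_pt hc, ?_⟩
    refine I.conv_mono (B := bd S U ∪ (E ∪ {y | ∃ x ∈ E, Adj S x y})) ?_
      (I.conv_union (I.hp_cut par p hc).2
        (I.conv_of_lim fun _ h => (lim_finite hS (hfin.union hfin2) h).elim))
    rintro z ⟨w, hzw, hne⟩
    by_cases hz : z ∈ C
    · have hw : w ∉ C := fun hw => hne (iff_of_true hz hw)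
      by_cases hwU : w ∈ U
      · exact Or.inr (Or.inl ⟨hz, w, ⟨hwU, hw⟩, hzw⟩)
      · exact Or.inl ⟨w, hzw, fun h => hwU (h.1 (hC hz))⟩
    · have hw : w ∈ C := by
        by_contra hw
        exact hne (iff_of_false hz hw)
      by_cases hzU : z ∈ U
      · exact Or.inr (Or.inr ⟨w, ⟨hw, z, ⟨hzU, hz⟩, hzw.symm⟩, hzw.symm⟩)
      · exact Or.inl ⟨w, hzw, fun h => hzU (h.2 (hC hw))⟩
  obtain ⟨F, hF, -, hcof⟩ := I.hp_cof par hc hp hpc
  have hcof' : ∀ x ∈ HH S (Kp hS c p), x ∈ bd S (HH S (Kp hS c p)) →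
      ∃ g : G, g • HH S (Kp hS c p) = HH S (Kp hS c p) ∧ g * x ∈ F := by
    intro x hx hxb
    obtain ⟨g, h1, _, h2⟩ := hcof x hx hxb
    exact ⟨g, h1, h2⟩
  rcases I.hp_indec par p hc hcut with h | h
  · left
    rw [← hU, inter_eq_self_of_subset_right hC] at h
    exact I.HH_stay _ C c F (I.kp_cut par p hc) hF hcof' hC hfin h
  · right
    refine I.HH_stay _ (U \ C) c F (I.kp_cut par p hc) hF hcof' sdiff_subset
      (hfin2.subset ?_) h
    rintro x ⟨⟨hxU, hxC⟩, y, ⟨hyU, hy⟩, hxy⟩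
    have hyC : y ∈ C := by
      by_contra hyC
      exact hy ⟨hyU, hyC⟩
    exact ⟨y, ⟨hyC, x, ⟨hxU, hxC⟩, hxy.symm⟩, hxy.symm⟩

/-- atoms come from nontrivial cuts -/
theorem atC_cut (c : Cent hS) (U : Set G) (hU : U ∈ AtC hS c) :
    ∃ A, IsCut hS A c.1 ∧ Nontriv hS A c.1 ∧ U = HH S A := by
  obtain ⟨p, hp, hpc, rfl⟩ := hU
  exact ⟨Kp hS c.1 p, I.kp_cut par p c.2, I.kp_nontriv par c.2 hp hpc, rfl⟩

/-- atoms are one-ended -/
theorem atC_one (c : Cent hS) (U : Set G) (hU : U ∈ AtC hS c) (C : Set G) (hC : C ⊆ U)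
    (hfin : {x | x ∈ C ∧ ∃ y ∈ U \ C, Adj S x y}.Finite) : C.Finite ∨ (U \ C).Finite := by
  obtain ⟨p, hp, hpc, rfl⟩ := hU
  exact I.hp_oneEnded par c.2 hp hpc hC hfin

/-- points on different sides of a cut lie in different atoms -/
theorem atC_sep (c : Cent hS) (A : Set G) (h1 : IsCut hS A c.1) (h2 : Nontriv hS A c.1)
    (p : G → G → ℝ) (hp : p ∈ Lim hS A) (hpc : p ≠ c.1) (p' : G → G → ℝ) (hp' : p' ∈ Lim hS Aᶜ)
    (hpc' : p' ≠ c.1) : ∃ U ∈ AtC hS c, ∃ U' ∈ AtC hS c, U ≠ U' ∧ p ∉ Lim hS Uᶜ ∧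
      p' ∉ Lim hS U'ᶜ := by
  have hpu := lim_univ hS hp
  have hpu' := lim_univ hS hp'
  refine ⟨_, ⟨p, hpu, hpc, rfl⟩, _, ⟨p', hpu', hpc', rfl⟩, fun h => ?_,
    I.hp_near par c.2 hpu hpc, I.hp_near par c.2 hpu' hpc'⟩
  have h3 : Kp hS c.1 p = Kp hS c.1 p' :=
    (I.lim_hp_iff par c.2 hpu hpc).1 (by rw [← h]; exact I.hp_lim par c.2 hpu hpc)
  obtain ⟨x, hx⟩ := (infinite_of_lim hS (I.kp_lim par c.2 hpu hpc)).nonempty
  have hx' : x ∈ Kp hS c.1 p' := h3 ▸ hx
  have hA := I.HH_near A c.1 h1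
  have e1 : p ∈ Lim hS (HH S A) := (I.near_lim hA hpc).2 hp
  have e2 : p' ∈ Lim hS (HH S A)ᶜ := (I.near_lim_compl hA hpc').2 hp'
  exact (I.dich (I.HH_cut h1).2 hpu' hpc').1 ((hx' A h1 h2).1 ((hx A h1 h2).2 e1)) e2

end CIn

end Vale.Agent.P239.F
end

section

/-!
Module C, C7: the block is not separated by any set whose boundary accumulates at one point.
Everything at scale `T`.
-/

namespace Vale.Agent.P239.F.K7

open Filter Topology Set
open Vale.Agent.P239 Vale.Agent.P239.F Vale.Agent.P239.F.E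

variable {G : Type*} [Group G] {S : Finset G} {hS : Subgroup.closure (S : Set G) = ⊤}
  {T : Finset G}

/-! ### crossing at scale `T` and at scale `S` -/

/-- A path of generators from `x` to `x * t` crosses every set separating the ends. -/
theorem cross_path (hgen : Subgroup.closure (S : Set G) = ⊤) (t : G) :
    ∃ F : Finset G, ∀ (x : G) (H : Set G), ¬ (x ∈ H ↔ x * t ∈ H) →
      ∃ w ∈ F, ∃ s ∈ S, ¬ (x * w ∈ H ↔ x * w * s ∈ H) := by
  classical
  have ht : t ∈ Subgroup.closure (S : Set G) := by rw [hgen]; trivial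
  induction ht using Subgroup.closure_induction_right with
  | one => exact ⟨∅, fun x H h => (h (by rw [mul_one])).elim⟩
  | mul_right t _ s hs ih =>
    obtain ⟨F, hF⟩ := ih
    refine ⟨insert t F, fun x H h => ?_⟩
    by_cases h1 : (x ∈ H ↔ x * t ∈ H)
    · refine ⟨t, Finset.mem_insert_self _ _, s, hs, fun h2 => h (h1.trans ?_)⟩
      rw [h2, mul_assoc]
    · obtain ⟨w, hw, s', hs', h2⟩ := hF x H h1
      exact ⟨w, Finset.mem_insert_of_mem hw, s', hs', h2⟩
  | mul_inv_cancel t _ s hs ih =>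
    obtain ⟨F, hF⟩ := ih
    refine ⟨insert (t * s⁻¹) F, fun x H h => ?_⟩
    by_cases h1 : (x ∈ H ↔ x * t ∈ H)
    · refine ⟨t * s⁻¹, Finset.mem_insert_self _ _, s, hs, fun h2 => h (h1.trans ?_)⟩
      rw [h2, mul_assoc x, inv_mul_cancel_right]
    · obtain ⟨w, hw, s', hs', h2⟩ := hF x H h1
      exact ⟨w, Finset.mem_insert_of_mem hw, s', hs', h2⟩

theorem adj_iff {M : Finset G} (hM : ∀ s ∈ M, s⁻¹ ∈ M) {x y : G} : Adj M x y ↔ x⁻¹ * y ∈ M := by
  constructor
  · rintro ⟨s, hs, h | h⟩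
    · rw [h, inv_mul_cancel_left]; exact hs
    · have : x⁻¹ * y = s⁻¹ := by rw [h]; group
      rw [this]; exact hM s hs
  · exact fun h => ⟨_, h, Or.inl (by rw [mul_inv_cancel_left])⟩

theorem mem_vc {M : Finset G} (hM : ∀ s ∈ M, s⁻¹ ∈ M) {c : G → G → ℝ} {A : Set G}
    (h1 : IsCut hS A c) (h2 : Nontriv hS A c) {x y : G} (hxy : Adj M x y)
    (h : ¬ (x ∈ HH S A ↔ y ∈ HH S A)) : x ∈ Vc hS M c := by
  by_cases hx : x ∈ HH S A
  · exact ⟨y, Or.inl ⟨(adj_iff hM).1 hxy, A, h1, h2, hx, fun hy => h (iff_of_true hx hy)⟩⟩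
  · refine ⟨y, Or.inr ⟨(adj_iff hM).1 hxy.symm, A, h1, h2, ?_, hx⟩⟩
    by_contra hy
    exact h (iff_of_false hx hy)

section cin

variable (I : CIn hS T)

include I

theorem vc_T_S : ∃ F : Finset G, ∀ c, ∀ x ∈ Vc hS T c, ∃ w ∈ F, x * w ∈ Vc hS S c := by
  classical
  choose F hF using fun t : G => cross_path I.hyp.gen t
  refine ⟨T.biUnion F, fun c x hx => ?_⟩
  obtain ⟨t, ht, A, h1, h2, h3⟩ : ∃ t ∈ T, ∃ A : Set G, IsCut hS A c ∧ Nontriv hS A c ∧
      ¬ (x ∈ HH S A ↔ x * t ∈ HH S A) := by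
    obtain ⟨y, ⟨h0, A, h1, h2, h3, h4⟩ | ⟨h0, A, h1, h2, h3, h4⟩⟩ := hx
    · exact ⟨x⁻¹ * y, h0, A, h1, h2, by rw [mul_inv_cancel_left]; exact fun h => h4 (h.1 h3)⟩
    · have h5 := I.hyp.symT _ h0
      rw [mul_inv_rev, inv_inv] at h5
      exact ⟨x⁻¹ * y, h5, A, h1, h2, by rw [mul_inv_cancel_left]; exact fun h => h4 (h.2 h3)⟩
  obtain ⟨w, hw, s, hs, h4⟩ := hF t x (HH S A) h3
  exact ⟨w, Finset.mem_biUnion.2 ⟨t, ht, hw⟩,
    mem_vc I.hyp.symS h1 h2 ⟨s, hs, Or.inl rfl⟩ h4⟩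

theorem vc_smul (g : G) {M : Finset G} {c : G → G → ℝ} {x : G} (h : x ∈ Vc hS M c) :
    g * x ∈ Vc hS M (act g c) := by
  obtain ⟨y, h | h⟩ := h
  · exact ⟨g * y, Or.inl (I.ec_smul g M h)⟩
  · exact ⟨g * y, Or.inr (I.ec_smul g M h)⟩

theorem fin_vcS (x : G) : {c | x ∈ Vc hS S c}.Finite := by
  have h1 : (⋃ s ∈ S, {c | (x, x * s) ∈ Ec hS S c}).Finite :=
    S.finite_toSet.biUnion fun s hs => I.fin _ _ (by rw [inv_mul_cancel_left]; exact hs)
  have h2 : (⋃ s ∈ S, {c | (x * s⁻¹, x) ∈ Ec hS S c}).Finite :=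
    S.finite_toSet.biUnion fun s hs => I.fin _ _ (by
      have : (x * s⁻¹)⁻¹ * x = s := by group
      rw [this]; exact hs)
  refine (h1.union h2).subset ?_
  rintro c ⟨y, h | h⟩
  · refine Or.inl (mem_iUnion₂.2 ⟨x⁻¹ * y, h.1, ?_⟩)
    rw [Set.mem_ofPred_eq, mul_inv_cancel_left]; exact h
  · refine Or.inr (mem_iUnion₂.2 ⟨y⁻¹ * x, h.1, ?_⟩)
    have : x * (y⁻¹ * x)⁻¹ = y := by group
    rw [Set.mem_ofPred_eq, this]; exact h

theorem fin_vcT (x : G) : {c | x ∈ Vc hS T c}.Finite := by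
  obtain ⟨F, hF⟩ := vc_T_S I
  refine (F.finite_toSet.biUnion fun w _ => fin_vcS I (x * w)).subset ?_
  intro c hc
  obtain ⟨w, hw, h⟩ := hF c x hc
  exact mem_iUnion₂.2 ⟨w, hw, h⟩

theorem par_T {c : G → G → ℝ} (h : Conv hS (Vc hS S c) c) : Conv hS (Vc hS T c) c := by
  obtain ⟨F, hF⟩ := vc_T_S I
  exact I.conv_shift F (fun x hx => hF c x hx) h

/-- centres of crossed vertices have the same limit as the vertices -/
theorem cent_tendsto
    (nc : ∀ (W : Ultrafilter G) (k : G → G) (c x : G → G → ℝ), c ∈ Cent hS →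
      Tendsto k W cofinite → Tendsto (fun n => hb hS (k n)) W (𝓝 x) →
      Tendsto (fun n => act (k n) c) W (𝓝 x))
    (W : Ultrafilter G) (x : G → G) (cc : G → G → G → ℝ)
    (hc : ∀ᶠ n in (W : Filter G), cc n ∈ Cent hS ∧ x n ∈ Vc hS T (cc n))
    (hx : Tendsto x W cofinite) {q : G → G → ℝ} (hq : Tendsto (fun n => hb hS (x n)) W (𝓝 q)) :
    Tendsto cc W (𝓝 q) := by
  have h1 : ∀ᶠ n in (W : Filter G), ∃ c₀ ∈ {c | (1 : G) ∈ Vc hS T c},
      act (x n)⁻¹ (cc n) = c₀ := by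
    filter_upwards [hc] with n hn
    refine ⟨_, ?_, rfl⟩
    have := vc_smul I (x n)⁻¹ hn.2
    rwa [inv_mul_cancel] at this
  obtain ⟨c₀, _, h2⟩ := (Ultrafilter.eventually_exists_mem_iff (f := W) (fin_vcT I 1)
    (P := fun c₀ n => act (x n)⁻¹ (cc n) = c₀)).1 h1
  obtain ⟨n, hn1, hn2⟩ := (hc.and h2).exists
  have hc₀ : c₀ ∈ Cent hS := by rw [← hn2]; exact I.cent_smul _ hn1.1
  refine (nc W x c₀ q hc₀ hx hq).congr' ?_
  filter_upwards [h2] with m hm
  rw [← hm, act_act_inv]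

end cin

/-! ### orientations at scale `T` -/

section ori

variable {Q : Type*} {At : Q → Set (Set G)} {v : Q → Set G}

theorem atomT (hgen : Subgroup.closure (S : Set G) = ⊤) (hST : S ⊆ T) (h : AtomFam S At) :
    AtomFam T At where
  disj := h.disj
  ne := h.ne
  two := h.two
  fin x y _ := h.finCross hgen x y
  conn c U hU x hx y hy := by
    refine Relation.ReflTransGen.mono ?_ _ _ (h.conn c U hU x hx y hy)
    rintro a b ⟨h1, h2, s, hs, h3⟩
    exact ⟨h1, h2, s, hST hs, h3⟩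
  nest := h.nest
  strict := h.strict

theorem ex_unique (h : AtomFam S At) (hv : Ori At v) {x : G} {c c' : Q} (h1 : Ex v x c)
    (h2 : Ex v x c') : c = c' := by
  by_contra hne
  refine h.strict c c' hne (v c) (hv.mem c) ?_
  rw [subset_antisymm (h1.2 c' h2.1) (h2.2 c h1.1)]
  exact hv.mem c'

/-- the branch rule: the branch of `x` belongs to the extended set -/
def Br (T : Finset G) (v : Q → Set G) (U : Set G) (x : G) (c : Q) : Prop :=
  {u | Con T (v c)ᶜ x u ∧ u ∈ Vv T v ∧ u ∉ U}.Finite ∧ ∃ u, Con T (v c)ᶜ x u ∧ u ∈ Vv T v ∧ u ∈ U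

/-- the extension of `U` to the whole group -/
def Ut (T : Finset G) (v : Q → Set G) (U : Set G) : Set G :=
  {x | ((∀ c, x ∈ v c) ∧ x ∈ U) ∨ ∃ c, Ex v x c ∧ Br T v U x c}

theorem ut_core {U : Set G} {x : G} (hx : ∀ c, x ∈ v c) : x ∈ Ut T v U ↔ x ∈ U := by
  constructor
  · rintro (h | ⟨c, h, _⟩)
    · exact h.2
    · exact (h.1 (hx c)).elim
  · exact fun h => Or.inl ⟨hx, h⟩

theorem ut_ex (h : AtomFam S At) (hv : Ori At v) {U : Set G} {x : G} {c : Q} (hx : Ex v x c) :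
    x ∈ Ut T v U ↔ Br T v U x c := by
  constructor
  · rintro (h1 | ⟨c', h1, h2⟩)
    · exact (hx.1 (h1.1 c)).elim
    · rw [ex_unique h hv hx h1]; exact h2
  · exact fun h1 => Or.inr ⟨c, hx, h1⟩

theorem br_con {U : Set G} {x y : G} {c : Q} (h : Con T (v c)ᶜ x y) :
    Br T v U x c ↔ Br T v U y c := by
  have key : ∀ u, Con T (v c)ᶜ x u ↔ Con T (v c)ᶜ y u := fun u =>
    ⟨fun h1 => h.symm.trans h1, fun h1 => h.trans h1⟩
  unfold Br
  simp only [key]

theorem ut_adj (h : AtomFam S At) (hv : Ori At v) {U : Set G} {x y : G} (hxy : Adj T x y) {c : Q}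
    (hx : x ∉ v c) (hy : y ∉ v c) : x ∈ Ut T v U ↔ y ∈ Ut T v U := by
  obtain ⟨c', hc'⟩ := exists_ex h hv hx
  have hy' : Ex v y c' := hc'.move h hv hx hy
  rw [ut_ex h hv hc', ut_ex h hv hy']
  exact br_con (Relation.ReflTransGen.single ⟨hc'.1, hy'.1, hxy⟩)

theorem ut_edge (h : AtomFam S At) (hv : Ori At v) {U : Set G} {x y : G} (hxy : Adj T x y)
    (hne : ¬ (x ∈ Ut T v U ↔ y ∈ Ut T v U)) : Ev T v x y := by
  refine ⟨hxy, fun c => ?_⟩
  by_contra hcon
  push Not at hcon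
  exact hne (ut_adj h hv hxy hcon.1 hcon.2)

theorem path_cross {M : Finset G} {W U : Set G} {x y : G} (h : Con M W x y)
    (hne : ¬ (x ∈ U ↔ y ∈ U)) : ∃ a ∈ W, ∃ b ∈ W, Adj M a b ∧ ¬ (a ∈ U ↔ b ∈ U) := by
  induction h with
  | refl => exact (hne Iff.rfl).elim
  | @tail b d _ hbd ih =>
    by_cases h1 : (x ∈ U ↔ b ∈ U)
    · exact ⟨b, hbd.1, d, hbd.2.1, hbd.2.2, fun h2 => hne (h1.trans h2)⟩
    · exact ih h1

/-- The wall of a branch is connected. -/
theorem branch_wall (hgen : Subgroup.closure (T : Set G) = ⊤) (hex : H1Ex T) (h : AtomFam T At)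
    (hv : Ori At v) {z : G} {c : Q} (hz : Ex v z c) {w w' : G} (hw : Con T (v c)ᶜ z w)
    (hw' : Con T (v c)ᶜ z w') (hwV : w ∈ Vv T v) (hwV' : w' ∈ Vv T v) :
    Con T {u | ∃ y, Adj T u y ∧ ¬ (u ∈ {u | Con T (v c)ᶜ z u} ↔ y ∈ {u | Con T (v c)ᶜ z u})}
      w w' := by
  let N : Set G := {u | Con T (v c)ᶜ z u}
  have hNv : ∀ u ∈ N, u ∉ v c := fun u hu => Con.mem_of_left hu hz.1
  have hclosed : ∀ u ∈ N, ∀ u', Adj T u u' → u' ∉ v c → u' ∈ N := fun u hu u' hadj hu' =>
    Relation.ReflTransGen.tail hu ⟨hNv u hu, hu', hadj⟩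
  have hNN : ∀ u ∈ N, Con T N z u := by
    intro u hu
    induction hu with
    | refl => exact Relation.ReflTransGen.refl
    | @tail b d hb hbd ih =>
      exact ih.tail ⟨hb, Relation.ReflTransGen.tail hb hbd, hbd.2.2⟩
  have hN : ∀ x ∈ N, ∀ y ∈ N, Con T N x y := fun x hx y hy => (hNN x hx).symm.trans (hNN y hy)
  have hvN : v c ⊆ Nᶜ := fun u hu hu' => hNv u hu' hu
  obtain ⟨p₀, hp₀⟩ := h.ne c _ (hv.mem c)
  have hto : ∀ u, u ∉ N → ∃ p ∈ v c, Con T Nᶜ u p := by
    intro u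
    refine Relation.ReflTransGen.head_induction_on
      (motive := fun u _ => u ∉ N → ∃ p ∈ v c, Con T Nᶜ u p) (adj_path hgen u p₀) ?_ ?_
    · intro _
      exact ⟨p₀, hp₀, Relation.ReflTransGen.refl⟩
    · intro a b hab _ ih ha
      by_cases hav : a ∈ v c
      · exact ⟨a, hav, Relation.ReflTransGen.refl⟩
      · have hb : b ∉ N := fun hb => ha (hclosed b hb a hab.symm hav)
        obtain ⟨p, hp, hcon⟩ := ih hb
        exact ⟨p, hp, Relation.ReflTransGen.head ⟨ha, hb, hab⟩ hcon⟩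
  have hmono : ∀ {x y : G}, Con T (v c) x y → Con T Nᶜ x y := by
    intro x y hxy
    exact Relation.ReflTransGen.mono (fun a b hab => ⟨hvN hab.1, hvN hab.2.1, hab.2.2⟩) _ _ hxy
  have hN' : ∀ x ∈ Nᶜ, ∀ y ∈ Nᶜ, Con T Nᶜ x y := by
    intro x hx y hy
    obtain ⟨p, hp, hxp⟩ := hto x hx
    obtain ⟨q, hq, hyq⟩ := hto y hy
    exact (hxp.trans (hmono (h.conn c _ (hv.mem c) p hp q hq))).trans hyq.symm
  have hV : ∀ x ∈ N, ∀ y ∉ N, Adj T x y →
      x ∈ {u | ∃ y, Adj T u y ∧ ¬ (u ∈ N ↔ y ∈ N)} ∧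
      y ∈ {u | ∃ y, Adj T u y ∧ ¬ (u ∈ N ↔ y ∈ N)} := by
    intro x hx y hy hxy
    exact ⟨⟨y, hxy, fun h' => hy (h'.1 hx)⟩, ⟨x, hxy.symm, fun h' => hy (h'.2 hx)⟩⟩
  obtain ⟨y, hy⟩ := hwV
  obtain ⟨y', hy'⟩ := hwV'
  have hyv : y ∈ v c := (hy.2 c).resolve_left (hNv w hw)
  have hyv' : y' ∈ v c := (hy'.2 c).resolve_left (hNv w' hw')
  exact wall_con hex hN hN' hV hw (hvN hyv) hy.1 hw' (hvN hyv') hy'.1

/-- Near a point of the block which is on the wrong side there is a boundary point of `U`. -/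
theorem min_wall (hgen : Subgroup.closure (T : Set G) = ⊤) (hex : H1Ex T) (h : AtomFam T At)
    (hv : Ori At v) {U : Set G} {z : G} (hz : z ∈ Vv T v) (hne : ¬ (z ∈ U ↔ z ∈ Ut T v U)) :
    ∃ c a n, Ex v z c ∧ a ∈ bdIn T (Vv T v) U ∧ (∃ y, Adj T a y ∧ ¬ (a ∈ v c ↔ y ∈ v c)) ∧
      (n = a ∨ Adj T a n) ∧ Con T (v c)ᶜ z n := by
  have h1 : ∃ c, z ∉ v c := by
    by_contra hcon
    push Not at hcon
    exact hne (ut_core hcon).symm
  obtain ⟨c₁, hc₁⟩ := h1
  obtain ⟨c, hc⟩ := exists_ex h hv hc₁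
  rw [ut_ex h hv hc] at hne
  have h2 : ∃ z', Con T (v c)ᶜ z z' ∧ z' ∈ Vv T v ∧ ¬ (z ∈ U ↔ z' ∈ U) := by
    by_cases hzU : z ∈ U
    · have h3 : ¬ Br T v U z c := fun h3 => hne (iff_of_true hzU h3)
      have h4 : ¬ {u | Con T (v c)ᶜ z u ∧ u ∈ Vv T v ∧ u ∉ U}.Finite := fun h4 =>
        h3 ⟨h4, z, Relation.ReflTransGen.refl, hz, hzU⟩
      obtain ⟨u, hu1, hu2, hu3⟩ := Set.Infinite.nonempty h4
      exact ⟨u, hu1, hu2, fun h5 => hu3 (h5.1 hzU)⟩
    · have h3 : Br T v U z c := by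
        by_contra h3
        exact hne (iff_of_false hzU h3)
      obtain ⟨_, u, hu1, hu2, hu3⟩ := h3
      exact ⟨u, hu1, hu2, fun h5 => hzU (h5.2 hu3)⟩
  obtain ⟨z', hz1, hz2, hz3⟩ := h2
  obtain ⟨a, ha, b, hb, hab, hne2⟩ := path_cross
    (branch_wall hgen hex h hv hc Relation.ReflTransGen.refl hz1 hz hz2) hz3
  have hNv : ∀ u, Con T (v c)ᶜ z u → u ∉ v c := fun u hu => Con.mem_of_left hu hc.1
  have hEx : ∀ u, Con T (v c)ᶜ z u → Ex v u c := fun u hu => hc.move h hv hc.1 (hNv u hu)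
  have hclosed : ∀ u, Con T (v c)ᶜ z u → ∀ u', Adj T u u' → u' ∉ v c → Con T (v c)ᶜ z u' :=
    fun u hu u' hadj hu' => Relation.ReflTransGen.tail hu ⟨hNv u hu, hu', hadj⟩
  have hW : ∀ u, (∃ y, Adj T u y ∧
      ¬ (u ∈ {u | Con T (v c)ᶜ z u} ↔ y ∈ {u | Con T (v c)ᶜ z u})) →
      u ∈ Vv T v ∧ ∃ y n, Adj T u y ∧ ¬ (u ∈ v c ↔ y ∈ v c) ∧ (n = u ∨ Adj T u n) ∧
        Con T (v c)ᶜ z n := by
    rintro u ⟨y, huy, hn⟩
    by_cases hu : Con T (v c)ᶜ z u
    · have hy : ¬ Con T (v c)ᶜ z y := fun hy => hn (iff_of_true hu hy)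
      have hyv : y ∈ v c := by
        by_contra hyv
        exact hy (hclosed u hu y huy hyv)
      have he : Ev T v u y := ⟨huy, fun c' => (hEx u hu).wall hyv c'⟩
      exact ⟨he.left, y, u, huy, fun h' => hNv u hu (h'.2 hyv), Or.inl rfl, hu⟩
    · have hy : Con T (v c)ᶜ z y := by
        by_contra hy
        exact hn (iff_of_false hu hy)
      have huv : u ∈ v c := by
        by_contra huv
        exact hu (hclosed y hy u huy.symm huv)
      have he : Ev T v y u := ⟨huy.symm, fun c' => (hEx y hy).wall huv c'⟩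
      exact ⟨he.right, y, y, huy, fun h' => hNv y hy (h'.1 huv), Or.inr huy, hy⟩
  obtain ⟨haV, y, n, h5, h6, h7, h8⟩ := hW a ha
  exact ⟨c, a, n, hc, ⟨haV, b, (hW b hb).1, hab, hne2⟩, ⟨y, h5, h6⟩, h7, h8⟩

end ori

/-! ### the block at a centre -/

/-- Everything used for the block. -/
structure BIn (hS : Subgroup.closure (S : Set G) = ⊤) (T : Finset G)
    (At : Cent hS → Set (Set G)) (v : Cent hS → Set G) : Prop where
  I : CIn hS T
  par : ∀ c ∈ Cent hS, Conv hS (Vc hS S c) c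
  nc : ∀ (W : Ultrafilter G) (k : G → G) (c x : G → G → ℝ), c ∈ Cent hS →
    Tendsto k W cofinite → Tendsto (fun n => hb hS (k n)) W (𝓝 x) →
    Tendsto (fun n => act (k n) c) W (𝓝 x)
  hAt : AtomFam S At
  hcut : ∀ c, ∀ U ∈ At c, ∃ A, IsCut hS A c ∧ Nontriv hS A c ∧ U = HH S A
  one : ∀ c, ∀ U ∈ At c, ∀ C ⊆ U, {x | x ∈ C ∧ ∃ y ∈ U \ C, Adj S x y}.Finite →
    C.Finite ∨ (U \ C).Finite
  sep : ∀ (c : Cent hS) (A : Set G), IsCut hS A c → Nontriv hS A c →
    ∀ p ∈ Lim hS A, p ≠ c → ∀ p' ∈ Lim hS Aᶜ, p' ≠ c →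
    ∃ U ∈ At c, ∃ U' ∈ At c, U ≠ U' ∧ p ∉ Lim hS Uᶜ ∧ p' ∉ Lim hS U'ᶜ
  hv : Ori At v

/-- the vertices of the block on the wrong side -/
def Mn (T : Finset G) {Q : Type*} (v : Q → Set G) (U : Set G) : Set G :=
  {z | z ∈ Vv T v ∧ ¬ (z ∈ U ↔ z ∈ Ut T v U)}

section main

variable {At : Cent hS → Set (Set G)} {v : Cent hS → Set G} (B : BIn hS T At v)

include B

theorem BIn.genT : Subgroup.closure (T : Set G) = ⊤ := by
  rw [eq_top_iff, ← B.I.hyp.gen]
  exact Subgroup.closure_mono (Finset.coe_subset.2 B.I.hyp.sub)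

theorem BIn.atT : AtomFam T At := atomT B.I.hyp.gen B.I.hyp.sub B.hAt

theorem BIn.oneT : (1 : G) ∈ T := B.I.hyp.sub B.I.hyp.oneS

theorem BIn.vc_of_cross {M : Finset G} (hM : ∀ s ∈ M, s⁻¹ ∈ M) (c : Cent hS) {x y : G}
    (hxy : Adj M x y) (h : ¬ (x ∈ v c ↔ y ∈ v c)) : x ∈ Vc hS M c := by
  obtain ⟨A, h1, h2, h3⟩ := B.hcut c (v c) (B.hv.mem c)
  rw [h3] at h
  exact mem_vc hM h1 h2 hxy h

theorem BIn.vc_of_Vv {c : Cent hS} {x : G} (hx : x ∈ Vv T v) (hxc : x ∉ v c) :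
    x ∈ Vc hS T c := by
  obtain ⟨y, hy⟩ := hx
  exact B.vc_of_cross B.I.hyp.symT c hy.1 fun h => hxc (h.2 ((hy.2 c).resolve_left hxc))

theorem BIn.parT (c : Cent hS) : Conv hS (Vc hS T c) c := par_T B.I (B.par c c.2)

theorem BIn.adjT {x y : G} (h : Adj S x y) : Adj T x y := by
  obtain ⟨s, hs, h⟩ := h
  exact ⟨s, B.I.hyp.sub hs, h⟩

/-- limit points of neighbourhoods of a set -/
theorem BIn.lim_nbr {A C : Set G} (h : ∀ x ∈ A, ∃ y ∈ C, Adj T x y) {q : G → G → ℝ}
    (hq : q ∈ Lim hS A) : q ∈ Lim hS C := by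
  refine B.I.lim_shift T (fun x hx => ?_) hq
  obtain ⟨y, hy, hxy⟩ := h x hx
  refine ⟨x⁻¹ * y, (adj_iff B.I.hyp.symT).1 hxy, ?_⟩
  rw [mul_inv_cancel_left]; exact hy

/-- Limit points of sets of wrong vertices. -/
theorem BIn.min_lim {U : Set G} {β : G → G → ℝ} (hβ : Conv hS (bdIn T (Vv T v) U) β)
    {A : Set G} (hA : A ⊆ Mn T v U) {q : G → G → ℝ} (hq : q ∈ Lim hS A) (hne : q ≠ β) :
    ∃ c : Cent hS, (c : G → G → ℝ) = q ∧ ∃ n₀, n₀ ∉ v c ∧
      q ∈ Lim hS {z | z ∈ A ∧ Ex v z c ∧ Con T (v c)ᶜ z n₀} := by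
  classical
  obtain ⟨W, hW1, hW2, hW3⟩ := (mem_lim_iff hS).1 hq
  have hex : ∀ z : G, ∃ (c : Cent hS) (a n : G), z ∈ A → Ex v z c ∧ a ∈ bdIn T (Vv T v) U ∧
      a ∈ Vc hS T c ∧ (n = a ∨ Adj T a n) ∧ Con T (v c)ᶜ z n := by
    intro z
    by_cases hz : z ∈ A
    · obtain ⟨c, a, n, h1, h2, ⟨y, h3, h4⟩, h5, h6⟩ := min_wall B.genT B.I.hyp.exT B.atT B.hv
        (hA hz).1 (hA hz).2
      exact ⟨c, a, n, fun _ => ⟨h1, h2, B.vc_of_cross B.I.hyp.symT c h3 h4, h5, h6⟩⟩
    · obtain ⟨z', hz'⟩ := (infinite_of_lim hS hq).nonempty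
      obtain ⟨c, a, n, _⟩ := min_wall B.genT B.I.hyp.exT B.atT B.hv (hA hz').1 (hA hz').2
      exact ⟨c, a, n, fun h => absurd h hz⟩
  choose c a n hcan using hex
  have hid : Tendsto (fun z : G => z) (W : Filter G) cofinite := hW1
  have hzV : ∀ z ∈ A, z ∈ Vc hS T (c z) := fun z hz =>
    B.vc_of_Vv (hA hz).1 (hcan z hz).1.1
  rcases (W.map a).le_cofinite_or_eq_pure with h1 | ⟨a₀, h1⟩
  · exfalso
    obtain ⟨q', hq'⟩ := B.I.exists_lim W a
    have h2 : q' ∈ Lim hS (bdIn T (Vv T v) U) := mem_lim_of hS W a h1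
      (by filter_upwards [hW2] with z hz using (hcan z hz).2.1) hq'
    have h3 : q' = β := B.I.eq_of_conv hβ h2
    have h4 := cent_tendsto B.I B.nc W a (fun z => (c z : G → G → ℝ))
      (by filter_upwards [hW2] with z hz using ⟨(c z).2, (hcan z hz).2.2.1⟩) h1 hq'
    have h5 := cent_tendsto B.I B.nc W (fun z => z) (fun z => (c z : G → G → ℝ))
      (by filter_upwards [hW2] with z hz using ⟨(c z).2, hzV z hz⟩) hid hW3
    exact hne ((tendsto_nhds_unique h5 h4).trans h3)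
  · have h2 : ∀ᶠ z in (W : Filter G), a z = a₀ := by
      have : {a₀} ∈ W.map a := by rw [h1]; exact Ultrafilter.mem_pure.2 rfl
      exact Ultrafilter.mem_map.1 this
    have h3 : ∀ᶠ z in (W : Filter G), ∃ c₀ ∈ {c | a₀ ∈ Vc hS T c}, (c z : G → G → ℝ) = c₀ := by
      filter_upwards [hW2, h2] with z hz hz2
      refine ⟨_, ?_, rfl⟩
      have := (hcan z hz).2.2.1
      rwa [hz2] at this
    obtain ⟨c₀, _, h4⟩ := (Ultrafilter.eventually_exists_mem_iff (f := W) (fin_vcT B.I a₀)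
      (P := fun c₀ z => (c z : G → G → ℝ) = c₀)).1 h3
    obtain ⟨z₀, hz₀⟩ := h4.exists
    have hfin : {n | n = a₀ ∨ Adj T a₀ n}.Finite := by
      refine ((finite_singleton a₀).union ((T.finite_toSet).image fun t => a₀ * t)).subset ?_
      rintro n (h | h)
      · exact Or.inl h
      · refine Or.inr ⟨a₀⁻¹ * n, (adj_iff B.I.hyp.symT).1 h, ?_⟩
        simp
    have h5 : ∀ᶠ z in (W : Filter G), ∃ n₀ ∈ {n | n = a₀ ∨ Adj T a₀ n}, n z = n₀ := by
      filter_upwards [hW2, h2] with z hz hz2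
      refine ⟨_, ?_, rfl⟩
      have := (hcan z hz).2.2.2.1
      rwa [hz2] at this
    obtain ⟨n₀, _, h6⟩ := (Ultrafilter.eventually_exists_mem_iff (f := W) hfin
      (P := fun n₀ z => n z = n₀)).1 h5
    have h7 : ∀ᶠ z in (W : Filter G), c z = c z₀ := by
      filter_upwards [h4] with z hz
      exact Subtype.ext (hz.trans hz₀.symm)
    have h8 : {z | z ∈ A ∧ Ex v z (c z₀) ∧ Con T (v (c z₀))ᶜ z n₀} ∈ W := by
      filter_upwards [hW2, h7, h6] with z hz hz2 hz3
      have := hcan z hz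
      rw [hz2, hz3] at this
      exact ⟨hz, this.1, this.2.2.2.2⟩
    have h9 : q ∈ Lim hS {z | z ∈ A ∧ Ex v z (c z₀) ∧ Con T (v (c z₀))ᶜ z n₀} :=
      (mem_lim_iff hS).2 ⟨W, hW1, h8, hW3⟩
    refine ⟨c z₀, ?_, n₀, ?_, h9⟩
    · have h10 : q ∈ Lim hS (Vc hS T (c z₀)) := by
        refine lim_mono hS ?_ h9
        rintro z ⟨hz, hz2, _⟩
        exact B.vc_of_Vv (hA hz).1 hz2.1
      exact (B.I.eq_of_conv (B.parT (c z₀)) h10).symm
    · obtain ⟨z, hz, hz2, hz3⟩ := (infinite_of_lim hS h9).nonempty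
      exact Con.mem_of_left hz3 hz2.1

/-- The wrong vertices on the side of the block do not accumulate at `c`. -/
theorem BIn.min_side {U : Set G} {β : G → G → ℝ} (hβ : Conv hS (bdIn T (Vv T v) U) β)
    (c : Cent hS) (hne : (c : G → G → ℝ) ≠ β) :
    (c : G → G → ℝ) ∉ Lim hS {z | z ∈ Mn T v U ∧ z ∈ v c} := by
  intro h
  obtain ⟨c', h1, n₀, _, h3⟩ := B.min_lim hβ (A := {z | z ∈ Mn T v U ∧ z ∈ v c})
    (fun z hz => hz.1) h hne
  have h4 : c' = c := Subtype.ext h1
  subst h4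
  obtain ⟨z, hz, hz2, _⟩ := (infinite_of_lim hS h3).nonempty
  exact hz2.1 hz.2

/-- Edges on the side of the block crossing the extended set do not accumulate at `c`. -/
theorem BIn.cross_side {U : Set G} {β : G → G → ℝ}
    (hβ : Conv hS (bdIn T (Vv T v) U) β) (c : Cent hS) (hne : (c : G → G → ℝ) ≠ β) :
    (c : G → G → ℝ) ∉ Lim hS
      {x | x ∈ v c ∧ ∃ y ∈ v c, Adj T x y ∧ ¬ (x ∈ Ut T v U ↔ y ∈ Ut T v U)} := by
  intro h
  have h1 : {x | x ∈ v c ∧ ∃ y ∈ v c, Adj T x y ∧ ¬ (x ∈ Ut T v U ↔ y ∈ Ut T v U)} ⊆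
      bdIn T (Vv T v) U ∪ ({z | z ∈ Mn T v U ∧ z ∈ v c} ∪
        {x | ∃ y ∈ {z | z ∈ Mn T v U ∧ z ∈ v c}, Adj T x y}) := by
    rintro x ⟨hx, y, hy, hxy, hn⟩
    have he := ut_edge B.hAt B.hv hxy hn
    by_cases h2 : (x ∈ U ↔ x ∈ Ut T v U)
    · by_cases h3 : (y ∈ U ↔ y ∈ Ut T v U)
      · exact Or.inl ⟨he.left, y, he.right, hxy, fun h4 => hn (h2.symm.trans (h4.trans h3))⟩
      · exact Or.inr (Or.inr ⟨y, ⟨⟨he.right, h3⟩, hy⟩, hxy⟩)
    · exact Or.inr (Or.inl ⟨⟨he.left, h2⟩, hx⟩)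
  rcases lim_union hS (lim_mono hS h1 h) with h2 | h2
  · exact hne (B.I.eq_of_conv hβ h2)
  · rcases lim_union hS h2 with h3 | h3
    · exact B.min_side hβ c hne h3
    · exact B.min_side hβ c hne (B.lim_nbr (fun x hx => hx) h3)

/-- On the outer side of `c` the set `U` is finite or cofinite in the block. -/
theorem BIn.no_split {U : Set G} {β : G → G → ℝ} (hβ : Conv hS (bdIn T (Vv T v) U) β)
    (c : Cent hS) (hne : (c : G → G → ℝ) ≠ β) :
    {x | x ∈ Vv T v ∧ x ∉ v c ∧ x ∈ U}.Finite ∨ {x | x ∈ Vv T v ∧ x ∉ v c ∧ x ∉ U}.Finite := by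
  classical
  have z2 : ∀ k : ZMod 2, k = 0 ∨ k = 1 := by decide
  let iU : G → ZMod 2 := fun x => if x ∈ Ut T v U then 1 else 0
  let iH : G → ZMod 2 := fun x => if x ∈ v c then 1 else 0
  have hiH1 : ∀ {x}, x ∈ v c → iH x = 1 := fun hx => if_pos hx
  have hiH0 : ∀ {x}, x ∉ v c → iH x = 0 := fun hx => if_neg hx
  have hiU : ∀ {x y}, (x ∈ Ut T v U ↔ y ∈ Ut T v U) → iU x = iU y := by
    intro x y h
    simp only [iU, h]
  have hiU' : ∀ {x y}, iU x + iU y ≠ 0 → ¬ (x ∈ Ut T v U ↔ y ∈ Ut T v U) := by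
    intro x y h h2
    rw [hiU h2] at h
    exact h (CharTwo.add_self_eq_zero _)
  let α : G → G → ZMod 2 := fun x y => (iU x + iU y) * (iH x + iH y)
  have hcr := B.cross_side hβ c hne
  set X : Set G := {x | x ∈ v c ∧ ∃ y ∈ v c, Adj T x y ∧ ¬ (x ∈ Ut T v U ↔ y ∈ Ut T v U)} with hX
  let K : Set G := Vc hS T c ∩ X
  have hK : K.Finite := by
    by_contra hinf
    obtain ⟨q, hq⟩ := B.I.lim_nonempty K hinf
    have h1 : q = c := B.I.eq_of_conv (B.parT c) (lim_mono hS inter_subset_left hq)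
    rw [h1] at hq
    exact hcr (lim_mono hS inter_subset_right hq)
  -- the key computation
  have key1 : ∀ {x y z : G}, x ∈ v c → y ∈ v c → z ∉ v c → Adj T x y → Adj T x z →
      iU x + iU y ≠ 0 → x ∈ K := by
    intro x y z hx hy hz hxy hxz hn
    exact ⟨B.vc_of_cross B.I.hyp.symT c hxz fun h => hz (h.1 hx), hx, y, hy, hxy, hiU' hn⟩
  have key2 : ∀ {y z : G}, y ∉ v c → z ∉ v c → Adj T y z → iU y = iU z := fun hy hz hyz =>
    hiU (ut_adj B.hAt B.hv hyz hy hz)
  have key : ∀ {x y z : G}, Adj T x y → Adj T y z → Adj T x z → α x y + α y z + α x z ≠ 0 →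
      x ∈ K ∨ y ∈ K ∨ z ∈ K := by
    intro x y z hxy hyz hxz hn
    simp only [α] at hn
    by_cases hx : x ∈ v c <;> by_cases hy : y ∈ v c <;> by_cases hz : z ∈ v c
    · rw [hiH1 hx, hiH1 hy, hiH1 hz] at hn
      exact absurd ((by decide : ∀ a b d : ZMod 2,
        (a + b) * (1 + 1) + (b + d) * (1 + 1) + (a + d) * (1 + 1) = 0) _ _ _) hn
    · rw [hiH1 hx, hiH1 hy, hiH0 hz] at hn
      refine Or.inl (key1 hx hy hz hxy hxz ?_)
      intro h0
      exact hn ((by decide : ∀ a b d : ZMod 2, a + b = 0 →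
        (a + b) * (1 + 1) + (b + d) * (1 + 0) + (a + d) * (1 + 0) = 0) _ _ _ h0)
    · rw [hiH1 hx, hiH0 hy, hiH1 hz] at hn
      refine Or.inl (key1 hx hz hy hxz hxy ?_)
      intro h0
      exact hn ((by decide : ∀ a b d : ZMod 2, a + d = 0 →
        (a + b) * (1 + 0) + (b + d) * (0 + 1) + (a + d) * (1 + 1) = 0) _ _ _ h0)
    · rw [hiH1 hx, hiH0 hy, hiH0 hz] at hn
      exact absurd ((by decide : ∀ a b d : ZMod 2, b = d →
        (a + b) * (1 + 0) + (b + d) * (0 + 0) + (a + d) * (1 + 0) = 0) _ _ _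
          (key2 hy hz hyz)) hn
    · rw [hiH0 hx, hiH1 hy, hiH1 hz] at hn
      refine Or.inr (Or.inl (key1 hy hz hx hyz hxy.symm ?_))
      intro h0
      exact hn ((by decide : ∀ a b d : ZMod 2, b + d = 0 →
        (a + b) * (0 + 1) + (b + d) * (1 + 1) + (a + d) * (0 + 1) = 0) _ _ _ h0)
    · rw [hiH0 hx, hiH1 hy, hiH0 hz] at hn
      exact absurd ((by decide : ∀ a b d : ZMod 2, a = d →
        (a + b) * (0 + 1) + (b + d) * (1 + 0) + (a + d) * (0 + 0) = 0) _ _ _
          (key2 hx hz hxz)) hn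
    · rw [hiH0 hx, hiH0 hy, hiH1 hz] at hn
      exact absurd ((by decide : ∀ a b d : ZMod 2, a = b →
        (a + b) * (0 + 0) + (b + d) * (0 + 1) + (a + d) * (0 + 1) = 0) _ _ _
          (key2 hx hy hxy)) hn
    · rw [hiH0 hx, hiH0 hy, hiH0 hz] at hn
      exact absurd ((by decide : ∀ a b d : ZMod 2,
        (a + b) * (0 + 0) + (b + d) * (0 + 0) + (a + d) * (0 + 0) = 0) _ _ _) hn
  have hT : ∀ {x y : G}, x⁻¹ * y ∈ T ↔ Adj T x y := fun {x y} => (adj_iff B.I.hyp.symT).symm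
  have hTrefl : ∀ x : G, Adj T x x := fun x => ⟨1, B.oneT, Or.inl (by rw [mul_one])⟩
  let b : G → G → G → ZMod 2 := fun x y z =>
    if x⁻¹ * y ∈ T ∧ y⁻¹ * z ∈ T ∧ x⁻¹ * z ∈ T then α x y + α y z + α x z else 0
  have hbfin : {p : G × G × G | b p.1 p.2.1 p.2.2 ≠ 0}.Finite := by
    have hnb : ∀ u : G, {w | Adj T u w}.Finite := by
      intro u
      refine ((T.finite_toSet).image fun t => u * t).subset ?_
      intro w hw
      exact ⟨u⁻¹ * w, hT.2 hw, by simp⟩
    refine (hK.biUnion fun u _ => (hnb u).prod ((hnb u).prod (hnb u))).subset ?_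
    rintro ⟨x, y, z⟩ hp
    change b x y z ≠ 0 at hp
    by_cases hc : x⁻¹ * y ∈ T ∧ y⁻¹ * z ∈ T ∧ x⁻¹ * z ∈ T
    · simp only [b, if_pos hc] at hp
      obtain ⟨h1, h2, h3⟩ := hc
      rw [hT] at h1 h2 h3
      rcases key h1 h2 h3 hp with h | h | h
      · exact mem_iUnion₂.2 ⟨x, h, hTrefl x, h1, h3⟩
      · exact mem_iUnion₂.2 ⟨y, h, h1.symm, hTrefl y, h2⟩
      · exact mem_iUnion₂.2 ⟨z, h, h3.symm, h2.symm, hTrefl z⟩
    · simp only [b, if_neg hc] at hp
      exact (hp rfl).elim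
  obtain ⟨c₂, hc₂, hfill⟩ := B.I.hyp.fill b hbfin (by
    intro x y z w h1 h2 h3 h4 h5 h6
    simp only [b]
    rw [if_pos ⟨h4, h6, h5⟩, if_pos ⟨h2, h6, h3⟩, if_pos ⟨h1, h5, h3⟩, if_pos ⟨h1, h4, h2⟩]
    exact (by decide : ∀ a1 a2 a3 a4 a5 a6 : ZMod 2, a4 + a6 + a5 + (a2 + a6 + a3) +
      (a1 + a5 + a3) + (a1 + a4 + a2) = 0) (α x y) (α x z) (α x w) (α y z) (α y w) (α z w))
  have hST := B.I.hyp.sub
  obtain ⟨f, hf⟩ := B.I.hyp.exS (fun x y => α x y + c₂ x y) (by
    intro x y z h1 h2 h3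
    have h4 := hfill x y z h1 h2 h3
    simp only [b] at h4
    rw [if_pos ⟨hST h1, hST h2, hST h3⟩] at h4
    exact (by decide : ∀ a1 a2 a3 b1 b2 b3 : ZMod 2, a1 + a2 + a3 = b1 + b2 + b3 →
      (a1 + b1) + (a2 + b2) = a3 + b3) _ _ _ _ _ _ h4)
  have hP : (Prod.fst '' {p : G × G | c₂ p.1 p.2 ≠ 0}).Finite := hc₂.image _
  have hSadj : ∀ {x y : G}, Adj S x y → x⁻¹ * y ∈ S := fun h => (adj_iff B.I.hyp.symS).1 h
  -- `f` is constant on the side of the block
  obtain ⟨κ₁, hκ₁⟩ : ∃ κ₁ : ZMod 2, {x | x ∈ v c ∧ f x ≠ κ₁}.Finite := by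
    have h1 : {x | x ∈ {x | x ∈ v c ∧ f x = 1} ∧ ∃ y ∈ v c \ {x | x ∈ v c ∧ f x = 1},
        Adj S x y}.Finite := by
      refine hP.subset ?_
      rintro x ⟨⟨hx, hfx⟩, y, ⟨hy, hfy⟩, hxy⟩
      refine ⟨(x, y), ?_, rfl⟩
      change c₂ x y ≠ 0
      have h2 := hf x y (hSadj hxy)
      simp only [α] at h2
      rw [hiH1 hx, hiH1 hy, hfx] at h2
      have h3 : f y ≠ 1 := fun h => hfy ⟨hy, h⟩
      exact (by decide : ∀ a b d e : ZMod 2, (a + b) * (1 + 1) + d = 1 + e → e ≠ 1 → d ≠ 0)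
        _ _ _ _ h2 h3
    rcases B.one c (v c) (B.hv.mem c) {x | x ∈ v c ∧ f x = 1} (fun x hx => hx.1) h1 with h2 | h2
    · refine ⟨0, h2.subset ?_⟩
      rintro x ⟨hx, hfx⟩
      exact ⟨hx, (z2 (f x)).resolve_left hfx⟩
    · refine ⟨1, h2.subset ?_⟩
      rintro x ⟨hx, hfx⟩
      exact ⟨hx, fun h => hfx h.2⟩
  -- `iU + f` is constant near `c`
  obtain ⟨κ₂, hκ₂⟩ : ∃ κ₂ : ZMod 2, (c : G → G → ℝ) ∉ Lim hS {x | iU x + f x ≠ κ₂} := by
    have h1 : bd S {x | iU x + f x ≠ 0} ⊆ (Prod.fst '' {p : G × G | c₂ p.1 p.2 ≠ 0}) ∪ X := by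
      rintro x ⟨y, hxy, hn⟩
      have h2 := hf x y (hSadj hxy)
      simp only [α] at h2
      have h3 : iU x + f x + (iU y + f y) ≠ 0 := by
        intro h0
        apply hn
        rw [Set.mem_ofPred_eq, Set.mem_ofPred_eq]
        exact not_congr ((by decide : ∀ a b : ZMod 2, a + b = 0 → (a = 0 ↔ b = 0)) _ _ h0)
      have h4 : c₂ x y ≠ 0 → x ∈ Prod.fst '' {p : G × G | c₂ p.1 p.2 ≠ 0} := fun h =>
        ⟨(x, y), h, rfl⟩
      by_cases hx : x ∈ v c <;> by_cases hy : y ∈ v c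
      · rw [hiH1 hx, hiH1 hy] at h2
        by_cases h5 : c₂ x y = 0
        · right
          refine ⟨hx, y, hy, B.adjT hxy, hiU' ?_⟩
          exact (by decide : ∀ a b d e k : ZMod 2, (a + b) * (1 + 1) + k = d + e → k = 0 →
            a + d + (b + e) ≠ 0 → a + b ≠ 0) _ _ _ _ _ h2 h5 h3
        · exact Or.inl (h4 h5)
      · rw [hiH1 hx, hiH0 hy] at h2
        refine Or.inl (h4 ?_)
        exact (by decide : ∀ a b d e k : ZMod 2, (a + b) * (1 + 0) + k = d + e →
            a + d + (b + e) ≠ 0 → k ≠ 0) _ _ _ _ _ h2 h3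
      · rw [hiH0 hx, hiH1 hy] at h2
        refine Or.inl (h4 ?_)
        exact (by decide : ∀ a b d e k : ZMod 2, (a + b) * (0 + 1) + k = d + e →
            a + d + (b + e) ≠ 0 → k ≠ 0) _ _ _ _ _ h2 h3
      · rw [hiH0 hx, hiH0 hy] at h2
        refine Or.inl (h4 ?_)
        exact (by decide : ∀ a b d e k : ZMod 2, (a + b) * (0 + 0) + k = d + e → a = b →
            a + d + (b + e) ≠ 0 → k ≠ 0) _ _ _ _ _ h2 (key2 hx hy (B.adjT hxy)) h3
    have h2 : (c : G → G → ℝ) ∉ Lim hS (bd S {x | iU x + f x ≠ 0}) := by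
      intro h
      rcases lim_union hS (lim_mono hS h1 h) with h3 | h3
      · exact lim_finite hS hP h3
      · exact hcr h3
    rcases B.I.const_near c (B.I.cent_pt c.2) {x | iU x + f x ≠ 0} h2 with h3 | h3
    · exact ⟨0, h3⟩
    · refine ⟨1, fun h => h3 (lim_mono hS ?_ h)⟩
      intro x hx
      have hx' : iU x + f x ≠ 1 := hx
      exact fun h => hx' ((z2 _).resolve_left h)
  have hside : (c : G → G → ℝ) ∉ Lim hS {x | x ∈ v c ∧ iU x ≠ κ₁ + κ₂} := by
    intro h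
    have h1 : {x | x ∈ v c ∧ iU x ≠ κ₁ + κ₂} ⊆ {x | x ∈ v c ∧ f x ≠ κ₁} ∪
        {x | iU x + f x ≠ κ₂} := by
      rintro x ⟨hx, hn⟩
      by_cases h2 : f x = κ₁
      · right
        rw [Set.mem_ofPred_eq, h2]
        exact (by decide : ∀ a k l : ZMod 2, a ≠ k + l → a + k ≠ l) _ _ _ hn
      · exact Or.inl ⟨hx, h2⟩
    rcases lim_union hS (lim_mono hS h1 h) with h2 | h2
    · exact lim_finite hS hκ₁ h2
    · exact hκ₂ h2
  let iV : G → ZMod 2 := fun x => if x ∈ U then 1 else 0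
  have hR : {x | x ∈ Vv T v ∧ x ∉ v c ∧ iV x ≠ κ₁ + κ₂}.Finite := by
    by_contra hinf
    obtain ⟨q, hq⟩ := B.I.lim_nonempty _ hinf
    have h1 : q = c := B.I.eq_of_conv (B.parT c)
      (lim_mono hS (fun x hx => B.vc_of_Vv hx.1 hx.2.1) hq)
    rw [h1] at hq
    have h2 : {x | x ∈ Vv T v ∧ x ∉ v c ∧ iV x ≠ κ₁ + κ₂} ⊆ bdIn T (Vv T v) U ∪
        ({x | ∃ y ∈ {z | z ∈ Mn T v U ∧ z ∈ v c}, Adj T x y} ∪
          {x | ∃ y ∈ {x | x ∈ v c ∧ iU x ≠ κ₁ + κ₂}, Adj T x y}) := by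
      rintro x ⟨⟨y, hxy⟩, hxc, hn⟩
      have hyc : y ∈ v c := (hxy.2 c).resolve_left hxc
      by_cases h3 : (x ∈ U ↔ y ∈ U)
      · right
        by_cases h4 : (y ∈ U ↔ y ∈ Ut T v U)
        · right
          refine ⟨y, ⟨hyc, ?_⟩, hxy.1⟩
          have h5 : iV x = iU y := by
            simp only [iV, iU, h3, h4]
          rw [← h5]
          exact hn
        · exact Or.inl ⟨y, ⟨⟨hxy.right, h4⟩, hyc⟩, hxy.1⟩
      · exact Or.inl ⟨hxy.left, y, hxy.right, hxy.1, h3⟩
    rcases lim_union hS (lim_mono hS h2 hq) with h3 | h3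
    · exact hne (B.I.eq_of_conv hβ h3)
    · rcases lim_union hS h3 with h4 | h4
      · exact B.min_side hβ c hne (B.lim_nbr (fun x hx => hx) h4)
      · exact hside (B.lim_nbr (fun x hx => hx) h4)
  rcases z2 (κ₁ + κ₂) with h0 | h0
  · left
    refine hR.subset ?_
    rintro x ⟨h1, h2, h3⟩
    refine ⟨h1, h2, ?_⟩
    rw [h0]
    simp only [iV, if_pos h3]
    decide
  · right
    refine hR.subset ?_
    rintro x ⟨h1, h2, h3⟩
    refine ⟨h1, h2, ?_⟩
    rw [h0]
    simp only [iV, if_neg h3]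
    decide

/-- The wrong vertices accumulate only at the centre of `U`. -/
theorem BIn.min_conv {U : Set G} {β : G → G → ℝ} (hβ : Conv hS (bdIn T (Vv T v) U) β) :
    Conv hS (Mn T v U) β := by
  refine B.I.conv_of_lim fun q hq => ?_
  by_contra hne
  obtain ⟨c, hc, n₀, hn₀, h1⟩ := B.min_lim hβ (A := Mn T v U) subset_rfl hq hne
  have hcne : (c : G → G → ℝ) ≠ β := by rw [hc]; exact hne
  have hinf := infinite_of_lim hS h1
  set A : Set G := {z | z ∈ Mn T v U ∧ Ex v z c ∧ Con T (v c)ᶜ z n₀} with hA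
  have hcon : ∀ z ∈ A, ∀ z' ∈ A, Con T (v c)ᶜ z z' := fun z hz z' hz' =>
    hz.2.2.trans hz'.2.2.symm
  rcases B.no_split hβ c hcne with h2 | h2
  · -- `A` is almost outside `U`
    have h3 : (A \ U).Nonempty := by
      by_contra h3
      rw [not_nonempty_iff_eq_empty] at h3
      refine hinf (h2.subset fun z hz => ⟨hz.1.1, hz.2.1.1, ?_⟩)
      by_contra hzU
      have : z ∈ A \ U := ⟨hz, hzU⟩
      rw [h3] at this
      exact this
    obtain ⟨z, hz, hzU⟩ := h3
    have hzt : z ∈ Ut T v U := by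
      by_contra hzt
      exact hz.1.2 (iff_of_false hzU hzt)
    rw [ut_ex B.hAt B.hv hz.2.1] at hzt
    refine hinf ((hzt.1.union h2).subset fun z' hz' => ?_)
    by_cases hz'U : z' ∈ U
    · exact Or.inr ⟨hz'.1.1, hz'.2.1.1, hz'U⟩
    · exact Or.inl ⟨hcon z hz z' hz', hz'.1.1, hz'U⟩
  · have h3 : (A ∩ U).Nonempty := by
      by_contra h3
      rw [not_nonempty_iff_eq_empty] at h3
      refine hinf (h2.subset fun z hz => ⟨hz.1.1, hz.2.1.1, fun hzU => ?_⟩)
      have : z ∈ A ∩ U := ⟨hz, hzU⟩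
      rw [h3] at this
      exact this
    obtain ⟨z, hz, hzU⟩ := h3
    have hzt : z ∉ Ut T v U := fun hzt => hz.1.2 (iff_of_true hzU hzt)
    rw [ut_ex B.hAt B.hv hz.2.1] at hzt
    refine hzt ⟨h2.subset ?_, z, Relation.ReflTransGen.refl, hz.1.1, hzU⟩
    rintro u ⟨hu1, hu2, hu3⟩
    exact ⟨hu2, Con.mem_of_left hu1 hz.2.1.1, hu3⟩

/-- (BL) -/
theorem BIn.bl (U : Set G) (hU : U ⊆ Vv T v) (β : G → G → ℝ)
    (hβ : Conv hS (bdIn T (Vv T v) U) β) : Conv hS U β ∨ Conv hS (Vv T v \ U) β := by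
  by_contra hcon
  push Not at hcon
  obtain ⟨p, hp, hpβ⟩ := B.I.exists_ne hcon.1
  obtain ⟨p', hp', hpβ'⟩ := B.I.exists_ne hcon.2
  have hMn := B.min_conv hβ
  -- limit points of the extended set
  have h1 : p ∈ Lim hS (Ut T v U) := by
    have h2 : U ⊆ Ut T v U ∪ Mn T v U := by
      intro x hx
      by_cases hxt : x ∈ Ut T v U
      · exact Or.inl hxt
      · exact Or.inr ⟨hU hx, fun h => hxt (h.1 hx)⟩
    exact (lim_union hS (lim_mono hS h2 hp)).resolve_right fun h =>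
      hpβ (B.I.eq_of_conv hMn h)
  have h1' : p' ∈ Lim hS (Ut T v U)ᶜ := by
    have h2 : Vv T v \ U ⊆ (Ut T v U)ᶜ ∪ Mn T v U := by
      rintro x ⟨hxV, hx⟩
      by_cases hxt : x ∈ Ut T v U
      · exact Or.inr ⟨hxV, fun h => hx (h.2 hxt)⟩
      · exact Or.inl hxt
    exact (lim_union hS (lim_mono hS h2 hp')).resolve_right fun h =>
      hpβ' (B.I.eq_of_conv hMn h)
  -- the boundary
  have h2 : Conv hS (bd S (Ut T v U)) β := by
    refine B.I.conv_of_lim fun q hq => ?_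
    have h3 : bd S (Ut T v U) ⊆ bdIn T (Vv T v) U ∪ (Mn T v U ∪
        {x | ∃ y ∈ Mn T v U, Adj T x y}) := by
      rintro x ⟨y, hxy, hn⟩
      have hxyT := B.adjT hxy
      have he := ut_edge B.hAt B.hv hxyT hn
      by_cases h4 : (x ∈ U ↔ x ∈ Ut T v U)
      · by_cases h5 : (y ∈ U ↔ y ∈ Ut T v U)
        · exact Or.inl ⟨he.left, y, he.right, hxyT, fun h6 => hn (h4.symm.trans (h6.trans h5))⟩
        · exact Or.inr (Or.inr ⟨y, ⟨he.right, h5⟩, hxyT⟩)
      · exact Or.inr (Or.inl ⟨he.left, h4⟩)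
    rcases lim_union hS (lim_mono hS h3 hq) with h4 | h4
    · exact B.I.eq_of_conv hβ h4
    · rcases lim_union hS h4 with h5 | h5
      · exact B.I.eq_of_conv hMn h5
      · exact B.I.eq_of_conv hMn (B.lim_nbr (fun x hx => hx) h5)
  have h3 : β ∈ Lim hS univ := by
    by_cases hfin : (bd S (Ut T v U)).Finite
    · exfalso
      rcases B.I.hyp.oneEnd _ hfin with h4 | h4
      · exact lim_finite hS h4 h1
      · exact lim_finite hS h4 h1'
    · obtain ⟨q, hq⟩ := B.I.lim_nonempty _ hfin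
      rw [← B.I.eq_of_conv h2 hq]
      exact lim_univ hS hq
  have hcut : IsCut hS (Ut T v U) β := ⟨h3, h2⟩
  have hnt : Nontriv hS (Ut T v U) β :=
    ⟨fun h => hpβ (B.I.eq_of_conv h h1), fun h => hpβ' (B.I.eq_of_conv h h1')⟩
  let b : Cent hS := ⟨β, Ut T v U, hcut, hnt⟩
  obtain ⟨U₁, hU₁, U₂, hU₂, hne, hp1, hp2⟩ := B.sep b (Ut T v U) hcut hnt p h1 hpβ p' h1' hpβ'
  -- a limit point of the block in an atom different from the one of the block
  have key : ∀ W ∈ At b, W ≠ v b → ∀ q ∈ Lim hS (Vv T v), q ∉ Lim hS Wᶜ → q = β := by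
    intro W hW hWv q hq hqW
    have h4 : q ∈ Lim hS (Vv T v ∩ W) := by
      have h5 : Vv T v ⊆ (Vv T v ∩ W) ∪ Wᶜ := by
        intro x hx
        by_cases hxW : x ∈ W
        · exact Or.inl ⟨hx, hxW⟩
        · exact Or.inr hxW
      exact (lim_union hS (lim_mono hS h5 hq)).resolve_right hqW
    have h5 : Vv T v ∩ W ⊆ Vc hS T b := by
      rintro x ⟨hx, hxW⟩
      refine B.vc_of_Vv hx fun hxv => ?_
      exact Set.disjoint_left.1 (B.hAt.disj b W hW (v b) (B.hv.mem b) hWv) hxW hxv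
    exact B.I.eq_of_conv (B.parT b) (lim_mono hS h5 h4)
  by_cases h4 : U₁ = v b
  · refine hpβ' (key U₂ hU₂ (fun h5 => hne (h4.trans h5.symm)) p' ?_ hp2)
    exact lim_mono hS sdiff_subset hp'
  · exact hpβ (key U₁ hU₁ h4 p (lim_mono hS hU hp) hp1)

end main

/-- (BL) with explicit hypotheses. -/
theorem block_bl (I : CIn hS T) (par : ∀ c ∈ Cent hS, Conv hS (Vc hS S c) c)
    (nc : ∀ (W : Ultrafilter G) (k : G → G) (c x : G → G → ℝ), c ∈ Cent hS →
      Tendsto k W cofinite → Tendsto (fun n => hb hS (k n)) W (𝓝 x) →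
      Tendsto (fun n => act (k n) c) W (𝓝 x))
    (At : Cent hS → Set (Set G)) (hAt : AtomFam S At)
    (hcut : ∀ c, ∀ U ∈ At c, ∃ A, IsCut hS A c ∧ Nontriv hS A c ∧ U = HH S A)
    (one : ∀ c, ∀ U ∈ At c, ∀ C ⊆ U, {x | x ∈ C ∧ ∃ y ∈ U \ C, Adj S x y}.Finite →
      C.Finite ∨ (U \ C).Finite)
    (sep : ∀ (c : Cent hS) (A : Set G), IsCut hS A c → Nontriv hS A c →
      ∀ p ∈ Lim hS A, p ≠ c → ∀ p' ∈ Lim hS Aᶜ, p' ≠ c →
      ∃ U ∈ At c, ∃ U' ∈ At c, U ≠ U' ∧ p ∉ Lim hS Uᶜ ∧ p' ∉ Lim hS U'ᶜ)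
    (v : Cent hS → Set G) (hv : Ori At v) :
    ∀ U ⊆ Vv T v, ∀ β, Conv hS (bdIn T (Vv T v) U) β →
      Conv hS U β ∨ Conv hS (Vv T v \ U) β :=
  BIn.bl ⟨I, par, nc, hAt, hcut, one, sep, hv⟩

end Vale.Agent.P239.F.K7
end

section

/-!
Module C, conclusion: everything in `CIn` gives a block.
-/

namespace Vale.Agent.P239.F

open Filter Topology Set
open Vale.Agent.P239
open E

variable {G : Type*} [Group G] {S : Finset G} {hS : Subgroup.closure (S : Set G) = ⊤}
  {T : Finset G}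

namespace CIn

variable (I : CIn hS T)

include I

/-- (PAR) -/
theorem par_all : ∀ c ∈ Cent hS, Conv hS (Vc hS S c) c := fun _ hc => P.par I hc

/-- (NC) -/
theorem nc_all : ∀ (W : Ultrafilter G) (k : G → G) (c x : G → G → ℝ), c ∈ Cent hS →
    Tendsto k W cofinite → Tendsto (fun n => hb hS (k n)) W (𝓝 x) →
    Tendsto (fun n => act (k n) c) W (𝓝 x) := fun W k _ _ hc hk hx => P.nc I hc W k hk hx

/-- Existence of a block. -/
theorem nonempty_block : Nonempty (Block hS) :=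
  I.exists_blockT (I.atomFam I.par_all) (fun g c _ hU => I.atC_smul g c _ hU)
    (I.atC_bdinf I.par_all) (I.atC_bd I.par_all)
    fun v hv => K7.block_bl I I.par_all I.nc_all (AtC hS) (I.atomFam I.par_all)
      (I.atC_cut I.par_all) (I.atC_one I.par_all) (I.atC_sep I.par_all) v hv

end CIn

end Vale.Agent.P239.F
end
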