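import Vale.Agent.P239.Bdl.B19
import Vale.Agent.P239.Bdl.B16
import Vale.Agent.P239.Bdl.B20
import Vale.Agent.P239.Bdl.B10
import Vale.Agent.P239.Bdl.B14

set_option linter.all false

section

/-! The structure `CIn` from the standing hypotheses. -/

namespace Vale.Agent.P239.F.BF

open Filter Topology Set
open Vale.Agent.P239 Vale.Agent.P239.F

variable {G : Type*} [Group G] {S T : Finset G}

theorem cIn (h : Hyp S T) (hd : HasHD S) : CIn h.gen T := by
  have hc : Countable G := D.Hyp.countable h
  obtain ⟨F, hF⟩ := D.Hyp.crossProp h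
  obtain ⟨δ, -, h4⟩ := exists_four_point h.gen hF
  have orb : Orb h.gen := P0.orb_infinite h.toHypS h.oneEnd hd h.tf h4 hF
  have hsh : N.Shadow h.gen := fun x ε hε => D.shadow h.gen hF x hε
  have hdich := N.dich hF hsh
  exact cIn_of h hF orb (fun β hβ z => D.ne_hb h.gen h.symS hβ z) (N.const_near hdich)
    (fun U k c x hc hfin hk hx =>
      D.tendsto_act_fin h4 (D.Lim_subset h.gen _ hc) hfin hk hx)
    (fun g s a b _ _ hab h1 h2 hs => P0.cm hF h.tf ⟨hab, h1, h2⟩ hs)
    (N.nest h (N.na_of h.toHypS orb) hdich)

end Vale.Agent.P239.F.BF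
end

section

/-! The group theorem: one-ended, torsion free groups with vanishing second cohomology with
finite supports have no nonconstant harmonic functions of finite energy. -/

namespace Vale.Agent.P239.F

variable {G : Type*} [Group G]

theorem hgroup (S T : Finset G) (h : Hyp S T) : ¬ HasHD S := by
  intro hd
  obtain ⟨B⟩ := (BF.cIn h hd).nonempty_block
  exact D.block_false h B

end Vale.Agent.P239.F
end

section

/-! The first L2-Betti number of a closed aspherical 4-manifold vanishes. -/

namespace Vale.Agent.P239.F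

open Vale.Agent.P239

theorem singer {M X Γ : Type*}
    [TopologicalSpace M] [T2Space M] [CompactSpace M]
    [ChartedSpace (EuclideanSpace ℝ (Fin 4)) M]
    [TopologicalSpace X] [ContractibleSpace X] [Group Γ] [MulAction Γ X] [ContinuousConstSMul Γ X]
    (p : X → M) (hp : IsQuotientCoveringMap p Γ) : bettiTwo Γ X 1 = 0 :=
  betti_one_of p hp (fun S T h => hgroup S T h)
    (fun S hS hsym => Vale.Agent.P239.M.oneEnded_of_cover hp S hS hsym)
    (fun S => Vale.Agent.P239.M.h2Fill_of_cover hp S)

end Vale.Agent.P239.F
end
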